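import Vale.Agent.P370.Core
import Vale.Agent.P370.QCore
import Vale.Agent.P370.MathlibUsed
import Vale.Agent.P370.QMADef
import Vale.Agent.Lib.PolyTime.NatArith2
import Vale.Agent.Lib.PolyTime.Lists2
import Vale.Agent.Lib.PolyTime.Bitwise
import Vale.Agent.Lib.PolyTime.OfTM2

set_option linter.all false

section

namespace Vale.Agent.P370

open MeasureTheory

inductive PolyTime : (k : ℕ) → ((Fin k → List Bool) → List Bool) → Prop
  | nil (k : ℕ) : PolyTime k (fun _ => [])
  | cons (b : Bool) : PolyTime 1 (fun v => b :: v 0)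
  | tail : PolyTime 1 (fun v => (v 0).tail)
  | proj (k : ℕ) (i : Fin k) : PolyTime k (fun v => v i)
  | comp (k m : ℕ) (f : (Fin m → List Bool) → List Bool)
      (g : Fin m → (Fin k → List Bool) → List Bool) :
      PolyTime m f → (∀ i, PolyTime k (g i)) → PolyTime k (fun v => f (fun i => g i v))
  | recn (k C d : ℕ) (g : (Fin k → List Bool) → List Bool)
      (h : Bool → (Fin (k + 2) → List Bool) → List Bool)
      (f : List Bool → (Fin k → List Bool) → List Bool) :
      PolyTime k g → (∀ b, PolyTime (k + 2) (h b)) →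
      (∀ v, f [] v = g v) →
      (∀ b y v, f (b :: y) v = h b (Fin.cons y (Fin.cons (f y v) v))) →
      (∀ y v, (f y v).length ≤ C * (1 + y.length + ∑ i, (v i).length) ^ d) →
      PolyTime (k + 1) (fun v => f (v 0) (Fin.tail v))

def lead (w : List Bool) : ℕ := (w.takeWhile id).length

def gN (w : List Bool) : ℕ := lead w

def gK (w : List Bool) : ℕ := lead (w.drop (gN w + 1))

def gBit (w : List Bool) (p : ℕ) : Bool := (w.drop (gN w + gK w + 2 + p)).headD false

def gAdj (w : List Bool) (i j : ℕ) : Bool := decide (i < j ∧ j < gN w) && gBit w (i * gN w + j)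

end Vale.Agent.P370
end

section

namespace Vale.Agent.P370

end Vale.Agent.P370
end

section

namespace Vale.Agent.P370

open ComplexConjugate

/-- number of spins -/
def hK (w : List Bool) : ℕ := (blocks w).getD 0 0

/-- threshold -/
def hA (w : List Bool) : ℕ := (blocks w).getD 1 0

/-- weights -/
def hM (w : List Bool) (i j : ℕ) : ℕ := (blocks w).getD (2 + i * hK w + j) 0

/-- `⟨φ, ∑_{i<j} m_ij (X_i X_j + Y_i Y_j + Z_i Z_j) φ⟩`, using
`X_i X_j + Y_i Y_j + Z_i Z_j = 2 SWAP_ij - 1` -/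
noncomputable def heisenbergForm {K : ℕ} (m : ℕ → ℕ → ℕ) (φ : (Fin K → Fin 2) → ℂ) : ℝ :=
  ∑ i : Fin K, ∑ j ∈ Finset.Ioi i, (m i j : ℝ) *
    (2 * (∑ s, conj (φ s) * φ (s ∘ Equiv.swap i j)).re - ∑ s, ‖φ s‖ ^ 2)

/-- The antiferromagnetic Heisenberg model on arbitrary weighted graphs: weights and threshold are
natural numbers in unary; is the ground energy at most `-A`, or at least `-A + 1`? -/
def heisenbergAF : PromiseProblem where
  yes := {w | ∃ φ : (Fin (hK w) → Fin 2) → ℂ, ∑ s, ‖φ s‖ ^ 2 = 1 ∧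
    heisenbergForm (hM w) φ ≤ -(hA w : ℝ)}
  no := {w | ∀ φ : (Fin (hK w) → Fin 2) → ℂ, ∑ s, ‖φ s‖ ^ 2 = 1 →
    -(hA w : ℝ) + 1 ≤ heisenbergForm (hM w) φ}

end Vale.Agent.P370
end

section

section

/-!
Interface file for part B (mirror-dipole geometry, all lengths natural numbers).
`n` parallel horizontal chains (one per vertex; site `(i, m)` at `((2 m + 1) g, K (i + 1))`) and
`n ^ 2` single cells (one per ordered pair `e` of vertices, at `(2 g Kx (e + 1), 0)`).
Every site is a mirror pair of nuclei at heights `± hgt` over the plane.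
-/

namespace Vale.Agent.P370.Chains

def cg (B : ℕ) : ℕ := B ^ 200
def cK (B : ℕ) : ℕ := B ^ 236
def cH (B : ℕ) : ℕ := B ^ 2
def cV (B : ℕ) : ℕ := B ^ 70
def Kx (B : ℕ) : ℕ := B ^ 61
/-- number of sites of a chain -/
def CL (n B : ℕ) : ℕ := Kx B * (n ^ 2 + 2)

structure Good (n B : ℕ) (A : Fin n → Fin (n ^ 2) → ℤ) : Prop where
  even : Even B
  big : 2 ^ 20 ≤ B
  nB : (n + 2) ^ 4 ≤ B
  vals : ∀ i e, A i e = 0 ∨ A i e = 1 ∨ A i e = -1
  cols : ∀ e, ∑ i, A i e = 0

end Vale.Agent.P370.Chains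
end
end

section

section

namespace Vale.Agent.P370.Chains

open Finset

/-! ### elementary sums -/

end Vale.Agent.P370.Chains
end
end

section

section

/-!
The reduction: from a graph code `w` to an instance of the electronic structure problem.
`j` is a constant.
-/

namespace Vale.Agent.P370.Red

open Chains

/-- number of chains: one dummy vertex is added -/
def nn (w : List Bool) : ℕ := gN w + 1

def BB (j : ℕ) (w : List Bool) : ℕ := 2 * (w.length + j) ^ 4

def adjN (w : List Bool) (e : ℕ) : ℕ := if gAdj w (e / nn w) (e % nn w) = true then 1 else 0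

/-- number of chain sites -/
def NC (n B : ℕ) : ℕ := n * CL n B

/-- number of sites -/
def NT (n B : ℕ) : ℕ := NC n B + n ^ 2

def fX (n B t : ℕ) : ℕ :=
  if t < NC n B then (2 * (t % CL n B) + 1) * cg B else 2 * cg B * (Kx B * (t - NC n B + 1))

def fY (n B t : ℕ) : ℕ := if t < NC n B then cK B * (t / CL n B + 1) else 0

def fH (w : List Bool) (n B t : ℕ) : ℕ :=
  if t < NC n B then cH B + (t / CL n B + 1) ^ 3 *
    ∑ e ∈ Finset.range (n ^ 2), adjN w e *
      ((if t / CL n B = e / n then (if t % CL n B = Kx B * (e + 1) then 1 else 0) else 0) +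
       (if t / CL n B = e % n then (if t % CL n B + 1 = Kx B * (e + 1) then 1 else 0) else 0))
  else cV B

def fP (n B t : ℕ) : ℕ := if t < NC n B then (t % CL n B) % 2 else 0

def sq2 (a b : ℕ) : ℕ := (a - b) ^ 2 + (b - a) ^ 2

def dP (w : List Bool) (n B t t' : ℕ) : ℕ :=
  sq2 (fX n B t) (fX n B t') + sq2 (fY n B t) (fY n B t') + sq2 (fH w n B t) (fH w n B t')

def dM (w : List Bool) (n B t t' : ℕ) : ℕ :=
  sq2 (fX n B t) (fX n B t') + sq2 (fY n B t) (fY n B t') + (fH w n B t + fH w n B t') ^ 2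

def cQ (B : ℕ) : ℕ := B ^ 800
def cl (B : ℕ) : ℕ := B ^ 2300
def cD (B : ℕ) : ℕ := 2 * cl B * cQ B
def cJ (B : ℕ) : ℕ := B ^ 162

/-- `⌊Q / √m⌋` up to one unit -/
def isq (Q m : ℕ) : ℕ := Nat.sqrt (Q ^ 2 / m)

def Asum (w : List Bool) (n B : ℕ) : ℕ :=
  ∑ t ∈ Finset.range (NT n B), (isq (cQ B) ((2 * fH w n B t) ^ 2) +
    ∑ t' ∈ Finset.range t, 2 * (isq (cQ B) (dP w n B t t') + isq (cQ B) (dM w n B t t')))

def Psum (w : List Bool) (n B : ℕ) : ℕ :=
  ∑ t ∈ Finset.range (NT n B), ∑ t' ∈ Finset.range t,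
    isq (cQ B) (if fP n B t = fP n B t' then dP w n B t t' else dM w n B t t')

def zA (w : List Bool) (n B : ℕ) : ℕ :=
  NT n B * cl B * cQ B + 2 * Asum w n B + 4 * gK w * cJ B - 2 * Psum w n B - cJ B

def zB (w : List Bool) (n B : ℕ) : ℕ :=
  NT n B * cl B * cQ B + 2 * Asum w n B + 4 * gK w * cJ B - 2 * Psum w n B - 3 * cJ B

/-- The constructed instance. -/
def inst (j : ℕ) (w : List Bool) : Instance where
  M := 2 * NT (nn w) (BB j w)
  pos := fun α k =>
    if k = 0 then ((cl (BB j w) * fX (nn w) (BB j w) (α.val / 2) : ℕ) : ℚ)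
    else if k = 1 then ((cl (BB j w) * fY (nn w) (BB j w) (α.val / 2) : ℕ) : ℚ)
    else if α.val % 2 = 0 then ((cl (BB j w) * fH w (nn w) (BB j w) (α.val / 2) : ℕ) : ℚ)
    else -((cl (BB j w) * fH w (nn w) (BB j w) (α.val / 2) : ℕ) : ℚ)
  charge := fun _ => 1
  N := NT (nn w) (BB j w)
  a := -(((cD (BB j w) * zA w (nn w) (BB j w) - 1 : ℕ) : ℚ) / ((cD (BB j w) ^ 2 : ℕ) : ℚ))
  b := -(((cD (BB j w) * zB w (nn w) (BB j w) - 1 : ℕ) : ℚ) / ((cD (BB j w) ^ 2 : ℕ) : ℚ))

end Vale.Agent.P370.Red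
end
end

section

section

open MeasureTheory

namespace Vale.Agent.P370

/-- Quadratic-form inequality from integration by parts in one direction. -/
theorem ibp_dir {V : Type*} [NormedAddCommGroup V] [NormedSpace ℝ V] [FiniteDimensional ℝ V]
    [MeasurableSpace V] [BorelSpace V] (μ : Measure V) [μ.IsAddHaarMeasure]
    (g : V → ℂ) (hg : ContDiff ℝ 1 g) (hc : HasCompactSupport g)
    (F : V → ℝ) (hF : ContDiff ℝ 1 F) (v : V) :
    ∫ x, (fderiv ℝ F x v - F x ^ 2) * ‖g x‖ ^ 2 ∂μ ≤ ∫ x, ‖fderiv ℝ g x v‖ ^ 2 ∂μ := by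
  have hgd : Differentiable ℝ g := hg.differentiable (by norm_num)
  have hFd : Differentiable ℝ F := hF.differentiable (by norm_num)
  have hn : ContDiff ℝ 1 (fun x => ‖g x‖ ^ 2) := hg.norm_sq ℝ
  have hnd : Differentiable ℝ (fun x => ‖g x‖ ^ 2) := hn.differentiable (by norm_num)
  have hnc : HasCompactSupport (fun x => ‖g x‖ ^ 2) := by
    apply hc.mono
    intro x hx
    simp only [Function.mem_support, ne_eq] at hx ⊢
    intro h0
    apply hx
    simp [h0]
  -- continuity facts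
  have cF : Continuous F := hF.continuous
  have cg : Continuous g := hg.continuous
  have cFd : Continuous (fun x => fderiv ℝ F x v) :=
    (hF.continuous_fderiv (by norm_num)).clm_apply continuous_const
  have cgd : Continuous (fun x => fderiv ℝ g x v) :=
    (hg.continuous_fderiv (by norm_num)).clm_apply continuous_const
  have cnd : Continuous (fun x => fderiv ℝ (fun x => ‖g x‖ ^ 2) x v) :=
    (hn.continuous_fderiv (by norm_num)).clm_apply continuous_const
  have hgdc : HasCompactSupport (fun x => fderiv ℝ g x v) := by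
    have := hc.fderiv (𝕜 := ℝ)
    exact this.comp_left (g := fun (L : V →L[ℝ] ℂ) => L v) (by simp)
  have hndc : HasCompactSupport (fun x => fderiv ℝ (fun x => ‖g x‖ ^ 2) x v) := by
    have := hnc.fderiv (𝕜 := ℝ)
    exact this.comp_left (g := fun (L : V →L[ℝ] ℝ) => L v) (by simp only [zero_apply])
  have key : ∫ x, F x * fderiv ℝ (fun x => ‖g x‖ ^ 2) x v ∂μ
      = - ∫ x, fderiv ℝ F x v * ‖g x‖ ^ 2 ∂μ := by
    apply integral_mul_fderiv_eq_neg_fderiv_mul_of_integrable
    · exact (cFd.mul hn.continuous).integrable_of_hasCompactSupport hnc.mul_left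
    · exact (cF.mul cnd).integrable_of_hasCompactSupport hndc.mul_left
    · exact (cF.mul hn.continuous).integrable_of_hasCompactSupport hnc.mul_left
    · intro x _; exact hFd x
    · intro x _; exact hnd x
  have pt : ∀ x, -(F x * fderiv ℝ (fun x => ‖g x‖ ^ 2) x v) - F x ^ 2 * ‖g x‖ ^ 2
      ≤ ‖fderiv ℝ g x v‖ ^ 2 := by
    intro x
    have h1 : fderiv ℝ (fun x => ‖g x‖ ^ 2) x v = 2 * inner ℝ (g x) (fderiv ℝ g x v) := by
      have := (hgd x).hasFDerivAt.norm_sq
      rw [this.fderiv]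
      simp only [smul_apply, ContinuousLinearMap.comp_apply, coe_innerSL_apply, Complex.inner, Complex.mul_re, Complex.conj_re, Complex.conj_im, mul_neg, sub_neg_eq_add, smul_add, nsmul_eq_mul, Nat.cast_ofNat, mul_add]
    rw [h1]
    have h2 : |inner ℝ (g x) (fderiv ℝ g x v)| ≤ ‖g x‖ * ‖fderiv ℝ g x v‖ :=
      abs_real_inner_le_norm _ _
    have h3 : -(F x * (2 * inner ℝ (g x) (fderiv ℝ g x v)))
        ≤ 2 * (|F x| * (‖g x‖ * ‖fderiv ℝ g x v‖)) := by
      calc -(F x * (2 * inner ℝ (g x) (fderiv ℝ g x v)))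
          ≤ |F x * (2 * inner ℝ (g x) (fderiv ℝ g x v))| := neg_le_abs _
        _ = 2 * (|F x| * |inner ℝ (g x) (fderiv ℝ g x v)|) := by
            rw [abs_mul, abs_mul]; norm_num; ring
        _ ≤ _ := by (clear * - h2; gcongr)
    nlinarith only [h3, sq_nonneg (|F x| * ‖g x‖ - ‖fderiv ℝ g x v‖), sq_abs (F x)]
  calc ∫ x, (fderiv ℝ F x v - F x ^ 2) * ‖g x‖ ^ 2 ∂μ
      = ∫ x, fderiv ℝ F x v * ‖g x‖ ^ 2 ∂μ - ∫ x, F x ^ 2 * ‖g x‖ ^ 2 ∂μ := by
        rw [← integral_sub]
        · congr 1; ext x; ring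
        · exact (cFd.mul hn.continuous).integrable_of_hasCompactSupport hnc.mul_left
        · exact ((cF.pow 2).mul hn.continuous).integrable_of_hasCompactSupport hnc.mul_left
    _ = ∫ x, -(F x * fderiv ℝ (fun x => ‖g x‖ ^ 2) x v) ∂μ - ∫ x, F x ^ 2 * ‖g x‖ ^ 2 ∂μ := by
        rw [integral_neg, key]; ring
    _ = ∫ x, (-(F x * fderiv ℝ (fun x => ‖g x‖ ^ 2) x v) - F x ^ 2 * ‖g x‖ ^ 2) ∂μ := by
        rw [← integral_sub]
        · exact ((cF.mul cnd).integrable_of_hasCompactSupport hndc.mul_left).neg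
        · exact ((cF.pow 2).mul hn.continuous).integrable_of_hasCompactSupport hnc.mul_left
    _ ≤ _ := by
        apply integral_mono
        · exact ((cF.mul cnd).integrable_of_hasCompactSupport hndc.mul_left).neg.sub
            (((cF.pow 2).mul hn.continuous).integrable_of_hasCompactSupport hnc.mul_left)
        · apply Continuous.integrable_of_hasCompactSupport (by fun_prop)
          exact hgdc.comp_left (g := fun z : ℂ => ‖z‖ ^ 2) (by simp)
        · exact pt

end Vale.Agent.P370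
end
end

section

section

open MeasureTheory Filter Topology

namespace Vale.Agent.P370

theorem fatou_real {V : Type*} [MeasurableSpace V] {μ : Measure V} {f : V → ℝ} {F : ℕ → V → ℝ}
    (hf : Measurable f) (hf0 : ∀ x, 0 ≤ f x) (hF : ∀ n, Integrable (F n) μ)
    (hF0 : ∀ n x, 0 ≤ F n x)
    (hlim : ∀ x, f x = 0 ∨ Tendsto (fun n => F n x) atTop (𝓝 (f x))) {K : ℝ}
    (hK : ∀ n, ∫ x, F n x ∂μ ≤ K) : Integrable f μ ∧ ∫ x, f x ∂μ ≤ K := by
  have hK0 : 0 ≤ K := le_trans (integral_nonneg (hF0 0)) (hK 0)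
  have h1 : ∫⁻ x, ENNReal.ofReal (f x) ∂μ ≤ ENNReal.ofReal K := by
    calc ∫⁻ x, ENNReal.ofReal (f x) ∂μ
        ≤ ∫⁻ x, liminf (fun n => ENNReal.ofReal (F n x)) atTop ∂μ := by
          apply lintegral_mono
          intro x
          rcases hlim x with h | h
          · simp only [h, ENNReal.ofReal_zero, zero_le]
          · have := (ENNReal.continuous_ofReal.tendsto _).comp h
            exact (this.liminf_eq).ge
      _ ≤ liminf (fun n => ∫⁻ x, ENNReal.ofReal (F n x) ∂μ) atTop := by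
          apply lintegral_liminf_le'
          intro n
          exact (hF n).aestronglyMeasurable.aemeasurable.ennreal_ofReal
      _ ≤ ENNReal.ofReal K := by
          have : ∀ n, ∫⁻ x, ENNReal.ofReal (F n x) ∂μ ≤ ENNReal.ofReal K := by
            intro n
            rw [← ofReal_integral_eq_lintegral_ofReal (hF n) (ae_of_all _ (hF0 n))]
            exact ENNReal.ofReal_le_ofReal (hK n)
          calc liminf (fun n => ∫⁻ x, ENNReal.ofReal (F n x) ∂μ) atTop
              ≤ liminf (fun _ : ℕ => ENNReal.ofReal K) atTop :=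
                liminf_le_liminf (Eventually.of_forall this)
            _ = _ := by simp
  have h2 : Integrable f μ := by
    refine ⟨hf.aestronglyMeasurable, ?_⟩
    rw [hasFiniteIntegral_iff_ofReal (ae_of_all _ hf0)]
    exact lt_of_le_of_lt h1 ENNReal.ofReal_lt_top
  refine ⟨h2, ?_⟩
  have h3 := ofReal_integral_eq_lintegral_ofReal h2 (ae_of_all _ hf0)
  rw [← h3] at h1
  exact (ENNReal.ofReal_le_ofReal_iff hK0).1 h1

end Vale.Agent.P370
end
end

section

section

/-!
QMA-hardness of the antiferromagnetic Heisenberg model: definitions.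
-/

namespace Vale.Agent.P370.H

open Finset ComplexConjugate

/-! ### real qubit states and Pauli operators `X`, `Z` -/

/-- real states of `n` qubits -/
abbrev RSt (n : ℕ) : Type := (Fin n → Bool) → ℝ

def ip {n : ℕ} (v w : RSt n) : ℝ := ∑ x, v x * w x

def nrm2 {n : ℕ} (v : RSt n) : ℝ := ip v v

/-- Pauli operators `0 = I`, `1 = X`, `2 = Z` on qubit `i` (identity if `i` is not a qubit) -/
def pau {n : ℕ} (P i : ℕ) (v : RSt n) : RSt n :=
  if h : i < n then
    if P = 0 then v
    else if P = 1 then fun x => v (Function.update x ⟨i, h⟩ (!x ⟨i, h⟩))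
    else fun x => (if x ⟨i, h⟩ then -1 else 1) * v x
  else v

/-- term `c P_i Q_j` -/
structure Tm (R : Type) where
  c : R
  P : ℕ
  i : ℕ
  Q : ℕ
  j : ℕ

/-- quadratic form of a list of terms -/
def tform {n : ℕ} (L : List (Tm ℝ)) (v : RSt n) : ℝ :=
  (L.map fun t => t.c * ip v (pau t.P t.i (pau t.Q t.j v))).sum

/-- sum of the absolute values of the coefficients -/
def tabs (L : List (Tm ℝ)) : ℝ := (L.map fun t => |t.c|).sum

/-- admissible terms on `n` qubits: constants, one-qubit terms (`Q = 0`), two-qubit terms with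
`i < j` -/
def Tm.Ok {R : Type} (n : ℕ) (t : Tm R) : Prop :=
  (t.P = 0 ∧ t.Q = 0) ∨ ((t.P = 1 ∨ t.P = 2) ∧ t.Q = 0 ∧ t.i < n) ∨
    ((t.P = 1 ∨ t.P = 2) ∧ (t.Q = 1 ∨ t.Q = 2) ∧ t.i < t.j ∧ t.j < n)

/-! ### real circuits in rounds -/

/-- A round: a one-qubit gate number `a` (`0`: identity, `1`: reflection of angle `π/8`, others:
reflection of angle `π/4` = Hadamard) on qubit `q`, followed by `CZ` on the qubits `f`, `s`. -/
structure Rnd where
  a : ℕ
  q : ℕ
  f : ℕ
  s : ℕ

/-- angle of the reflection -/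
noncomputable def ang (a : ℕ) : ℝ := if a = 1 then Real.pi / 8 else Real.pi / 4

/-- `cos φ Z + sin φ X` -/
noncomputable def refl {n : ℕ} (a q : ℕ) (v : RSt n) : RSt n :=
  if a = 0 then v else Real.cos (ang a) • pau 2 q v + Real.sin (ang a) • pau 1 q v

/-- `CZ = (1 + Z_f + Z_s - Z_f Z_s) / 2` -/
noncomputable def czg {n : ℕ} (f s : ℕ) (v : RSt n) : RSt n :=
  (1 / 2 : ℝ) • (v + pau 2 f v + pau 2 s v - pau 2 f (pau 2 s v))

noncomputable def rndAct {n : ℕ} (r : Rnd) (v : RSt n) : RSt n := czg r.f r.s (refl r.a r.q v)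

noncomputable def runR {n : ℕ} (rs : List Rnd) (v : RSt n) : RSt n :=
  rs.foldl (fun v r => rndAct r v) v

/-- valid rounds on `n` qubits -/
def Rnd.Ok (n : ℕ) (r : Rnd) : Prop := r.q < n ∧ r.f < n ∧ r.s < n ∧ r.f ≠ r.s

/-- projection onto `x_i = 1` -/
noncomputable def one {n : ℕ} (i : ℕ) (v : RSt n) : RSt n := (1 / 2 : ℝ) • (v - pau 2 i v)

/-- projection onto `x_i = 0` -/
noncomputable def zer {n : ℕ} (i : ℕ) (v : RSt n) : RSt n := (1 / 2 : ℝ) • (v + pau 2 i v)

/-- real and imaginary parts, the additional qubit `n` tells them apart -/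
def emb {n : ℕ} (ψ : QState n) : RSt (n + 1) := fun x =>
  if x (Fin.last n) then (ψ (fun i => x i.castSucc)).im else (ψ (fun i => x i.castSucc)).re

/-- rounds of a gate -/
def comp (n kind i j : ℕ) : List Rnd :=
  if i < n then
    if kind = 0 then [⟨2, i, i, n⟩, ⟨0, 0, i, n⟩]
    else if kind = 1 then [⟨0, 0, i, n⟩, ⟨1, n, i, n⟩, ⟨1, n, i, n⟩, ⟨0, 0, i, n⟩]
    else if j < n ∧ i ≠ j then [⟨2, j, i, j⟩, ⟨2, j, i, j⟩, ⟨0, 0, i, j⟩]
    else []
  else []

/-- rounds of a circuit -/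
def rnds (z : List Bool) : List Rnd :=
  (List.range (((blocks z).length - 2) / 3)).flatMap fun t =>
    comp (cQubits z) ((blocks z).getD (3 * t + 2) 0) ((blocks z).getD (3 * t + 3) 0)
      ((blocks z).getD (3 * t + 4) 0)

/-! ### the Hamiltonian of a circuit: `N` qubits, clock qubits `N, ..., N + Tc - 1` -/

section ham

variable {R : Type} [CommRing R]

/-- length of the clock -/
def tc (M : ℕ) : ℕ := 6 * M + 5

/-- clock qubit `t`, `1 ≤ t ≤ Tc` -/
def ck (N t : ℕ) : ℕ := N + t - 1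

/-- `2 c · (projection onto the time t)` on legal clock states -/
def projT (N Tc : ℕ) (c : R) (t : ℕ) : List (Tm R) :=
  if t = 0 then [⟨c, 0, 0, 0, 0⟩, ⟨c, 2, ck N 1, 0, 0⟩]
  else if t = Tc then [⟨c, 0, 0, 0, 0⟩, ⟨-c, 2, ck N Tc, 0, 0⟩]
  else [⟨c, 2, ck N (t + 1), 0, 0⟩, ⟨-c, 2, ck N t, 0, 0⟩]

/-- default round -/
def rget (rs : List Rnd) (l : ℕ) : Rnd := rs.getD l ⟨0, 0, 0, 0⟩

/-- gate at the fine transition `t` (`t` not a multiple of `6`) as a list of (coefficient, Pauli,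
qubit); `w` is the unit of the coefficients, `tr a` is (cosine, sine) of the angle of the gate
number `a` in this unit; round `l` is `rget rs (l - 1)` -/
def fineG (rs : List Rnd) (w : R) (tr : ℕ → R × R) (t : ℕ) : List (R × ℕ × ℕ) :=
  if t % 6 = 1 then
    if 1 ≤ t / 6 then [(w, 2, (rget rs (t / 6 - 1)).f)] else [(w, 0, 0)]
  else if t % 6 = 2 then
    if 1 ≤ t / 6 then [(w, 2, (rget rs (t / 6 - 1)).s)] else [(w, 0, 0)]
  else if t % 6 = 3 then
    if t / 6 < rs.length ∧ (rget rs (t / 6)).a ≠ 0 then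
      [((tr (rget rs (t / 6)).a).1, 2, (rget rs (t / 6)).q),
        ((tr (rget rs (t / 6)).a).2, 1, (rget rs (t / 6)).q)]
    else [(w, 0, 0)]
  else if t % 6 = 4 then
    if t / 6 < rs.length then [(w, 2, (rget rs (t / 6)).f)] else [(w, 0, 0)]
  else
    if t / 6 < rs.length then [(w, 2, (rget rs (t / 6)).s)] else [(w, 0, 0)]

/-- clock Hamiltonian -/
def hClock (N Tc : ℕ) (J : R) : List (Tm R) :=
  (List.range (Tc - 1)).flatMap fun t =>
    [⟨2 * J, 0, 0, 0, 0⟩, ⟨2 * J, 2, ck N (t + 1), 0, 0⟩, ⟨-(2 * J), 2, ck N (t + 2), 0, 0⟩,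
      ⟨-(2 * J), 2, ck N (t + 1), 2, ck N (t + 2)⟩]

/-- propagation by one-qubit gates -/
def hFine (N : ℕ) (rs : List Rnd) (w : R) (tr : ℕ → R × R) (J : R) : List (Tm R) :=
  (List.range (tc rs.length)).flatMap fun t =>
    if (t + 1) % 6 = 0 then [] else
      projT N (tc rs.length) (2 * J * w) (t + 1) ++ projT N (tc rs.length) (2 * J * w) t ++
        (fineG rs w tr (t + 1)).map fun g =>
          if g.2.1 = 0 then ⟨-(4 * J * g.1), 1, ck N (t + 1), 0, 0⟩
          else ⟨-(4 * J * g.1), g.2.1, g.2.2, 1, ck N (t + 1)⟩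

/-- propagation by the gates `CZ` -/
def hCz (N : ℕ) (rs : List Rnd) (J : R) : List (Tm R) :=
  (List.range rs.length).flatMap fun l =>
    [⟨-(4 * J), 1, ck N (6 * (l + 1)), 0, 0⟩,
      ⟨-(6 * J), 2, (rget rs l).f, 1, ck N (6 * (l + 1))⟩,
      ⟨-(6 * J), 2, (rget rs l).s, 1, ck N (6 * (l + 1))⟩] ++
    projT N (tc rs.length) (4 * J) (6 * (l + 1)) ++
    projT N (tc rs.length) (4 * J) (6 * (l + 1) - 1) ++
    [⟨J, 1, ck N (6 * (l + 1) + 1), 0, 0⟩, ⟨J, 1, ck N (6 * (l + 1) + 2), 0, 0⟩,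
      ⟨2 * J, 1, ck N (6 * (l + 1) + 1), 1, ck N (6 * (l + 1) + 2)⟩,
      ⟨J, 1, ck N (6 * (l + 1) - 1), 0, 0⟩, ⟨J, 1, ck N (6 * (l + 1) - 2), 0, 0⟩,
      ⟨2 * J, 1, ck N (6 * (l + 1) - 2), 1, ck N (6 * (l + 1) - 1)⟩]

/-- input check of the qubits `m ≤ i < N - 1` -/
def hIn (N m : ℕ) (J : R) : List (Tm R) :=
  (List.range (N - 1 - m)).flatMap fun i =>
    [⟨2 * J, 0, 0, 0, 0⟩, ⟨-(2 * J), 2, m + i, 0, 0⟩, ⟨2 * J, 2, ck N 1, 0, 0⟩,
      ⟨-(2 * J), 2, m + i, 2, ck N 1⟩]

/-- output check of the qubit `0` -/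
def hOut (N Tc : ℕ) (w : R) : List (Tm R) :=
  [⟨2 * w, 0, 0, 0, 0⟩, ⟨2 * w, 2, 0, 0, 0⟩, ⟨-(2 * w), 2, ck N Tc, 0, 0⟩,
    ⟨-(2 * w), 2, 0, 2, ck N Tc⟩]

/-- size parameter -/
def rr (N M : ℕ) : ℕ := N + M + 1000

/-- the Hamiltonian (eight times the usual normalisation) in the unit `w` -/
def ham (N m : ℕ) (rs : List Rnd) (w : R) (tr : ℕ → R × R) : List (Tm R) :=
  hClock N (tc rs.length) ((rr N rs.length : R) ^ 64 * w) ++
    hFine N rs w tr ((rr N rs.length : R) ^ 24) ++ hCz N rs ((rr N rs.length : R) ^ 8 * w) ++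
    hIn N m (1000 * w) ++ hOut N (tc rs.length) w

end ham

/-- cosine and sine -/
noncomputable def trR (a : ℕ) : ℝ × ℝ := (Real.cos (ang a), Real.sin (ang a))

/-! ### the energy on legal clock states -/

/-- gate at the fine transition `t` -/
noncomputable def gfine {n : ℕ} (rs : List Rnd) (t : ℕ) (v : RSt n) : RSt n :=
  if t % 6 = 1 then (if 1 ≤ t / 6 then pau 2 (rget rs (t / 6 - 1)).f v else v)
  else if t % 6 = 2 then (if 1 ≤ t / 6 then pau 2 (rget rs (t / 6 - 1)).s v else v)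
  else if t % 6 = 3 then
    (if t / 6 < rs.length then refl (rget rs (t / 6)).a (rget rs (t / 6)).q v else v)
  else if t % 6 = 4 then (if t / 6 < rs.length then pau 2 (rget rs (t / 6)).f v else v)
  else (if t / 6 < rs.length then pau 2 (rget rs (t / 6)).s v else v)

/-- energy of the `CZ` transition number `l + 1` -/
noncomputable def q2 {n : ℕ} (r : Rnd) (t : ℕ) (a : ℕ → RSt n) : ℝ :=
  nrm2 (a t) + nrm2 (a (t - 1)) - ip (a t) (a (t - 1)) -
    3 / 2 * (ip (a t) (pau 2 r.f (a (t - 1))) + ip (a t) (pau 2 r.s (a (t - 1)))) +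
    1 / 4 * (ip (a (t + 1)) (a t) + ip (a (t + 2)) (a (t + 1)) + ip (a (t - 1)) (a (t - 2)) +
      ip (a (t - 2)) (a (t - 3))) +
    1 / 2 * (ip (a (t + 2)) (a t) + ip (a (t - 1)) (a (t - 3)))

/-- energy of a family `a t`, `0 ≤ t ≤ Tc` (without the clock term) -/
noncomputable def e1 {n : ℕ} (J1 J2 J3 : ℝ) (m : ℕ) (rs : List Rnd) (a : ℕ → RSt n) : ℝ :=
  J1 * (∑ t ∈ Icc 1 (tc rs.length), if t % 6 = 0 then 0
    else 1 / 2 * nrm2 (a t - gfine rs t (a (t - 1)))) +
  J2 * (∑ l ∈ range rs.length, q2 (rget rs l) (6 * (l + 1)) a) +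
  J3 * (∑ i ∈ Ico m (n - 1), nrm2 (one i (a 0))) +
  nrm2 (zer 0 (a (tc rs.length)))

/-- total squared norm -/
noncomputable def tot {n : ℕ} (M : ℕ) (a : ℕ → RSt n) : ℝ :=
  ∑ t ∈ range (tc M + 1), nrm2 (a t)

/-- valid inputs: the qubits `m ≤ i < n - 1` are zero -/
def ValidIn {n : ℕ} (m : ℕ) (φ : RSt n) : Prop :=
  ∀ i, m ≤ i → i < n - 1 → one i φ = 0

/-! ### spins -/

/-- states of spins one half indexed by `I` -/
abbrev SSt (I : Type) : Type := (I → Fin 2) → ℂ

section spins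

variable {I : Type} [Fintype I] [DecidableEq I]

noncomputable def sip (Φ Ψ : SSt I) : ℂ := ∑ s, conj (Φ s) * Ψ s

noncomputable def snorm2 (Φ : SSt I) : ℝ := ∑ s, ‖Φ s‖ ^ 2

/-- `S_i · S_j` for `i ≠ j` -/
noncomputable def dotS (i j : I) (Φ : SSt I) : SSt I :=
  fun s => (1 / 2) * Φ (s ∘ Equiv.swap i j) - (1 / 4) * Φ s

/-- `⟨Φ, ∑_{i<j} J i j S_i · S_j Φ⟩` for symmetric `J` -/
noncomputable def hs (J : I → I → ℝ) (Φ : SSt I) : ℝ :=
  1 / 2 * ∑ i, ∑ j, if i = j then 0 else J i j * (sip Φ (dotS i j Φ)).re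

end spins

/-! ### blocks of four spins -/

section blocks

variable {B : Type} [Fintype B] [DecidableEq B]

/-- class of a pair of spins of a block -/
def cls (g k : Fin 4) : Fin 4 := ⟨g.val ^^^ k.val, by
  revert g k; decide⟩

/-- `S_g · S_k` in the block `b`, with `S_g · S_g = 3/4` -/
noncomputable def hcl (b : B) (g : Fin 4) (Φ : SSt (B × Fin 4)) : SSt (B × Fin 4) :=
  if g = 0 then (3 / 4 : ℂ) • Φ else dotS (b, 0) (b, g) Φ

/-- block singlets: the total spin of every block vanishes -/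
def IsBS (Φ : SSt (B × Fin 4)) : Prop :=
  ∀ b, ∑ g : Fin 4, ∑ k : Fin 4, (if g = k then (3 / 4 : ℂ) • Φ else dotS (b, g) (b, k) Φ) = 0

/-- sum over the blocks of half the squared total spin -/
noncomputable def casimir (Φ : SSt (B × Fin 4)) : SSt (B × Fin 4) :=
  ∑ b : B, (1 / 2 : ℂ) • ∑ g : Fin 4, ∑ k : Fin 4,
    (if g = k then (3 / 4 : ℂ) • Φ else dotS (b, g) (b, k) Φ)

/-- coupling between different blocks, `c b b' g h = c b' b h g` -/
noncomputable def inter (c : B → B → Fin 4 → Fin 4 → ℝ) (Φ : SSt (B × Fin 4)) :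
    SSt (B × Fin 4) :=
  (1 / 2 : ℂ) • ∑ b : B, ∑ b' : B, if b = b' then 0 else
    ∑ g : Fin 4, ∑ h : Fin 4, (c b b' g h : ℂ) • dotS (b, g) (b', h) Φ

/-- orthonormal basis of the singlets of four spins -/
noncomputable def eb (x : Bool) (s : Fin 4 → Fin 2) : ℝ :=
  if x then
    (if s 0 = s 1 ∧ s 2 = s 3 ∧ s 0 ≠ s 2 then 2
      else if s 0 ≠ s 1 ∧ s 2 ≠ s 3 then -1 else 0) / √12
  else
    (if s 0 ≠ s 1 ∧ s 2 ≠ s 3 then (if s 0 = s 2 then 1 else -1) else 0) / 2

/-- embedding of qubits (one for each block) into spins -/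
noncomputable def iota (u : (B → Bool) → ℂ) : SSt (B × Fin 4) := fun s =>
  ∑ x : B → Bool, u x * ∏ b, (eb (x b) (fun g => s (b, g)) : ℂ)

/-- adjoint of `iota` -/
noncomputable def iotaA (Φ : SSt (B × Fin 4)) : (B → Bool) → ℂ := fun x =>
  ∑ s : B × Fin 4 → Fin 2, (∏ b, (eb (x b) (fun g => s (b, g)) : ℂ)) * Φ s

/-- the three directions `Z`, `-Z/2 + √3/2 X`, `-Z/2 - √3/2 X` -/
noncomputable def sgm (a : Fin 3) (b : B) (u : (B → Bool) → ℂ) : (B → Bool) → ℂ := fun x =>
  (if a = 0 then 1 else -(1 / 2) : ℂ) * ((if x b then -1 else 1) * u x) +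
    (if a = 0 then 0 else if a = 1 then ((√3 : ℝ) : ℂ) / 2 else -((√3 : ℝ) : ℂ) / 2) *
      u (Function.update x b (!x b))

/-- couplings of the final Heisenberg model: blocks with strength `s^10`, modified by `d b a` on
the pairs `(0, a + 1)`; different blocks are coupled by `s^7` on `(0, 0)` and by
`s^6 t b b' a a'` on `(a + 1, a' + 1)` -/
noncomputable def jw (s : ℝ) (t : B → B → Fin 3 → Fin 3 → ℝ) (d : B → Fin 3 → ℝ)
    (p q : B × Fin 4) : ℝ :=
  if p.1 = q.1 then
    s ^ 10 + (if hq : q.2 ≠ 0 then (if p.2 = 0 then d p.1 (q.2.pred hq) else 0) else 0) +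
      (if hp : p.2 ≠ 0 then (if q.2 = 0 then d p.1 (p.2.pred hp) else 0) else 0)
  else
    if hp : p.2 ≠ 0 then (if hq : q.2 ≠ 0 then s ^ 6 * t p.1 q.1 (p.2.pred hp) (q.2.pred hq) else 0)
    else (if q.2 = 0 then s ^ 7 else 0)

/-- effective energy -/
noncomputable def teff (s : ℝ) (t : B → B → Fin 3 → Fin 3 → ℝ) (d : B → Fin 3 → ℝ)
    (u : (B → Bool) → ℂ) : ℝ :=
  -(3 / 2 * s ^ 10 * Fintype.card B) * (∑ x, ‖u x‖ ^ 2) -
    (∑ b : B, ∑ b' : B, if b = b' then 0 else
      (3 / 64 * s ^ 4 * (∑ x, ‖u x‖ ^ 2) +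
      ∑ a : Fin 3, ∑ a' : Fin 3, t b b' a a' * s ^ 3 *
        (1 / 96 * (∑ x, ‖u x‖ ^ 2) + 1 / 24 * (∑ x, conj (u x) * sgm a b u x).re +
          1 / 24 * (∑ x, conj (u x) * sgm a b (sgm a' b' u) x).re))) -
    ∑ b : B, ∑ a : Fin 3, d b a *
      (1 / 4 * (∑ x, ‖u x‖ ^ 2) + 1 / 2 * (∑ x, conj (u x) * sgm a b u x).re)

end blocks

end Vale.Agent.P370.H
end
end

section

section

/-!
Integrals over R^3 of products of complex linear forms against a Gaussian (Wick formula for
isotropic vectors) and against radial functions.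
-/

namespace Vale.Agent.P370.GC

open MeasureTheory Set Metric Module

abbrev V3 : Type := EuclideanSpace ℝ (Fin 3)

/-- the complex linear form `x ↦ a · x`, as a real-linear map -/
noncomputable def lf (a : Fin 3 → ℂ) : V3 →L[ℝ] ℂ :=
  ∑ k, (EuclideanSpace.proj k : V3 →L[ℝ] ℝ).smulRight (a k)

theorem lf_apply (a : Fin 3 → ℂ) (x : V3) : lf a x = ∑ k, (x k : ℂ) * a k := by
  simp [lf]

theorem lf_single (a : Fin 3 → ℂ) (k : Fin 3) : lf a (EuclideanSpace.single k 1) = a k := by
  rw [lf_apply]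
  rw [Finset.sum_eq_single k]
  · simp
  · intro j _ hj
    simp [hj]
  · simp

theorem norm_lf_le (a : Fin 3 → ℂ) (x : V3) : ‖lf a x‖ ≤ ‖lf a‖ * ‖x‖ := (lf a).le_opNorm x

theorem integrable_norm_pow_mul_exp_neg (m : ℕ) {κ : ℝ} (hκ : 0 < κ) :
    Integrable (fun x : V3 => ‖x‖ ^ m * Real.exp (-κ * ‖x‖)) := by
  rw [integrable_fun_norm_addHaar (volume : Measure V3)
    (f := fun r : ℝ => r ^ m * Real.exp (-κ * r))]
  have h := Real.GammaIntegral_convergent (s := m + 3) (by (clear * -; positivity))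
  have h2 : IntegrableOn (fun x : ℝ => Real.exp (-(κ * x)) * (κ * x) ^ ((m : ℝ) + 3 - 1)) (Ioi 0) := by
    have := (integrableOn_Ioi_comp_mul_left_iff (fun x : ℝ => Real.exp (-x) * x ^ ((m : ℝ) + 3 - 1))
      0 hκ).2 (by simpa only [mul_zero] using h)
    exact this
  have h3 : IntegrableOn (fun x : ℝ => (κ ^ (m + 2))⁻¹ *
      (Real.exp (-(κ * x)) * (κ * x) ^ ((m : ℝ) + 3 - 1))) (Ioi 0) := h2.const_mul _
  refine h3.congr_fun (fun x hx => ?_) measurableSet_Ioi
  have hx' : (0 : ℝ) < x := hx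
  have e1 : (κ * x) ^ ((m : ℝ) + 3 - 1) = (κ * x) ^ (m + 2) := by
    rw [← Real.rpow_natCast]
    congr 1
    push_cast
    ring
  simp only [finrank_euclideanSpace, Fintype.card_fin, smul_eq_mul]
  rw [e1, mul_pow]
  have : κ ^ (m + 2) ≠ 0 := by positivity
  field_simp
  ring

theorem integrable_norm_pow_mul_exp_neg_sq (m : ℕ) {b : ℝ} (hb : 0 < b) :
    Integrable (fun x : V3 => ‖x‖ ^ m * Real.exp (-b * ‖x‖ ^ 2)) := by
  rw [integrable_fun_norm_addHaar (volume : Measure V3)
    (f := fun r : ℝ => r ^ m * Real.exp (-b * r ^ 2))]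
  have h := (integrable_rpow_mul_exp_neg_mul_sq hb (s := (m : ℝ) + 2)
    (by have : (0 : ℝ) ≤ m := Nat.cast_nonneg m
        linarith)).integrableOn (s := Ioi (0 : ℝ))
  refine h.congr_fun (fun x hx => ?_) measurableSet_Ioi
  have hx' : (0 : ℝ) < x := hx
  have e1 : x ^ ((m : ℝ) + 2) = x ^ (m + 2) := by
    rw [← Real.rpow_natCast]
    congr 1
    push_cast
    ring
  simp only [finrank_euclideanSpace, Fintype.card_fin, smul_eq_mul]
  rw [e1]
  ring

/-- polynomially bounded continuous functions are integrable against a Gaussian -/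
theorem integrable_mul_gauss {P : V3 → ℂ} (hP : Continuous P) {C : ℝ} {m : ℕ}
    (hb : ∀ x, ‖P x‖ ≤ C * ‖x‖ ^ m) :
    Integrable (fun x : V3 => P x * Real.exp (-‖x‖ ^ 2)) := by
  have h := (integrable_norm_pow_mul_exp_neg_sq m (b := 1) one_pos).const_mul C
  refine h.mono' ?_ (.of_forall fun x => ?_)
  · refine Continuous.aestronglyMeasurable ?_
    exact hP.mul (by (clear * -; fun_prop))
  · rw [norm_mul, Complex.norm_real, Real.norm_of_nonneg (Real.exp_pos _).le]
    calc ‖P x‖ * Real.exp (-‖x‖ ^ 2) ≤ (C * ‖x‖ ^ m) * Real.exp (-‖x‖ ^ 2) := by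
          gcongr
          exact hb x
      _ = C * (‖x‖ ^ m * Real.exp (-1 * ‖x‖ ^ 2)) := by
          rw [neg_one_mul]
          ring

theorem hasFDerivAt_gauss (x : V3) :
    HasFDerivAt (fun x : V3 => ((Real.exp (-‖x‖ ^ 2) : ℝ) : ℂ))
      ((Real.exp (-‖x‖ ^ 2) : ℂ) • Complex.ofRealCLM.comp (-(2 : ℝ) • (innerSL ℝ x))) x := by
  have h1 : HasFDerivAt (fun x : V3 => ‖x‖ ^ 2) ((2 : ℝ) • (innerSL ℝ x)) x := by
    have := (hasStrictFDerivAt_norm_sq x).hasFDerivAt
    rwa [two_nsmul, ← two_smul ℝ] at this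
  have h2 := (h1.neg).exp
  have h3 := Complex.ofRealCLM.hasFDerivAt (x := Real.exp (-‖x‖ ^ 2)) |>.comp x h2
  refine h3.congr_fderiv ?_
  ext v
  simp

/-- Gaussian integration by parts -/
theorem gauss_ibp {P : V3 → ℂ} (hP : Differentiable ℝ P) (a : Fin 3 → ℂ)
    (h1 : ∀ k : Fin 3, Integrable
      (fun x : V3 => fderiv ℝ P x (EuclideanSpace.single k 1) * Real.exp (-‖x‖ ^ 2)))
    (h2 : ∀ k : Fin 3, Integrable (fun x : V3 => P x * (x k : ℂ) * Real.exp (-‖x‖ ^ 2)))
    (h3 : Integrable (fun x : V3 => P x * Real.exp (-‖x‖ ^ 2))) :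
    ∫ x : V3, P x * lf a x * Real.exp (-‖x‖ ^ 2) =
      (1 / 2) * ∑ k, a k *
        ∫ x : V3, fderiv ℝ P x (EuclideanSpace.single k 1) * Real.exp (-‖x‖ ^ 2) := by
  have key : ∀ k : Fin 3, ∫ x : V3, P x * (x k : ℂ) * Real.exp (-‖x‖ ^ 2) =
      (1 / 2) * ∫ x : V3, fderiv ℝ P x (EuclideanSpace.single k 1) * Real.exp (-‖x‖ ^ 2) := by
    intro k
    have hfd : ∀ x : V3, fderiv ℝ (fun x : V3 => ((Real.exp (-‖x‖ ^ 2) : ℝ) : ℂ)) x
        (EuclideanSpace.single k 1) = -2 * (x k : ℂ) * Real.exp (-‖x‖ ^ 2) := by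
      intro x
      rw [(hasFDerivAt_gauss x).fderiv]
      have hin : (inner ℝ x (EuclideanSpace.single k (1 : ℝ)) : ℝ) = x k := by
        rw [EuclideanSpace.inner_single_right]
        simp
      simp [hin]
      ring
    have := integral_mul_fderiv_eq_neg_fderiv_mul_of_integrable (μ := (volume : Measure V3))
      (f := P) (g := fun x : V3 => ((Real.exp (-‖x‖ ^ 2) : ℝ) : ℂ))
      (v := EuclideanSpace.single k 1) (h1 k)
      (by
        simp only [hfd]
        refine ((h2 k).const_mul (-2)).congr (.of_forall fun x => ?_)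
        simp only
        ring) h3 (fun x _ => hP x)
      (fun x _ => (hasFDerivAt_gauss x).differentiableAt)
    simp only [hfd] at this
    have e : ∫ x : V3, P x * (-2 * (x k : ℂ) * Real.exp (-‖x‖ ^ 2)) =
        -2 * ∫ x : V3, P x * (x k : ℂ) * Real.exp (-‖x‖ ^ 2) := by
      rw [← integral_const_mul]
      refine integral_congr_ae (.of_forall fun x => ?_)
      simp only
      ring
    rw [e] at this
    linear_combination (-1 / 2) * this
  have e0 : ∀ x : V3, P x * lf a x * Real.exp (-‖x‖ ^ 2) =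
      ∑ k, a k * (P x * (x k : ℂ) * Real.exp (-‖x‖ ^ 2)) := by
    intro x
    rw [lf_apply, Finset.mul_sum, Finset.sum_mul]
    refine Finset.sum_congr rfl fun k _ => ?_
    ring
  simp only [e0]
  rw [integral_finsetSum _ (fun k _ => (h2 k).const_mul (a k))]
  rw [Finset.mul_sum]
  refine Finset.sum_congr rfl fun k _ => ?_
  rw [integral_const_mul, key k]
  ring

end Vale.Agent.P370.GC
end
end

section

section

/-!
The inverse distance as a superposition of products of indicator functions of balls.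
-/

namespace Vale.Agent.P370.GC

open MeasureTheory Set Metric Module
open scoped ENNReal

/-- volume of the intersection of two balls of radius `t` at distance one -/
noncomputable def lens (t : ℝ) : ℝ≥0∞ :=
  volume (ball (0 : V3) t ∩ ball (EuclideanSpace.single 2 1 : V3) t)

theorem lens_of_norm_one {w : V3} (hw : ‖w‖ = 1) (t : ℝ) :
    volume (ball (0 : V3) t ∩ ball w t) = lens t := by
  have he : ‖w‖ = ‖(EuclideanSpace.single 2 1 : V3)‖ := by
    rw [hw]
    simp
  set g := (ℝ ∙ (w - (EuclideanSpace.single 2 1 : V3)))ᗮ.reflection with hg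
  have h1 : g w = EuclideanSpace.single 2 1 := Submodule.reflection_sub he
  have h2 := g.measurePreserving.measure_preimage
    ((measurableSet_ball (x := (0 : V3)) (ε := t)).inter
      (measurableSet_ball (x := (EuclideanSpace.single 2 1 : V3)) (ε := t))).nullMeasurableSet
  unfold lens
  rw [← h2]
  congr 1
  ext x
  simp only [mem_inter_iff, mem_ball, mem_preimage, dist_zero_right, g.norm_map]
  rw [← h1, g.dist_map]

theorem lens_scale (x y : V3) (hxy : x ≠ y) (t : ℝ) :
    volume (ball x t ∩ ball y t) = ENNReal.ofReal (dist x y ^ 3) * lens (t / dist x y) := by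
  have hd : 0 < dist x y := dist_pos.2 hxy
  set d := dist x y with hdd
  have h1 : volume (ball x t ∩ ball y t) = volume (ball (0 : V3) t ∩ ball (y - x) t) := by
    have := (measurePreserving_add_left (volume : Measure V3) x).measure_preimage
      ((measurableSet_ball (x := x) (ε := t)).inter
        (measurableSet_ball (x := y) (ε := t))).nullMeasurableSet
    rw [← this]
    congr 1
    ext z
    simp only [mem_preimage, mem_inter_iff, mem_ball, dist_eq_norm]
    rw [add_sub_cancel_left, sub_zero, show x + z - y = z - (y - x) by abel]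
  have h2 := Measure.addHaar_preimage_smul (volume : Measure V3) hd.ne'
    (ball (0 : V3) t ∩ ball (y - x) t)
  have h3 : ((d • ·) : V3 → V3) ⁻¹' (ball (0 : V3) t ∩ ball (y - x) t) =
      ball (0 : V3) (t / d) ∩ ball (d⁻¹ • (y - x)) (t / d) := by
    ext z
    simp only [mem_inter_iff, mem_ball, mem_preimage, dist_eq_norm, sub_zero]
    have e1 : ‖d • z‖ = d * ‖z‖ := by rw [norm_smul, Real.norm_of_nonneg hd.le]
    have e2 : ‖d • z - (y - x)‖ = d * ‖z - d⁻¹ • (y - x)‖ := by
      rw [← Real.norm_of_nonneg hd.le, ← norm_smul, smul_sub, smul_smul]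
      rw [Real.norm_of_nonneg hd.le, mul_inv_cancel₀ hd.ne', one_smul]
    rw [e1, e2, lt_div_iff₀ hd, lt_div_iff₀ hd, mul_comm d, mul_comm d]
  have h4 : ‖d⁻¹ • (y - x)‖ = 1 := by
    rw [norm_smul, norm_inv, Real.norm_of_nonneg hd.le, ← dist_eq_norm, dist_comm, ← hdd,
      inv_mul_cancel₀ hd.ne']
  rw [h3, lens_of_norm_one h4] at h2
  rw [h1, h2, ← mul_assoc, ← ENNReal.ofReal_mul (by (clear * - hd; positivity))]
  simp only [finrank_euclideanSpace, Fintype.card_fin]
  rw [abs_of_pos (by positivity), mul_inv_cancel₀ (by positivity), ENNReal.ofReal_one, one_mul]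

theorem measurable_lens : Measurable lens := by
  have hs : MeasurableSet {p : ℝ × V3 | dist p.2 0 < p.1 ∧
      dist p.2 (EuclideanSpace.single 2 1 : V3) < p.1} :=
    (measurableSet_lt (by fun_prop) measurable_fst).inter
      (measurableSet_lt (by fun_prop) measurable_fst)
  exact measurable_measure_prodMk_left hs

/-- the constant of the representation -/
noncomputable def kap : ℝ≥0∞ :=
  ∫⁻ t in Ioi (0 : ℝ), ENNReal.ofReal (1 / t ^ 5) * lens t

theorem lens_eq_zero {t : ℝ} (ht : t ≤ 1 / 2) : lens t = 0 := by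
  unfold lens
  have : ball (0 : V3) t ∩ ball (EuclideanSpace.single 2 1 : V3) t = ∅ := by
    rw [← disjoint_iff_inter_eq_empty]
    refine ball_disjoint_ball ?_
    rw [dist_zero_left]
    simp only [Fin.isValue, PiLp.norm_single, norm_one]
    linarith
  rw [this, measure_empty]

theorem lens_le {t : ℝ} (ht : 0 < t) : lens t ≤ ENNReal.ofReal (4 * Real.pi / 3 * t ^ 3) := by
  unfold lens
  refine (measure_mono inter_subset_left).trans ?_
  rw [EuclideanSpace.volume_ball_fin_three, ← ENNReal.ofReal_pow ht.le,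
    ← ENNReal.ofReal_mul (by positivity)]
  apply ENNReal.ofReal_le_ofReal
  apply le_of_eq
  ring

theorem kap_le : kap ≤ ENNReal.ofReal (8 * Real.pi / 3) := by
  unfold kap
  have h1 : ∀ t ∈ Ioi (0 : ℝ), ENNReal.ofReal (1 / t ^ 5) * lens t ≤
      (Ioi (1 / 2 : ℝ)).indicator (fun t => ENNReal.ofReal (4 * Real.pi / 3 * t ^ (-2 : ℝ))) t := by
    intro t ht
    have ht0 : 0 < t := ht
    by_cases h : t ∈ Ioi (1 / 2 : ℝ)
    · rw [indicator_of_mem h]
      calc ENNReal.ofReal (1 / t ^ 5) * lens t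
          ≤ ENNReal.ofReal (1 / t ^ 5) * ENNReal.ofReal (4 * Real.pi / 3 * t ^ 3) := by
            gcongr
            exact lens_le ht0
        _ = _ := by
            rw [← ENNReal.ofReal_mul (by (clear * - ht0; positivity))]
            congr 1
            rw [Real.rpow_neg ht0.le, show (2 : ℝ) = ((2 : ℕ) : ℝ) by norm_num, Real.rpow_natCast]
            field_simp
    · rw [indicator_of_notMem h, lens_eq_zero (by simpa only [one_div, mem_Ioi, not_lt] using h), mul_zero]
  calc ∫⁻ t in Ioi (0 : ℝ), ENNReal.ofReal (1 / t ^ 5) * lens t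
      ≤ ∫⁻ t in Ioi (0 : ℝ), (Ioi (1 / 2 : ℝ)).indicator
        (fun t => ENNReal.ofReal (4 * Real.pi / 3 * t ^ (-2 : ℝ))) t :=
        setLIntegral_mono' measurableSet_Ioi h1
    _ ≤ ∫⁻ t, (Ioi (1 / 2 : ℝ)).indicator
        (fun t => ENNReal.ofReal (4 * Real.pi / 3 * t ^ (-2 : ℝ))) t := setLIntegral_le_lintegral _ _
    _ = ∫⁻ t in Ioi (1 / 2 : ℝ), ENNReal.ofReal (4 * Real.pi / 3 * t ^ (-2 : ℝ)) :=
        lintegral_indicator measurableSet_Ioi _
    _ = ENNReal.ofReal (∫ t in Ioi (1 / 2 : ℝ), 4 * Real.pi / 3 * t ^ (-2 : ℝ)) := by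
        rw [ofReal_integral_eq_lintegral_ofReal]
        · exact ((integrableOn_Ioi_rpow_of_lt (by norm_num) (by norm_num)).const_mul _)
        · filter_upwards [ae_restrict_mem measurableSet_Ioi] with t ht
          have ht0 : (0 : ℝ) < t := lt_trans (by norm_num) (mem_Ioi.1 ht)
          have := Real.rpow_pos_of_pos ht0 (-2)
          have := Real.pi_pos
          show 0 ≤ 4 * Real.pi / 3 * t ^ (-2 : ℝ)
          (clear * - ht0; positivity)
    _ = _ := by
        rw [integral_const_mul, integral_Ioi_rpow_of_lt (by norm_num) (by (clear * -; norm_num))]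
        congr 1
        rw [show (-2 : ℝ) + 1 = -1 by norm_num, Real.rpow_neg_one]
        ring

/-- the inverse distance as a superposition of balls -/
theorem kap_rep (x y : V3) (hxy : x ≠ y) :
    ∫⁻ t in Ioi (0 : ℝ), ENNReal.ofReal (1 / t ^ 5) * volume (ball x t ∩ ball y t) =
      kap * ENNReal.ofReal (1 / dist x y) := by
  have hd : 0 < dist x y := dist_pos.2 hxy
  set d := dist x y with hdd
  set H : ℝ → ℝ≥0∞ := (Ioi (0 : ℝ)).indicator (fun s => ENNReal.ofReal (1 / s ^ 5) * lens s) with hH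
  have hHm : Measurable H :=
    Measurable.indicator ((by (clear * -; fun_prop) : Measurable fun s : ℝ => ENNReal.ofReal (1 / s ^ 5)).mul
      measurable_lens) measurableSet_Ioi
  have h1 : ∀ t : ℝ, (Ioi (0 : ℝ)).indicator
      (fun t => ENNReal.ofReal (1 / t ^ 5) * volume (ball x t ∩ ball y t)) t =
      ENNReal.ofReal (1 / d ^ 2) * H (d⁻¹ * t) := by
    intro t
    by_cases ht : t ∈ Ioi (0 : ℝ)
    · have ht0 : 0 < t := ht
      have hm : d⁻¹ * t ∈ Ioi (0 : ℝ) := by
        show 0 < d⁻¹ * t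
        (clear * - hd ht0; positivity)
      rw [indicator_of_mem ht, hH, indicator_of_mem hm, lens_scale x y hxy, ← hdd, ← mul_assoc,
        ← mul_assoc, ← ENNReal.ofReal_mul (by (clear * - ht0; positivity)), ← ENNReal.ofReal_mul (by positivity)]
      rw [show t / d = d⁻¹ * t by rw [div_eq_inv_mul]]
      congr 2
      field_simp
    · have hm : d⁻¹ * t ∉ Ioi (0 : ℝ) := by
        simp only [mem_Ioi, not_lt] at ht ⊢
        exact mul_nonpos_of_nonneg_of_nonpos (by (clear * - hd; positivity)) ht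
      rw [indicator_of_notMem ht, hH, indicator_of_notMem hm, mul_zero]
  rw [← lintegral_indicator measurableSet_Ioi]
  simp only [h1]
  have hHm2 : Measurable fun t : ℝ => H (d⁻¹ * t) := hHm.comp (measurable_const_mul _)
  rw [lintegral_const_mul _ hHm2]
  have h2 : ∫⁻ t : ℝ, H (d⁻¹ * t) = ENNReal.ofReal d * ∫⁻ s, H s := by
    have h3 := Real.map_volume_mul_left (a := d⁻¹) (by positivity)
    rw [← lintegral_map hHm (measurable_const_mul _), h3, lintegral_smul_measure, inv_inv,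
      abs_of_pos hd, smul_eq_mul]
  rw [h2, ← mul_assoc, ← ENNReal.ofReal_mul (by positivity), hH,
    lintegral_indicator measurableSet_Ioi, mul_comm]
  unfold kap
  congr 2
  (clear * - hd; field_simp)

end Vale.Agent.P370.GC
end
end

section

section

/-!
Coulomb energies of densities as squares of ball masses.
-/

namespace Vale.Agent.P370.GC

open MeasureTheory Set Metric Module
open scoped ENNReal

/-- parameter space of balls `(t, z)` -/
noncomputable def nub : Measure (ℝ × V3) := (volume.restrict (Ioi (0 : ℝ))).prod volume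

instance : SFinite nub := by unfold nub; infer_instance

/-- indicator of `x ∈ ball z t` -/
noncomputable def gb (p : ℝ × V3) (x : V3) : ℝ≥0∞ := (ball p.2 p.1).indicator (fun _ => 1) x

theorem measurable_gb : Measurable (fun q : (ℝ × V3) × V3 => gb q.1 q.2) := by
  have hs : MeasurableSet {q : (ℝ × V3) × V3 | dist q.2 q.1.2 < q.1.1} :=
    measurableSet_lt (by (clear * -; fun_prop)) (by fun_prop)
  have : (fun q : (ℝ × V3) × V3 => gb q.1 q.2) =
      {q : (ℝ × V3) × V3 | dist q.2 q.1.2 < q.1.1}.indicator (fun _ => 1) := by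
    ext q
    by_cases hq : dist q.2 q.1.2 < q.1.1
    · rw [gb, indicator_of_mem (show q.2 ∈ ball q.1.2 q.1.1 from hq),
        indicator_of_mem (show q ∈ {q : (ℝ × V3) × V3 | dist q.2 q.1.2 < q.1.1} from hq)]
    · rw [gb, indicator_of_notMem (show q.2 ∉ ball q.1.2 q.1.1 from hq),
        indicator_of_notMem (show q ∉ {q : (ℝ × V3) × V3 | dist q.2 q.1.2 < q.1.1} from hq)]
  rw [this]
  exact measurable_const.indicator hs

theorem measurable_gb_left (x : V3) : Measurable fun p : ℝ × V3 => gb p x := by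
  have h : Measurable fun p : ℝ × V3 => ((p, x) : (ℝ × V3) × V3) :=
    measurable_id.prodMk measurable_const
  have h2 := measurable_gb.comp h
  simp only [Function.comp_def] at h2
  exact h2

theorem measurable_gb_right (p : ℝ × V3) : Measurable fun x : V3 => gb p x := by
  have h : Measurable fun x : V3 => ((p, x) : (ℝ × V3) × V3) :=
    measurable_const.prodMk measurable_id
  have h2 := measurable_gb.comp h
  simp only [Function.comp_def] at h2
  exact h2

theorem measurable_gb_mid (t : ℝ) (x : V3) : Measurable fun z : V3 => gb (t, z) x := by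
  have h : Measurable fun z : V3 => (((t, z), x) : (ℝ × V3) × V3) :=
    (measurable_const.prodMk measurable_id).prodMk measurable_const
  have h2 := measurable_gb.comp h
  simp only [Function.comp_def] at h2
  exact h2

theorem measurable_gb_swap {α : Type*} [MeasurableSpace α] {f : α → V3} {g : α → ℝ × V3}
    (hf : Measurable f) (hg : Measurable g) : Measurable fun a => gb (g a) (f a) := by
  have h : Measurable fun a => ((g a, f a) : (ℝ × V3) × V3) := hg.prodMk hf
  have h2 := measurable_gb.comp h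
  simp only [Function.comp_def] at h2
  exact h2

/-- mass of a ball -/
noncomputable def bm (d : V3 → ℝ) (p : ℝ × V3) : ℝ := ∫ x in ball p.2 p.1, d x

theorem lintegral_gb {d : V3 → ℝ} (hd : Integrable d) (hd0 : ∀ x, 0 ≤ d x) (p : ℝ × V3) :
    ∫⁻ x, ENNReal.ofReal (d x) * gb p x = ENNReal.ofReal (bm d p) := by
  unfold bm
  rw [ofReal_integral_eq_lintegral_ofReal hd.integrableOn (.of_forall hd0),
    ← lintegral_indicator measurableSet_ball]
  refine lintegral_congr fun x => ?_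
  unfold gb
  by_cases hx : x ∈ ball p.2 p.1
  · rw [indicator_of_mem hx, indicator_of_mem hx, mul_one]
  · rw [indicator_of_notMem hx, indicator_of_notMem hx, mul_zero]

theorem bm_nonneg {d : V3 → ℝ} (hd0 : ∀ x, 0 ≤ d x) (p : ℝ × V3) : 0 ≤ bm d p :=
  integral_nonneg hd0

theorem measurable_bm {d : V3 → ℝ} (hdm : Measurable d) (hd : Integrable d)
    (hd0 : ∀ x, 0 ≤ d x) : Measurable (bm d) := by
  have h1 : Measurable fun p : ℝ × V3 => ∫⁻ x, ENNReal.ofReal (d x) * gb p x :=
    ((hdm.comp measurable_snd).ennreal_ofReal.mul measurable_gb).lintegral_prod_right'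
  simp only [lintegral_gb hd hd0] at h1
  have h2 : bm d = fun p => (ENNReal.ofReal (bm d p)).toReal := by
    funext p
    rw [ENNReal.toReal_ofReal (bm_nonneg hd0 p)]
  rw [h2]
  exact h1.ennreal_toReal

theorem vol_inter (x y : V3) (t : ℝ) :
    volume (ball x t ∩ ball y t) = ∫⁻ z, gb (t, z) x * gb (t, z) y := by
  rw [← lintegral_indicator_one (measurableSet_ball.inter measurableSet_ball)]
  refine lintegral_congr fun z => ?_
  unfold gb
  by_cases hx : dist x z < t
  · rw [indicator_of_mem (show x ∈ ball (t, z).2 (t, z).1 from hx), one_mul]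
    by_cases hy : dist y z < t
    · rw [indicator_of_mem (show y ∈ ball (t, z).2 (t, z).1 from hy), indicator_of_mem]
      · rfl
      · exact ⟨by rw [mem_ball, dist_comm]; exact hx, by rw [mem_ball, dist_comm]; exact hy⟩
    · rw [indicator_of_notMem (show y ∉ ball (t, z).2 (t, z).1 from hy), indicator_of_notMem]
      intro h
      exact hy (by rw [dist_comm]; exact h.2)
  · rw [indicator_of_notMem (show x ∉ ball (t, z).2 (t, z).1 from hx), zero_mul,
      indicator_of_notMem]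
    intro h
    exact hx (by rw [dist_comm]; exact h.1)

theorem kap_rep' (x y : V3) (hxy : x ≠ y) :
    ∫⁻ p, ENNReal.ofReal (1 / p.1 ^ 5) * (gb p x * gb p y) ∂nub =
      kap * ENNReal.ofReal (1 / dist x y) := by
  rw [← kap_rep x y hxy]
  have mw : Measurable fun p : ℝ × V3 => ENNReal.ofReal (1 / p.1 ^ 5) := by (clear * -; fun_prop)
  have hm : Measurable fun p : ℝ × V3 => ENNReal.ofReal (1 / p.1 ^ 5) * (gb p x * gb p y) :=
    mw.mul ((measurable_gb_left x).mul (measurable_gb_left y))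
  unfold nub
  rw [lintegral_prod _ hm.aemeasurable]
  refine lintegral_congr fun t => ?_
  have m : Measurable fun z : V3 => gb (t, z) x * gb (t, z) y :=
    (measurable_gb_mid t x).mul (measurable_gb_mid t y)
  rw [vol_inter, ← lintegral_const_mul _ m]

/-- Coulomb energy as a superposition of products of ball masses -/
theorem rep_lintegral {d e : V3 → ℝ} (hdm : Measurable d) (hem : Measurable e)
    (hd : Integrable d) (he : Integrable e) (hd0 : ∀ x, 0 ≤ d x) (he0 : ∀ x, 0 ≤ e x) :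
    ∫⁻ p, ENNReal.ofReal (1 / p.1 ^ 5) * (ENNReal.ofReal (bm d p) * ENNReal.ofReal (bm e p)) ∂nub =
      kap * ∫⁻ y, ∫⁻ x, ENNReal.ofReal (d x / dist x y * e y) := by
  -- measurability
  have mw : Measurable fun p : ℝ × V3 => ENNReal.ofReal (1 / p.1 ^ 5) := by (clear * -; fun_prop)
  have md : Measurable fun x : V3 => ENNReal.ofReal (d x) := hdm.ennreal_ofReal
  have me : Measurable fun x : V3 => ENNReal.ofReal (e x) := hem.ennreal_ofReal
  have g1 := measurable_gb_left
  have g2 := measurable_gb_right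
  -- step 1
  have s1 : ∀ y x : V3, x ≠ y → kap * ENNReal.ofReal (d x / dist x y * e y) =
      ∫⁻ p, ENNReal.ofReal (1 / p.1 ^ 5) * (ENNReal.ofReal (d x) * gb p x) *
        (ENNReal.ofReal (e y) * gb p y) ∂nub := by
    intro y x hxy
    have e1 : ENNReal.ofReal (d x / dist x y * e y) =
        ENNReal.ofReal (d x) * ENNReal.ofReal (e y) * ENNReal.ofReal (1 / dist x y) := by
      rw [← ENNReal.ofReal_mul (hd0 x), ← ENNReal.ofReal_mul (mul_nonneg (hd0 x) (he0 y))]
      congr 1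
      ring
    have m0 : Measurable fun p : ℝ × V3 => ENNReal.ofReal (1 / p.1 ^ 5) * (gb p x * gb p y) :=
      mw.mul ((g1 x).mul (g1 y))
    rw [e1, mul_comm (ENNReal.ofReal (d x) * ENNReal.ofReal (e y)), ← mul_assoc,
      ← kap_rep' x y hxy, mul_comm, ← lintegral_const_mul _ m0]
    refine lintegral_congr fun p => ?_
    ring
  have s2 : ∀ y : V3, kap * ∫⁻ x, ENNReal.ofReal (d x / dist x y * e y) =
      ∫⁻ p, ENNReal.ofReal (1 / p.1 ^ 5) * ENNReal.ofReal (bm d p) *
        (ENNReal.ofReal (e y) * gb p y) ∂nub := by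
    intro y
    have m1 : Measurable fun x : V3 => ENNReal.ofReal (d x / dist x y * e y) :=
      ((hdm.div (by fun_prop)).mul_const _).ennreal_ofReal
    rw [← lintegral_const_mul _ m1]
    have hne : ∀ᵐ x ∂(volume : Measure V3), x ≠ y := by
      have := measure_singleton (μ := (volume : Measure V3)) y
      rw [ae_iff]
      simp
    have e1 : ∫⁻ x, kap * ENNReal.ofReal (d x / dist x y * e y) =
        ∫⁻ x, ∫⁻ p, ENNReal.ofReal (1 / p.1 ^ 5) * (ENNReal.ofReal (d x) * gb p x) *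
        (ENNReal.ofReal (e y) * gb p y) ∂nub := by
      refine lintegral_congr_ae ?_
      filter_upwards [hne] with x hx
      exact s1 y x hx
    have m2 : Measurable (Function.uncurry fun (x : V3) (p : ℝ × V3) =>
        ENNReal.ofReal (1 / p.1 ^ 5) * (ENNReal.ofReal (d x) * gb p x) *
        (ENNReal.ofReal (e y) * gb p y)) := by
      refine ((mw.comp measurable_snd).mul ((md.comp measurable_fst).mul ?_)).mul
        (measurable_const.mul ((g1 y).comp measurable_snd))
      exact measurable_gb_swap measurable_fst measurable_snd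
    rw [e1, lintegral_lintegral_swap m2.aemeasurable]
    refine lintegral_congr fun p => ?_
    have e2 : ∀ x : V3, ENNReal.ofReal (1 / p.1 ^ 5) * (ENNReal.ofReal (d x) * gb p x) *
        (ENNReal.ofReal (e y) * gb p y) = (ENNReal.ofReal (1 / p.1 ^ 5) *
          (ENNReal.ofReal (e y) * gb p y)) * (ENNReal.ofReal (d x) * gb p x) := by
      intro x
      ring
    simp only [e2]
    have m5 : Measurable fun x : V3 => ENNReal.ofReal (d x) * gb p x := md.mul (g2 p)
    rw [lintegral_const_mul _ m5, lintegral_gb hd hd0]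
    ring
  have m3 : Measurable fun y : V3 => ∫⁻ x, ENNReal.ofReal (d x / dist x y * e y) := by
    refine Measurable.lintegral_prod_right' (f := fun q : V3 × V3 =>
      ENNReal.ofReal (d q.2 / dist q.2 q.1 * e q.1)) ?_
    exact (((hdm.comp measurable_snd).div (by fun_prop)).mul
      (hem.comp measurable_fst)).ennreal_ofReal
  rw [← lintegral_const_mul _ m3]
  simp only [s2]
  have mbd : Measurable fun p : ℝ × V3 => ENNReal.ofReal (bm d p) :=
    (measurable_bm hdm hd hd0).ennreal_ofReal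
  have m4 : Measurable (Function.uncurry fun (y : V3) (p : ℝ × V3) =>
      ENNReal.ofReal (1 / p.1 ^ 5) * ENNReal.ofReal (bm d p) *
        (ENNReal.ofReal (e y) * gb p y)) := by
    refine ((mw.comp measurable_snd).mul (mbd.comp measurable_snd)).mul
      ((me.comp measurable_fst).mul ?_)
    exact measurable_gb_swap measurable_fst measurable_snd
  rw [lintegral_lintegral_swap m4.aemeasurable]
  refine lintegral_congr fun p => ?_
  have m5 : Measurable fun x : V3 => ENNReal.ofReal (e x) * gb p x := me.mul (g2 p)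
  rw [lintegral_const_mul _ m5, lintegral_gb he he0]
  ring

end Vale.Agent.P370.GC
end
end

section

section

/-!
Coulomb quadratic forms as integrals of squares.
-/

namespace Vale.Agent.P370.GC

open MeasureTheory Set Metric Module
open scoped ENNReal

/-- an admissible density -/
structure Dens (d : V3 → ℝ) : Prop where
  meas : Measurable d
  int : Integrable d
  nn : ∀ x, 0 ≤ d x

/-- Coulomb energy of two densities -/
noncomputable def cw (d e : V3 → ℝ) : ℝ := ∫ y, (∫ x, d x / dist x y) * e y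

/-- weighted product of ball masses -/
noncomputable def fp (d e : V3 → ℝ) (p : ℝ × V3) : ℝ := 1 / p.1 ^ 5 * (bm d p * bm e p)

theorem ae_nub_pos : ∀ᵐ p ∂nub, 0 < p.1 := by
  have h : ∀ᵐ t ∂(volume.restrict (Ioi (0 : ℝ))), t ∈ Ioi (0 : ℝ) :=
    ae_restrict_mem measurableSet_Ioi
  have h2 : ∀ᵐ p ∂nub, p.1 ∈ Ioi (0 : ℝ) := Measure.quasiMeasurePreserving_fst.ae h
  filter_upwards [h2] with p hp
  exact hp

theorem cw_lintegral {d e : V3 → ℝ} (hd : Dens d) (he : Dens e)
    (hI : Integrable (fun q : V3 × V3 => d q.1 / dist q.1 q.2 * e q.2) (volume.prod volume)) :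
    ∫⁻ y, ∫⁻ x, ENNReal.ofReal (d x / dist x y * e y) = ENNReal.ofReal (cw d e) := by
  have hnn : ∀ q : V3 × V3, 0 ≤ d q.1 / dist q.1 q.2 * e q.2 := fun q =>
    mul_nonneg (div_nonneg (hd.nn _) dist_nonneg) (he.nn _)
  have hm : Measurable fun q : V3 × V3 => d q.1 / dist q.1 q.2 * e q.2 :=
    ((hd.meas.comp measurable_fst).div (by (clear * -; fun_prop))).mul (he.meas.comp measurable_snd)
  have h1 : cw d e = ∫ q : V3 × V3, d q.1 / dist q.1 q.2 * e q.2 ∂(volume.prod volume) := by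
    rw [integral_prod_symm _ hI]
    unfold cw
    refine integral_congr_ae (.of_forall fun y => ?_)
    simp only
    rw [integral_mul_const]
  rw [h1, ofReal_integral_eq_lintegral_ofReal hI (.of_forall hnn),
    lintegral_prod_symm _ hm.ennreal_ofReal.aemeasurable]

theorem cw_nonneg {d e : V3 → ℝ} (hd : Dens d) (he : Dens e) : 0 ≤ cw d e :=
  integral_nonneg fun y => mul_nonneg (integral_nonneg fun x => div_nonneg (hd.nn x) dist_nonneg)
    (he.nn y)

theorem measurable_fp {d e : V3 → ℝ} (hd : Dens d) (he : Dens e) : Measurable (fp d e) := by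
  unfold fp
  have m1 := measurable_bm hd.meas hd.int hd.nn
  have m2 := measurable_bm he.meas he.int he.nn
  exact (by (clear * -; fun_prop) : Measurable fun p : ℝ × V3 => 1 / p.1 ^ 5).mul (m1.mul m2)

theorem fp_lintegral {d e : V3 → ℝ} (hd : Dens d) (he : Dens e)
    (hI : Integrable (fun q : V3 × V3 => d q.1 / dist q.1 q.2 * e q.2) (volume.prod volume)) :
    ∫⁻ p, ENNReal.ofReal (fp d e p) ∂nub = kap * ENNReal.ofReal (cw d e) := by
  rw [← cw_lintegral hd he hI, ← rep_lintegral hd.meas he.meas hd.int he.int hd.nn he.nn]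
  refine lintegral_congr_ae ?_
  filter_upwards [ae_nub_pos] with p hp
  unfold fp
  have h1 := bm_nonneg hd.nn p
  rw [ENNReal.ofReal_mul (by (clear * - hp; positivity)), ENNReal.ofReal_mul h1]

theorem kap_ne_top : kap ≠ ∞ := (kap_le.trans_lt ENNReal.ofReal_lt_top).ne

theorem fp_integrable {d e : V3 → ℝ} (hd : Dens d) (he : Dens e)
    (hI : Integrable (fun q : V3 × V3 => d q.1 / dist q.1 q.2 * e q.2) (volume.prod volume)) :
    Integrable (fp d e) nub := by
  refine ⟨(measurable_fp hd he).aestronglyMeasurable, ?_⟩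
  have hnn : 0 ≤ᵐ[nub] fp d e := by
    filter_upwards [ae_nub_pos] with p hp
    unfold fp
    have h1 := bm_nonneg hd.nn p
    have h2 := bm_nonneg he.nn p
    show 0 ≤ 1 / p.1 ^ 5 * (bm d p * bm e p)
    (clear * - hp h1 h2; positivity)
  rw [hasFiniteIntegral_iff_ofReal hnn, fp_lintegral hd he hI]
  exact ENNReal.mul_lt_top kap_ne_top.lt_top ENNReal.ofReal_lt_top

theorem fp_integral {d e : V3 → ℝ} (hd : Dens d) (he : Dens e)
    (hI : Integrable (fun q : V3 × V3 => d q.1 / dist q.1 q.2 * e q.2) (volume.prod volume)) :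
    ∫ p, fp d e p ∂nub = kap.toReal * cw d e := by
  have hnn : 0 ≤ᵐ[nub] fp d e := by
    filter_upwards [ae_nub_pos] with p hp
    unfold fp
    have h1 := bm_nonneg hd.nn p
    have h2 := bm_nonneg he.nn p
    show 0 ≤ 1 / p.1 ^ 5 * (bm d p * bm e p)
    (clear * - hp h1 h2; positivity)
  rw [integral_eq_lintegral_of_nonneg_ae hnn (measurable_fp hd he).aestronglyMeasurable,
    fp_lintegral hd he hI, ENNReal.toReal_mul, ENNReal.toReal_ofReal (cw_nonneg hd he)]

/-- the quadratic form is the integral of a square -/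
theorem quad_integral {ι : Type*} [Fintype ι] {d : ι → V3 → ℝ} (hd : ∀ i, Dens (d i))
    (hI : ∀ i j, Integrable (fun q : V3 × V3 => d i q.1 / dist q.1 q.2 * d j q.2)
      (volume.prod volume)) (v : ι → ℝ) :
    Integrable (fun p => 1 / p.1 ^ 5 * (∑ i, v i * bm (d i) p) ^ 2) nub ∧
    kap.toReal * ∑ i, ∑ j, v i * v j * cw (d i) (d j) =
      ∫ p, 1 / p.1 ^ 5 * (∑ i, v i * bm (d i) p) ^ 2 ∂nub := by
  have e : ∀ p : ℝ × V3, 1 / p.1 ^ 5 * (∑ i, v i * bm (d i) p) ^ 2 =
      ∑ i, ∑ j, (v i * v j) * fp (d i) (d j) p := by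
    intro p
    unfold fp
    rw [sq, Finset.sum_mul_sum, Finset.mul_sum]
    refine Finset.sum_congr rfl fun i _ => ?_
    rw [Finset.mul_sum]
    refine Finset.sum_congr rfl fun j _ => ?_
    ring
  have hi : ∀ i j, Integrable (fun p => (v i * v j) * fp (d i) (d j) p) nub := fun i j =>
    (fp_integrable (hd i) (hd j) (hI i j)).const_mul _
  have hi2 : ∀ i, Integrable (fun p => ∑ j, (v i * v j) * fp (d i) (d j) p) nub := fun i =>
    integrable_finsetSum _ fun j _ => hi i j
  constructor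
  · simp only [e]
    exact integrable_finsetSum _ fun i _ => hi2 i
  · simp only [e]
    rw [integral_finsetSum _ fun i _ => hi2 i, Finset.mul_sum]
    refine Finset.sum_congr rfl fun i _ => ?_
    rw [integral_finsetSum _ fun j _ => hi i j, Finset.mul_sum]
    refine Finset.sum_congr rfl fun j _ => ?_
    rw [integral_const_mul, fp_integral (hd i) (hd j) (hI i j)]
    ring

end Vale.Agent.P370.GC
end
end

section

section

/-!
Averages of ball masses over a region of balls.
-/

namespace Vale.Agent.P370.GC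

open MeasureTheory Set Metric Module
open scoped ENNReal

/-- measure on a region of balls -/
noncomputable def nur (t0 : ℝ) (Rs : Set V3) : Measure (ℝ × V3) :=
  (volume.restrict (Ioc t0 (2 * t0))).prod (volume.restrict Rs)

instance (t0 : ℝ) (Rs : Set V3) : SFinite (nur t0 Rs) := by unfold nur; infer_instance

theorem nub_restrict {t0 : ℝ} (ht0 : 0 < t0) (Rs : Set V3) :
    nub.restrict (Ioc t0 (2 * t0) ×ˢ Rs) = nur t0 Rs := by
  unfold nub nur
  have h : Ioc t0 (2 * t0) ∩ Ioi 0 = Ioc t0 (2 * t0) :=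
    inter_eq_left.2 (fun t ht => ht0.trans ht.1)
  rw [← Measure.prod_restrict, Measure.restrict_restrict measurableSet_Ioc, h]

theorem lintegral_gb_nur (t0 : ℝ) {Rs : Set V3} (hR : MeasurableSet Rs) (x : V3) :
    ∫⁻ p, gb p x ∂(nur t0 Rs) =
      ∫⁻ t in Ioc t0 (2 * t0), volume (ball x t ∩ Rs) := by
  unfold nur
  rw [lintegral_prod _ (measurable_gb_left x).aemeasurable]
  refine lintegral_congr fun t => ?_
  rw [← lintegral_indicator hR, ← lintegral_indicator_one (measurableSet_ball.inter hR)]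
  refine lintegral_congr fun z => ?_
  by_cases hz : z ∈ Rs
  · rw [indicator_of_mem hz]
    unfold gb
    by_cases hx : dist x z < t
    · rw [indicator_of_mem (show x ∈ ball (t, z).2 (t, z).1 from hx), indicator_of_mem]
      · rfl
      · exact ⟨by rw [mem_ball, dist_comm]; exact hx, hz⟩
    · rw [indicator_of_notMem (show x ∉ ball (t, z).2 (t, z).1 from hx), indicator_of_notMem]
      intro h
      exact hx (by rw [dist_comm]; exact h.1)
  · rw [indicator_of_notMem hz, indicator_of_notMem]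
    intro h
    exact hz h.2

theorem lintegral_bm_nur {d : V3 → ℝ} (hd : Dens d) (t0 : ℝ) {Rs : Set V3}
    (hR : MeasurableSet Rs) :
    ∫⁻ p, ENNReal.ofReal (bm d p) ∂(nur t0 Rs) =
      ∫⁻ x, ENNReal.ofReal (d x) * ∫⁻ t in Ioc t0 (2 * t0), volume (ball x t ∩ Rs) := by
  have m : Measurable (Function.uncurry fun (p : ℝ × V3) (x : V3) =>
      ENNReal.ofReal (d x) * gb p x) :=
    (hd.meas.comp measurable_snd).ennreal_ofReal.mul
      (measurable_gb_swap measurable_snd measurable_fst)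
  simp only [← lintegral_gb hd.int hd.nn]
  rw [lintegral_lintegral_swap m.aemeasurable]
  refine lintegral_congr fun x => ?_
  rw [lintegral_const_mul _ (measurable_gb_left x), lintegral_gb_nur t0 hR]

theorem vol_ball_V3 (x : V3) {t : ℝ} (ht : 0 ≤ t) :
    volume (ball x t) = ENNReal.ofReal (4 * Real.pi / 3 * t ^ 3) := by
  rw [EuclideanSpace.volume_ball_fin_three, ← ENNReal.ofReal_pow ht,
    ← ENNReal.ofReal_mul (by (clear * - ht; positivity))]
  congr 1
  ring

/-- lower bound -/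
theorem bm_nur_lower {d : V3 → ℝ} (hd : Dens d) {t0 : ℝ} (ht0 : 0 < t0) {Rs A : Set V3}
    (hR : MeasurableSet Rs) (hA : MeasurableSet A)
    (h : ∀ x ∈ A, ∀ z, dist z x < 2 * t0 → z ∈ Rs) :
    ENNReal.ofReal (4 * Real.pi / 3 * t0 ^ 4) * ENNReal.ofReal (∫ x in A, d x) ≤
      ∫⁻ p, ENNReal.ofReal (bm d p) ∂(nur t0 Rs) := by
  rw [lintegral_bm_nur hd t0 hR, ofReal_integral_eq_lintegral_ofReal hd.int.integrableOn
    (.of_forall hd.nn), ← lintegral_const_mul _ hd.meas.ennreal_ofReal,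
    ← lintegral_indicator hA]
  refine lintegral_mono fun x => ?_
  by_cases hx : x ∈ A
  · rw [indicator_of_mem hx, mul_comm]
    gcongr
    calc ENNReal.ofReal (4 * Real.pi / 3 * t0 ^ 4)
        = ∫⁻ _ in Ioc t0 (2 * t0), ENNReal.ofReal (4 * Real.pi / 3 * t0 ^ 3) := by
          rw [setLIntegral_const, Real.volume_Ioc, ← ENNReal.ofReal_mul (by (clear * - ht0; positivity))]
          congr 1
          ring
      _ ≤ ∫⁻ t in Ioc t0 (2 * t0), volume (ball x t ∩ Rs) := by
          refine setLIntegral_mono' measurableSet_Ioc fun t ht => ?_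
          have ht1 : 0 < t := ht0.trans ht.1
          have e : ball x t ∩ Rs = ball x t := by
            refine inter_eq_left.2 fun z hz => h x hx z ?_
            exact lt_of_lt_of_le (mem_ball.1 hz) ht.2
          rw [e, vol_ball_V3 x ht1.le]
          apply ENNReal.ofReal_le_ofReal
          have := ht.1.le
          gcongr
  · rw [indicator_of_notMem hx]
    exact zero_le

/-- upper bound -/
theorem bm_nur_upper {d : V3 → ℝ} (hd : Dens d) {t0 : ℝ} (ht0 : 0 < t0) {Rs N : Set V3}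
    (hR : MeasurableSet Rs) (hN : MeasurableSet N)
    (h : ∀ z ∈ Rs, ∀ x, dist z x < 2 * t0 → x ∈ N) :
    ∫⁻ p, ENNReal.ofReal (bm d p) ∂(nur t0 Rs) ≤
      ENNReal.ofReal (32 * Real.pi / 3 * t0 ^ 4) * ENNReal.ofReal (∫ x in N, d x) := by
  rw [lintegral_bm_nur hd t0 hR, ofReal_integral_eq_lintegral_ofReal hd.int.integrableOn
    (.of_forall hd.nn), ← lintegral_const_mul _ hd.meas.ennreal_ofReal,
    ← lintegral_indicator hN]
  refine lintegral_mono fun x => ?_
  by_cases hx : x ∈ N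
  · rw [indicator_of_mem hx, mul_comm]
    gcongr
    calc ∫⁻ t in Ioc t0 (2 * t0), volume (ball x t ∩ Rs)
        ≤ ∫⁻ _ in Ioc t0 (2 * t0), ENNReal.ofReal (32 * Real.pi / 3 * t0 ^ 3) := by
          refine setLIntegral_mono' measurableSet_Ioc fun t ht => ?_
          have ht1 : 0 < t := ht0.trans ht.1
          refine (measure_mono inter_subset_left).trans ?_
          rw [vol_ball_V3 x ht1.le]
          apply ENNReal.ofReal_le_ofReal
          have := ht.2
          calc 4 * Real.pi / 3 * t ^ 3 ≤ 4 * Real.pi / 3 * (2 * t0) ^ 3 := by (clear * - ht1 this; gcongr)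
            _ = 32 * Real.pi / 3 * t0 ^ 3 := by ring
      _ = ENNReal.ofReal (32 * Real.pi / 3 * t0 ^ 4) := by
          rw [setLIntegral_const, Real.volume_Ioc, ← ENNReal.ofReal_mul (by (clear * - ht0; positivity))]
          congr 1
          ring
  · rw [indicator_of_notMem hx]
    have e : ∀ t ∈ Ioc t0 (2 * t0), volume (ball x t ∩ Rs) = 0 := by
      intro t ht
      have : ball x t ∩ Rs = ∅ := by
        rw [eq_empty_iff_forall_notMem]
        intro z hz
        exact hx (h z hz.2 x (lt_of_lt_of_le (mem_ball.1 hz.1) ht.2))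
      rw [this, measure_empty]
    rw [setLIntegral_congr_fun measurableSet_Ioc e]
    simp only [lintegral_const, MeasurableSet.univ, Measure.restrict_apply, univ_inter, Real.volume_Ioc, zero_mul, mul_zero, Std.le_refl]

theorem bm_le_one {d : V3 → ℝ} (hd : Dens d) (h1 : ∫ x, d x = 1) (p : ℝ × V3) : bm d p ≤ 1 := by
  rw [← h1]
  exact setIntegral_le_integral hd.int (.of_forall hd.nn)

end Vale.Agent.P370.GC
end
end

section

section

/-!
Working versions of the energy functional (with `fderiv`), and the bridge to the statement-level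
definitions.
-/

namespace Vale.Agent.P370

open MeasureTheory

noncomputable def normSq {N : ℕ} (ψ : Wave N) : ℝ := ∑ s, ∫ x, ‖ψ x s‖ ^ 2

noncomputable def kinetic {N : ℕ} (ψ : Wave N) : ℝ :=
  (1 / 2) * ∑ s, ∑ i, ∑ k : Fin 3,
    ∫ x, ‖fderiv ℝ (fun y => ψ y s) x (Pi.single i (EuclideanSpace.single k 1))‖ ^ 2

noncomputable def energy {M N : ℕ} (R : Fin M → R3) (Z : Fin M → ℕ) (ψ : Wave N) : ℝ :=
  kinetic ψ + ∑ s, ∫ x, coulombV R Z x * ‖ψ x s‖ ^ 2

theorem mass_eq {N : ℕ} (ψ : Wave N) : mass ψ = normSq ψ := rfl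

theorem update_eq {N : ℕ} (x : Fin N → R3) (i : Fin N) (k : Fin 3) (t : ℝ) :
    Function.update x i (x i + EuclideanSpace.single k t) =
      x + t • (Pi.single i (EuclideanSpace.single k (1 : ℝ)) : Fin N → R3) := by
  funext j
  by_cases h : j = i
  · subst h
    rw [Function.update_self, Pi.add_apply, Pi.smul_apply, Pi.single_eq_same]
    congr 1
    ext l
    simp only [PiLp.single_apply, PiLp.smul_apply, smul_eq_mul, mul_ite, mul_one, mul_zero]
  · rw [Function.update_of_ne h, Pi.add_apply, Pi.smul_apply, Pi.single_eq_of_ne h, smul_zero,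
      add_zero]

theorem partialD_eq {N : ℕ} {ψ : Wave N} (hψ : IsTestState ψ) (i : Fin N) (k : Fin 3)
    (x : Fin N → R3) (s : Fin N → Fin 2) :
    partialD ψ i k x s =
      fderiv ℝ (fun y => ψ y s) x (Pi.single i (EuclideanSpace.single k 1)) := by
  unfold partialD
  simp only [update_eq]
  have hd : DifferentiableAt ℝ (fun y => ψ y s) x :=
    (hψ.smooth s).differentiable (by simp only [ne_eq, WithTop.coe_eq_zero, ENat.top_ne_zero, not_false_eq_true]) x
  exact hd.lineDeriv_eq_fderiv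

theorem energyForm_eq {M N : ℕ} (R : Fin M → R3) (Z : Fin M → ℕ) {ψ : Wave N}
    (hψ : IsTestState ψ) : energyForm R Z ψ = energy R Z ψ := by
  unfold energyForm energy kinetic mass integ
  simp only [partialD_eq hψ]
  congr 2
  have h1 : ∀ i : Fin N, (∑ k : Fin 3, ∑ s : Fin N → Fin 2,
      ∫ x, ‖fderiv ℝ (fun y => ψ y s) x (Pi.single i (EuclideanSpace.single k 1))‖ ^ 2) =
      ∑ s : Fin N → Fin 2, ∑ k : Fin 3,
      ∫ x, ‖fderiv ℝ (fun y => ψ y s) x (Pi.single i (EuclideanSpace.single k 1))‖ ^ 2 :=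
    fun i => Finset.sum_comm
  simp only [h1]
  exact Finset.sum_comm

end Vale.Agent.P370
end
end

section

section

/-!
Interface file for part A (the atomic limit).
-/

namespace Vale.Agent.P370

open MeasureTheory

end Vale.Agent.P370
end
end

section

section

/-!
The space of block singlets as a space of qubits (H6). Part A (iota_bs, snorm2_iota, iotaA_iota,
sip_iota, dotS_iota) is in Iota_A, part B (casimir_gap) in Iota_B.
-/
end
end

section

section

/-!
Integers in the typed polynomial time layer: encoding by sign and absolute value, ring operations,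
Euclidean division, comparisons, sums and products of lists.
-/

namespace Vale.Agent.Lib.PolyTime

open Function

variable {A : Set Word} {α β γ δ : Type*} [Enc α] [Enc β] [Enc γ] [Enc δ]

/-- Integers are encoded by sign and absolute value. -/
instance : Enc ℤ := ⟨fun z => enc (decide (z < 0), z.natAbs)⟩

theorem enc_int (z : ℤ) : enc z = enc (decide (z < 0), z.natAbs) := rfl

theorem esize_int (z : ℤ) : esize z = esize z.natAbs + 3 := by
  have h : esize z = esize (decide (z < 0), z.natAbs) := rfl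
  rw [h, esize_pair, esize_bool]
  omega

theorem esize_int_le {z : ℤ} {k : ℕ} (h : z.natAbs < 2 ^ k) : esize z ≤ k + 3 := by
  rw [esize_int]
  have := esize_nat_le h
  omega

theorem natAbs_lt_two_pow (z : ℤ) : z.natAbs < 2 ^ esize z := by
  refine (lt_two_pow_esize z.natAbs).trans_le (Nat.pow_le_pow_right (by norm_num) ?_)
  rw [esize_int]; omega

/-! ### Constructors and destructors -/

theorem PT.natAbs {f : α → ℤ} (hf : PT A f) : PT A (fun a => (f a).natAbs) := by
  have h : PT A (fun a => (decide (f a < 0), (f a).natAbs)) := by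
    obtain ⟨F, hF, hF'⟩ := hf
    exact ⟨F, hF, fun a => by rw [hF', enc_int]⟩
  exact h.snd

theorem PT.intNeg? {f : α → ℤ} (hf : PT A f) : PT A (fun a => decide (f a < 0)) := by
  have h : PT A (fun a => (decide (f a < 0), (f a).natAbs)) := by
    obtain ⟨F, hF, hF'⟩ := hf
    exact ⟨F, hF, fun a => by rw [hF', enc_int]⟩
  exact h.fst

/-- The difference of two natural numbers as an integer. -/
theorem PT.subNat {f g : α → ℕ} (hf : PT A f) (hg : PT A g) :
    PT A (fun a => (f a : ℤ) - (g a : ℤ)) := by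
  have h : PT A (fun a => (decide (f a < g a), (f a - g a) + (g a - f a))) :=
    (PT.lt hf hg).pair ((hf.sub hg).add (hg.sub hf))
  obtain ⟨F, hF, hF'⟩ := h
  refine ⟨F, hF, fun a => ?_⟩
  have e : (decide (f a < g a), (f a - g a) + (g a - f a)) =
      (decide ((f a : ℤ) - (g a : ℤ) < 0), ((f a : ℤ) - (g a : ℤ)).natAbs) :=
    Prod.ext (decide_eq_decide.2 (by omega)) (by simp only; omega)
  rw [hF', enc_int]
  exact congrArg enc e

theorem PT.natCast {f : α → ℕ} (hf : PT A f) : PT A (fun a => (f a : ℤ)) :=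
  (PT.subNat hf (PT.const 0)).congr fun a => by simp

theorem PT.posPart {f : α → ℤ} (hf : PT A f) : PT A (fun a => (f a).toNat) :=
  (PT.ite (p := fun a => f a < 0) hf.intNeg? (PT.const 0) hf.natAbs).congr fun a => by
    split_ifs with h <;> omega

theorem PT.intNeg {f : α → ℤ} (hf : PT A f) : PT A (fun a => - f a) := by
  have h : PT A (fun a => if f a < 0 then ((f a).natAbs : ℤ) - ((0 : ℕ) : ℤ)
      else ((0 : ℕ) : ℤ) - ((f a).natAbs : ℤ)) :=
    PT.ite (p := fun a => f a < 0) hf.intNeg? (PT.subNat hf.natAbs (PT.const 0))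
      (PT.subNat (PT.const 0) hf.natAbs)
  exact h.congr fun a => by split_ifs with h <;> omega

theorem PT.negPart {f : α → ℤ} (hf : PT A f) : PT A (fun a => (- f a).toNat) := hf.intNeg.posPart

/-! ### Ring operations -/

theorem PT.intAdd {f g : α → ℤ} (hf : PT A f) (hg : PT A g) : PT A (fun a => f a + g a) :=
  (PT.subNat (hf.posPart.add hg.posPart) (hf.negPart.add hg.negPart)).congr fun a => by
    push_cast; omega

theorem PT.intSub {f g : α → ℤ} (hf : PT A f) (hg : PT A g) : PT A (fun a => f a - g a) :=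
  (PT.subNat (hf.posPart.add hg.negPart) (hf.negPart.add hg.posPart)).congr fun a => by
    push_cast; omega

theorem PT.intMul {f g : α → ℤ} (hf : PT A f) (hg : PT A g) : PT A (fun a => f a * g a) := by
  refine (PT.subNat ((hf.posPart.mul hg.posPart).add (hf.negPart.mul hg.negPart))
    ((hf.posPart.mul hg.negPart).add (hf.negPart.mul hg.posPart))).congr fun a => ?_
  have h1 : f a = ((f a).toNat : ℤ) - ((- f a).toNat : ℤ) := by omega
  have h2 : g a = ((g a).toNat : ℤ) - ((- g a).toNat : ℤ) := by omega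
  conv_rhs => rw [h1, h2]
  push_cast
  ring

/-! ### Comparisons -/

theorem PT.intLt {f g : α → ℤ} (hf : PT A f) (hg : PT A g) :
    PT A (fun a => decide (f a < g a)) :=
  (hf.intSub hg).intNeg?.congr fun a => decide_eq_decide.2 (by omega)

theorem PT.intLe {f g : α → ℤ} (hf : PT A f) (hg : PT A g) :
    PT A (fun a => decide (f a ≤ g a)) :=
  (PT.intLt hg hf).not.congr fun a => by
    rw [← _root_.decide_not]
    exact decide_eq_decide.2 not_lt

theorem PT.intEq {f g : α → ℤ} (hf : PT A f) (hg : PT A g) :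
    PT A (fun a => decide (f a = g a)) :=
  ((hf.intLe hg).and (hg.intLe hf)).congr fun a => by
    rw [← Bool.decide_and]
    exact decide_eq_decide.2 le_antisymm_iff.symm

/-! ### Division -/

theorem ediv_eq (x y : ℤ) : x / y =
    if y = 0 then 0 else
      if 0 ≤ x then (if 0 < y then ((x.natAbs / y.natAbs : ℕ) : ℤ)
        else - ((x.natAbs / y.natAbs : ℕ) : ℤ))
      else (if 0 < y then - (((x.natAbs - 1) / y.natAbs + 1 : ℕ) : ℤ)
        else (((x.natAbs - 1) / y.natAbs + 1 : ℕ) : ℤ)) := by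
  by_cases hy : y = 0
  · rw [if_pos hy, hy, Int.ediv_zero]
  rw [if_neg hy]
  have key : ∀ y : ℤ, 0 < y → x / y = if 0 ≤ x then ((x.natAbs / y.natAbs : ℕ) : ℤ)
      else - (((x.natAbs - 1) / y.natAbs + 1 : ℕ) : ℤ) := by
    intro y hy
    obtain ⟨n, rfl⟩ : ∃ n : ℕ, y = n := ⟨y.toNat, by omega⟩
    by_cases hx : 0 ≤ x
    · rw [if_pos hx]
      obtain ⟨k, rfl⟩ : ∃ k : ℕ, x = k := ⟨x.toNat, by (clear * - hx; omega)⟩
      simp only [Int.natAbs_natCast, Int.natCast_ediv]
    · rw [if_neg hx]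
      obtain ⟨k, rfl⟩ : ∃ k : ℕ, x = Int.negSucc k := ⟨(-x - 1).toNat, by omega⟩
      rw [Int.negSucc_ediv _ hy]
      simp only [neg_add_rev, Int.reduceNeg, Int.natAbs_negSucc, Nat.succ_eq_add_one, add_tsub_cancel_right, Int.natAbs_natCast, Nat.cast_add, Int.natCast_ediv, Nat.cast_one, add_right_inj, neg_inj]
      rfl
  rcases lt_trichotomy y 0 with h | h | h
  · have h1 : x / y = - (x / (-y)) := by rw [Int.ediv_neg, neg_neg]
    rw [h1, key (-y) (by omega), Int.natAbs_neg]
    have h2 : ¬ 0 < y := by omega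
    simp only [h2, if_false]
    split_ifs <;> simp
  · exact absurd h hy
  · rw [key y h]
    simp only [h, if_true]

theorem PT.intDiv {f g : α → ℤ} (hf : PT A f) (hg : PT A g) : PT A (fun a => f a / g a) := by
  have h0 : PT A (fun a => decide (0 < g a)) := (PT.intLt (PT.const 0) hg)
  have q1 : PT A (fun a => (((f a).natAbs / (g a).natAbs : ℕ) : ℤ)) :=
    PT.natCast (hf.natAbs.div hg.natAbs)
  have q2 : PT A (fun a => ((((f a).natAbs - 1) / (g a).natAbs + 1 : ℕ) : ℤ)) :=
    PT.natCast (((hf.natAbs.sub (PT.const 1)).div hg.natAbs).add (PT.const 1))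
  refine (PT.ite (p := fun a => g a = 0) (PT.intEq hg (PT.const 0)) (PT.const 0)
    (PT.ite (p := fun a => 0 ≤ f a) (PT.intLe (PT.const 0) hf)
      (PT.ite (p := fun a => 0 < g a) h0 q1 q1.intNeg)
      (PT.ite (p := fun a => 0 < g a) h0 q2.intNeg q2))).congr fun a => ?_
  exact (ediv_eq _ _).symm

/-! ### Sums and products of lists -/

theorem natAbs_sum_lt (l : List ℤ) : l.sum.natAbs < 2 ^ esize l := by
  induction l with
  | nil => simp only [List.sum_nil, Int.natAbs_zero, esize_list_nil, pow_zero, Order.lt_one_iff]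
  | cons a l ih =>
    rw [List.sum_cons, esize_list_cons]
    have h1 := natAbs_lt_two_pow a
    have h2 : 2 ^ esize a ≤ 2 ^ (2 * esize a + esize l) :=
      Nat.pow_le_pow_right (by norm_num) (by (clear * -; omega))
    have h3 : 2 ^ esize l ≤ 2 ^ (2 * esize a + esize l) :=
      Nat.pow_le_pow_right (by norm_num) (by omega)
    rw [pow_succ]
    have := Int.natAbs_add_le a l.sum
    omega

theorem natAbs_prod_le (l : List ℤ) : l.prod.natAbs ≤ 2 ^ esize l := by
  induction l with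
  | nil => simp only [List.prod_nil, isUnit_one, Int.natAbs_of_isUnit, esize_list_nil, pow_zero, Std.le_refl]
  | cons a l ih =>
    rw [List.prod_cons, esize_list_cons, Int.natAbs_mul]
    have h1 := natAbs_lt_two_pow a
    calc a.natAbs * l.prod.natAbs ≤ 2 ^ esize a * 2 ^ esize l := Nat.mul_le_mul h1.le ih
      _ = 2 ^ (esize a + esize l) := (pow_add _ _ _).symm
      _ ≤ 2 ^ (2 * esize a + esize l + 1) := Nat.pow_le_pow_right (by norm_num) (by omega)

theorem esize_intSum_le (l : List ℤ) : esize l.sum ≤ esize l + 3 :=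
  esize_int_le (natAbs_sum_lt l)

theorem esize_intProd_le (l : List ℤ) : esize l.prod ≤ esize l + 4 := by
  have h : l.prod.natAbs < 2 ^ (esize l + 1) := by
    refine (natAbs_prod_le l).trans_lt ?_
    exact Nat.pow_lt_pow_right (by norm_num) (by omega)
  exact esize_int_le h

theorem PT.intSum {l : α → List ℤ} (hl : PT A l) : PT A (fun a => (l a).sum) := by
  refine (PT.foldr (init := fun _ => (0 : ℤ)) (f := fun _ x s => x + s) hl (PT.const 0)
    (PT.intAdd PT.snd'.fst PT.snd'.snd) (b := fun a => PolyTime.esize (l a) + 3)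
    (hl.pbd.add (PBd.const 3)) fun a i => ?_).congr fun a => ?_
  · rw [← List.sum_eq_foldr]
    have h1 := esize_intSum_le ((l a).drop i)
    have h2 := esize_drop_le i (l a)
    omega
  · rw [← List.sum_eq_foldr]

theorem PT.intProd {l : α → List ℤ} (hl : PT A l) : PT A (fun a => (l a).prod) := by
  refine (PT.foldr (init := fun _ => (1 : ℤ)) (f := fun _ x s => x * s) hl (PT.const 1)
    (PT.intMul PT.snd'.fst PT.snd'.snd) (b := fun a => PolyTime.esize (l a) + 4)
    (hl.pbd.add (PBd.const 4)) fun a i => ?_).congr fun a => ?_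
  · rw [← List.prod_eq_foldr]
    have h1 := esize_intProd_le ((l a).drop i)
    have h2 := esize_drop_le i (l a)
    omega
  · rw [← List.prod_eq_foldr]

/-- Power with a fixed exponent. -/
theorem PT.intPow {f : α → ℤ} (hf : PT A f) (k : ℕ) : PT A (fun a => f a ^ k) := by
  induction k with
  | zero => exact (PT.const 1).congr fun a => (pow_zero _).symm
  | succ k ih => exact (ih.intMul hf).congr fun a => (pow_succ _ _).symm

end Vale.Agent.Lib.PolyTime
end
end

section

section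

/-!
Polynomial time: maps and sums over ranges, powers of two, Gaussian powers.
-/

namespace Vale.Agent.Lib.PolyTime

open Function

variable {A : Set Word} {α β γ δ : Type*} [Enc α] [Enc β] [Enc γ] [Enc δ]

theorem rangeUn_rec (n : ℕ) :
    Nat.rec (motive := fun _ => List Un) [] (fun _ l => l ++ [Un.mk l.length]) n =
      (List.range n).map Un.mk := by
  induction n with
  | zero => rfl
  | succ n ih =>
    show (Nat.rec (motive := fun _ => List Un) [] (fun _ l => l ++ [Un.mk l.length]) n) ++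
      [Un.mk (Nat.rec (motive := fun _ => List Un) [] (fun _ l => l ++ [Un.mk l.length]) n).length]
        = _
    rw [ih, List.range_succ, List.map_append]
    simp

theorem esize_rangeUn (n : ℕ) : esize ((List.range n).map Un.mk) ≤ n * (2 * n + 1) := by
  refine (esize_list_le (B := n) ?_).trans ?_
  · intro x hx
    obtain ⟨y, hy, rfl⟩ := List.mem_map.1 hx
    rw [esize_un]
    exact (List.mem_range.1 hy).le
  · simp

theorem PT.rangeUn {k : α → ℕ} (hk : PT A k) (hkb : PBd k) :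
    PT A (fun a => (List.range (k a)).map Un.mk) := by
  have hB : PBd (fun a => k a * (2 * k a + 1)) := by fun_prop
  refine (PT.natRec (init := fun _ => ([] : List Un))
    (step := fun _ _ l => l ++ [Un.mk l.length]) hk hkb (PT.const [])
    (PT.append PT.snd'.snd (PT.cons (PT.mkUn (PT.length PT.snd'.snd)
      (PBd.length (A := A) PT.snd'.snd)) (PT.const []))) hB fun a j hj => ?_).congr fun a => ?_
  · rw [rangeUn_rec]
    exact (esize_rangeUn j).trans (Nat.mul_le_mul hj (by omega))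
  · exact rangeUn_rec _

theorem PT.rangeMap {k : α → ℕ} {f : α → ℕ → β} (hk : PT A k) (hkb : PBd k)
    (hf : PT A (fun p : α × Un => f p.1 p.2.v)) :
    PT A (fun a => (List.range (k a)).map (f a)) :=
  (PT.map (f := fun a (u : Un) => f a u.v) (PT.rangeUn hk hkb) hf).congr fun a => by
    rw [List.map_map]; rfl

theorem PT.rangeSumInt {k : α → ℕ} {f : α → ℕ → ℤ} (hk : PT A k) (hkb : PBd k)
    (hf : PT A (fun p : α × Un => f p.1 p.2.v)) :
    PT A (fun a => ((List.range (k a)).map (f a)).sum) :=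
  PT.intSum (PT.rangeMap hk hkb hf)

theorem PT.rangeSumNat {k : α → ℕ} {f : α → ℕ → ℕ} (hk : PT A k) (hkb : PBd k)
    (hf : PT A (fun p : α × Un => f p.1 p.2.v)) :
    PT A (fun a => ((List.range (k a)).map (f a)).sum) :=
  PT.sum (PT.rangeMap hk hkb hf)

theorem PT.rangeFlatMap {k : α → ℕ} {f : α → ℕ → List β} (hk : PT A k) (hkb : PBd k)
    (hf : PT A (fun p : α × Un => f p.1 p.2.v)) :
    PT A (fun a => (List.range (k a)).flatMap (f a)) :=
  (PT.flatten (PT.rangeMap hk hkb hf)).congr fun a => by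
    rw [List.flatMap_def]

theorem PT.twoPow {e : α → ℕ} (he : PT A e) (heb : PBd e) : PT A (fun a => 2 ^ e a) :=
  PT.pow (PT.const 2) he heb

theorem PT.twoPowInt {e : α → ℕ} (he : PT A e) (heb : PBd e) :
    PT A (fun a => (2 : ℤ) ^ e a) :=
  (PT.natCast (PT.twoPow he heb)).congr fun a => by push_cast; rfl

/-- The number of a unary counter. -/
theorem PBd.unSnd {α : Type*} [Enc α] : PBd (fun p : α × Un => p.2.v) :=
  PBd.unVal (A := ∅) PT.snd'

theorem PBd.compFst {b : α → ℕ} (hb : PBd b) : PBd (fun p : α × β => b p.1) :=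
  PBd.comp (A := ∅) hb PT.fst'

end Vale.Agent.Lib.PolyTime
end
end

section

section

/-!
The integer square root is computable in polynomial time (bit by bit).
-/

namespace Vale.Agent.Lib.PolyTime

/-- One step of the bitwise square root. -/
def sqrtSt (x s j r : ℕ) : ℕ :=
  if (r + 2 ^ (s - 1 - j)) ^ 2 ≤ x then r + 2 ^ (s - 1 - j) else r

theorem sqrtSt_rec (x s : ℕ) (hx : x < 2 ^ s) (j : ℕ) (hj : j ≤ s) :
    (Nat.rec (motive := fun _ => ℕ) 0 (sqrtSt x s) j) ^ 2 ≤ x ∧
      x < (Nat.rec (motive := fun _ => ℕ) 0 (sqrtSt x s) j + 2 ^ (s - j)) ^ 2 := by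
  induction j with
  | zero =>
    refine ⟨by simp only [Nat.rec_zero, ne_eq, OfNat.ofNat_ne_zero, not_false_eq_true, zero_pow, zero_le], ?_⟩
    show x < (0 + 2 ^ (s - 0)) ^ 2
    rw [zero_add, Nat.sub_zero]
    calc x < 2 ^ s := hx
      _ = (2 ^ s) ^ 1 := by rw [pow_one]
      _ ≤ (2 ^ s) ^ 2 := Nat.pow_le_pow_right (by (clear * -; positivity)) (by norm_num)
  | succ j ih =>
    obtain ⟨h1, h2⟩ := ih (by omega)
    show sqrtSt x s j (Nat.rec (motive := fun _ => ℕ) 0 (sqrtSt x s) j) ^ 2 ≤ x ∧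
      x < (sqrtSt x s j (Nat.rec (motive := fun _ => ℕ) 0 (sqrtSt x s) j) +
        2 ^ (s - (j + 1))) ^ 2
    generalize Nat.rec (motive := fun _ => ℕ) 0 (sqrtSt x s) j = r at h1 h2 ⊢
    have e1 : s - 1 - j = s - (j + 1) := by omega
    have e2 : 2 ^ (s - j) = 2 ^ (s - (j + 1)) + 2 ^ (s - (j + 1)) := by
      have : s - j = (s - (j + 1)) + 1 := by omega
      rw [this, pow_succ]
      ring
    unfold sqrtSt
    rw [e1]
    split_ifs with h
    · refine ⟨h, ?_⟩
      rw [add_assoc, ← e2]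
      exact h2
    · exact ⟨h1, not_le.1 h⟩

theorem PT.natSqrt {A : Set Word} {α : Type*} [Enc α] {f : α → ℕ} (hf : PT A f) :
    PT A (fun a => Nat.sqrt (f a)) := by
  have hs : PT A (fun a => PolyTime.esize (f a)) := PT.size hf
  have hsb : PBd (fun a => PolyTime.esize (f a)) := hf.pbd
  refine (PT.natRec (init := fun _ => 0)
    (step := fun a => sqrtSt (f a) (PolyTime.esize (f a))) hs hsb (PT.const 0) ?_
    (b := fun a => PolyTime.esize (f a)) hsb fun a j hj => ?_).congr fun a => ?_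
  · unfold sqrtSt
    have h1 : PT A (fun p : α × ℕ × ℕ => PolyTime.esize (f p.1)) := hs.comp PT.fst'
    have h2 : PBd (fun p : α × ℕ × ℕ => PolyTime.esize (f p.1)) :=
      PBd.comp (A := A) (b := fun a => PolyTime.esize (f a)) hsb PT.fst'
    have h3 : PT A (fun p : α × ℕ × ℕ => p.2.2 +
        2 ^ (PolyTime.esize (f p.1) - 1 - p.2.1)) :=
      PT.snd'.snd.add (PT.pow (PT.const 2) ((h1.sub (PT.const 1)).sub PT.snd'.fst)
        (h2.mono fun p => (Nat.sub_le _ _).trans (Nat.sub_le _ _)))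
    exact PT.ite (PT.le (h3.powConst 2) (hf.comp PT.fst')) h3 PT.snd'.snd
  · refine esize_nat_mono ?_
    have h1 := (sqrtSt_rec (f a) _ (lt_two_pow_esize (f a)) j hj).1
    exact (Nat.le_self_pow (by norm_num) _).trans h1
  · obtain ⟨h1, h2⟩ := sqrtSt_rec (f a) _ (lt_two_pow_esize (f a)) _ le_rfl
    rw [Nat.sub_self, pow_zero] at h2
    rw [pow_two] at h1 h2
    exact Nat.eq_sqrt.2 ⟨h1, h2⟩

end Vale.Agent.Lib.PolyTime
end
end

section

section

/-!
The instance builder: integer arithmetic only. `k` is the logarithm of the number of sites.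
Angles are measured in units of `π / (2 D)`.
-/

namespace Vale.Agent.P370.Q.Alg

/-- number of sites -/
def aK (k : ℕ) : ℕ := 2 ^ k

/-- open shell -/
def an (k : ℕ) : ℕ := 2 ^ (2048 * k)

/-- size of the grid -/
def aD (k : ℕ) : ℕ := 16 * an k

/-- working precision (bits) -/
def aQ (k : ℕ) : ℕ := 512 * an k ^ 3

/-- `ch P m` approximates `2^P cos (π / 2^(m+1))` -/
def ch (P : ℕ) : ℕ → ℕ
  | 0 => 0
  | m + 1 => Nat.sqrt ((2 ^ P + ch P m) * 2 ^ (P - 1))

theorem ch_zero (P : ℕ) : ch P 0 = 0 := rfl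

theorem ch_succ (P m : ℕ) : ch P (m + 1) = Nat.sqrt ((2 ^ P + ch P m) * 2 ^ (P - 1)) := rfl

/-- `sh P m` approximates `2^P sin (π / 2^(m+1))` -/
def sh (P m : ℕ) : ℕ := Nat.sqrt (2 ^ (2 * P) - ch P m ^ 2)

/-- powers of the Gaussian integer `c + s i` -/
def gp (c s : ℤ) : ℕ → ℤ × ℤ
  | 0 => (1, 0)
  | j + 1 => ((gp c s j).1 * c - (gp c s j).2 * s, (gp c s j).1 * s + (gp c s j).2 * c)

theorem gp_zero (c s : ℤ) : gp c s 0 = (1, 0) := rfl

theorem gp_succ (c s : ℤ) (j : ℕ) : gp c s (j + 1) =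
    ((gp c s j).1 * c - (gp c s j).2 * s, (gp c s j).1 * s + (gp c s j).2 * c) := rfl

/-- `zet k j` is the `j`-th power of the approximation of `2^P exp (i π / (2 D))`, `P = 2 Q` -/
def zet (k j : ℕ) : ℤ × ℤ :=
  gp (ch (2 * aQ k) (2048 * k + 4)) (sh (2 * aQ k) (2048 * k + 4)) j

/-- `2^Q cos (π j / (2 D))` -/
def cs (k j : ℕ) : ℤ := (zet k j).1 * 2 ^ aQ k / 2 ^ (2 * aQ k * j)

/-- `2^Q sin (π j / (2 D))` -/
def sn (k j : ℕ) : ℤ := (zet k j).2 * 2 ^ aQ k / 2 ^ (2 * aQ k * j)

/-- multipole order at distance `d` -/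
def aq (k d : ℕ) : ℕ :=
  min (an k - 1)
    ((cs k (d * 2 ^ (2047 * k + 4)) * ((an k : ℤ) - 1) + 2 ^ (aQ k - 1)) / 2 ^ aQ k).toNat

/-- unit of strength of a device -/
def aXu (k N : ℕ) : ℕ :=
  2 ^ (16 * an k ^ 2 * N) * (2 * N + 1) * ((2 * an k).factorial / (2 * an k - 1 - N).factorial) *
    (an k / 2) ^ (N + 1)

/-- `Re` of the `N`-th power of `cos θ_a + i sin θ_a cos (φ_b - g)`, scaled by `2^(Q N)`; `g` in
units of `π / (2 D)` -/
def gre (k a b g N : ℕ) : ℤ :=
  (gp (cs k (2 * a + 1)) (sn k (2 * a + 1) * cs k (4 * b + 4 * aD k - g) / 2 ^ aQ k) N).1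

/-- device term with amplitude `amp` -/
def dterm (k a b g N amp : ℕ) : ℤ := (amp : ℤ) * gre k a b g N / 2 ^ (aQ k * N)

/-- sum of the top devices -/
def topSum (k a b : ℕ) : ℤ :=
  ((List.range (aK k)).map fun i =>
    dterm k a b (i * 2 ^ (2047 * k + 5)) (2 * (an k - 1))
      (2 ^ (an k / (4 * aK k ^ 2)) * aXu k (2 * (an k - 1)))).sum

/-- coupling parameter of the pair `i, j`; `s` is the list of the parameters -/
def sget (k : ℕ) (s : List ℕ) (i j : ℕ) : ℕ := s.getD (i * aK k + j) 0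

/-- sum of the hopping devices -/
def hopSum (k : ℕ) (s : List ℕ) (a b : ℕ) : ℤ :=
  ((List.range (aK k)).map fun j => ((List.range j).map fun i =>
    dterm k a b ((i + j) * 2 ^ (2047 * k + 4)) (2 * aq k (j - i))
      (sget k s i j * (aXu k (2 * aq k (j - i)) / 2 ^ an k))).sum).sum

/-- Fejér weight, scaled by `2^Q D²` -/
def fejA (k a : ℕ) : ℤ :=
  2 ^ aQ k - 2 * ((List.range (aD k / 2)).map fun j =>
    cs k (2 * (j + 1) * (2 * a + 1)) / (4 * ((j : ℤ) + 1) ^ 2 - 1)).sum

/-- charge of the node `(a, b)` -/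
def chg (k : ℕ) (s : List ℕ) (a b : ℕ) : ℕ :=
  (fejA k a * (2 ^ (128 * an k ^ 3) + topSum k a b + hopSum k s a b) /
    (2 ^ aQ k * (aD k : ℤ) ^ 2)).toNat

/-- coordinates of the node, scaled by `2^Q` -/
def crd (k a b c : ℕ) : ℤ :=
  if c = 0 then sn k (2 * a + 1) * cs k (4 * b) / 2 ^ aQ k
  else if c = 1 then sn k (2 * a + 1) * sn k (4 * b) / 2 ^ aQ k
  else cs k (2 * a + 1)

/-- numerator of the coordinate of the nucleus; the number of the node is stored in the low order
bits -/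
def numer (k a b c : ℕ) : ℤ := 2 * (crd k a b c * (aD k : ℤ) ^ 2 + (a * aD k + b)) + 1

/-- exponent of the denominator of the coordinates -/
def bexp (k : ℕ) : ℕ := 1 + 2 * (2048 * k + 4) + aQ k + 16 * an k ^ 2 + 2000 * an k ^ 3

/-- total nuclear charge -/
def aT (k : ℕ) : ℕ := 2 ^ (2000 * an k ^ 3)

/-- sum of the charges of the light nuclei -/
def chgSum (k : ℕ) (s : List ℕ) : ℕ :=
  ((List.range (aD k * aD k)).map fun β => chg k s (β / aD k) (β % aD k)).sum

/-- number of electrons -/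
def aN (k : ℕ) : ℕ := 2 * ((List.range (an k)).map fun j => j ^ 2).sum + aK k

/-- code of the rational number `m / 2^e` with odd `m` -/
def encDy (m : ℤ) (e : ℕ) : List Bool :=
  decide (m < 0) :: (encNat m.natAbs ++ encNat (2 ^ e))

/-- code of an integer as a rational number -/
def encZ (m : ℤ) : List Bool := decide (m < 0) :: (encNat m.natAbs ++ encNat 1)

/-- The word encoding the instance with threshold `th`, `th + 1`. -/
def build (k : ℕ) (s : List ℕ) (th : ℤ) : List Bool :=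
  (true :: (encZ 0 ++ encZ 0 ++ encZ 0 ++ encNat (aT k - chgSum k s))) ++
  ((List.range (aD k * aD k)).flatMap fun β =>
    true :: (encDy (numer k (β / aD k) (β % aD k) 0) (bexp k) ++
      encDy (numer k (β / aD k) (β % aD k) 1) (bexp k) ++
      encDy (numer k (β / aD k) (β % aD k) 2) (bexp k) ++
      encNat (chg k s (β / aD k) (β % aD k)))) ++
  [false] ++ List.replicate (aN k) true ++ [false] ++ encZ th ++ encZ (th + 1)

/-- the instance encoded by `build` -/
noncomputable def inst (k : ℕ) (s : List ℕ) (th : ℤ) : Instance where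
  M := aD k * aD k + 1
  pos := Fin.cons 0 (fun β c => (numer k (β / aD k) (β % aD k) c : ℚ) / 2 ^ bexp k)
  charge := Fin.cons (aT k - chgSum k s) (fun β => chg k s (β / aD k) (β % aD k))
  N := aN k
  a := th
  b := th + 1

end Vale.Agent.P370.Q.Alg
end
end

section

section

/-!
The instance builder runs in polynomial time.
-/

namespace Vale.Agent.P370.Q.Alg

open Vale.Agent.Lib.PolyTime

variable {A : Set Word} {α : Type*} [Enc α] {k : α → ℕ}

theorem pbd_k (hK : PBd (fun a => 2 ^ k a)) : PBd k :=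
  hK.mono fun _ => Nat.lt_two_pow_self.le

theorem pbd_aK (hK : PBd (fun a => 2 ^ k a)) : PBd (fun a => aK (k a)) := hK

theorem pbd_an (hK : PBd (fun a => 2 ^ k a)) : PBd (fun a => an (k a)) :=
  (hK.pow 2048).mono fun a => by rw [an, ← pow_mul, mul_comm]

theorem pbd_aD (hK : PBd (fun a => 2 ^ k a)) : PBd (fun a => aD (k a)) :=
  (PBd.const 16).mul (pbd_an hK)

theorem pbd_aQ (hK : PBd (fun a => 2 ^ k a)) : PBd (fun a => aQ (k a)) :=
  (PBd.const 512).mul ((pbd_an hK).pow 3)

theorem pt_aK (hk : PT A k) (hK : PBd (fun a => 2 ^ k a)) : PT A (fun a => aK (k a)) :=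
  PT.twoPow hk (pbd_k hK)

theorem pt_an (hk : PT A k) (hK : PBd (fun a => 2 ^ k a)) : PT A (fun a => an (k a)) :=
  PT.twoPow ((PT.const 2048).mul hk) ((PBd.const 2048).mul (pbd_k hK))

theorem pt_aD (hk : PT A k) (hK : PBd (fun a => 2 ^ k a)) : PT A (fun a => aD (k a)) :=
  (PT.const 16).mul (pt_an hk hK)

theorem pt_aQ (hk : PT A k) (hK : PBd (fun a => 2 ^ k a)) : PT A (fun a => aQ (k a)) :=
  (PT.const 512).mul ((pt_an hk hK).powConst 3)

/-! ### trigonometric table -/

theorem ch_eq_rec (P m : ℕ) :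
    ch P m = Nat.rec (motive := fun _ => ℕ) 0
      (fun _ x => Nat.sqrt ((2 ^ P + x) * 2 ^ (P - 1))) m := by
  induction m with
  | zero => rfl
  | succ m ih => rw [ch_succ, ih]

theorem ch_lt (P m : ℕ) : ch P m < 2 ^ (P + 1) := by
  induction m with
  | zero => exact pow_pos two_pos _
  | succ m ih =>
    rw [ch_succ, Nat.sqrt_lt']
    have h1 : 2 ^ P + ch P m < 2 ^ (P + 2) := by
      have : (2 : ℕ) ^ (P + 2) = 2 ^ P + 2 ^ P + 2 ^ (P + 1) := by ring
      have h2 : 0 < 2 ^ P := pow_pos two_pos _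
      omega
    have h3 : 2 ^ (P - 1) ≤ 2 ^ P := Nat.pow_le_pow_right two_pos (Nat.sub_le _ _)
    calc (2 ^ P + ch P m) * 2 ^ (P - 1) ≤ (2 ^ P + ch P m) * 2 ^ P := Nat.mul_le_mul_left _ h3
      _ < 2 ^ (P + 2) * 2 ^ P := Nat.mul_lt_mul_of_pos_right h1 (pow_pos two_pos _)
      _ = (2 ^ (P + 1)) ^ 2 := by rw [← pow_mul, ← pow_add]; ring_nf

theorem pt_ch {P m : α → ℕ} (hP : PT A P) (hPb : PBd P) (hm : PT A m) (hmb : PBd m) :
    PT A (fun a => ch (P a) (m a)) := by
  refine (PT.natRec (init := fun _ => 0)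
    (step := fun a _ x => Nat.sqrt ((2 ^ P a + x) * 2 ^ (P a - 1))) hm hmb (PT.const 0) ?_
    (b := fun a => P a + 1) (hPb.add (PBd.const 1)) fun a j _ => ?_).congr fun a => ?_
  · have h1 : PT A (fun p : α × ℕ × ℕ => P p.1) := hP.comp PT.fst'
    have h2 : PBd (fun p : α × ℕ × ℕ => P p.1) := hPb.compFst
    exact PT.natSqrt (((PT.twoPow h1 h2).add PT.snd'.snd).mul
      (PT.twoPow (h1.sub (PT.const 1)) (h2.mono fun _ => Nat.sub_le _ _)))
  · rw [← ch_eq_rec]
    exact esize_nat_le (ch_lt _ _)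
  · exact (ch_eq_rec _ _).symm

theorem pt_sh {P m : α → ℕ} (hP : PT A P) (hPb : PBd P) (hm : PT A m) (hmb : PBd m) :
    PT A (fun a => sh (P a) (m a)) :=
  PT.natSqrt ((PT.twoPow ((PT.const 2).mul hP) ((PBd.const 2).mul hPb)).sub
    ((pt_ch hP hPb hm hmb).powConst 2))

theorem gp_eq_rec (c s : ℤ) (j : ℕ) :
    gp c s j = Nat.rec (motive := fun _ => ℤ × ℤ) (1, 0)
      (fun _ p => (p.1 * c - p.2 * s, p.1 * s + p.2 * c)) j := by
  induction j with
  | zero => rfl
  | succ j ih => rw [gp_succ, ih]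

theorem gp_bound (c s : ℤ) (j : ℕ) :
    (gp c s j).1.natAbs + (gp c s j).2.natAbs ≤ (c.natAbs + s.natAbs) ^ j := by
  induction j with
  | zero => simp only [gp_zero, isUnit_one, Int.natAbs_of_isUnit, Int.natAbs_zero, add_zero, pow_zero, Std.le_refl]
  | succ j ih =>
    rw [gp_succ, pow_succ]
    have h1 : ((gp c s j).1 * c - (gp c s j).2 * s).natAbs ≤
        (gp c s j).1.natAbs * c.natAbs + (gp c s j).2.natAbs * s.natAbs := by
      refine (Int.natAbs_sub_le _ _).trans ?_
      rw [Int.natAbs_mul, Int.natAbs_mul]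
    have h2 : ((gp c s j).1 * s + (gp c s j).2 * c).natAbs ≤
        (gp c s j).1.natAbs * s.natAbs + (gp c s j).2.natAbs * c.natAbs := by
      refine (Int.natAbs_add_le _ _).trans ?_
      rw [Int.natAbs_mul, Int.natAbs_mul]
    calc _ ≤ ((gp c s j).1.natAbs + (gp c s j).2.natAbs) * (c.natAbs + s.natAbs) := by
          simp only
          linarith
      _ ≤ _ := Nat.mul_le_mul_right _ ih

theorem gp_size (c s : ℤ) (j B : ℕ) (hc : c.natAbs < 2 ^ B) (hs : s.natAbs < 2 ^ B) :
    (gp c s j).1.natAbs < 2 ^ ((B + 1) * j + 1) ∧ (gp c s j).2.natAbs < 2 ^ ((B + 1) * j + 1) := by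
  have h1 := gp_bound c s j
  have h2 : (c.natAbs + s.natAbs) ^ j ≤ (2 ^ (B + 1)) ^ j := by
    refine Nat.pow_le_pow_left ?_ j
    have : (2 : ℕ) ^ (B + 1) = 2 ^ B + 2 ^ B := by ring
    omega
  rw [← pow_mul] at h2
  have h3 : (2 : ℕ) ^ ((B + 1) * j) < 2 ^ ((B + 1) * j + 1) :=
    Nat.pow_lt_pow_right (by (clear * -; norm_num)) (by omega)
  omega

theorem pt_gp {c s : α → ℤ} {j : α → ℕ} (hc : PT A c) (hs : PT A s) (hj : PT A j) (hjb : PBd j) :
    PT A (fun a => gp (c a) (s a) (j a)) := by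
  have hcb := hc.pbd
  have hsb := hs.pbd
  refine (PT.natRec (init := fun _ => ((1 : ℤ), (0 : ℤ)))
    (step := fun a _ p => (p.1 * c a - p.2 * s a, p.1 * s a + p.2 * c a)) hj hjb (PT.const _) ?_
    (b := fun a => 3 * ((esize (c a) + esize (s a) + 1) * j a + 4) + 1)
    (by fun_prop) fun a i hi => ?_).congr fun a => ?_
  · have h1 : PT A (fun p : α × ℕ × (ℤ × ℤ) => c p.1) := hc.comp PT.fst'
    have h2 : PT A (fun p : α × ℕ × (ℤ × ℤ) => s p.1) := hs.comp PT.fst'
    have h3 : PT A (fun p : α × ℕ × (ℤ × ℤ) => p.2.2.1) := PT.snd'.snd.fst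
    have h4 : PT A (fun p : α × ℕ × (ℤ × ℤ) => p.2.2.2) := PT.snd'.snd.snd
    exact ((h3.intMul h1).intSub (h4.intMul h2)).pair ((h3.intMul h2).intAdd (h4.intMul h1))
  · rw [← gp_eq_rec, ← Prod.mk.eta (p := gp (c a) (s a) i), esize_pair]
    have h1 : (c a).natAbs < 2 ^ (esize (c a) + esize (s a)) :=
      (natAbs_lt_two_pow _).trans_le (Nat.pow_le_pow_right two_pos (Nat.le_add_right _ _))
    have h2 : (s a).natAbs < 2 ^ (esize (c a) + esize (s a)) :=
      (natAbs_lt_two_pow _).trans_le (Nat.pow_le_pow_right two_pos (Nat.le_add_left _ _))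
    obtain ⟨h3, h4⟩ := gp_size (c a) (s a) i _ h1 h2
    have h5 := esize_int_le h3
    have h6 := esize_int_le h4
    have h7 : (esize (c a) + esize (s a) + 1) * i ≤ (esize (c a) + esize (s a) + 1) * j a :=
      Nat.mul_le_mul_left _ hi
    omega
  · exact (gp_eq_rec _ _ _).symm

theorem pt_zet {j : α → ℕ} (hk : PT A k) (hK : PBd (fun a => 2 ^ k a)) (hj : PT A j)
    (hjb : PBd j) : PT A (fun a => zet (k a) (j a)) := by
  have hQ := pt_aQ hk hK
  have hQb := pbd_aQ hK
  have hkb := pbd_k hK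
  have h1 : PT A (fun a => 2 * aQ (k a)) := (PT.const 2).mul hQ
  have h1b : PBd (fun a => 2 * aQ (k a)) := by fun_prop
  have h2 : PT A (fun a => 2048 * k a + 4) := ((PT.const 2048).mul hk).add (PT.const 4)
  have h2b : PBd (fun a => 2048 * k a + 4) := by fun_prop
  exact pt_gp (PT.natCast (pt_ch h1 h1b h2 h2b)) (PT.natCast (pt_sh h1 h1b h2 h2b)) hj hjb

theorem pt_cs {j : α → ℕ} (hk : PT A k) (hK : PBd (fun a => 2 ^ k a)) (hj : PT A j)
    (hjb : PBd j) : PT A (fun a => cs (k a) (j a)) := by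
  have hQ := pt_aQ hk hK
  have hQb := pbd_aQ hK
  exact ((pt_zet hk hK hj hjb).fst.intMul (PT.twoPowInt hQ hQb)).intDiv
    (PT.twoPowInt (((PT.const 2).mul hQ).mul hj) (by fun_prop))

theorem pt_sn {j : α → ℕ} (hk : PT A k) (hK : PBd (fun a => 2 ^ k a)) (hj : PT A j)
    (hjb : PBd j) : PT A (fun a => sn (k a) (j a)) := by
  have hQ := pt_aQ hk hK
  have hQb := pbd_aQ hK
  exact ((pt_zet hk hK hj hjb).snd.intMul (PT.twoPowInt hQ hQb)).intDiv
    (PT.twoPowInt (((PT.const 2).mul hQ).mul hj) (by fun_prop))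


/-! ### devices -/

theorem pt_aq {d : α → ℕ} (hk : PT A k) (hK : PBd (fun a => 2 ^ k a)) (hd : PT A d)
    (hdb : PBd d) : PT A (fun a => aq (k a) (d a)) := by
  have hkb := pbd_k hK
  have h1 : PT A (fun a => 2 ^ (2047 * k a + 4)) :=
    PT.twoPow (((PT.const 2047).mul hk).add (PT.const 4)) (by fun_prop)
  have h1b : PBd (fun a => 2 ^ (2047 * k a + 4)) :=
    ((hK.pow 2047).mul (PBd.const 16)).mono fun a => by
      rw [← pow_mul, pow_add, mul_comm (k a) 2047]; norm_num
  have h2 := pt_cs hk hK (hd.mul h1) (hdb.mul h1b)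
  exact PT.min ((pt_an hk hK).sub (PT.const 1)) (PT.posPart (((h2.intMul
    ((PT.natCast (pt_an hk hK)).intSub (PT.const 1))).intAdd (PT.twoPowInt
    ((pt_aQ hk hK).sub (PT.const 1)) ((pbd_aQ hK).mono fun _ => Nat.sub_le _ _))).intDiv
    (PT.twoPowInt (pt_aQ hk hK) (pbd_aQ hK))))

theorem pbd_aq {d : α → ℕ} (hK : PBd (fun a => 2 ^ k a)) : PBd (fun a => aq (k a) (d a)) :=
  (pbd_an hK).mono fun a => (min_le_left _ _).trans (Nat.sub_le _ _)

theorem pt_aXu {N : α → ℕ} (hk : PT A k) (hK : PBd (fun a => 2 ^ k a)) (hN : PT A N)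
    (hNb : PBd N) : PT A (fun a => aXu (k a) (N a)) := by
  have hn := pt_an hk hK
  have hnb := pbd_an hK
  refine PT.mul (PT.mul (PT.mul (PT.twoPow (((PT.const 16).mul (hn.powConst 2)).mul hN)
    (by fun_prop)) (((PT.const 2).mul hN).add (PT.const 1))) (PT.div
    (PT.factorial ((PT.const 2).mul hn) (by fun_prop))
    (PT.factorial ((((PT.const 2).mul hn).sub (PT.const 1)).sub hN) ?_))) (PT.pow
    (hn.div (PT.const 2)) (hN.add (PT.const 1)) (by fun_prop))
  exact ((PBd.const 2).mul hnb).mono fun a => by omega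

theorem pt_gre {x y g N : α → ℕ} (hk : PT A k) (hK : PBd (fun a => 2 ^ k a)) (hx : PT A x)
    (hxb : PBd x) (hy : PT A y) (hyb : PBd y) (hg : PT A g) (hN : PT A N)
    (hNb : PBd N) : PT A (fun a => gre (k a) (x a) (y a) (g a) (N a)) := by
  have h1 : PT A (fun a => 2 * x a + 1) := ((PT.const 2).mul hx).add (PT.const 1)
  have h1b : PBd (fun a => 2 * x a + 1) := by fun_prop
  have h2 : PT A (fun a => 4 * y a + 4 * aD (k a) - g a) :=
    (((PT.const 4).mul hy).add ((PT.const 4).mul (pt_aD hk hK))).sub hg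
  have hDb := pbd_aD hK
  have h2b : PBd (fun a => 4 * y a + 4 * aD (k a) - g a) :=
    (((PBd.const 4).mul hyb).add ((PBd.const 4).mul hDb)).mono fun a => Nat.sub_le _ _
  exact (pt_gp (pt_cs hk hK h1 h1b) (((pt_sn hk hK h1 h1b).intMul (pt_cs hk hK h2 h2b)).intDiv
    (PT.twoPowInt (pt_aQ hk hK) (pbd_aQ hK))) hN hNb).fst

theorem pt_dterm {x y g N m : α → ℕ} (hk : PT A k) (hK : PBd (fun a => 2 ^ k a)) (hx : PT A x)
    (hxb : PBd x) (hy : PT A y) (hyb : PBd y) (hg : PT A g) (hN : PT A N)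
    (hNb : PBd N) (hm : PT A m) : PT A (fun a => dterm (k a) (x a) (y a) (g a) (N a) (m a)) := by
  have hQb := pbd_aQ hK
  exact ((PT.natCast hm).intMul (pt_gre hk hK hx hxb hy hyb hg hN hNb)).intDiv
    (PT.twoPowInt ((pt_aQ hk hK).mul hN) (by fun_prop))

/-- a parameter in the extended context -/
theorem hK_fst (hK : PBd (fun a => 2 ^ k a)) {β : Type*} [Enc β] :
    PBd (fun p : α × β => 2 ^ k p.1) := hK.compFst

theorem pt_topSum {x y : α → ℕ} (hk : PT A k) (hK : PBd (fun a => 2 ^ k a)) (hx : PT A x)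
    (hxb : PBd x) (hy : PT A y) (hyb : PBd y) :
    PT A (fun a => topSum (k a) (x a) (y a)) := by
  have hk' : PT A (fun p : α × Un => k p.1) := hk.comp PT.fst'
  have hK' : PBd (fun p : α × Un => 2 ^ k p.1) := hK_fst hK
  have hkb' := pbd_k hK'
  have hn' := pt_an hk' hK'
  have hnb' := pbd_an hK'
  have hi : PT A (fun p : α × Un => p.2.v) := PT.unVal PT.snd'
  have hib : PBd (fun p : α × Un => p.2.v) := PBd.unSnd
  refine PT.rangeSumInt (pt_aK hk hK) (pbd_aK hK) (pt_dterm hk' hK' (hx.comp PT.fst')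
    hxb.compFst (hy.comp PT.fst') hyb.compFst ?_ ?_ ?_ ?_)
  · exact hi.mul (PT.twoPow (((PT.const 2047).mul hk').add (PT.const 5))
      (((PBd.const 2047).mul hkb').add (PBd.const 5)))
  · exact (PT.const 2).mul (hn'.sub (PT.const 1))
  · exact ((PBd.const 2).mul hnb').mono fun a => by omega
  · refine PT.mul (PT.twoPow (hn'.div ((PT.const 4).mul ((pt_aK hk' hK').powConst 2))) ?_)
      (pt_aXu hk' hK' ((PT.const 2).mul (hn'.sub (PT.const 1)))
        (((PBd.const 2).mul hnb').mono fun a => by (clear * -; omega)))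
    exact hnb'.mono fun a => Nat.div_le_self _ _

theorem pt_sget {s : α → List ℕ} {i j : α → ℕ} (hk : PT A k) (hK : PBd (fun a => 2 ^ k a))
    (hs : PT A s) (hi : PT A i) (hj : PT A j) :
    PT A (fun a => sget (k a) (s a) (i a) (j a)) :=
  PT.getD hs ((hi.mul (pt_aK hk hK)).add hj) (PT.const 0)

theorem pt_hopSum {s : α → List ℕ} {x y : α → ℕ} (hk : PT A k) (hK : PBd (fun a => 2 ^ k a))
    (hs : PT A s) (hx : PT A x) (hxb : PBd x) (hy : PT A y) (hyb : PBd y) :
    PT A (fun a => hopSum (k a) (s a) (x a) (y a)) := by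
  refine PT.rangeSumInt (pt_aK hk hK) (pbd_aK hK) (PT.rangeSumInt (PT.unVal PT.snd')
    PBd.unSnd ?_)
  have h1 : PT A (fun p : (α × Un) × Un => p.1.1) := PT.fst'.fst
  have hk' : PT A (fun p : (α × Un) × Un => k p.1.1) := hk.comp h1
  have hK' : PBd (fun p : (α × Un) × Un => 2 ^ k p.1.1) := hK_fst (hK_fst hK)
  have hkb' := pbd_k hK'
  have hn' := pt_an hk' hK'
  have hnb' := pbd_an hK'
  have hi : PT A (fun p : (α × Un) × Un => p.2.v) := PT.unVal PT.snd'
  have hj : PT A (fun p : (α × Un) × Un => p.1.2.v) := PT.unVal PT.fst'.snd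
  have hib : PBd (fun p : (α × Un) × Un => p.2.v) := PBd.unSnd
  have hjb : PBd (fun p : (α × Un) × Un => p.1.2.v) := PBd.unVal (A := ∅) PT.fst'.snd
  have hd : PT A (fun p : (α × Un) × Un => p.1.2.v - p.2.v) := hj.sub hi
  have hdb : PBd (fun p : (α × Un) × Un => p.1.2.v - p.2.v) :=
    hjb.mono fun _ => Nat.sub_le _ _
  have hq := pt_aq hk' hK' hd hdb
  have hqb : PBd (fun p : (α × Un) × Un => aq (k p.1.1) (p.1.2.v - p.2.v)) := pbd_aq hK'
  have hN := (PT.const (A := A) (α := (α × Un) × Un) 2).mul hq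
  have hNb := (PBd.const (α := (α × Un) × Un) 2).mul hqb
  refine pt_dterm hk' hK' (hx.comp h1) hxb.compFst.compFst (hy.comp h1) hyb.compFst.compFst
    ?_ hN hNb ?_
  · exact (hi.add hj).mul (PT.twoPow (((PT.const 2047).mul hk').add (PT.const 4))
      (((PBd.const 2047).mul hkb').add (PBd.const 4)))
  · exact (pt_sget hk' hK' (hs.comp h1) hi hj).mul ((pt_aXu hk' hK' hN hNb).div
      (PT.twoPow hn' hnb'))

theorem pt_fejA {x : α → ℕ} (hk : PT A k) (hK : PBd (fun a => 2 ^ k a)) (hx : PT A x)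
    (hxb : PBd x) : PT A (fun a => fejA (k a) (x a)) := by
  have hk' : PT A (fun p : α × Un => k p.1) := hk.comp PT.fst'
  have hK' : PBd (fun p : α × Un => 2 ^ k p.1) := hK_fst hK
  have hi : PT A (fun p : α × Un => p.2.v) := PT.unVal PT.snd'
  have hib : PBd (fun p : α × Un => p.2.v) := PBd.unSnd
  have hx' : PT A (fun p : α × Un => x p.1) := hx.comp PT.fst'
  have hxb' : PBd (fun p : α × Un => x p.1) := hxb.compFst
  have h1 : PT A (fun p : α × Un => 2 * (p.2.v + 1) * (2 * x p.1 + 1)) :=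
    ((PT.const 2).mul (hi.add (PT.const 1))).mul (((PT.const 2).mul hx').add (PT.const 1))
  have h1b : PBd (fun p : α × Un => 2 * (p.2.v + 1) * (2 * x p.1 + 1)) :=
    ((PBd.const 2).mul (hib.add (PBd.const 1))).mul (((PBd.const 2).mul hxb').add (PBd.const 1))
  refine (PT.twoPowInt (pt_aQ hk hK) (pbd_aQ hK)).intSub ((PT.const 2).intMul
    (PT.rangeSumInt ((pt_aD hk hK).div (PT.const 2)) ?_ ((pt_cs hk' hK' h1 h1b).intDiv
      (((PT.const 4).intMul (((PT.natCast hi).intAdd (PT.const 1)).intPow 2)).intSub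
        (PT.const 1)))))
  exact (pbd_aD hK).mono fun a => Nat.div_le_self _ _

theorem pt_chg {s : α → List ℕ} {x y : α → ℕ} (hk : PT A k) (hK : PBd (fun a => 2 ^ k a))
    (hs : PT A s) (hx : PT A x) (hxb : PBd x) (hy : PT A y) (hyb : PBd y) :
    PT A (fun a => chg (k a) (s a) (x a) (y a)) := by
  have hnb := pbd_an hK
  refine PT.posPart (((pt_fejA hk hK hx hxb).intMul (((PT.twoPowInt
    ((PT.const 128).mul ((pt_an hk hK).powConst 3)) (by fun_prop)).intAdd
    (pt_topSum hk hK hx hxb hy hyb)).intAdd (pt_hopSum hk hK hs hx hxb hy hyb))).intDiv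
    ((PT.twoPowInt (pt_aQ hk hK) (pbd_aQ hK)).intMul ((PT.natCast (pt_aD hk hK)).intPow 2)))

theorem pt_crd {x y c : α → ℕ} (hk : PT A k) (hK : PBd (fun a => 2 ^ k a))
    (hx : PT A x) (hxb : PBd x) (hy : PT A y) (hyb : PBd y) (hc : PT A c) :
    PT A (fun a => crd (k a) (x a) (y a) (c a)) := by
  have h1 : PT A (fun a => 2 * x a + 1) := ((PT.const 2).mul hx).add (PT.const 1)
  have h1b : PBd (fun a => 2 * x a + 1) := by (clear * - hxb; fun_prop)
  have h2 : PT A (fun a => 4 * y a) := (PT.const 4).mul hy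
  have h2b : PBd (fun a => 4 * y a) := by fun_prop
  have h3 := PT.twoPowInt (pt_aQ hk hK) (pbd_aQ hK)
  exact PT.ite (PT.eqNat hc (PT.const 0))
    (((pt_sn hk hK h1 h1b).intMul (pt_cs hk hK h2 h2b)).intDiv h3)
    (PT.ite (PT.eqNat hc (PT.const 1))
      (((pt_sn hk hK h1 h1b).intMul (pt_sn hk hK h2 h2b)).intDiv h3)
      (pt_cs hk hK h1 h1b))

theorem pt_numer {x y c : α → ℕ} (hk : PT A k) (hK : PBd (fun a => 2 ^ k a))
    (hx : PT A x) (hxb : PBd x) (hy : PT A y) (hyb : PBd y) (hc : PT A c) :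
    PT A (fun a => numer (k a) (x a) (y a) (c a)) := by
  have hD := PT.natCast (pt_aD hk hK)
  exact ((PT.const 2).intMul (((pt_crd hk hK hx hxb hy hyb hc).intMul (hD.intPow 2)).intAdd
    (((PT.natCast hx).intMul hD).intAdd (PT.natCast hy)))).intAdd (PT.const 1)

theorem pt_bexp (hk : PT A k) (hK : PBd (fun a => 2 ^ k a)) : PT A (fun a => bexp (k a)) := by
  have hn := pt_an hk hK
  exact ((((PT.const 1).add ((PT.const 2).mul (((PT.const 2048).mul hk).add (PT.const 4)))).add
    (pt_aQ hk hK)).add ((PT.const 16).mul (hn.powConst 2))).add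
    ((PT.const 2000).mul (hn.powConst 3))

theorem pbd_bexp (hK : PBd (fun a => 2 ^ k a)) : PBd (fun a => bexp (k a)) := by
  have hnb := pbd_an hK
  have hQb := pbd_aQ hK
  have hkb := pbd_k hK
  unfold bexp
  fun_prop

theorem pt_aT (hk : PT A k) (hK : PBd (fun a => 2 ^ k a)) : PT A (fun a => aT (k a)) := by
  have hnb := pbd_an hK
  exact PT.twoPow ((PT.const 2000).mul ((pt_an hk hK).powConst 3)) (by fun_prop)

theorem pt_chgSum {s : α → List ℕ} (hk : PT A k) (hK : PBd (fun a => 2 ^ k a))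
    (hs : PT A s) : PT A (fun a => chgSum (k a) (s a)) := by
  have hk' : PT A (fun p : α × Un => k p.1) := hk.comp PT.fst'
  have hK' : PBd (fun p : α × Un => 2 ^ k p.1) := hK_fst hK
  have hi : PT A (fun p : α × Un => p.2.v) := PT.unVal PT.snd'
  have hib : PBd (fun p : α × Un => p.2.v) := PBd.unSnd
  have hD' := pt_aD hk' hK'
  have hDb := pbd_aD hK
  exact PT.rangeSumNat ((pt_aD hk hK).mul (pt_aD hk hK)) (hDb.mul hDb)
    (pt_chg hk' hK' (hs.comp PT.fst') (hi.div hD') (hib.mono fun _ => Nat.div_le_self _ _)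
      (hi.mod hD') (hib.mono fun _ => Nat.mod_le _ _))

theorem sum_range_sq_le (n : ℕ) : ((List.range n).map fun j => j ^ 2).sum ≤ n ^ 3 := by
  induction n with
  | zero => simp
  | succ n ih =>
    rw [List.range_succ, List.map_append, List.sum_append]
    simp only [List.map_cons, List.map_nil, List.sum_cons, List.sum_nil, add_zero]
    calc _ ≤ n ^ 3 + n ^ 2 := Nat.add_le_add_right ih _
      _ ≤ (n + 1) ^ 3 := by ring_nf; omega

theorem pt_aN (hk : PT A k) (hK : PBd (fun a => 2 ^ k a)) : PT A (fun a => aN (k a)) :=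
  ((PT.const 2).mul (PT.rangeSumNat (f := fun _ j => j ^ 2) (pt_an hk hK) (pbd_an hK)
    ((PT.unVal PT.snd').powConst 2))).add (pt_aK hk hK)

theorem pbd_aN (hK : PBd (fun a => 2 ^ k a)) : PBd (fun a => aN (k a)) := by
  have hnb := pbd_an hK
  have hKb := pbd_aK hK
  have h : PBd (fun a => 2 * an (k a) ^ 3 + aK (k a)) := by fun_prop
  exact h.mono fun a => Nat.add_le_add_right (Nat.mul_le_mul_left _ (sum_range_sq_le _)) _

/-! ### encoding -/

theorem pt_encNat {f : α → ℕ} (hf : PT A f) : PT A (fun a => encNat (f a)) := by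
  have h1 : PT A (fun a => (f a).bits.flatMap (fun b => [true, b])) :=
    PT.flatMap (f := fun _ b => [true, b]) (PT.natBits hf)
      (PT.cons (PT.const true) (PT.cons PT.snd' (PT.const [])))
  exact h1.append (PT.const [false])

theorem pt_encZ {f : α → ℤ} (hf : PT A f) : PT A (fun a => encZ (f a)) :=
  PT.cons hf.intNeg? ((pt_encNat hf.natAbs).append (pt_encNat (PT.const 1)))

theorem pt_encDy {f : α → ℤ} {e : α → ℕ} (hf : PT A f) (he : PT A e) (heb : PBd e) :
    PT A (fun a => encDy (f a) (e a)) :=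
  PT.cons hf.intNeg? ((pt_encNat hf.natAbs).append (pt_encNat (PT.twoPow he heb)))

/-- **The instance builder runs in polynomial time.** -/
theorem pt_build {s : α → List ℕ} {th : α → ℤ} (hk : PT A k) (hK : PBd (fun a => 2 ^ k a))
    (hs : PT A s) (hth : PT A th) : PT A (fun a => build (k a) (s a) (th a)) := by
  have hk' : PT A (fun p : α × Un => k p.1) := hk.comp PT.fst'
  have hK' : PBd (fun p : α × Un => 2 ^ k p.1) := hK_fst hK
  have hi : PT A (fun p : α × Un => p.2.v) := PT.unVal PT.snd'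
  have hib : PBd (fun p : α × Un => p.2.v) := PBd.unSnd
  have hD := pt_aD hk hK
  have hDb := pbd_aD hK
  have hD' := pt_aD hk' hK'
  have hdiv : PT A (fun p : α × Un => p.2.v / aD (k p.1)) := hi.div hD'
  have hmod : PT A (fun p : α × Un => p.2.v % aD (k p.1)) := hi.mod hD'
  have hdivb : PBd (fun p : α × Un => p.2.v / aD (k p.1)) :=
    hib.mono fun _ => Nat.div_le_self _ _
  have hmodb : PBd (fun p : α × Un => p.2.v % aD (k p.1)) := hib.mono fun _ => Nat.mod_le _ _
  have hnum : ∀ c : ℕ, PT A (fun p : α × Un =>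
      encDy (numer (k p.1) (p.2.v / aD (k p.1)) (p.2.v % aD (k p.1)) c) (bexp (k p.1))) :=
    fun c => pt_encDy (pt_numer hk' hK' hdiv hdivb hmod hmodb (PT.const c)) (pt_bexp hk' hK')
      (pbd_bexp hK')
  have hlist : PT A (fun a => (List.range (aD (k a) * aD (k a))).flatMap fun β =>
      true :: (encDy (numer (k a) (β / aD (k a)) (β % aD (k a)) 0) (bexp (k a)) ++
      encDy (numer (k a) (β / aD (k a)) (β % aD (k a)) 1) (bexp (k a)) ++
      encDy (numer (k a) (β / aD (k a)) (β % aD (k a)) 2) (bexp (k a)) ++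
      encNat (chg (k a) (s a) (β / aD (k a)) (β % aD (k a))))) := by
    refine PT.rangeFlatMap (hD.mul hD) (hDb.mul hDb) (PT.cons (PT.const true)
      ((((hnum 0).append (hnum 1)).append (hnum 2)).append
        (pt_encNat (pt_chg hk' hK' (hs.comp PT.fst') hdiv hdivb hmod hmodb))))
  have hz : PT A (fun _ : α => encZ 0) := PT.const _
  have hhead : PT A (fun a => true :: (encZ 0 ++ encZ 0 ++ encZ 0 ++
      encNat (aT (k a) - chgSum (k a) (s a)))) :=
    PT.cons (PT.const true) (((hz.append hz).append hz).append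
      (pt_encNat ((pt_aT hk hK).sub (pt_chgSum hk hK hs))))
  exact (((((hhead.append hlist).append (PT.const [false])).append
    (PT.replicate (pt_aN hk hK) (pbd_aN hK) (PT.const true))).append (PT.const [false])).append
    (pt_encZ hth)).append (pt_encZ (hth.intAdd (PT.const 1)))

end Vale.Agent.P370.Q.Alg
end
end

section

section

/-!
P370, QMA-hardness: all definitions of the construction (no proofs of substance here).
-/

namespace Vale.Agent.P370.Q

open MeasureTheory Finset ComplexConjugate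

/-! ### finite antisymmetric tensors -/

/-- Tensors with `N` indices in `ι`. -/
abbrev Tens (N : ℕ) (ι : Type) : Type := (Fin N → ι) → ℂ

def IsAnti {N : ℕ} {ι : Type} (c : Tens N ι) : Prop :=
  ∀ (π : Equiv.Perm (Fin N)) (I : Fin N → ι),
    c (fun i => I (π i)) = ((Equiv.Perm.sign π : ℤ) : ℂ) * c I

/-- squared norm -/
noncomputable def nsq {N : ℕ} {ι : Type} [Fintype ι] [DecidableEq ι] (c : Tens N ι) : ℝ :=
  ∑ I, ‖c I‖ ^ 2

/-- one-body energy of the matrix `h` -/
noncomputable def oneE {N : ℕ} {ι : Type} [Fintype ι] [DecidableEq ι] (h : ι → ι → ℝ)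
    (c : Tens N ι) : ℝ :=
  (∑ I : Fin N → ι, ∑ i, ∑ a, (h (I i) a : ℂ) * (conj (c I) * c (Function.update I i a))).re

/-- two-body energy of `v`; `v p a q b` is the integral `(p a | q b)` -/
noncomputable def twoE {N : ℕ} {ι : Type} [Fintype ι] [DecidableEq ι] (v : ι → ι → ι → ι → ℝ)
    (c : Tens N ι) : ℝ :=
  (∑ I : Fin N → ι, ∑ i, ∑ j ∈ Ioi i, ∑ a, ∑ b,
    (v (I i) a (I j) b : ℂ) *
      (conj (c I) * c (Function.update (Function.update I i a) j b))).re

/-- spin-independent one-body matrix on spin-orbitals -/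
def spin1 {A : Type} (h : A → A → ℝ) : A × Fin 2 → A × Fin 2 → ℝ :=
  fun p q => if p.2 = q.2 then h p.1 q.1 else 0

/-- spin-independent two-body matrix on spin-orbitals -/
def spin2 {A : Type} (v : A → A → A → A → ℝ) :
    A × Fin 2 → A × Fin 2 → A × Fin 2 → A × Fin 2 → ℝ :=
  fun p a q b => if p.2 = a.2 ∧ q.2 = b.2 then v p.1 a.1 q.1 b.1 else 0

/-- total energy of a tensor over spin-orbitals `A × Fin 2` -/
noncomputable def enT {N : ℕ} {A : Type} [Fintype A] [DecidableEq A] (h : A → A → ℝ)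
    (v : A → A → A → A → ℝ) (c : Tens N (A × Fin 2)) : ℝ :=
  oneE (spin1 h) c + twoE (spin2 v) c

/-- spin states of `K` spins one half -/
abbrev SpinState (K : ℕ) : Type := (Fin K → Fin 2) → ℂ

noncomputable def spinNsq {K : ℕ} (φ : SpinState K) : ℝ := ∑ s, ‖φ s‖ ^ 2

/-- `⟨φ, ∑_{i<j} J i j (1 - SWAP_{ij}) φ⟩` -/
noncomputable def heisE {K : ℕ} (J : Fin K → Fin K → ℝ) (φ : SpinState K) : ℝ :=
  ∑ i, ∑ j ∈ Ioi i, J i j * (spinNsq φ - (∑ s, conj (φ s) * φ (s ∘ Equiv.swap i j)).re)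

/-- largest eigenvalue of `∑_{i<j} J i j (1 - SWAP_{ij})` -/
noncomputable def heisMax {K : ℕ} (J : Fin K → Fin K → ℝ) : ℝ :=
  sSup {E | ∃ φ : SpinState K, spinNsq φ = 1 ∧ heisE J φ = E}

/-- data of the half filled Hubbard type model -/
structure MottHyp (K : ℕ) (h W t : Fin K → Fin K → ℝ) (v : Fin K → Fin K → Fin K → Fin K → ℝ)
    (ε0 w0 w1 u τ δ : ℝ) : Prop where
  two_le : 2 ≤ K
  W_symm : ∀ i j, W i j = W j i
  W_diag : ∀ i, W i i = w0
  W_row : ∀ i, ∑ j, W i j = w1
  u_pos : 0 < u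
  W_pd : ∀ x : Fin K → ℤ, (∀ i, |x i| ≤ 1) → x ≠ 0 →
    2 * u ≤ ∑ i, ∑ j, (x i : ℝ) * (x j : ℝ) * W i j
  t_symm : ∀ i j, t i j = t j i
  t_diag : ∀ i, t i i = 0
  t_le : ∀ i j, |t i j| ≤ τ
  τ_le : (K : ℝ) ^ 2 * τ ≤ u / 2
  δ_nonneg : 0 ≤ δ
  h_near : ∀ i j, |h i j - (if i = j then ε0 else 0) - t i j| ≤ δ
  v_near : ∀ i j k l, |v i j k l - (if i = j ∧ k = l then W i k else 0)| ≤ δ

/-- energy of the singly occupied configuration -/
noncomputable def mottBase {K : ℕ} (W : Fin K → Fin K → ℝ) (ε0 : ℝ) : ℝ :=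
  K * ε0 + ∑ i, ∑ j ∈ Ioi i, W i j

/-- superexchange couplings -/
noncomputable def mottJ {K : ℕ} (W t : Fin K → Fin K → ℝ) (w0 : ℝ) (i j : Fin K) : ℝ :=
  2 * t i j ^ 2 / (w0 - W i j)

/-- quadratic form of a real matrix on a real vector -/
noncomputable def qf {A : Type} [Fintype A] (h : A → A → ℝ) (x : A → ℝ) : ℝ :=
  ∑ a, ∑ b, h a b * x a * x b

/-- two-body quadratic form on a real pair function -/
noncomputable def qf2 {A : Type} [Fintype A] (v : A → A → A → A → ℝ) (x : A → A → ℝ) : ℝ :=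
  ∑ p, ∑ a, ∑ q, ∑ b, v p a q b * x p q * x a b

/-- all spin-orbitals over the closed orbitals are occupied in the support of `c` -/
def Good {N : ℕ} {C O : Type} (c : Tens N ((C ⊕ O) × Fin 2)) : Prop :=
  ∀ I, c I ≠ 0 → ∀ (a : C) (σ : Fin 2), ∃ i, I i = (Sum.inl a, σ)

/-- energy of the closed shells -/
noncomputable def closedC {C O : Type} [Fintype C] (h : C ⊕ O → C ⊕ O → ℝ)
    (v : C ⊕ O → C ⊕ O → C ⊕ O → C ⊕ O → ℝ) : ℝ :=
  2 * (∑ a : C, h (Sum.inl a) (Sum.inl a)) +
    ∑ a : C, ∑ b : C, (2 * v (Sum.inl a) (Sum.inl a) (Sum.inl b) (Sum.inl b) -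
      v (Sum.inl a) (Sum.inl b) (Sum.inl b) (Sum.inl a))

/-- one-body matrix of the open orbitals including the mean field of the closed shells -/
noncomputable def closedF {C O : Type} [Fintype C] (h : C ⊕ O → C ⊕ O → ℝ)
    (v : C ⊕ O → C ⊕ O → C ⊕ O → C ⊕ O → ℝ) (a b : O) : ℝ :=
  h (Sum.inr a) (Sum.inr b) +
    ∑ c : C, (2 * v (Sum.inr a) (Sum.inr b) (Sum.inl c) (Sum.inl c) -
      v (Sum.inr a) (Sum.inl c) (Sum.inl c) (Sum.inr b))

/-! ### hydrogenic shells -/

abbrev Poly3 : Type := MvPolynomial (Fin 3) ℝ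

/-- value of a polynomial at a point of space -/
noncomputable def pe (P : Poly3) (x : R3) : ℝ := MvPolynomial.eval (fun i => x i) P

noncomputable def expPoly (κ : ℝ) (P Q : Poly3) : R3 → ℝ :=
  fun x => (pe P x + ‖x‖ * pe Q x) * Real.exp (-(κ * ‖x‖))

/-- Laplacian of a polynomial -/
noncomputable def lap (P : Poly3) : Poly3 :=
  ∑ i, MvPolynomial.pderiv i (MvPolynomial.pderiv i P)

/-- Euler operator `∑ x_i ∂_i` -/
noncomputable def eul (P : Poly3) : Poly3 :=
  ∑ i, MvPolynomial.X i * MvPolynomial.pderiv i P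

noncomputable def rsq : Poly3 := ∑ i, MvPolynomial.X i ^ 2

/-- `T (P + r Q) = r (-Δ/2 + κ²/2) ((P + r Q) exp (-κ r)) exp (κ r)`: polynomial part -/
noncomputable def TP (κ : ℝ) (P Q : Poly3) : Poly3 :=
  MvPolynomial.C κ * (eul P + P) - (eul Q + Q) - MvPolynomial.C (1 / 2) * rsq * lap Q

/-- `T (P + r Q)`: coefficient of `r` -/
noncomputable def TQ (κ : ℝ) (P Q : Poly3) : Poly3 :=
  MvPolynomial.C κ * (eul Q + 2 * Q) - MvPolynomial.C (1 / 2) * lap P

/-- degree bounds of the space `E_n` -/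
def DegLe (n : ℕ) (P Q : Poly3) : Prop :=
  P.totalDegree + 1 ≤ n ∧ (Q = 0 ∨ Q.totalDegree + 2 ≤ n)

/-- `φ` belongs to the `n`-th hydrogenic shell -/
def IsShell (n : ℕ) (φ : R3 → ℝ) : Prop :=
  ∃ P Q : Poly3, DegLe n P Q ∧ TP (1 / n) P Q = P ∧ TQ (1 / n) P Q = Q ∧
    φ = expPoly (1 / n) P Q

noncomputable def ov (f g : R3 → ℝ) : ℝ := ∫ x, f x * g x

/-- Coulomb potential of the density `f g` at `y` -/
noncomputable def nuc (y : R3) (f g : R3 → ℝ) : ℝ := ∫ x, f x * g x / dist x y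

/-- matrix element of `1/|x| - 1/|x-y|` -/
noncomputable def gm (y : R3) (f g : R3 → ℝ) : ℝ :=
  ∫ x, f x * g x * (1 / ‖x‖ - 1 / dist x y)

/-- Coulomb integral `(f g | f' g')` -/
noncomputable def coul (f g f' g' : R3 → ℝ) : ℝ :=
  ∫ y, nuc y f g * (f' y * g' y)

/-- orthonormal bases of the shells `1, ..., n` -/
structure ShellBasis (n : ℕ) (A : Type) [Fintype A] [DecidableEq A] where
  χ : A → R3 → ℝ
  lev : A → ℕ
  lev_pos : ∀ a, 1 ≤ lev a
  lev_le : ∀ a, lev a ≤ n
  mem : ∀ a, IsShell (lev a) (χ a)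
  ortho : ∀ a b, ov (χ a) (χ b) = if a = b then 1 else 0
  card : ∀ k, 1 ≤ k → k ≤ n → (univ.filter (fun a => lev a = k)).card = k ^ 2

/-- Class of functions in which integration by parts is free: `C¹` off the origin, the value
and the gradient decay exponentially. -/
structure Nice (f : R3 → ℝ) : Prop where
  cont : Continuous f
  smooth : ContDiffOn ℝ 1 f {0}ᶜ
  bound : ∃ C c : ℝ, 0 < c ∧ ∀ x, x ≠ 0 → |f x| ≤ C * Real.exp (-(c * ‖x‖)) ∧
    ‖fderiv ℝ f x‖ ≤ C * Real.exp (-(c * ‖x‖))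

/-- partial derivative -/
noncomputable def pd (k : Fin 3) (f : R3 → ℝ) (x : R3) : ℝ :=
  fderiv ℝ f x (EuclideanSpace.single k 1)

/-- Dirichlet form -/
noncomputable def dir (f g : R3 → ℝ) : ℝ := ∫ x, ∑ k, pd k f x * pd k g x

/-- form of `1/r` -/
noncomputable def rinv (f g : R3 → ℝ) : ℝ := ∫ x, f x * g x / ‖x‖

/-! ### N-body -/

/-- potential in scaled units: total nuclear charge `1 / lam`; light nuclei of charge `w b` at
`y b` (scaled), the remaining charge `1 / lam - ∑ w b` at the origin -/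
noncomputable def scaledV {N m : ℕ} (lam : ℝ) (w : Fin m → ℝ) (y : Fin m → R3)
    (x : Fin N → R3) : ℝ :=
  -(∑ i, 1 / ‖x i‖) + lam * ((∑ i, ∑ j ∈ Ioi i, 1 / dist (x i) (x j)) +
    ∑ i, ∑ b, w b * (1 / ‖x i‖ - 1 / dist (x i) (y b)))

noncomputable def scaledE {N m : ℕ} (lam : ℝ) (w : Fin m → ℝ) (y : Fin m → R3)
    (ψ : Wave N) : ℝ :=
  kinetic ψ + ∑ s, ∫ x, scaledV lam w y x * ‖ψ x s‖ ^ 2

/-- first order one-body matrix of the light nuclei -/
noncomputable def nucM {m : ℕ} {A : Type} (χ : A → R3 → ℝ) (w : Fin m → ℝ) (y : Fin m → R3)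
    (a b : A) : ℝ :=
  ∑ β, w β * gm (y β) (χ a) (χ b)

/-- Coulomb integrals of the orbitals -/
noncomputable def coulM {A : Type} (χ : A → R3 → ℝ) (p a q b : A) : ℝ :=
  coul (χ p) (χ a) (χ q) (χ b)

/-! ### sphere averages and null vectors -/

abbrev C3 : Type := Fin 3 → ℂ

/-- complex bilinear pairing of a complex vector with a point of space -/
noncomputable def cdot (v : C3) (x : R3) : ℂ := ∑ k, v k * (x k : ℂ)

/-- complex bilinear product -/
noncomputable def cc (v w : C3) : ℂ := ∑ k, v k * w k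

/-- point of the unit sphere with spherical coordinates `θ`, `φ` -/
noncomputable def sp (θ φ : ℝ) : R3 :=
  WithLp.toLp 2 ![Real.sin θ * Real.cos φ, Real.sin θ * Real.sin φ, Real.cos θ]

/-- average over the unit sphere -/
noncomputable def sph {E : Type} [NormedAddCommGroup E] [NormedSpace ℝ E] (f : R3 → E) : E :=
  (1 / (4 * Real.pi)) • ∫ θ in (0 : ℝ)..Real.pi, ∫ φ in (0 : ℝ)..(2 * Real.pi),
    Real.sin θ • f (sp θ φ)

/-- value of a real polynomial at a complex point -/
noncomputable def pc (P : Poly3) (c : C3) : ℂ := MvPolynomial.eval₂ (algebraMap ℝ ℂ) c P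

/-- normalisation `2^m (m!)^2 / (2m+1)!` -/
noncomputable def Am (m : ℕ) : ℝ := 2 ^ m * (m.factorial : ℝ) ^ 2 / ((2 * m + 1).factorial : ℝ)

/-- Fejér weight of the latitude `π (2 k + 1) / (2 D)`, normalised to total mass one
(`D` even) -/
noncomputable def fej (D : ℕ) (k : ℕ) : ℝ :=
  (1 / (D : ℝ)) * (1 - 2 * ∑ j ∈ Icc 1 (D / 2),
    Real.cos (2 * (j : ℝ) * (Real.pi * (2 * k + 1) / (2 * D))) / (4 * (j : ℝ) ^ 2 - 1))

/-- nodes -/
noncomputable def node (D k j : ℕ) : R3 :=
  sp (Real.pi * (2 * k + 1) / (2 * D)) (2 * Real.pi * j / D)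

/-- weights of the nodes -/
noncomputable def qw (D k : ℕ) : ℝ := fej D k / D

/-! ### the top subspace and the devices -/

/-- harmonic homogeneous polynomials of degree `l` -/
def Harm (l : ℕ) (P : Poly3) : Prop := P.IsHomogeneous l ∧ lap P = 0

/-- the function `P e^{-|x|/n}` -/
noncomputable def vfun (n : ℕ) (P : Poly3) : R3 → ℝ :=
  fun x => pe P x * Real.exp (-(‖x‖ / n))

/-- top subspace of shell `n` -/
def InV (n : ℕ) (φ : R3 → ℝ) : Prop := ∃ P, Harm (n - 1) P ∧ φ = vfun n P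

/-- form of the radial potential `(1/r - 1/ρ)_+` -/
noncomputable def bform (ρ : ℝ) (f g : R3 → ℝ) : ℝ :=
  ∫ x, f x * g x * max (1 / ‖x‖ - 1 / ρ) 0

/-- `∫ r^{2n} e^{-2r/n} dr` -/
noncomputable def I0 (n : ℕ) : ℝ :=
  ∫ r in Set.Ioi (0 : ℝ), r ^ (2 * n) * Real.exp (-(2 * r / n))

/-- radial matrix element of the multipole `N` -/
noncomputable def RN (n N : ℕ) (ρ : ℝ) : ℝ :=
  ∫ r in Set.Ioi (0 : ℝ), r ^ (2 * n) * Real.exp (-(2 * r / n)) *
    (1 / (2 * (N : ℝ) + 1) * (min r ρ ^ N / max r ρ ^ (N + 1)))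

/-- unit of strength of a device -/
noncomputable def Xu (n N : ℕ) (ρ : ℝ) : ℝ :=
  (1 / ρ) ^ N * (2 * (N : ℝ) + 1) * (((2 * n).factorial : ℝ) / ((2 * n - 1 - N).factorial : ℝ)) *
    ((n : ℝ) / 2) ^ (N + 1)

/-- relative weight of the top subspace inside the ball of radius `ρ` -/
noncomputable def xr (n : ℕ) (ρ : ℝ) : ℝ :=
  (∫ r in (0 : ℝ)..ρ, r ^ (2 * n) * Real.exp (-(2 * r / n)) * (1 / r - 1 / ρ)) / I0 n

/-- null vector `e_z + i (cos α, sin α, 0)` -/
noncomputable def av (α : ℝ) : C3 := ![Complex.I * Real.cos α, Complex.I * Real.sin α, 1]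

/-- standing wave on the great circle of `av α`: real part -/
noncomputable def fsite (n : ℕ) (α : ℝ) : R3 → ℝ :=
  fun x => (cdot (av α) x ^ (n - 1)).re * Real.exp (-(‖x‖ / n))

/-- imaginary part -/
noncomputable def gsite (n : ℕ) (α : ℝ) : R3 → ℝ :=
  fun x => (cdot (av α) x ^ (n - 1)).im * Real.exp (-(‖x‖ / n))

/-- squared norm of the sites -/
noncomputable def nf (n : ℕ) : ℝ :=
  Real.pi / 2 * (n : ℝ) ^ (2 * n + 2) * ((n - 1).factorial : ℝ) ^ 2

/-- relative strength of the top device -/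
noncomputable def gam (n : ℕ) : ℝ := Am (2 * (n - 1)) * 2 ^ (n - 1) / (2 * Am (n - 1))

/-- normalised hopping amplitude of the device at angle `γ` with multipole `2 q` between the
circles `α` and `β` -/
noncomputable def hopA (n q : ℕ) (γ α β : ℝ) : ℝ :=
  4 * Real.pi * I0 n / nf n * sph (fun u => (cdot (av γ) u ^ (2 * q)).re *
    ((cdot (av α) u ^ (n - 1)).re * (cdot (av β) u ^ (n - 1)).re))

/-- normalised site orbital -/
noncomputable def fh (n : ℕ) (α : ℝ) : R3 → ℝ := fun x => fsite n α x / Real.sqrt (nf n)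

/-- azimuthally symmetric density of the circle of angle `α` (a probability density) -/
noncomputable def rho0 (n : ℕ) (α : ℝ) : R3 → ℝ :=
  fun x => ‖cdot (av α) x‖ ^ (2 * (n - 1)) * Real.exp (-(2 * ‖x‖ / n)) / (2 * nf n)

/-- unit normal of the circle -/
noncomputable def nuv (α : ℝ) : R3 := WithLp.toLp 2 ![-Real.sin α, Real.cos α, 0]

/-- direct Coulomb integral at angular distance `δ` -/
noncomputable def wdir (n : ℕ) (δ : ℝ) : ℝ := coul (fh n δ) (fh n δ) (fh n 0) (fh n 0)

/-- mean field form of the closed shells -/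
noncomputable def mfield {n : ℕ} {C O : Type} [Fintype C] [DecidableEq C] [Fintype O]
    [DecidableEq O] (B : ShellBasis n (C ⊕ O)) (f g : R3 → ℝ) : ℝ :=
  ∑ c : C, (2 * coul f g (B.χ (Sum.inl c)) (B.χ (Sum.inl c)) -
    coul f (B.χ (Sum.inl c)) (B.χ (Sum.inl c)) g)

/-! ### parameters -/

/-- number of sites -/
def pK (k : ℕ) : ℕ := 2 ^ k

/-- open shell -/
def pn (k : ℕ) : ℕ := 2 ^ (2048 * k)

/-- size of the grid -/
def pD (k : ℕ) : ℕ := 16 * pn k

/-- radius of the sphere of light nuclei (scaled units) -/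
noncomputable def pρ (k : ℕ) : ℝ := 1 / 2 ^ (16 * pn k ^ 2)

/-- strength of the top devices -/
noncomputable def pL (k : ℕ) : ℝ := 2 ^ (pn k / (4 * pK k ^ 2))

/-- isotropic charge -/
noncomputable def pW (k : ℕ) : ℝ := 2 ^ (128 * pn k ^ 3)

/-- total nuclear charge -/
def pT (k : ℕ) : ℕ := 2 ^ (2000 * pn k ^ 3)

/-- unit of amplitude -/
noncomputable def pη (k : ℕ) : ℝ := 1 / 2 ^ pn k

/-- scale of the exchange couplings -/
noncomputable def pJ (k : ℕ) : ℝ := 1 / ((pn k : ℝ) ^ 2 * (pK k : ℝ) ^ 256)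

/-- number of electrons: closed shells below `n`, and `K` electrons -/
def pN (k : ℕ) : ℕ := 2 * (∑ j ∈ range (pn k), j ^ 2) + pK k

/-- angle of site `i` -/
noncomputable def pα (k i : ℕ) : ℝ := Real.pi * i / pK k

/-- admissible multipole orders -/
def GoodQ (k : ℕ) (q : ℕ → ℕ) : Prop :=
  ∀ d, 1 ≤ d → d < pK k → |(q d : ℝ) - ((pn k : ℝ) - 1) * Real.cos (Real.pi * d / (2 * pK k))| ≤ 1

/-- exact weight of the node `(a, b)` -/
noncomputable def wex (k : ℕ) (q : ℕ → ℕ) (s : ℕ → ℕ → ℕ) (a b : ℕ) : ℝ :=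
  qw (pD k) a * (pW k +
    (∑ i ∈ range (pK k), pL k * Xu (pn k) (2 * (pn k - 1)) (pρ k) *
      (cdot (av (pα k i)) (node (pD k) a b) ^ (2 * (pn k - 1))).re) +
    ∑ j ∈ range (pK k), ∑ i ∈ range j, (s i j : ℝ) * pη k * Xu (pn k) (2 * q (j - i)) (pρ k) *
      (cdot (av ((pα k i + pα k j) / 2)) (node (pD k) a b) ^ (2 * q (j - i))).re)

/-- charges and scaled positions approximating the exact ones -/
structure Approx (k : ℕ) (q : ℕ → ℕ) (s : ℕ → ℕ → ℕ) (w : Fin (pD k * pD k) → ℕ)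
    (y : Fin (pD k * pD k) → R3) : Prop where
  charge : ∀ β, |(w β : ℝ) - wex k q s (β / pD k) (β % pD k)| ≤ 2
  pos : ∀ β, ‖y β - pρ k • node (pD k) (β / pD k) (β % pD k)‖ ≤ 1 / 2 ^ (200 * pn k ^ 3)

/-- couplings -/
noncomputable def coupl (κ : ℕ → ℝ) (s : ℕ → ℕ → ℕ) {K : ℕ} (i j : Fin K) : ℝ :=
  if i < j then κ (j - i) * (s i j : ℝ) ^ 2 else 0

end Vale.Agent.P370.Q
end
end

section

section

/-!
The largest eigenvalue of `∑ J_ij (1 - SWAP_ij)`.
-/

namespace Vale.Agent.P370.Q.Alg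

open Finset ComplexConjugate

variable {K : ℕ}

private theorem sum_comp_swap (σ : Equiv.Perm (Fin K)) (f : (Fin K → Fin 2) → ℝ) :
    ∑ s : Fin K → Fin 2, f (s ∘ σ) = ∑ s, f s :=
  Equiv.sum_comp (Equiv.arrowCongr σ.symm (Equiv.refl (Fin 2))) f

private theorem abs_swap_le (i j : Fin K) (φ : SpinState K) :
    |(∑ s, conj (φ s) * φ (s ∘ Equiv.swap i j)).re| ≤ spinNsq φ := by
  have h1 : |(∑ s, conj (φ s) * φ (s ∘ Equiv.swap i j)).re| ≤
      ∑ s, ‖φ s‖ * ‖φ (s ∘ Equiv.swap i j)‖ := by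
    refine (Complex.abs_re_le_norm _).trans ((norm_sum_le _ _).trans (le_of_eq ?_))
    refine Finset.sum_congr rfl fun s _ => ?_
    rw [norm_mul, Complex.norm_conj]
  have h2 : ∑ s, ‖φ s‖ * ‖φ (s ∘ Equiv.swap i j)‖ ≤
      ∑ s, (‖φ s‖ ^ 2 + ‖φ (s ∘ Equiv.swap i j)‖ ^ 2) / 2 := by
    refine Finset.sum_le_sum fun s _ => ?_
    linarith only [sq_nonneg (‖φ s‖ - ‖φ (s ∘ Equiv.swap i j)‖)]
  have h3 : ∑ s, (‖φ s‖ ^ 2 + ‖φ (s ∘ Equiv.swap i j)‖ ^ 2) / 2 = spinNsq φ := by
    rw [← Finset.sum_div, Finset.sum_add_distrib,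
      sum_comp_swap (Equiv.swap i j) (fun s => ‖φ s‖ ^ 2)]
    unfold spinNsq
    ring
  (clear * - h1 h2 h3; linarith)

theorem swap_bounds (i j : Fin K) (φ : SpinState K) :
    0 ≤ spinNsq φ - (∑ s, conj (φ s) * φ (s ∘ Equiv.swap i j)).re ∧
      spinNsq φ - (∑ s, conj (φ s) * φ (s ∘ Equiv.swap i j)).re ≤ 2 * spinNsq φ := by
  have h := abs_le.1 (abs_swap_le i j φ)
  constructor <;> linarith only [h]

private theorem exists_unit (K : ℕ) : ∃ φ : SpinState K, spinNsq φ = 1 := by
  classical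
  refine ⟨Pi.single 0 1, ?_⟩
  unfold spinNsq
  rw [Finset.sum_eq_single 0]
  · simp only [Pi.single_eq_same, norm_one, one_pow]
  · intro b _ hb
    simp only [Pi.single_eq_of_ne hb, norm_zero, ne_eq, OfNat.ofNat_ne_zero, not_false_eq_true, zero_pow]
  · intro h
    exact absurd (Finset.mem_univ _) h

private theorem heisE_le (J : Fin K → Fin K → ℝ) (φ : SpinState K) (h : spinNsq φ = 1) :
    heisE J φ ≤ ∑ i, ∑ j ∈ Ioi i, |J i j| * 2 := by
  unfold heisE
  refine Finset.sum_le_sum fun i _ => Finset.sum_le_sum fun j _ => ?_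
  have h1 := swap_bounds i j φ
  calc _ ≤ |J i j| * (spinNsq φ - (∑ s, conj (φ s) * φ (s ∘ Equiv.swap i j)).re) :=
        mul_le_mul_of_nonneg_right (le_abs_self _) h1.1
    _ ≤ |J i j| * 2 := by
        refine mul_le_mul_of_nonneg_left ?_ (abs_nonneg _)
        linarith only [h, h1]

/-- the set defining `heisMax` is bounded and nonempty -/
theorem heis_bdd (J : Fin K → Fin K → ℝ) :
    BddAbove {E | ∃ φ : SpinState K, spinNsq φ = 1 ∧ heisE J φ = E} ∧
      {E | ∃ φ : SpinState K, spinNsq φ = 1 ∧ heisE J φ = E}.Nonempty := by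
  constructor
  · refine ⟨∑ i, ∑ j ∈ Ioi i, |J i j| * 2, ?_⟩
    rintro E ⟨φ, hφ, rfl⟩
    exact heisE_le J φ hφ
  · obtain ⟨φ, hφ⟩ := exists_unit K
    exact ⟨_, φ, hφ, rfl⟩

theorem le_heisMax (J : Fin K → Fin K → ℝ) (φ : SpinState K) (h : spinNsq φ = 1) :
    heisE J φ ≤ heisMax J :=
  le_csSup (heis_bdd J).1 ⟨φ, h, rfl⟩

theorem heisMax_le (J : Fin K → Fin K → ℝ) (b : ℝ)
    (h : ∀ φ : SpinState K, spinNsq φ = 1 → heisE J φ ≤ b) : heisMax J ≤ b := by
  refine csSup_le (heis_bdd J).2 ?_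
  rintro E ⟨φ, hφ, rfl⟩
  exact h φ hφ

theorem heisMax_zero : heisMax (fun _ _ : Fin K => (0 : ℝ)) = 0 := by
  have h0 : ∀ φ : SpinState K, heisE (fun _ _ : Fin K => (0 : ℝ)) φ = 0 := by
    intro φ
    simp only [heisE, Complex.re_sum, Complex.mul_re, Complex.conj_re, Complex.conj_im, neg_mul, sub_neg_eq_add, zero_mul, sum_const_zero]
  obtain ⟨φ, hφ⟩ := exists_unit K
  refine le_antisymm (heisMax_le _ _ fun ψ _ => (h0 ψ).le) ?_
  exact (h0 φ).symm.le.trans (le_heisMax _ φ hφ)

private theorem heisE_smul (c : ℝ) (J : Fin K → Fin K → ℝ) (φ : SpinState K) :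
    heisE (fun i j => c * J i j) φ = c * heisE J φ := by
  simp only [heisE, mul_assoc, mul_sum]

theorem heisMax_smul (c : ℝ) (hc : 0 ≤ c) (J : Fin K → Fin K → ℝ) :
    heisMax (fun i j => c * J i j) = c * heisMax J := by
  rcases hc.eq_or_lt with rfl | hc
  · simp only [zero_mul]
    exact heisMax_zero
  · refine le_antisymm (heisMax_le _ _ fun φ hφ => ?_) ?_
    · rw [heisE_smul]
      exact mul_le_mul_of_nonneg_left (le_heisMax J φ hφ) hc.le
    · rw [← le_div_iff₀' hc]
      refine heisMax_le _ _ fun φ hφ => ?_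
      rw [le_div_iff₀' hc, ← heisE_smul]
      exact le_heisMax _ φ hφ

private theorem heisE_lip (J J' : Fin K → Fin K → ℝ) (φ : SpinState K) (h : spinNsq φ = 1) :
    heisE J φ ≤ heisE J' φ + 2 * ∑ i, ∑ j ∈ Ioi i, |J i j - J' i j| := by
  have h1 : heisE J φ - heisE J' φ = heisE (fun i j => J i j - J' i j) φ := by
    simp only [heisE, ← sum_sub_distrib, sub_mul]
  have h2 := heisE_le (fun i j => J i j - J' i j) φ h
  have h3 : ∑ i, ∑ j ∈ Ioi i, |J i j - J' i j| * 2 =
      2 * ∑ i, ∑ j ∈ Ioi i, |J i j - J' i j| := by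
    simp only [mul_sum, mul_comm]
  rw [h3] at h2
  linarith

theorem heisMax_lip (J J' : Fin K → Fin K → ℝ) :
    |heisMax J - heisMax J'| ≤ 2 * ∑ i, ∑ j ∈ Ioi i, |J i j - J' i j| := by
  have key : ∀ J J' : Fin K → Fin K → ℝ,
      heisMax J - heisMax J' ≤ 2 * ∑ i, ∑ j ∈ Ioi i, |J i j - J' i j| := by
    intro J J'
    have := heisMax_le J (heisMax J' + 2 * ∑ i, ∑ j ∈ Ioi i, |J i j - J' i j|) fun φ hφ =>
      (heisE_lip J J' φ hφ).trans (by linarith only [le_heisMax J' φ hφ])
    linarith only [this]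
  rw [abs_le]
  have h1 := key J J'
  have h2 := key J' J
  have h3 : ∑ i, ∑ j ∈ Ioi i, |J' i j - J i j| = ∑ i, ∑ j ∈ Ioi i, |J i j - J' i j| := by
    refine Finset.sum_congr rfl fun i _ => Finset.sum_congr rfl fun j _ => ?_
    rw [abs_sub_comm]
  rw [h3] at h2
  constructor <;> linarith only [h1, h2]

/-- the energy is homogeneous -/
private theorem heisE_le_mul (J : Fin K → Fin K → ℝ) (φ : SpinState K) :
    heisE J φ ≤ heisMax J * spinNsq φ := by
  have hscale : ∀ (c : ℝ) (φ : SpinState K), spinNsq (fun s => (c : ℂ) * φ s) =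
      c ^ 2 * spinNsq φ := by
    intro c φ
    unfold spinNsq
    rw [Finset.mul_sum]
    refine Finset.sum_congr rfl fun s _ => ?_
    rw [norm_mul, Complex.norm_real, mul_pow, Real.norm_eq_abs, sq_abs]
  have hscaleE : ∀ (c : ℝ) (φ : SpinState K), heisE J (fun s => (c : ℂ) * φ s) =
      c ^ 2 * heisE J φ := by
    intro c φ
    unfold heisE
    rw [Finset.mul_sum]
    refine Finset.sum_congr rfl fun i _ => ?_
    rw [Finset.mul_sum]
    refine Finset.sum_congr rfl fun j _ => ?_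
    rw [hscale]
    have : ∑ s, conj ((c : ℂ) * φ s) * ((c : ℂ) * φ (s ∘ Equiv.swap i j)) =
        ((c ^ 2 : ℝ) : ℂ) * ∑ s, conj (φ s) * φ (s ∘ Equiv.swap i j) := by
      rw [Finset.mul_sum]
      refine Finset.sum_congr rfl fun s _ => ?_
      rw [map_mul, Complex.conj_ofReal]
      push_cast
      ring
    rw [this, Complex.re_ofReal_mul]
    ring
  have hN : 0 ≤ spinNsq φ := Finset.sum_nonneg fun s _ => sq_nonneg _
  rcases hN.eq_or_lt with h0 | h0
  · have hz : φ = fun _ => 0 := by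
      funext s
      have h1 : ∑ s, ‖φ s‖ ^ 2 = 0 := h0.symm
      rw [Finset.sum_eq_zero_iff_of_nonneg fun s _ => sq_nonneg _] at h1
      have h2 := h1 s (Finset.mem_univ _)
      simpa only [ne_eq, OfNat.ofNat_ne_zero, not_false_eq_true, pow_eq_zero_iff, norm_eq_zero] using h2
    rw [← h0, mul_zero, hz]
    simp only [heisE, spinNsq, norm_zero, ne_eq, OfNat.ofNat_ne_zero, not_false_eq_true, zero_pow, sum_const_zero, map_zero, mul_zero, Complex.zero_re, sub_self, Std.le_refl]
  · have h1 : spinNsq (fun s => ((1 / Real.sqrt (spinNsq φ) : ℝ) : ℂ) * φ s) = 1 := by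
      rw [hscale, div_pow, one_pow, Real.sq_sqrt h0.le]
      (clear * - h0; field_simp)
    have h2 := le_heisMax J _ h1
    rw [hscaleE, div_pow, one_pow, Real.sq_sqrt h0.le] at h2
    have h3 := mul_le_mul_of_nonneg_right h2 h0.le
    calc heisE J φ = 1 / spinNsq φ * heisE J φ * spinNsq φ := by field_simp
      _ ≤ _ := h3

private theorem append_swap {K₀ L : ℕ} (s : Fin K₀ → Fin 2) (r : Fin L → Fin 2) (i j : Fin K₀) :
    (Fin.append s r) ∘ Equiv.swap (Fin.castAdd L i) (Fin.castAdd L j) =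
      Fin.append (s ∘ Equiv.swap i j) r := by
  funext k
  refine Fin.addCases (fun k => ?_) (fun k => ?_) k
  · rw [Function.comp_apply, Fin.append_left, Function.comp_apply]
    have : Equiv.swap (Fin.castAdd L i) (Fin.castAdd L j) (Fin.castAdd L k) =
        Fin.castAdd L (Equiv.swap i j k) := by
      rw [Equiv.swap_apply_def, Equiv.swap_apply_def]
      simp only [Fin.castAdd_inj]
      split_ifs <;> rfl
    rw [this, Fin.append_left]
  · rw [Function.comp_apply, Fin.append_right, Equiv.swap_apply_of_ne_of_ne, Fin.append_right]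
    · intro h
      have := congrArg Fin.val h
      simp only [Fin.val_natAdd, Fin.val_castAdd] at this
      omega
    · intro h
      have := congrArg Fin.val h
      simp only [Fin.val_natAdd, Fin.val_castAdd] at this
      omega

private theorem sum_append {K₀ L : ℕ} {M : Type*} [AddCommMonoid M]
    (f : (Fin (K₀ + L) → Fin 2) → M) :
    ∑ s, f s = ∑ r : Fin L → Fin 2, ∑ s : Fin K₀ → Fin 2, f (Fin.append s r) := by
  rw [Finset.sum_comm, ← Fintype.sum_prod_type', ← Equiv.sum_comp (Fin.appendEquiv K₀ L)]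
  rfl

private theorem sum_pairs_embed {K₀ L : ℕ} (J : ℕ → ℕ → ℝ)
    (hJ : ∀ i j, K₀ ≤ i ∨ K₀ ≤ j → J i j = 0) (f : Fin (K₀ + L) → Fin (K₀ + L) → ℝ) :
    ∑ i : Fin (K₀ + L), ∑ j ∈ Ioi i, J i j * f i j =
      ∑ i : Fin K₀, ∑ j ∈ Ioi i, J i j * f (Fin.castAdd L i) (Fin.castAdd L j) := by
  have h1 : ∀ (K : ℕ) (g : Fin K → Fin K → ℝ), ∑ i : Fin K, ∑ j ∈ Ioi i, g i j =
      ∑ i : Fin K, ∑ j : Fin K, if i < j then g i j else 0 := by
    intro K g
    refine Finset.sum_congr rfl fun i _ => ?_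
    rw [← Finset.sum_filter]
    refine Finset.sum_congr ?_ fun _ _ => rfl
    ext j
    simp only [mem_Ioi, mem_filter, mem_univ, true_and]
  rw [h1, h1, Fin.sum_univ_add]
  have h2 : ∑ i : Fin L, ∑ j : Fin (K₀ + L), (if Fin.natAdd K₀ i < j then
      J (Fin.natAdd K₀ i : Fin (K₀ + L)) j * f (Fin.natAdd K₀ i) j else 0) = 0 := by
    refine Finset.sum_eq_zero fun i _ => Finset.sum_eq_zero fun j _ => ?_
    rw [hJ _ _ (Or.inl (by simp only [Fin.val_natAdd, le_add_iff_nonneg_right, zero_le]))]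
    simp
  rw [h2, add_zero]
  refine Finset.sum_congr rfl fun i _ => ?_
  rw [Fin.sum_univ_add]
  have h3 : ∑ j : Fin L, (if Fin.castAdd L i < Fin.natAdd K₀ j then
      J (Fin.castAdd L i : Fin (K₀ + L)) (Fin.natAdd K₀ j : Fin (K₀ + L)) *
        f (Fin.castAdd L i) (Fin.natAdd K₀ j) else 0) = 0 := by
    refine Finset.sum_eq_zero fun j _ => ?_
    rw [hJ _ _ (Or.inr (by simp))]
    simp
  rw [h3, add_zero]
  refine Finset.sum_congr rfl fun j _ => ?_
  have h4 : (Fin.castAdd L i < Fin.castAdd L j) ↔ i < j := Iff.rfl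
  simp only [h4, Fin.val_castAdd]

private theorem heisE_append {K₀ L : ℕ} (J : ℕ → ℕ → ℝ)
    (hJ : ∀ i j, K₀ ≤ i ∨ K₀ ≤ j → J i j = 0) (φ : SpinState (K₀ + L)) :
    heisE (fun i j : Fin (K₀ + L) => J i j) φ =
      ∑ r : Fin L → Fin 2, heisE (fun i j : Fin K₀ => J i j) (fun s => φ (Fin.append s r)) := by
  unfold heisE
  rw [sum_pairs_embed J hJ (fun i j => spinNsq φ -
    (∑ s, conj (φ s) * φ (s ∘ Equiv.swap i j)).re)]
  rw [Finset.sum_comm]
  refine Finset.sum_congr rfl fun i _ => ?_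
  rw [Finset.sum_comm]
  refine Finset.sum_congr rfl fun j _ => ?_
  rw [← Finset.mul_sum, Finset.sum_sub_distrib]
  congr 2
  · unfold spinNsq
    rw [sum_append]
  · rw [sum_append, Complex.re_sum]
    refine Finset.sum_congr rfl fun r _ => ?_
    refine congrArg Complex.re (Finset.sum_congr rfl fun s _ => ?_)
    rw [append_swap]

/-- adding isolated spins -/
theorem heisMax_embed {K₀ : ℕ} (h : K₀ ≤ K) (J : ℕ → ℕ → ℝ)
    (hJ : ∀ i j, K₀ ≤ i ∨ K₀ ≤ j → J i j = 0) :
    heisMax (fun i j : Fin K => J i j) = heisMax (fun i j : Fin K₀ => J i j) := by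
  classical
  obtain ⟨L, rfl⟩ := Nat.exists_eq_add_of_le h
  refine le_antisymm (heisMax_le _ _ fun φ hφ => ?_) (heisMax_le _ _ fun φ hφ => ?_)
  · rw [heisE_append J hJ]
    calc _ ≤ ∑ r : Fin L → Fin 2, heisMax (fun i j : Fin K₀ => J i j) *
          spinNsq (fun s => φ (Fin.append s r)) :=
          Finset.sum_le_sum fun r _ => heisE_le_mul _ _
      _ = heisMax (fun i j : Fin K₀ => J i j) * spinNsq φ := by
          rw [← Finset.mul_sum]
          congr 1
          unfold spinNsq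
          rw [sum_append]
      _ = _ := by rw [hφ, mul_one]
  · set ψ : SpinState (K₀ + L) := fun s =>
      if (fun k : Fin L => s (Fin.natAdd K₀ k)) = 0 then φ (fun k => s (Fin.castAdd L k)) else 0
      with hψ
    have h1 : ∀ r : Fin L → Fin 2, (fun s => ψ (Fin.append s r)) =
        if r = 0 then φ else fun _ => 0 := by
      intro r
      funext s
      simp only [hψ, Fin.append_right, Fin.append_left]
      split_ifs <;> rfl
    have h2 : spinNsq ψ = 1 := by
      rw [← hφ]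
      have : spinNsq ψ = ∑ r : Fin L → Fin 2, spinNsq (fun s => ψ (Fin.append s r)) := by
        unfold spinNsq
        rw [sum_append]
      rw [this, Finset.sum_eq_single 0]
      · rw [h1, if_pos rfl]
      · intro r _ hr
        rw [h1, if_neg hr]
        simp only [spinNsq, norm_zero, ne_eq, OfNat.ofNat_ne_zero, not_false_eq_true, zero_pow, sum_const_zero]
      · intro h'
        exact absurd (Finset.mem_univ _) h'
    refine le_trans (le_of_eq ?_) (le_heisMax _ ψ h2)
    rw [heisE_append J hJ, Finset.sum_eq_single 0]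
    · rw [h1, if_pos rfl]
    · intro r _ hr
      rw [h1, if_neg hr]
      simp only [heisE, spinNsq, norm_zero, ne_eq, OfNat.ofNat_ne_zero, not_false_eq_true, zero_pow, sum_const_zero, map_zero, mul_zero, Complex.zero_re, sub_self]
    · intro h'
      exact absurd (Finset.mem_univ _) h'

/-- relation with the source problem -/
theorem heisenbergForm_eq (m : ℕ → ℕ → ℕ) (φ : SpinState K) :
    heisenbergForm m φ = (∑ i : Fin K, ∑ j ∈ Ioi i, (m i j : ℝ)) * spinNsq φ -
      2 * heisE (fun i j : Fin K => (m i j : ℝ)) φ := by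
  unfold heisenbergForm heisE
  rw [Finset.sum_mul, Finset.mul_sum, ← Finset.sum_sub_distrib]
  refine Finset.sum_congr rfl fun i _ => ?_
  rw [Finset.sum_mul, Finset.mul_sum, ← Finset.sum_sub_distrib]
  refine Finset.sum_congr rfl fun j _ => ?_
  unfold spinNsq
  ring

/-- sum of all weights -/
def mSum (w : List Bool) : ℕ :=
  ((List.range (hK w)).map fun j => ((List.range j).map fun i => hM w i j).sum).sum

private theorem mSum_eq (w : List Bool) :
    ((mSum w : ℕ) : ℝ) = ∑ i : Fin (hK w), ∑ j ∈ Ioi i, (hM w i j : ℝ) := by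
  have h0 : ∀ (n : ℕ) (f : ℕ → ℕ), ((List.range n).map f).sum = ∑ i ∈ range n, f i := by
    intro n f
    rw [← List.sum_toFinset f List.nodup_range, List.toFinset_range]
  have h1 : ∀ (K : ℕ) (g : ℕ → ℕ → ℕ), ∑ i : Fin K, ∑ j ∈ Ioi i, (g i j : ℝ) =
      ∑ i ∈ range K, ∑ j ∈ range K, if i < j then (g i j : ℝ) else 0 := by
    intro K g
    rw [← Fin.sum_univ_eq_sum_range (fun i => ∑ j ∈ range K, if i < j then (g i j : ℝ) else 0)]
    refine Finset.sum_congr rfl fun i _ => ?_
    rw [← Fin.sum_univ_eq_sum_range (fun j => if (i : ℕ) < j then (g i j : ℝ) else 0),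
      ← Finset.sum_filter]
    refine Finset.sum_congr ?_ fun _ _ => rfl
    ext j
    simp only [mem_Ioi, Fin.val_fin_lt, mem_filter, mem_univ, true_and]
  rw [h1, Finset.sum_comm]
  unfold mSum
  simp only [h0]
  push_cast
  refine Finset.sum_congr rfl fun j hj => ?_
  rw [← Finset.sum_filter]
  refine Finset.sum_congr ?_ fun _ _ => rfl
  ext i
  simp only [Finset.mem_range, Finset.mem_filter] at hj ⊢
  omega

theorem yes_heisMax (w : List Bool) (h : w ∈ heisenbergAF.yes) :
    (((mSum w : ℕ) : ℝ) + hA w) / 2 ≤ heisMax (fun i j : Fin (hK w) => (hM w i j : ℝ)) := by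
  obtain ⟨φ, hφ, hE⟩ := h
  have h1 : spinNsq φ = 1 := hφ
  have h2 := le_heisMax (fun i j : Fin (hK w) => (hM w i j : ℝ)) φ h1
  rw [heisenbergForm_eq, h1, mul_one, ← mSum_eq] at hE
  linarith only [hE, h2]

theorem no_heisMax (w : List Bool) (h : w ∈ heisenbergAF.no) :
    heisMax (fun i j : Fin (hK w) => (hM w i j : ℝ)) ≤ (((mSum w : ℕ) : ℝ) + hA w - 1) / 2 := by
  refine heisMax_le _ _ fun φ hφ => ?_
  have hE := h φ hφ
  rw [heisenbergForm_eq, hφ, mul_one, ← mSum_eq] at hE
  linarith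

end Vale.Agent.P370.Q.Alg
end
end

section

section

/-!
Definitions for the proof of the structure theorem.
-/

namespace Vale.Agent.P370.Q

open MeasureTheory Finset

/-- orthonormalised site orbitals -/
noncomputable def gS (k : ℕ) (Cm : Fin (pK k) → Fin (pK k) → ℝ) (i : Fin (pK k)) : R3 → ℝ :=
  fun x => ∑ j, Cm i j * fh (pn k) (pα k j) x

/-- `pL k = 2 ^ pe0 k` -/
def pe0 (k : ℕ) : ℕ := pn k / (4 * pK k ^ 2)

/-- form of the device `(γ, N)` of strength one -/
noncomputable def devf (k : ℕ) (γ : ℝ) (N : ℕ) (φ ψ : R3 → ℝ) : ℝ :=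
  ∑ a ∈ range (pD k), ∑ b ∈ range (pD k),
    qw (pD k) a * (cdot (av γ) (node (pD k) a b) ^ N).re * gm (pρ k • node (pD k) a b) φ ψ

/-- exact first order form of the light nuclei -/
noncomputable def hex (k : ℕ) (q : ℕ → ℕ) (s : ℕ → ℕ → ℕ) (φ ψ : R3 → ℝ) : ℝ :=
  ∑ a ∈ range (pD k), ∑ b ∈ range (pD k), wex k q s a b * gm (pρ k • node (pD k) a b) φ ψ

/-- radial factor of a unit device -/
noncomputable def zt (k N : ℕ) : ℝ := Xu (pn k) N (pρ k) * RN (pn k) N (pρ k) / I0 (pn k)

/-- angular amplitude at distance `d` -/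
noncomputable def amp (k : ℕ) (q : ℕ → ℕ) (d : ℕ) : ℝ :=
  hopA (pn k) (q d) 0 (0 + Real.pi * d / (2 * pK k)) (0 - Real.pi * d / (2 * pK k))

/-- depth of the sites -/
noncomputable def Lam (k : ℕ) : ℝ := pL k * zt k (2 * (pn k - 1)) * gam (pn k)

/-- hopping amplitude at distance `d` for the parameter `x` -/
noncomputable def thop (k : ℕ) (q : ℕ → ℕ) (d x : ℕ) : ℝ :=
  -((x : ℝ) * pη k * zt k (2 * q d) * amp k q d)

/-- hopping matrix -/
noncomputable def tS (k : ℕ) (q : ℕ → ℕ) (s : ℕ → ℕ → ℕ) (i j : Fin (pK k)) : ℝ :=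
  if i < j then thop k q (j - i) (s i j) else if j < i then thop k q (i - j) (s j i) else 0

/-- direct Coulomb matrix of the sites -/
noncomputable def wS (k : ℕ) (i j : Fin (pK k)) : ℝ := wdir (pn k) (pα k i - pα k j)

/-- exchange coupling per squared parameter -/
noncomputable def kap (k : ℕ) (q : ℕ → ℕ) (d : ℕ) : ℝ :=
  2 * (pη k * zt k (2 * q d) * amp k q d) ^ 2 / (wdir (pn k) 0 - wdir (pn k) (Real.pi * d / pK k))

/-- admissible parameters -/
def GoodS (k : ℕ) (q : ℕ → ℕ) (s : ℕ → ℕ → ℕ) : Prop :=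
  ∀ i j, i < j → j < pK k → kap k q (j - i) * (s i j : ℝ) ^ 2 ≤ 16 * pJ k

/-- shell basis adapted to the sites -/
structure SiteB (k : ℕ) (C R : Type) [Fintype C] [DecidableEq C] [Fintype R] [DecidableEq R] where
  B : ShellBasis (pn k) (C ⊕ (Fin (pK k) ⊕ R))
  Cm : Fin (pK k) → Fin (pK k) → ℝ
  near : ∀ i j, |Cm i j - if i = j then 1 else 0| ≤ 1 / 2 ^ (4 * pe0 k)
  chi : ∀ i, B.χ (Sum.inr (Sum.inl i)) = gS k Cm i
  hC : ∀ c, B.lev (Sum.inl c) < pn k
  hO : ∀ o, B.lev (Sum.inr o) = pn k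

/-- one-body matrix of the open shell -/
noncomputable def hS {k : ℕ} {C R : Type} [Fintype C] [DecidableEq C] [Fintype R]
    [DecidableEq R] (S : SiteB k C R) {m : ℕ} (w : Fin m → ℝ) (y : Fin m → R3) :
    Fin (pK k) ⊕ R → Fin (pK k) ⊕ R → ℝ :=
  closedF (nucM S.B.χ w y) (coulM S.B.χ)

/-- two-body integrals of the open shell -/
noncomputable def vS {k : ℕ} {C R : Type} [Fintype C] [DecidableEq C] [Fintype R]
    [DecidableEq R] (S : SiteB k C R) :
    Fin (pK k) ⊕ R → Fin (pK k) ⊕ R → Fin (pK k) ⊕ R → Fin (pK k) ⊕ R → ℝ :=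
  fun p a q b => coulM S.B.χ (Sum.inr p) (Sum.inr a) (Sum.inr q) (Sum.inr b)

/-- on-site energy -/
noncomputable def eps0 {k : ℕ} {C R : Type} [Fintype C] [DecidableEq C] [Fintype R]
    [DecidableEq R] (S : SiteB k C R) : ℝ :=
  pW k * xr (pn k) (pρ k) + mfield S.B (fh (pn k) 0) (fh (pn k) 0) - Lam k

/-- energy of the closed shells, without rounding errors -/
noncomputable def cc0 {k : ℕ} {C R : Type} [Fintype C] [DecidableEq C] [Fintype R]
    [DecidableEq R] (S : SiteB k C R) : ℝ :=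
  2 * (pW k * ∑ c : C, gm (pρ k • node (pD k) 0 0) (S.B.χ (Sum.inl c)) (S.B.χ (Sum.inl c))) +
    ∑ a : C, ∑ b : C, (2 * coulM S.B.χ (Sum.inl a) (Sum.inl a) (Sum.inl b) (Sum.inl b) -
      coulM S.B.χ (Sum.inl a) (Sum.inl b) (Sum.inl b) (Sum.inl a))

/-- reference energy -/
noncomputable def Erefv {k : ℕ} {C R : Type} [Fintype C] [DecidableEq C] [Fintype R]
    [DecidableEq R] (S : SiteB k C R) : ℝ :=
  (pT k : ℝ) ^ 2 * (-((pn k : ℝ) - 1) - pK k / (2 * (pn k : ℝ) ^ 2)) +
    pT k * (cc0 S + mottBase (wS k) (eps0 S))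

end Vale.Agent.P370.Q
end
end

section

section

/-!
Legendre functions for `Sph3`.
-/

namespace Vale.Agent.P370.Q.S3

open MeasureTheory intervalIntegral

/-- Legendre polynomials -/
noncomputable def lp : ℕ → ℝ → ℝ
  | 0 => fun _ => 1
  | 1 => fun t => t
  | (n + 2) => fun t => ((2 * (n : ℝ) + 3) * t * lp (n + 1) t - ((n : ℝ) + 1) * lp n t) / (n + 2)

/-- their derivatives -/
noncomputable def lq : ℕ → ℝ → ℝ
  | 0 => fun _ => 0
  | 1 => fun _ => 1
  | (n + 2) => fun t =>
    ((2 * (n : ℝ) + 3) * (lp (n + 1) t + t * lq (n + 1) t) - ((n : ℝ) + 1) * lq n t) / (n + 2)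

theorem lp_hasDerivAt (n : ℕ) (t : ℝ) : HasDerivAt (lp n) (lq n t) t := by
  induction n using Nat.twoStepInduction with
  | zero => exact hasDerivAt_const t (1 : ℝ)
  | one => exact hasDerivAt_id t
  | more n ih0 ih1 =>
    have h := (((((hasDerivAt_id t).mul ih1).const_mul (2 * (n : ℝ) + 3)).sub
      (ih0.const_mul ((n : ℝ) + 1))).div_const ((n : ℝ) + 2))
    refine HasDerivAt.congr_deriv (f := lp (n + 2)) (h.congr_of_eventuallyEq ?_) ?_
    · refine Filter.Eventually.of_forall fun s => ?_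
      show ((2 * (n : ℝ) + 3) * s * lp (n + 1) s - ((n : ℝ) + 1) * lp n s) / (n + 2) =
        ((2 * (n : ℝ) + 3) * (s * lp (n + 1) s) - ((n : ℝ) + 1) * lp n s) / (n + 2)
      ring
    · show ((2 * (n : ℝ) + 3) * (1 * lp (n + 1) t + t * lq (n + 1) t) - ((n : ℝ) + 1) * lq n t) /
        (n + 2) = ((2 * (n : ℝ) + 3) * (lp (n + 1) t + t * lq (n + 1) t) -
        ((n : ℝ) + 1) * lq n t) / (n + 2)
      ring

theorem lp_continuous (n : ℕ) : Continuous (lp n) :=
  continuous_iff_continuousAt.2 fun t => (lp_hasDerivAt n t).continuousAt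

theorem lp_succ (n : ℕ) (t : ℝ) :
    ((n : ℝ) + 2) * lp (n + 2) t = (2 * (n : ℝ) + 3) * t * lp (n + 1) t - ((n : ℝ) + 1) * lp n t := by
  have : ((n : ℝ) + 2) ≠ 0 := by (clear * -; positivity)
  show ((n : ℝ) + 2) * (((2 * (n : ℝ) + 3) * t * lp (n + 1) t - ((n : ℝ) + 1) * lp n t) / (n + 2)) = _
  field_simp

theorem lq_succ (n : ℕ) (t : ℝ) :
    ((n : ℝ) + 2) * lq (n + 2) t =
      (2 * (n : ℝ) + 3) * (lp (n + 1) t + t * lq (n + 1) t) - ((n : ℝ) + 1) * lq n t := by
  have : ((n : ℝ) + 2) ≠ 0 := by positivity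
  show ((n : ℝ) + 2) * (((2 * (n : ℝ) + 3) * (lp (n + 1) t + t * lq (n + 1) t) -
    ((n : ℝ) + 1) * lq n t) / (n + 2)) = _
  (clear * - this; field_simp)

theorem lq_rel (n : ℕ) (t : ℝ) :
    ((n : ℝ) + 1) * lp (n + 1) t = t * lq (n + 1) t - lq n t ∧
      ((n : ℝ) + 1) * lp n t = lq (n + 1) t - t * lq n t := by
  induction n with
  | zero => simp only [CharP.cast_eq_zero, zero_add, lp, one_mul, lq, mul_one, sub_zero, mul_zero, and_self]
  | succ n ih =>
    obtain ⟨h1, h2⟩ := ih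
    have h3 := lp_succ n t
    have h4 := lq_succ n t
    have hn : ((n : ℝ) + 2) ≠ 0 := by (clear * -; positivity)
    have e2 : lq (n + 2) t = t * lq (n + 1) t + ((n : ℝ) + 2) * lp (n + 1) t := by
      apply mul_left_cancel₀ hn
      rw [h4]
      linear_combination (-((n : ℝ) + 1)) * h1
    push_cast
    refine ⟨?_, ?_⟩
    · show ((n : ℝ) + 1 + 1) * lp (n + 2) t = t * lq (n + 2) t - lq (n + 1) t
      rw [e2]
      linear_combination h3 + t * h1 - h2
    · show ((n : ℝ) + 1 + 1) * lp (n + 1) t = lq (n + 2) t - t * lq (n + 1) t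
      rw [e2]
      ring

theorem lp_deriv (n : ℕ) (t : ℝ) :
    (2 * ((n : ℝ) + 1) + 1) * lp (n + 1) t = lq (n + 2) t - lq n t := by
  have h1 := (lq_rel n t).1
  have h2 := (lq_rel (n + 1) t).2
  push_cast at h2
  show _ = lq (n + 1 + 1) t - lq n t
  linear_combination h1 + h2

theorem lp_one (n : ℕ) : lp n 1 = 1 := by
  induction n using Nat.twoStepInduction with
  | zero => rfl
  | one => rfl
  | more n ih0 ih1 =>
    have hn : ((n : ℝ) + 2) ≠ 0 := by (clear * -; positivity)
    apply mul_left_cancel₀ hn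
    rw [lp_succ, ih0, ih1]
    ring

theorem lp_neg_one (n : ℕ) : lp n (-1) = (-1) ^ n := by
  induction n using Nat.twoStepInduction with
  | zero => simp [lp]
  | one => simp [lp]
  | more n ih0 ih1 =>
    have hn : ((n : ℝ) + 2) ≠ 0 := by (clear * -; positivity)
    apply mul_left_cancel₀ hn
    rw [lp_succ, ih0, ih1]
    ring

/-! ### Laplace integral -/

section Laplace

variable (c1 c2 c3 : ℂ) (σ t : ℝ)

noncomputable def Xf (φ : ℝ) : ℂ := c3 * t + σ * (c1 * Real.cos φ + c2 * Real.sin φ)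

theorem Xf_continuous : Continuous (Xf c1 c2 c3 σ t) := by
  unfold Xf
  (clear * -; fun_prop)

theorem laplace_rec (hc : c1 ^ 2 + c2 ^ 2 + c3 ^ 2 = 0) (ht : σ ^ 2 + t ^ 2 = 1) (n : ℕ) :
    ((n : ℂ) + 2) * (∫ φ in (0 : ℝ)..(2 * Real.pi), Xf c1 c2 c3 σ t φ ^ (n + 2)) =
      (2 * (n : ℂ) + 3) * c3 * t * (∫ φ in (0 : ℝ)..(2 * Real.pi), Xf c1 c2 c3 σ t φ ^ (n + 1)) -
      ((n : ℂ) + 1) * c3 ^ 2 * (∫ φ in (0 : ℝ)..(2 * Real.pi), Xf c1 c2 c3 σ t φ ^ n) := by
  have hcos : ∀ φ : ℝ, HasDerivAt (fun x : ℝ => ((Real.cos x : ℝ) : ℂ)) (-(Real.sin φ : ℝ) : ℂ) φ := by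
    intro φ
    have := (Real.hasDerivAt_cos φ).ofReal_comp
    simpa only [Complex.ofReal_cos, Complex.ofReal_sin, Complex.ofReal_neg] using this
  have hsin : ∀ φ : ℝ, HasDerivAt (fun x : ℝ => ((Real.sin x : ℝ) : ℂ)) ((Real.cos φ : ℝ) : ℂ) φ := by
    intro φ
    have := (Real.hasDerivAt_sin φ).ofReal_comp
    simpa only [Complex.ofReal_sin, Complex.ofReal_cos] using this
  have hX : ∀ φ : ℝ, HasDerivAt (Xf c1 c2 c3 σ t)
      (σ * (-c1 * Real.sin φ + c2 * Real.cos φ)) φ := by
    intro φ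
    have := ((((hcos φ).const_mul c1).add ((hsin φ).const_mul c2)).const_mul (σ : ℂ)).const_add
      (c3 * t)
    exact this.congr_deriv (by ring)
  have hg : ∀ φ : ℝ, HasDerivAt (fun x : ℝ => -c1 * Real.sin x + c2 * Real.cos x)
      (-(c1 * Real.cos φ + c2 * Real.sin φ)) φ := by
    intro φ
    have := ((hsin φ).const_mul (-c1)).add ((hcos φ).const_mul c2)
    exact this.congr_deriv (by ring)
  have hH : ∀ φ : ℝ, HasDerivAt
      (fun x : ℝ => -(σ * (Xf c1 c2 c3 σ t x ^ (n + 1) * (-c1 * Real.sin x + c2 * Real.cos x))))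
      (((n : ℂ) + 2) * Xf c1 c2 c3 σ t φ ^ (n + 2) -
        (2 * (n : ℂ) + 3) * c3 * t * Xf c1 c2 c3 σ t φ ^ (n + 1) +
        ((n : ℂ) + 1) * c3 ^ 2 * Xf c1 c2 c3 σ t φ ^ n) φ := by
    intro φ
    have := ((((hX φ).pow (n + 1)).mul (hg φ)).const_mul (σ : ℂ)).neg
    refine this.congr_deriv ?_
    simp only [Pi.pow_apply]
    have hs : (Real.sin φ : ℂ) ^ 2 + (Real.cos φ : ℂ) ^ 2 = 1 := by
      rw [← Complex.ofReal_pow, ← Complex.ofReal_pow, ← Complex.ofReal_add,
        Real.sin_sq_add_cos_sq, Complex.ofReal_one]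
    have ht' : (σ : ℂ) ^ 2 + (t : ℂ) ^ 2 = 1 := by
      rw [← Complex.ofReal_pow, ← Complex.ofReal_pow, ← Complex.ofReal_add, ht, Complex.ofReal_one]
    have key : (σ : ℂ) ^ 2 * (-c1 * Real.sin φ + c2 * Real.cos φ) ^ 2 =
        -c3 ^ 2 - Xf c1 c2 c3 σ t φ ^ 2 + 2 * c3 * t * Xf c1 c2 c3 σ t φ := by
      unfold Xf
      linear_combination ((σ : ℂ) ^ 2 * (c1 ^ 2 + c2 ^ 2)) * hs + (σ : ℂ) ^ 2 * hc -
        c3 ^ 2 * ht'
    have hX1 : (σ : ℂ) * (c1 * Real.cos φ + c2 * Real.sin φ) = Xf c1 c2 c3 σ t φ - c3 * t := by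
      unfold Xf; ring
    simp only [Nat.add_sub_cancel]
    push_cast
    generalize hY : Xf c1 c2 c3 σ t φ = Y at *
    have e1 : -((σ : ℂ) * (((n : ℂ) + 1) * Y ^ n * (σ * (-c1 * Real.sin φ + c2 * Real.cos φ)) *
        (-c1 * Real.sin φ + c2 * Real.cos φ) +
        Y ^ (n + 1) * (-(c1 * Real.cos φ + c2 * Real.sin φ)))) =
        -(((n : ℂ) + 1) * Y ^ n * ((σ : ℂ) ^ 2 * (-c1 * Real.sin φ + c2 * Real.cos φ) ^ 2)) +
        Y ^ (n + 1) * ((σ : ℂ) * (c1 * Real.cos φ + c2 * Real.sin φ)) := by ring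
    push_cast at e1 key hX1
    rw [e1, key, hX1]
    ring
  have hint := integral_eq_sub_of_hasDerivAt (a := 0) (b := 2 * Real.pi)
    (f := fun x : ℝ => -(σ * (Xf c1 c2 c3 σ t x ^ (n + 1) * (-c1 * Real.sin x + c2 * Real.cos x))))
    (fun φ _ => hH φ) (by
      have := Xf_continuous c1 c2 c3 σ t
      apply Continuous.intervalIntegrable
      (clear * - this; fun_prop))
  have hXc := Xf_continuous c1 c2 c3 σ t
  have hz : (-(σ * (Xf c1 c2 c3 σ t (2 * Real.pi) ^ (n + 1) *
      (-c1 * Real.sin (2 * Real.pi) + c2 * Real.cos (2 * Real.pi)))) : ℂ) -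
      (-(σ * (Xf c1 c2 c3 σ t 0 ^ (n + 1) * (-c1 * Real.sin 0 + c2 * Real.cos 0)))) = 0 := by
    simp only [Xf, Real.cos_two_pi, Complex.ofReal_one, mul_one, Real.sin_two_pi, Complex.ofReal_zero, mul_zero, add_zero, zero_add, Real.cos_zero, Real.sin_zero, sub_self]
  rw [hz] at hint
  rw [intervalIntegral.integral_add, intervalIntegral.integral_sub,
    intervalIntegral.integral_const_mul, intervalIntegral.integral_const_mul,
    intervalIntegral.integral_const_mul] at hint
  · linear_combination hint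
  all_goals
    apply Continuous.intervalIntegrable
    fun_prop

theorem laplace_eq (hc : c1 ^ 2 + c2 ^ 2 + c3 ^ 2 = 0) (ht : σ ^ 2 + t ^ 2 = 1) (n : ℕ) :
    (∫ φ in (0 : ℝ)..(2 * Real.pi), Xf c1 c2 c3 σ t φ ^ n) = 2 * Real.pi * c3 ^ n * lp n t := by
  induction n using Nat.twoStepInduction with
  | zero => simp only [pow_zero, intervalIntegral.integral_const, sub_zero, Complex.real_smul, Complex.ofReal_mul, Complex.ofReal_ofNat, mul_one, lp, Complex.ofReal_one]
  | one =>
    simp only [pow_one, Xf, lp]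
    have h1 : ∫ φ in (0 : ℝ)..(2 * Real.pi), ((Real.cos φ : ℝ) : ℂ) = 0 := by
      rw [intervalIntegral.integral_ofReal, integral_cos]
      simp
    have h2 : ∫ φ in (0 : ℝ)..(2 * Real.pi), ((Real.sin φ : ℝ) : ℂ) = 0 := by
      rw [intervalIntegral.integral_ofReal, integral_sin]
      simp
    rw [intervalIntegral.integral_add (by apply Continuous.intervalIntegrable; fun_prop)
      (by apply Continuous.intervalIntegrable; fun_prop),
      intervalIntegral.integral_const_mul (σ : ℂ),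
      intervalIntegral.integral_add (by apply Continuous.intervalIntegrable; fun_prop)
      (by apply Continuous.intervalIntegrable; fun_prop), intervalIntegral.integral_const_mul c1,
      intervalIntegral.integral_const_mul c2, h1, h2]
    simp only [intervalIntegral.integral_const_mul, intervalIntegral.integral_const, sub_zero, Complex.real_smul, Complex.ofReal_mul, Complex.ofReal_ofNat, mul_zero, add_zero]
    ring
  | more n ih0 ih1 =>
    have hn : ((n : ℂ) + 2) ≠ 0 := by
      have : ((n + 2 : ℕ) : ℂ) ≠ 0 := Nat.cast_ne_zero.2 (by omega)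
      push_cast at this
      exact this
    apply mul_left_cancel₀ hn
    rw [laplace_rec c1 c2 c3 σ t hc ht n, ih0, ih1]
    have := lp_succ n t
    have h3 : ((n : ℂ) + 2) * (lp (n + 2) t : ℂ) =
        (2 * (n : ℂ) + 3) * t * (lp (n + 1) t : ℂ) - ((n : ℂ) + 1) * (lp n t : ℂ) := by
      have := congrArg (fun x : ℝ => (x : ℂ)) this
      push_cast at this
      exact this
    linear_combination (-2 * (Real.pi : ℂ) * c3 ^ (n + 2)) * h3

end Laplace

/-! ### the radial integrals -/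

section Radial

variable {r ρ : ℝ}

/-- squared distance -/
noncomputable def Dd (r ρ t : ℝ) : ℝ := r ^ 2 + ρ ^ 2 - 2 * r * ρ * t

theorem Dd_pos (hr : 0 < r) (hρ : 0 < ρ) (hne : r ≠ ρ) {t : ℝ} (ht : t ≤ 1) :
    0 < Dd r ρ t := by
  unfold Dd
  have h1 : 0 < (r - ρ) ^ 2 := by
    have : r - ρ ≠ 0 := sub_ne_zero.2 hne
    (clear * - hne; positivity)
  have h2 : 0 ≤ 2 * r * ρ * (1 - t) := by
    have : 0 ≤ 1 - t := by linarith only [ht]
    positivity
  linarith only [h1, h2]

theorem Dd_continuous (r ρ : ℝ) : Continuous (Dd r ρ) := by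
  unfold Dd
  fun_prop

theorem inv_sqrt_hasDerivAt (hr : 0 < r) (hρ : 0 < ρ) (hne : r ≠ ρ) {t : ℝ} (ht : t ≤ 1) :
    HasDerivAt (fun t => 1 / √(Dd r ρ t)) (r * ρ * (1 / (Dd r ρ t * √(Dd r ρ t)))) t := by
  have hD := Dd_pos hr hρ hne ht
  have h1 : HasDerivAt (Dd r ρ) (-(2 * r * ρ)) t := by
    unfold Dd
    have := ((hasDerivAt_id t).const_mul (2 * r * ρ)).const_sub (r ^ 2 + ρ ^ 2)
    simpa only [id_eq, mul_one] using this
  have h2 := (h1.sqrt hD.ne').inv (Real.sqrt_ne_zero'.2 hD)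
  have h3 : (fun t => 1 / √(Dd r ρ t)) = (fun t => (√(Dd r ρ t)))⁻¹ := by
    ext s; simp
  rw [h3]
  refine h2.congr_deriv ?_
  have hs := Real.sq_sqrt hD.le
  have hs0 : √(Dd r ρ t) ≠ 0 := Real.sqrt_ne_zero'.2 hD
  rw [hs]
  field_simp

theorem Dd_pos' (hr : 0 < r) (hρ : 0 < ρ) (hne : r ≠ ρ) {t : ℝ} (ht : t ∈ Set.uIcc (-1 : ℝ) 1) :
    0 < Dd r ρ t := by
  apply Dd_pos hr hρ hne
  rw [Set.uIcc_of_le (by norm_num)] at ht
  exact ht.2

theorem cA (hr : 0 < r) (hρ : 0 < ρ) (hne : r ≠ ρ) :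
    ContinuousOn (fun t => 1 / √(Dd r ρ t)) (Set.uIcc (-1 : ℝ) 1) := by
  apply ContinuousOn.div continuousOn_const
  · exact (Dd_continuous r ρ).sqrt.continuousOn
  · intro t ht
    exact Real.sqrt_ne_zero'.2 (Dd_pos' hr hρ hne ht)

theorem cB (hr : 0 < r) (hρ : 0 < ρ) (hne : r ≠ ρ) :
    ContinuousOn (fun t => 1 / (Dd r ρ t * √(Dd r ρ t))) (Set.uIcc (-1 : ℝ) 1) := by
  apply ContinuousOn.div continuousOn_const
  · exact ((Dd_continuous r ρ).mul (Dd_continuous r ρ).sqrt).continuousOn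
  · intro t ht
    have := Dd_pos' hr hρ hne ht
    have h2 := Real.sqrt_ne_zero'.2 this
    exact mul_ne_zero this.ne' h2

/-- Legendre coefficient of the inverse distance -/
noncomputable def aI (r ρ : ℝ) (n : ℕ) : ℝ :=
  (1 / 2) * ∫ t in (-1 : ℝ)..1, 1 / √(Dd r ρ t) * lp n t

/-- Legendre coefficient of the inverse cubed distance -/
noncomputable def bI (r ρ : ℝ) (n : ℕ) : ℝ :=
  (1 / 2) * ∫ t in (-1 : ℝ)..1, 1 / (Dd r ρ t * √(Dd r ρ t)) * lp n t

theorem aI_int (hr : 0 < r) (hρ : 0 < ρ) (hne : r ≠ ρ) (n : ℕ) :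
    IntervalIntegrable (fun t => 1 / √(Dd r ρ t) * lp n t) volume (-1) 1 :=
  ((cA hr hρ hne).mul (lp_continuous n).continuousOn).intervalIntegrable

theorem bI_int (hr : 0 < r) (hρ : 0 < ρ) (hne : r ≠ ρ) (n : ℕ) :
    IntervalIntegrable (fun t => 1 / (Dd r ρ t * √(Dd r ρ t)) * lp n t) volume (-1) 1 :=
  ((cB hr hρ hne).mul (lp_continuous n).continuousOn).intervalIntegrable

theorem rel1 (hr : 0 < r) (hρ : 0 < ρ) (hne : r ≠ ρ) (n : ℕ) :
    (2 * (n : ℝ) + 3) * aI r ρ (n + 1) = -(r * ρ * (bI r ρ (n + 2) - bI r ρ n)) := by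
  have hd : ∀ t ∈ Set.uIcc (-1 : ℝ) 1,
      HasDerivAt (fun t => (lp (n + 2) t - lp n t) * (1 / √(Dd r ρ t)))
        ((2 * (n : ℝ) + 3) * (1 / √(Dd r ρ t) * lp (n + 1) t) +
          r * ρ * (1 / (Dd r ρ t * √(Dd r ρ t)) * lp (n + 2) t -
            1 / (Dd r ρ t * √(Dd r ρ t)) * lp n t)) t := by
    intro t ht
    rw [Set.uIcc_of_le (by norm_num)] at ht
    have h1 := ((lp_hasDerivAt (n + 2) t).sub (lp_hasDerivAt n t)).mul
      (inv_sqrt_hasDerivAt hr hρ hne ht.2)
    refine h1.congr_deriv ?_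
    have h2 := lp_deriv n t
    rw [← h2]
    simp only [Pi.sub_apply]
    ring
  have hi1 := aI_int hr hρ hne (n + 1)
  have hi2 := bI_int hr hρ hne (n + 2)
  have hi3 := bI_int hr hρ hne n
  have h := integral_eq_sub_of_hasDerivAt hd
    ((hi1.const_mul _).add ((hi2.sub hi3).const_mul _))
  rw [intervalIntegral.integral_add (hi1.const_mul _) ((hi2.sub hi3).const_mul _),
    intervalIntegral.integral_const_mul, intervalIntegral.integral_const_mul,
    intervalIntegral.integral_sub hi2 hi3] at h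
  have e1 : lp (n + 2) 1 - lp n 1 = 0 := by rw [lp_one, lp_one]; ring
  have e2 : lp (n + 2) (-1) - lp n (-1) = 0 := by rw [lp_neg_one, lp_neg_one]; ring
  rw [e1, e2] at h
  unfold aI bI
  linear_combination (1 / 2) * h

theorem rel2 (hr : 0 < r) (hρ : 0 < ρ) (hne : r ≠ ρ) (n : ℕ) :
    (2 * (n : ℝ) + 3) * aI r ρ (n + 1) = (2 * (n : ℝ) + 3) * (r ^ 2 + ρ ^ 2) * bI r ρ (n + 1) -
      2 * r * ρ * (((n : ℝ) + 2) * bI r ρ (n + 2) + ((n : ℝ) + 1) * bI r ρ n) := by
  have hi2 := bI_int hr hρ hne (n + 2)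
  have hi1 := bI_int hr hρ hne (n + 1)
  have hi3 := bI_int hr hρ hne n
  have e : (∫ t in (-1 : ℝ)..1, (2 * (n : ℝ) + 3) * (1 / √(Dd r ρ t) * lp (n + 1) t)) =
      ∫ t in (-1 : ℝ)..1, ((2 * (n : ℝ) + 3) * (r ^ 2 + ρ ^ 2) *
        (1 / (Dd r ρ t * √(Dd r ρ t)) * lp (n + 1) t) -
        (2 * r * ρ * ((n : ℝ) + 2) * (1 / (Dd r ρ t * √(Dd r ρ t)) * lp (n + 2) t) +
        2 * r * ρ * ((n : ℝ) + 1) * (1 / (Dd r ρ t * √(Dd r ρ t)) * lp n t))) := by
    apply intervalIntegral.integral_congr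
    intro t ht
    have hD := Dd_pos' hr hρ hne ht
    have hs : √(Dd r ρ t) ≠ 0 := Real.sqrt_ne_zero'.2 hD
    have hl := lp_succ n t
    simp only
    have e1 : 1 / √(Dd r ρ t) = (r ^ 2 + ρ ^ 2 - 2 * r * ρ * t) * (1 / (Dd r ρ t * √(Dd r ρ t))) := by
      have : (r ^ 2 + ρ ^ 2 - 2 * r * ρ * t) = Dd r ρ t := rfl
      rw [this]
      (clear * - hD hs; field_simp)
    rw [e1]
    linear_combination (2 * r * ρ * (1 / (Dd r ρ t * √(Dd r ρ t)))) * hl
  rw [intervalIntegral.integral_const_mul, intervalIntegral.integral_sub (hi1.const_mul _)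
    ((hi2.const_mul _).add (hi3.const_mul _)), intervalIntegral.integral_add (hi2.const_mul _)
    (hi3.const_mul _), intervalIntegral.integral_const_mul, intervalIntegral.integral_const_mul,
    intervalIntegral.integral_const_mul] at e
  unfold aI bI
  linear_combination (1 / 2) * e

theorem rel3 (hr : 0 < r) (hρ : 0 < ρ) (hne : r ≠ ρ) (n : ℕ) :
    r * ρ * (bI r ρ (n + 2) + bI r ρ n) = (r ^ 2 + ρ ^ 2) * bI r ρ (n + 1) := by
  have h1 := rel1 hr hρ hne n
  have h2 := rel2 hr hρ hne n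
  have hn : (2 * (n : ℝ) + 3) ≠ 0 := by positivity
  apply mul_left_cancel₀ hn
  linear_combination h2 - h1

theorem rel2' (hr : 0 < r) (hρ : 0 < ρ) (hne : r ≠ ρ) :
    aI r ρ 0 = (r ^ 2 + ρ ^ 2) * bI r ρ 0 - 2 * r * ρ * bI r ρ 1 := by
  have hi1 := bI_int hr hρ hne 0
  have hi2 := bI_int hr hρ hne 1
  have e : (∫ t in (-1 : ℝ)..1, (1 / √(Dd r ρ t) * lp 0 t)) =
      ∫ t in (-1 : ℝ)..1, ((r ^ 2 + ρ ^ 2) *
        (1 / (Dd r ρ t * √(Dd r ρ t)) * lp 0 t) -
        (2 * r * ρ) * (1 / (Dd r ρ t * √(Dd r ρ t)) * lp 1 t)) := by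
    apply intervalIntegral.integral_congr
    intro t ht
    have hD := Dd_pos' hr hρ hne ht
    have hs : √(Dd r ρ t) ≠ 0 := Real.sqrt_ne_zero'.2 hD
    simp only
    have e1 : 1 / √(Dd r ρ t) = (r ^ 2 + ρ ^ 2 - 2 * r * ρ * t) * (1 / (Dd r ρ t * √(Dd r ρ t))) := by
      have : (r ^ 2 + ρ ^ 2 - 2 * r * ρ * t) = Dd r ρ t := rfl
      rw [this]
      (clear * - hD hs; field_simp)
    rw [e1]
    simp only [lp]
    ring
  rw [intervalIntegral.integral_sub (hi1.const_mul _)
    (hi2.const_mul _), intervalIntegral.integral_const_mul, intervalIntegral.integral_const_mul]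
    at e
  unfold aI bI
  linear_combination (1 / 2) * e

theorem Dd_one (r ρ : ℝ) : √(Dd r ρ 1) = |r - ρ| := by
  rw [← Real.sqrt_sq_eq_abs]
  congr 1
  unfold Dd
  ring

theorem Dd_neg_one (hr : 0 < r) (hρ : 0 < ρ) : √(Dd r ρ (-1)) = r + ρ := by
  rw [← abs_of_pos (add_pos hr hρ), ← Real.sqrt_sq_eq_abs]
  congr 1
  unfold Dd
  ring

theorem bI_zero (hr : 0 < r) (hρ : 0 < ρ) (hne : r ≠ ρ) :
    2 * (r * ρ) * bI r ρ 0 = 1 / |r - ρ| - 1 / (r + ρ) := by
  have h := integral_eq_sub_of_hasDerivAt (a := (-1 : ℝ)) (b := 1)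
    (f := fun t => 1 / √(Dd r ρ t)) (f' := fun t => r * ρ * (1 / (Dd r ρ t * √(Dd r ρ t))))
    (fun t ht => inv_sqrt_hasDerivAt hr hρ hne (by
      rw [Set.uIcc_of_le (by norm_num)] at ht; exact ht.2))
    (((cB hr hρ hne).intervalIntegrable).const_mul _)
  rw [intervalIntegral.integral_const_mul, Dd_one, Dd_neg_one hr hρ] at h
  unfold bI
  simp only [lp, mul_one]
  linear_combination h

theorem aI_zero (hr : 0 < r) (hρ : 0 < ρ) (hne : r ≠ ρ) :
    2 * (r * ρ) * aI r ρ 0 = (r + ρ) - |r - ρ| := by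
  have hd : ∀ t ∈ Set.uIcc (-1 : ℝ) 1,
      HasDerivAt (fun t => √(Dd r ρ t)) (-(r * ρ) * (1 / √(Dd r ρ t))) t := by
    intro t ht
    have hD := Dd_pos' hr hρ hne ht
    have h1 : HasDerivAt (Dd r ρ) (-(2 * r * ρ)) t := by
      unfold Dd
      have := ((hasDerivAt_id t).const_mul (2 * r * ρ)).const_sub (r ^ 2 + ρ ^ 2)
      simpa only [id_eq, mul_one] using this
    refine (h1.sqrt hD.ne').congr_deriv ?_
    have hs0 : √(Dd r ρ t) ≠ 0 := Real.sqrt_ne_zero'.2 hD
    field_simp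
  have h := integral_eq_sub_of_hasDerivAt hd (((cA hr hρ hne).intervalIntegrable).const_mul _)
  rw [intervalIntegral.integral_const_mul, Dd_one, Dd_neg_one hr hρ] at h
  unfold aI
  simp only [lp, mul_one]
  linear_combination -h

theorem bI_eq (hr : 0 < r) (hρ : 0 < ρ) (hne : r ≠ ρ) (n : ℕ) :
    bI r ρ n = (min r ρ / max r ρ) ^ n * bI r ρ 0 ∧
    bI r ρ (n + 1) = (min r ρ / max r ρ) ^ (n + 1) * bI r ρ 0 := by
  have hmul : min r ρ * max r ρ = r * ρ := min_mul_max r ρ
  have hsq : min r ρ ^ 2 + max r ρ ^ 2 = r ^ 2 + ρ ^ 2 := by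
    rcases le_total r ρ with h | h
    · rw [min_eq_left h, max_eq_right h]
    · rw [min_eq_right h, max_eq_left h]; ring
  have hm : 0 < min r ρ := lt_min hr hρ
  have hM : 0 < max r ρ := lt_max_of_lt_left hr
  have hlt : min r ρ < max r ρ := by
    rcases lt_or_gt_of_ne hne with h | h
    · rw [min_eq_left h.le, max_eq_right h.le]; exact h
    · rw [min_eq_right h.le, max_eq_left h.le]; exact h
  have habs : |r - ρ| = max r ρ - min r ρ := by
    rcases lt_or_gt_of_ne hne with h | h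
    · rw [min_eq_left h.le, max_eq_right h.le, abs_of_neg (by linarith)]; ring
    · rw [min_eq_right h.le, max_eq_left h.le, abs_of_pos (by linarith only [h])]
  have hsum : r + ρ = max r ρ + min r ρ := by
    rcases le_total r ρ with h | h
    · rw [min_eq_left h, max_eq_right h]; ring
    · rw [min_eq_right h, max_eq_left h]
  have hb0 := bI_zero hr hρ hne
  have ha0 := aI_zero hr hρ hne
  have h2 := rel2' hr hρ hne
  have h3 := rel3 hr hρ hne
  generalize min r ρ = m at *
  generalize max r ρ = M at *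
  generalize bI r ρ = b at *
  have hMm : M - m ≠ 0 := sub_ne_zero.2 hlt.ne'
  have hMm' : M + m ≠ 0 := by positivity
  rw [habs, hsum, ← hmul] at hb0 ha0
  have eb0 : b 0 = 1 / (M * (M - m) * (M + m)) := by
    have : 2 * (m * M) ≠ 0 := by (clear * - hm hM; positivity)
    apply mul_left_cancel₀ this
    rw [hb0]
    field_simp
    ring
  have eb1 : b 1 = (m / M) * b 0 := by
    have : 2 * (m * M) ≠ 0 := by positivity
    apply mul_left_cancel₀ this
    have e1 : 2 * (m * M) * b 1 = (r ^ 2 + ρ ^ 2) * b 0 - aI r ρ 0 := by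
      rw [h2, hmul]; ring
    have ea : aI r ρ 0 = 1 / M := by
      apply mul_left_cancel₀ this
      rw [ha0]
      field_simp
      ring
    rw [e1, ea, eb0, ← hsq]
    field_simp
    ring
  induction n with
  | zero => exact ⟨by simp, by simpa only [zero_add, pow_one] using eb1⟩
  | succ n ih =>
    refine ⟨ih.2, ?_⟩
    have h4 := h3 n
    rw [ih.1, ih.2, ← hsq, ← hmul] at h4
    have : m * M ≠ 0 := by positivity
    apply mul_left_cancel₀ this
    have e5 : m * M * b (n + 1 + 1) = (m ^ 2 + M ^ 2) * ((m / M) ^ (n + 1) * b 0) -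
        m * M * ((m / M) ^ n * b 0) := by
      linear_combination h4
    rw [e5]
    have hM0 : M ≠ 0 := hM.ne'
    simp only [div_pow]
    field_simp
    ring

theorem aI_eq (hr : 0 < r) (hρ : 0 < ρ) (hne : r ≠ ρ) (n : ℕ) :
    aI r ρ n = 1 / (2 * (n : ℝ) + 1) * (min r ρ ^ n / max r ρ ^ (n + 1)) := by
  have hmul : min r ρ * max r ρ = r * ρ := min_mul_max r ρ
  have hm : 0 < min r ρ := lt_min hr hρ
  have hM : 0 < max r ρ := lt_max_of_lt_left hr
  have hlt : min r ρ < max r ρ := by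
    rcases lt_or_gt_of_ne hne with h | h
    · rw [min_eq_left h.le, max_eq_right h.le]; exact h
    · rw [min_eq_right h.le, max_eq_left h.le]; exact h
  have habs : |r - ρ| = max r ρ - min r ρ := by
    rcases lt_or_gt_of_ne hne with h | h
    · rw [min_eq_left h.le, max_eq_right h.le, abs_of_neg (by (clear * - h; linarith))]; ring
    · rw [min_eq_right h.le, max_eq_left h.le, abs_of_pos (by linarith only [h])]
  have hsum : r + ρ = max r ρ + min r ρ := by
    rcases le_total r ρ with h | h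
    · rw [min_eq_left h, max_eq_right h]; ring
    · rw [min_eq_right h, max_eq_left h]
  have hb0 := bI_zero hr hρ hne
  have ha0 := aI_zero hr hρ hne
  have hb := bI_eq hr hρ hne
  have h1 := rel1 hr hρ hne
  generalize min r ρ = m at *
  generalize max r ρ = M at *
  have hMm : M - m ≠ 0 := sub_ne_zero.2 hlt.ne'
  have hMm' : M + m ≠ 0 := by (clear * - hM hm; positivity)
  rw [habs, hsum, ← hmul] at hb0 ha0
  have h2m : 2 * (m * M) ≠ 0 := by positivity
  have eb0 : bI r ρ 0 = 1 / (M * (M - m) * (M + m)) := by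
    apply mul_left_cancel₀ h2m
    rw [hb0]
    field_simp
    ring
  cases n with
  | zero =>
    apply mul_left_cancel₀ h2m
    rw [ha0]
    simp only [add_sub_sub_cancel, CharP.cast_eq_zero, mul_zero, zero_add, ne_eq, one_ne_zero, not_false_eq_true, div_self, pow_zero, pow_one, one_div, one_mul]
    field_simp
    ring
  | succ n =>
    have h4 := h1 n
    rw [(hb (n + 1)).2, (hb n).1, eb0, ← hmul] at h4
    have hn : (2 * (n : ℝ) + 3) ≠ 0 := by (clear * -; positivity)
    apply mul_left_cancel₀ hn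
    rw [h4]
    have hM0 : M ≠ 0 := hM.ne'
    push_cast
    have h5 : 2 * ((n : ℝ) + 1) + 1 = 2 * (n : ℝ) + 3 := by ring
    rw [h5]
    simp only [div_pow]
    field_simp
    ring

end Radial

end Vale.Agent.P370.Q.S3
end
end

section

section

/-!
Legendre polynomials: differential equation, orthogonality, expansion of polynomials.
-/

namespace Vale.Agent.P370.KC

open MeasureTheory intervalIntegral Polynomial
open Vale.Agent.P370.Q
open Vale.Agent.P370.Q.S3 (lq lq_rel lp_continuous lp_hasDerivAt lp_succ lp_one lp_neg_one)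

/-- differential equation, first step -/
theorem lq_eq (n : ℕ) (t : ℝ) :
    (1 - t ^ 2) * lq (n + 1) t = ((n : ℝ) + 1) * (S3.lp n t - t * S3.lp (n + 1) t) := by
  obtain ⟨h1, h2⟩ := lq_rel n t
  linear_combination -h2 + t * h1

theorem lq_flux_hasDerivAt (n : ℕ) (t : ℝ) :
    HasDerivAt (fun t => (1 - t ^ 2) * lq n t) (-((n : ℝ) * (n + 1) * S3.lp n t)) t := by
  cases n with
  | zero =>
    have : (fun t : ℝ => (1 - t ^ 2) * lq 0 t) = fun _ => 0 := by
      funext t
      simp [lq]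
    rw [this]
    simpa using hasDerivAt_const t (0 : ℝ)
  | succ n =>
    have e : (fun t => (1 - t ^ 2) * lq (n + 1) t) =
        fun t => ((n : ℝ) + 1) * (S3.lp n t - t * S3.lp (n + 1) t) := by
      funext t
      exact lq_eq n t
    rw [e]
    have h := (((lp_hasDerivAt n t).sub ((hasDerivAt_id t).mul (lp_hasDerivAt (n + 1) t))).const_mul
      ((n : ℝ) + 1))
    refine h.congr_deriv ?_
    obtain ⟨h1, h2⟩ := lq_rel n t
    simp only [id]
    push_cast
    linear_combination ((n : ℝ) + 1) * h1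

/-- orthogonality -/
theorem lp_ortho_ne {m n : ℕ} (h : m ≠ n) : ∫ t in (-1 : ℝ)..1, S3.lp m t * S3.lp n t = 0 := by
  have hd : ∀ t ∈ Set.uIcc (-1 : ℝ) 1,
      HasDerivAt (fun t => S3.lp m t * ((1 - t ^ 2) * lq n t) - S3.lp n t * ((1 - t ^ 2) * lq m t))
        (((m : ℝ) * (m + 1) - n * (n + 1)) * (S3.lp m t * S3.lp n t)) t := by
    intro t _
    have h1 := ((lp_hasDerivAt m t).mul (lq_flux_hasDerivAt n t)).sub
      ((lp_hasDerivAt n t).mul (lq_flux_hasDerivAt m t))
    refine h1.congr_deriv ?_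
    ring
  have hi := integral_eq_sub_of_hasDerivAt hd
    ((((lp_continuous m).mul (lp_continuous n)).const_mul _).intervalIntegrable _ _)
  rw [intervalIntegral.integral_const_mul] at hi
  norm_num at hi
  rcases hi with hi | hi
  · exfalso
    have : ((m : ℝ) - n) * ((m : ℝ) + n + 1) = 0 := by linear_combination hi
    rcases mul_eq_zero.1 this with h' | h'
    · exact h (by exact_mod_cast sub_eq_zero.1 h')
    · have : (0 : ℝ) ≤ (m : ℝ) + n := by (clear * -; positivity)
      linarith only [h']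
  · exact hi

theorem lp_norm_sq (n : ℕ) : ∫ t in (-1 : ℝ)..1, S3.lp n t * S3.lp n t = 2 / (2 * (n : ℝ) + 1) := by
  have hstep : ∀ n : ℕ, (2 * (n : ℝ) + 5) * (∫ t in (-1 : ℝ)..1, S3.lp (n + 2) t * S3.lp (n + 2) t) =
      (2 * (n : ℝ) + 3) * ∫ t in (-1 : ℝ)..1, S3.lp (n + 1) t * S3.lp (n + 1) t := by
    intro n
    have hc : ∀ a b : ℕ, IntervalIntegrable (fun t => S3.lp a t * S3.lp b t) volume (-1) 1 := fun a b =>
      ((lp_continuous a).mul (lp_continuous b)).intervalIntegrable _ _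
    have hc2 : ∀ a b : ℕ, IntervalIntegrable (fun t => t * (S3.lp a t * S3.lp b t)) volume (-1) 1 :=
      fun a b => (continuous_id.mul ((lp_continuous a).mul (lp_continuous b))).intervalIntegrable _ _
    have h1 : ((n : ℝ) + 2) * (∫ t in (-1 : ℝ)..1, S3.lp (n + 2) t * S3.lp (n + 2) t) =
        (2 * (n : ℝ) + 3) * (∫ t in (-1 : ℝ)..1, t * (S3.lp (n + 1) t * S3.lp (n + 2) t)) -
          ((n : ℝ) + 1) * ∫ t in (-1 : ℝ)..1, S3.lp n t * S3.lp (n + 2) t := by
      rw [← intervalIntegral.integral_const_mul, ← intervalIntegral.integral_const_mul,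
        ← intervalIntegral.integral_const_mul,
        ← intervalIntegral.integral_sub ((hc2 _ _).const_mul _) ((hc _ _).const_mul _)]
      refine integral_congr fun t _ => ?_
      have := lp_succ n t
      linear_combination S3.lp (n + 2) t * this
    have h2 : ((n : ℝ) + 3) * (∫ t in (-1 : ℝ)..1, S3.lp (n + 3) t * S3.lp (n + 1) t) =
        (2 * (n : ℝ) + 5) * (∫ t in (-1 : ℝ)..1, t * (S3.lp (n + 1) t * S3.lp (n + 2) t)) -
          ((n : ℝ) + 2) * ∫ t in (-1 : ℝ)..1, S3.lp (n + 1) t * S3.lp (n + 1) t := by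
      rw [← intervalIntegral.integral_const_mul, ← intervalIntegral.integral_const_mul,
        ← intervalIntegral.integral_const_mul,
        ← intervalIntegral.integral_sub ((hc2 _ _).const_mul _) ((hc _ _).const_mul _)]
      refine integral_congr fun t _ => ?_
      have := lp_succ (n + 1) t
      push_cast at this
      linear_combination S3.lp (n + 1) t * this
    rw [lp_ortho_ne (m := n) (n := n + 2) (by omega)] at h1
    rw [lp_ortho_ne (m := n + 3) (n := n + 1) (by omega)] at h2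
    have hn : ((n : ℝ) + 2) ≠ 0 := by positivity
    apply mul_left_cancel₀ hn
    linear_combination (2 * (n : ℝ) + 5) * h1 - (2 * (n : ℝ) + 3) * h2
  induction n using Nat.twoStepInduction with
  | zero => simp only [S3.lp, mul_one, intervalIntegral.integral_const, sub_neg_eq_add, smul_eq_mul, CharP.cast_eq_zero, mul_zero, zero_add, div_one]; norm_num
  | one =>
    have : ∫ t in (-1 : ℝ)..1, S3.lp 1 t * S3.lp 1 t = ∫ t in (-1 : ℝ)..1, t ^ 2 := by
      refine integral_congr fun t _ => ?_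
      simp only [S3.lp]
      ring
    rw [this, integral_pow]
    norm_num
  | more n ih0 ih1 =>
    have h := hstep n
    rw [ih1] at h
    have h5 : (2 * (n : ℝ) + 5) ≠ 0 := by (clear * -; positivity)
    apply mul_left_cancel₀ h5
    rw [h]
    push_cast
    field_simp
    ring

/-- Legendre polynomials as polynomials -/
noncomputable def LP : ℕ → ℝ[X]
  | 0 => 1
  | 1 => X
  | (n + 2) => C (1 / ((n : ℝ) + 2)) * (C (2 * (n : ℝ) + 3) * (X * LP (n + 1)) -
      C ((n : ℝ) + 1) * LP n)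

theorem LP_eval (n : ℕ) (t : ℝ) : (LP n).eval t = S3.lp n t := by
  induction n using Nat.twoStepInduction with
  | zero => simp only [LP, eval_one, S3.lp]
  | one => simp [LP, S3.lp]
  | more n ih0 ih1 =>
    simp only [LP, S3.lp, eval_mul, eval_C, eval_sub, eval_X, ih0, ih1]
    have : ((n : ℝ) + 2) ≠ 0 := by (clear * -; positivity)
    field_simp

theorem LP_natDegree_le (n : ℕ) : (LP n).natDegree ≤ n := by
  induction n using Nat.twoStepInduction with
  | zero => simp only [LP, natDegree_one, Std.le_refl]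
  | one => simp [LP]
  | more n ih0 ih1 =>
    simp only [LP]
    refine (natDegree_C_mul_le _ _).trans ((natDegree_sub_le _ _).trans (max_le ?_ ?_))
    · refine (natDegree_C_mul_le _ _).trans (natDegree_mul_le.trans ?_)
      have := natDegree_X_le (R := ℝ)
      omega
    · refine (natDegree_C_mul_le _ _).trans ?_
      omega

/-- leading coefficient -/
theorem LP_coeff_pos (n : ℕ) : 0 < (LP n).coeff n := by
  induction n using Nat.twoStepInduction with
  | zero => simp only [LP, coeff_one_zero, zero_lt_one]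
  | one => simp only [LP, coeff_X_one, zero_lt_one]
  | more n ih0 ih1 =>
    simp only [LP]
    rw [coeff_C_mul, coeff_sub, coeff_C_mul, coeff_C_mul, coeff_X_mul,
      coeff_eq_zero_of_natDegree_lt (p := LP n) (lt_of_le_of_lt (LP_natDegree_le n) (by omega))]
    have : (0 : ℝ) < 1 / ((n : ℝ) + 2) := by positivity
    have h3 : (0 : ℝ) < 2 * (n : ℝ) + 3 := by positivity
    have := mul_pos this (mul_pos h3 ih1)
    simpa only [one_div, mul_zero, sub_zero, gt_iff_lt] using this

/-- every polynomial of degree less than `N` is a combination of Legendre polynomials -/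
theorem exists_LP_expand (N : ℕ) (f : ℝ[X]) (hf : f.degree < N) :
    ∃ c : ℕ → ℝ, f = ∑ L ∈ Finset.range N, C (c L) * LP L := by
  induction N generalizing f with
  | zero =>
    refine ⟨fun _ => 0, ?_⟩
    have : f = 0 := by
      by_contra h
      rw [degree_eq_natDegree h] at hf
      exact absurd hf (by simp only [CharP.cast_eq_zero, Nat.WithBot.lt_zero_iff, WithBot.natCast_ne_bot, not_false_eq_true])
    simp only [this, Finset.range_zero, map_zero, zero_mul, Finset.sum_const_zero]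
  | succ N ih =>
    have hpos := LP_coeff_pos N
    obtain ⟨c, hc⟩ := ih (f - C (f.coeff N / (LP N).coeff N) * LP N) (by
      rw [degree_lt_iff_coeff_zero]
      intro m hm
      rw [coeff_sub, coeff_C_mul]
      rcases hm.eq_or_lt with rfl | hm'
      · field_simp
        simp
      · have h1 : f.coeff m = 0 := by
          rw [degree_lt_iff_coeff_zero] at hf
          exact hf m hm'
        have h2 : (LP N).coeff m = 0 :=
          coeff_eq_zero_of_natDegree_lt (lt_of_le_of_lt (LP_natDegree_le N) hm')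
        rw [h1, h2]
        simp)
    refine ⟨fun L => if L = N then f.coeff N / (LP N).coeff N else c L, ?_⟩
    rw [Finset.sum_range_succ]
    simp only [if_true]
    have : ∑ L ∈ Finset.range N, C (if L = N then f.coeff N / (LP N).coeff N else c L) * LP L =
        ∑ L ∈ Finset.range N, C (c L) * LP L := by
      refine Finset.sum_congr rfl fun L hL => ?_
      rw [if_neg (Finset.mem_range.1 hL).ne]
    rw [this, ← hc]
    ring

/-- Legendre coefficient of a function -/
noncomputable def lc (f : ℝ → ℝ) (L : ℕ) : ℝ := (1 / 2) * ∫ t in (-1 : ℝ)..1, f t * S3.lp L t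

/-- Legendre expansion of a polynomial -/
theorem LP_expand (N : ℕ) (f : ℝ[X]) (hf : f.degree < N) (t : ℝ) :
    f.eval t = ∑ L ∈ Finset.range N, (2 * (L : ℝ) + 1) * lc (fun t => f.eval t) L * S3.lp L t := by
  obtain ⟨c, hc⟩ := exists_LP_expand N f hf
  have hev : ∀ t, f.eval t = ∑ L ∈ Finset.range N, c L * S3.lp L t := by
    intro t
    conv_lhs => rw [hc]
    rw [eval_finsetSum]
    refine Finset.sum_congr rfl fun L _ => ?_
    rw [eval_mul, eval_C, LP_eval]
  rw [hev t]
  refine Finset.sum_congr rfl fun M hM => ?_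
  congr 1
  unfold lc
  have h1 : ∫ t in (-1 : ℝ)..1, f.eval t * S3.lp M t =
      ∑ L ∈ Finset.range N, c L * ∫ t in (-1 : ℝ)..1, S3.lp L t * S3.lp M t := by
    have : ∀ t, f.eval t * S3.lp M t = ∑ L ∈ Finset.range N, c L * (S3.lp L t * S3.lp M t) := by
      intro t
      rw [hev t, Finset.sum_mul]
      refine Finset.sum_congr rfl fun L _ => ?_
      ring
    simp only [this]
    have hii : ∀ L ∈ Finset.range N, IntervalIntegrable
        (fun t => c L * (S3.lp L t * S3.lp M t)) volume (-1) 1 := fun L _ =>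
      (((lp_continuous L).mul (lp_continuous M)).const_mul _).intervalIntegrable _ _
    rw [intervalIntegral.integral_finsetSum hii]
    refine Finset.sum_congr rfl fun L _ => ?_
    rw [intervalIntegral.integral_const_mul]
  rw [h1, Finset.sum_eq_single M]
  · rw [lp_norm_sq]
    (clear * -; field_simp)
  · intro L _ hL
    rw [lp_ortho_ne hL, mul_zero]
  · intro h
    exact absurd hM h

end Vale.Agent.P370.KC
end
end

section

section

/-!
Spherical coordinates: measure theoretic part (helper file of `Sph1`).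
-/

namespace Vale.Agent.P370.Q

open MeasureTheory Finset ComplexConjugate
open scoped ENNReal NNReal

/-- Cartesian coordinates `(z, (x, y)) ↦ (x, y, z)` -/
noncomputable def sph1Cart (p : ℝ × (ℝ × ℝ)) : R3 := WithLp.toLp 2 ![p.2.1, p.2.2, p.1]

theorem sph1Cart_mp : MeasurePreserving sph1Cart := by
  have h1 : MeasurePreserving (fun p : ℝ × (ℝ × ℝ) =>
      (p.1, (MeasurableEquiv.finTwoArrow (α := ℝ)).symm p.2)) :=
    (MeasurePreserving.id volume).prod (volume_preserving_finTwoArrow ℝ).symm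
  have h2 := (volume_preserving_piFinSuccAbove (fun _ : Fin 3 => ℝ) 2).symm
  have h3 := PiLp.volume_preserving_toLp (Fin 3)
  have h := h3.comp (h2.comp h1)
  have e : sph1Cart = (WithLp.toLp 2 ∘ (MeasurableEquiv.piFinSuccAbove (fun _ : Fin 3 => ℝ)
      2).symm ∘ fun p : ℝ × (ℝ × ℝ) => (p.1, (MeasurableEquiv.finTwoArrow (α := ℝ)).symm p.2)) := by
    funext p
    unfold sph1Cart
    simp only [Function.comp]
    congr 1
    funext i
    fin_cases i <;> simp [MeasurableEquiv.piFinSuccAbove, Fin.insertNthEquiv, Fin.insertNth,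
      Fin.succAboveCases, MeasurableEquiv.finTwoArrow]
  rw [e]
  exact h

theorem sph1_continuous_sp : Continuous (fun p : ℝ × ℝ => sp p.1 p.2) := by
  unfold sp
  refine (PiLp.continuous_toLp 2 (fun _ : Fin 3 => ℝ)).comp ?_
  refine continuous_pi fun i => ?_
  fin_cases i <;> simp <;> fun_prop

theorem sph1_measurable_cart : Measurable sph1Cart := sph1Cart_mp.measurable

/-- inner integral over the azimuth in cylindrical coordinates -/
noncomputable def sph1K (f : R3 → ℝ≥0∞) (z ρ : ℝ) : ℝ≥0∞ :=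
  ∫⁻ φ in Set.Ioo (-Real.pi) Real.pi,
    ENNReal.ofReal ρ * f (sph1Cart (z, (ρ * Real.cos φ, ρ * Real.sin φ)))

theorem sph1_step1 (f : R3 → ℝ≥0∞) (hf : Measurable f) :
    ∫⁻ x, f x = ∫⁻ z, ∫⁻ ρ in Set.Ioi (0 : ℝ), sph1K f z ρ := by
  rw [← sph1Cart_mp.lintegral_comp hf, Measure.volume_eq_prod,
    lintegral_prod (fun p => f (sph1Cart p)) ((hf.comp sph1_measurable_cart).aemeasurable)]
  refine lintegral_congr fun z => ?_
  rw [← lintegral_comp_polarCoord_symm]
  have e : (volume : Measure (ℝ × ℝ)).restrict polarCoord.target =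
      (volume.restrict (Set.Ioi (0 : ℝ))).prod
        (volume.restrict (Set.Ioo (-Real.pi) Real.pi)) := by
    rw [Measure.prod_restrict]
    rfl
  rw [e, lintegral_prod]
  · rfl
  · apply Measurable.aemeasurable
    have h1 : Measurable (fun q : ℝ × ℝ => sph1Cart (z, polarCoord.symm q)) :=
      sph1_measurable_cart.comp
        (measurable_const.prodMk continuous_polarCoord_symm.measurable)
    exact (ENNReal.measurable_ofReal.comp measurable_fst).mul (hf.comp h1)

theorem sph1_measurable_K (f : R3 → ℝ≥0∞) (hf : Measurable f) :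
    Measurable (fun p : ℝ × ℝ => sph1K f p.1 p.2) := by
  unfold sph1K
  have h1 : Measurable (fun q : (ℝ × ℝ) × ℝ =>
      ENNReal.ofReal q.1.2 * f (sph1Cart (q.1.1, (q.1.2 * Real.cos q.2, q.1.2 * Real.sin q.2)))) := by
    refine (ENNReal.measurable_ofReal.comp (measurable_snd.comp measurable_fst)).mul
      (hf.comp (sph1_measurable_cart.comp ?_))
    apply Continuous.measurable
    fun_prop
  exact h1.lintegral_prod_right'

theorem sph1_step2 (f : R3 → ℝ≥0∞) (hf : Measurable f) :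
    ∫⁻ z, ∫⁻ ρ in Set.Ioi (0 : ℝ), sph1K f z ρ =
      ∫⁻ r in Set.Ioi (0 : ℝ), ∫⁻ θ in Set.Ioo (-Real.pi) Real.pi,
        ENNReal.ofReal r * (Set.Ioi (0 : ℝ)).indicator (sph1K f (r * Real.cos θ))
          (r * Real.sin θ) := by
  have hm : Measurable (fun p : ℝ × ℝ =>
      (Set.Ioi (0 : ℝ)).indicator (sph1K f p.1) p.2) := by
    have : (fun p : ℝ × ℝ => (Set.Ioi (0 : ℝ)).indicator (sph1K f p.1) p.2) =
        (Prod.snd ⁻¹' Set.Ioi (0 : ℝ)).indicator (fun p : ℝ × ℝ => sph1K f p.1 p.2) := by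
      funext p
      by_cases h : p.2 ∈ Set.Ioi (0 : ℝ)
      · rw [Set.indicator_of_mem h, Set.indicator_of_mem (by exact h)]
      · rw [Set.indicator_of_notMem h, Set.indicator_of_notMem (by exact h)]
    rw [this]
    exact (sph1_measurable_K f hf).indicator (measurable_snd measurableSet_Ioi)
  have h1 : ∫⁻ z, ∫⁻ ρ in Set.Ioi (0 : ℝ), sph1K f z ρ =
      ∫⁻ p : ℝ × ℝ, (Set.Ioi (0 : ℝ)).indicator (sph1K f p.1) p.2 := by
    rw [Measure.volume_eq_prod, lintegral_prod _ hm.aemeasurable]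
    refine lintegral_congr fun z => ?_
    rw [← lintegral_indicator measurableSet_Ioi]
  rw [h1, ← lintegral_comp_polarCoord_symm]
  have e : (volume : Measure (ℝ × ℝ)).restrict polarCoord.target =
      (volume.restrict (Set.Ioi (0 : ℝ))).prod
        (volume.restrict (Set.Ioo (-Real.pi) Real.pi)) := by
    rw [Measure.prod_restrict]
    rfl
  rw [e, lintegral_prod]
  · rfl
  · apply Measurable.aemeasurable
    exact (ENNReal.measurable_ofReal.comp measurable_fst).mul
      (hm.comp continuous_polarCoord_symm.measurable)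

theorem sph1_cart_sp (r θ φ : ℝ) :
    sph1Cart (r * Real.cos θ, (r * Real.sin θ * Real.cos φ, r * Real.sin θ * Real.sin φ)) =
      r • sp θ φ := by
  unfold sph1Cart sp
  rw [← WithLp.toLp_smul]
  congr 1
  funext i
  fin_cases i <;> simp [mul_assoc]

theorem sph1_step3 (f : R3 → ℝ≥0∞) (r : ℝ) (hr : 0 < r) :
    ∫⁻ θ in Set.Ioo (-Real.pi) Real.pi,
        ENNReal.ofReal r * (Set.Ioi (0 : ℝ)).indicator (sph1K f (r * Real.cos θ))
          (r * Real.sin θ) =
      ∫⁻ θ in Set.Ioo 0 Real.pi, ∫⁻ φ in Set.Ioo (-Real.pi) Real.pi,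
        ENNReal.ofReal (r ^ 2 * Real.sin θ) * f (r • sp θ φ) := by
  rw [← lintegral_indicator measurableSet_Ioo, ← lintegral_indicator measurableSet_Ioo]
  refine lintegral_congr fun θ => ?_
  by_cases h0 : θ ∈ Set.Ioo 0 Real.pi
  · have h1 : θ ∈ Set.Ioo (-Real.pi) Real.pi := ⟨by linarith [h0.1, Real.pi_pos], h0.2⟩
    have hs : 0 < Real.sin θ := Real.sin_pos_of_mem_Ioo h0
    have h2 : r * Real.sin θ ∈ Set.Ioi (0 : ℝ) := mul_pos hr hs
    rw [Set.indicator_of_mem h1, Set.indicator_of_mem h0, Set.indicator_of_mem h2, sph1K,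
      ← lintegral_const_mul' _ _ ENNReal.ofReal_ne_top]
    refine lintegral_congr fun φ => ?_
    rw [sph1_cart_sp, ← mul_assoc, ← ENNReal.ofReal_mul hr.le]
    congr 2
    ring
  · rw [Set.indicator_of_notMem h0]
    by_cases h1 : θ ∈ Set.Ioo (-Real.pi) Real.pi
    · rw [Set.indicator_of_mem h1, Set.indicator_of_notMem, mul_zero]
      have hθ : θ ≤ 0 := by
        by_contra hc
        exact h0 ⟨not_le.1 hc, h1.2⟩
      have hs : Real.sin θ ≤ 0 := Real.sin_nonpos_of_nonpos_of_neg_pi_le hθ h1.1.le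
      intro hc
      have hc' : 0 < r * Real.sin θ := hc
      nlinarith only [hc', hr, hs]
    · rw [Set.indicator_of_notMem h1]

theorem sph1_lintegral (f : R3 → ℝ≥0∞) (hf : Measurable f) :
    ∫⁻ x, f x = ∫⁻ r in Set.Ioi (0 : ℝ), ∫⁻ θ in Set.Ioo 0 Real.pi,
      ∫⁻ φ in Set.Ioo (-Real.pi) Real.pi,
        ENNReal.ofReal (r ^ 2 * Real.sin θ) * f (r • sp θ φ) := by
  rw [sph1_step1 f hf, sph1_step2 f hf]
  refine setLIntegral_congr_fun measurableSet_Ioi fun r hr => ?_
  exact sph1_step3 f r hr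

/-- product measure on `(0,∞) × ((0,π) × (-π,π))` -/
noncomputable def sph1Box : Measure (ℝ × (ℝ × ℝ)) :=
  (volume.restrict (Set.Ioi 0)).prod ((volume.restrict (Set.Ioo 0 Real.pi)).prod
    (volume.restrict (Set.Ioo (-Real.pi) Real.pi)))

/-- the volume element -/
noncomputable def sph1Den (p : ℝ × (ℝ × ℝ)) : ℝ≥0 := (p.1 ^ 2 * Real.sin p.2.1).toNNReal

theorem sph1_measurable_Den : Measurable sph1Den := by
  unfold sph1Den
  apply Measurable.real_toNNReal
  fun_prop

/-- spherical coordinates -/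
noncomputable def sph1Sp (p : ℝ × (ℝ × ℝ)) : R3 := p.1 • sp p.2.1 p.2.2

theorem sph1_continuous_Sp : Continuous sph1Sp := by
  unfold sph1Sp
  exact continuous_fst.smul (sph1_continuous_sp.comp continuous_snd)

theorem sph1_map : Measure.map sph1Sp (sph1Box.withDensity (fun p => (sph1Den p : ℝ≥0∞))) =
    (volume : Measure R3) := by
  refine Measure.ext_of_lintegral _ fun f hf => ?_
  have hm : Measurable (fun p => f (sph1Sp p)) := hf.comp sph1_continuous_Sp.measurable
  have hd : Measurable (fun p => (sph1Den p : ℝ≥0∞)) := sph1_measurable_Den.coe_nnreal_ennreal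
  rw [lintegral_map hf sph1_continuous_Sp.measurable,
    lintegral_withDensity_eq_lintegral_mul _ hd hm, sph1_lintegral f hf]
  have hg : Measurable ((fun p => (sph1Den p : ℝ≥0∞)) * fun p => f (sph1Sp p)) := hd.mul hm
  unfold sph1Box
  rw [lintegral_prod _ hg.aemeasurable]
  refine lintegral_congr fun r => ?_
  have hg' : Measurable (fun q : ℝ × ℝ =>
      ((fun p => (sph1Den p : ℝ≥0∞)) * fun p => f (sph1Sp p)) (r, q)) :=
    hg.comp (measurable_const.prodMk measurable_id)
  rw [lintegral_prod _ hg'.aemeasurable]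
  rfl

theorem sph1_integral {E : Type} [NormedAddCommGroup E] [NormedSpace ℝ E]
    (F : R3 → E) (hF : Integrable F) :
    ∫ x, F x = ∫ r in Set.Ioi (0 : ℝ), ∫ θ in Set.Ioo 0 Real.pi,
      ∫ φ in Set.Ioo (-Real.pi) Real.pi, (r ^ 2 * Real.sin θ) • F (r • sp θ φ) := by
  have hmp : MeasurePreserving sph1Sp (sph1Box.withDensity (fun p => (sph1Den p : ℝ≥0∞)))
      (volume : Measure R3) := ⟨sph1_continuous_Sp.measurable, sph1_map⟩
  have hI : Integrable (fun p => F (sph1Sp p))
      (sph1Box.withDensity (fun p => (sph1Den p : ℝ≥0∞))) := hmp.integrable_comp_of_integrable hF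
  have h1 : ∫ x, F x = ∫ p, F (sph1Sp p)
      ∂(sph1Box.withDensity (fun p => (sph1Den p : ℝ≥0∞))) := by
    rw [← sph1_map] at hF ⊢
    exact integral_map sph1_continuous_Sp.measurable.aemeasurable hF.aestronglyMeasurable
  rw [h1, integral_withDensity_eq_integral_smul sph1_measurable_Den]
  rw [integrable_withDensity_iff_integrable_smul sph1_measurable_Den] at hI
  unfold sph1Box at hI ⊢
  rw [integral_prod _ hI]
  have h2 := hI.prod_right_ae
  refine integral_congr_ae ?_
  filter_upwards [h2, ae_restrict_mem measurableSet_Ioi] with r hr hr0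
  rw [integral_prod _ hr]
  refine setIntegral_congr_fun measurableSet_Ioo fun θ hθ => ?_
  refine integral_congr_ae (Filter.Eventually.of_forall fun φ => ?_)
  have hs : 0 < Real.sin θ := Real.sin_pos_of_mem_Ioo hθ
  have hr0' : 0 < r := hr0
  have h3 : 0 ≤ r ^ 2 * Real.sin θ := by (clear * - hr0' hs; positivity)
  change sph1Den (r, (θ, φ)) • F (sph1Sp (r, (θ, φ))) = _
  rw [NNReal.smul_def]
  unfold sph1Den sph1Sp
  rw [Real.coe_toNNReal _ h3]

theorem sph1_norm_sp (θ φ : ℝ) : ‖sp θ φ‖ = 1 := by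
  unfold sp
  rw [EuclideanSpace.norm_eq, Real.sqrt_eq_one, Fin.sum_univ_three]
  simp only [Real.norm_eq_abs, sq_abs, Matrix.cons_val_zero, Matrix.cons_val_one,
    Matrix.cons_val]
  have h1 := Real.sin_sq_add_cos_sq θ
  have h2 := Real.sin_sq_add_cos_sq φ
  nlinarith only [h1, h2]

theorem sph1_sp_mem (θ φ : ℝ) : sp θ φ ∈ Metric.sphere (0 : R3) 1 := by
  rw [mem_sphere_zero_iff_norm]
  exact sph1_norm_sp θ φ

/-- spherical coordinates on the sphere -/
noncomputable def sph1Sp2 (q : ℝ × ℝ) : Metric.sphere (0 : R3) 1 := ⟨sp q.1 q.2, sph1_sp_mem _ _⟩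

theorem sph1_continuous_Sp2 : Continuous sph1Sp2 :=
  Continuous.subtype_mk sph1_continuous_sp _

/-- product measure on `(0,π) × (-π,π)` -/
noncomputable def sph1Box2 : Measure (ℝ × ℝ) :=
  (volume.restrict (Set.Ioo 0 Real.pi)).prod (volume.restrict (Set.Ioo (-Real.pi) Real.pi))

/-- the area element -/
noncomputable def sph1Den2 (q : ℝ × ℝ) : ℝ≥0 := (Real.sin q.1).toNNReal

theorem sph1_measurable_Den2 : Measurable sph1Den2 := by
  unfold sph1Den2
  apply Measurable.real_toNNReal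
  fun_prop

/-- the cone over a subset of the sphere -/
def sph1Cone (s : Set (Metric.sphere (0 : R3) 1)) : Set R3 :=
  {x | x ≠ 0 ∧ ‖x‖ < 1 ∧ ‖x‖⁻¹ • x ∈ ((↑) '' s : Set R3)}

open scoped Pointwise in
theorem sph1Cone_eq (s : Set (Metric.sphere (0 : R3) 1)) :
    (Set.Ioo (0 : ℝ) 1) • ((↑) '' s : Set R3) = sph1Cone s := by
  ext x
  constructor
  · rintro ⟨r, hr, y, ⟨u, hu, rfl⟩, rfl⟩
    have hu1 : ‖(u : R3)‖ = 1 := mem_sphere_zero_iff_norm.1 u.2
    have hn : ‖r • (u : R3)‖ = r := by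
      rw [norm_smul, hu1, mul_one, Real.norm_of_nonneg hr.1.le]
    refine ⟨?_, ?_, ?_⟩
    · intro h0
      have h0' : r • (u : R3) = 0 := h0
      rw [h0', norm_zero] at hn
      exact hr.1.ne hn
    · change ‖r • (u : R3)‖ < 1
      rw [hn]
      exact hr.2
    · change ‖r • (u : R3)‖⁻¹ • (r • (u : R3)) ∈ _
      rw [hn, smul_smul, inv_mul_cancel₀ hr.1.ne', one_smul]
      exact ⟨u, hu, rfl⟩
  · rintro ⟨h0, h1, h2⟩
    refine ⟨‖x‖, ⟨norm_pos_iff.2 h0, h1⟩, ‖x‖⁻¹ • x, h2, ?_⟩
    change ‖x‖ • (‖x‖⁻¹ • x) = x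
    rw [smul_smul, mul_inv_cancel₀ (norm_pos_iff.2 h0).ne', one_smul]

theorem sph1Cone_measurable {s : Set (Metric.sphere (0 : R3) 1)} (hs : MeasurableSet s) :
    MeasurableSet (sph1Cone s) := by
  have h1 : MeasurableSet ((↑) '' s : Set R3) :=
    (MeasurableEmbedding.subtype_coe Metric.isClosed_sphere.measurableSet).measurableSet_image.2 hs
  have h2 : Measurable (fun x : R3 => ‖x‖⁻¹ • x) := by fun_prop
  have h3 : sph1Cone s = {0}ᶜ ∩ ({x : R3 | ‖x‖ < 1} ∩
      (fun x : R3 => ‖x‖⁻¹ • x) ⁻¹' ((↑) '' s : Set R3)) := rfl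
  rw [h3]
  exact (measurableSet_singleton _).compl.inter
    ((measurableSet_lt measurable_norm measurable_const).inter (h2 h1))

theorem sph1_mem_Cone {s : Set (Metric.sphere (0 : R3) 1)} {r : ℝ} (hr : 0 < r) (q : ℝ × ℝ) :
    r • sp q.1 q.2 ∈ sph1Cone s ↔ r < 1 ∧ sph1Sp2 q ∈ s := by
  have hn : ‖r • sp q.1 q.2‖ = r := by
    rw [norm_smul, sph1_norm_sp, mul_one, Real.norm_of_nonneg hr.le]
  have h0 : r • sp q.1 q.2 ≠ 0 := by
    intro h
    rw [h, norm_zero] at hn
    exact hr.ne hn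
  unfold sph1Cone
  simp only [Set.mem_ofPred_eq, hn]
  rw [smul_smul, inv_mul_cancel₀ hr.ne', one_smul]
  constructor
  · rintro ⟨-, h1, u, hu, hu'⟩
    refine ⟨h1, ?_⟩
    have : u = sph1Sp2 q := Subtype.ext hu'
    rwa [← this]
  · rintro ⟨h1, h2⟩
    exact ⟨h0, h1, _, h2, rfl⟩

theorem sph1_map2 :
    Measure.map sph1Sp2 (sph1Box2.withDensity (fun q => (sph1Den2 q : ℝ≥0∞))) =
      (volume : Measure R3).toSphere := by
  refine Measure.ext fun s hs => ?_
  have hC := sph1Cone_measurable hs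
  have hd : Measurable (fun q => (sph1Den2 q : ℝ≥0∞)) := sph1_measurable_Den2.coe_nnreal_ennreal
  have hS : MeasurableSet (sph1Sp2 ⁻¹' s) := sph1_continuous_Sp2.measurable hs
  rw [Measure.map_apply sph1_continuous_Sp2.measurable hs, withDensity_apply _ hS,
    Measure.toSphere_apply' _ hs, sph1Cone_eq, ← lintegral_indicator_one hC,
    sph1_lintegral _ (measurable_one.indicator hC)]
  have h1 : ∀ r ∈ Set.Ioi (0 : ℝ), ∫⁻ θ in Set.Ioo 0 Real.pi,
      ∫⁻ φ in Set.Ioo (-Real.pi) Real.pi, ENNReal.ofReal (r ^ 2 * Real.sin θ) *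
        (sph1Cone s).indicator 1 (r • sp θ φ) =
      (Set.Iio (1 : ℝ)).indicator (fun r => ENNReal.ofReal (r ^ 2) *
        ∫⁻ q in sph1Sp2 ⁻¹' s, (sph1Den2 q : ℝ≥0∞) ∂sph1Box2) r := by
    intro r hr
    have hr' : 0 < r := hr
    by_cases h : r < 1
    · rw [Set.indicator_of_mem (show r ∈ Set.Iio (1 : ℝ) from h), ← lintegral_indicator hS,
        sph1Box2, lintegral_prod _ (hd.indicator hS).aemeasurable,
        ← lintegral_const_mul' _ _ ENNReal.ofReal_ne_top]
      refine lintegral_congr fun θ => ?_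
      rw [← lintegral_const_mul' _ _ ENNReal.ofReal_ne_top]
      refine lintegral_congr fun φ => ?_
      rw [ENNReal.ofReal_mul (by (clear * - hr'; positivity)), mul_assoc]
      congr 1
      by_cases h2 : sph1Sp2 (θ, φ) ∈ s
      · rw [Set.indicator_of_mem ((sph1_mem_Cone hr' (θ, φ)).2 ⟨h, h2⟩),
          Set.indicator_of_mem (by exact h2)]
        simp only [Pi.one_apply, mul_one]
        rfl
      · rw [Set.indicator_of_notMem (fun hc => h2 ((sph1_mem_Cone hr' (θ, φ)).1 hc).2),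
          Set.indicator_of_notMem (by exact h2), mul_zero]
    · rw [Set.indicator_of_notMem (show r ∉ Set.Iio (1 : ℝ) from h)]
      have : ∀ θ φ : ℝ, (sph1Cone s).indicator (1 : R3 → ℝ≥0∞) (r • sp θ φ) = 0 := fun θ φ =>
        Set.indicator_of_notMem (fun hc => h ((sph1_mem_Cone hr' (θ, φ)).1 hc).1) _
      simp only [this, mul_zero, lintegral_zero]
  rw [setLIntegral_congr_fun measurableSet_Ioi h1, lintegral_indicator measurableSet_Iio,
    Measure.restrict_restrict measurableSet_Iio]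
  have h2 : (∫⁻ r in Set.Iio (1 : ℝ) ∩ Set.Ioi (0 : ℝ), ENNReal.ofReal (r ^ 2)) =
      ENNReal.ofReal (1 / 3) := by
    have e : Set.Iio (1 : ℝ) ∩ Set.Ioi (0 : ℝ) = Set.Ioo 0 1 := by
      rw [Set.inter_comm]
      exact Set.Ioi_inter_Iio
    rw [e, ← ofReal_integral_eq_lintegral_ofReal]
    · rw [← integral_Ioc_eq_integral_Ioo, ← intervalIntegral.integral_of_le zero_le_one]
      norm_num
    · have : IntegrableOn (fun r : ℝ => r ^ 2) (Set.Icc 0 1) :=
        (continuous_pow 2).continuousOn.integrableOn_Icc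
      exact this.mono_set Set.Ioo_subset_Icc_self
    · exact Filter.Eventually.of_forall fun r => by (clear * -; positivity)
  rw [lintegral_mul_const _ (by fun_prop), h2, ← mul_assoc]
  have h3 : ((Module.finrank ℝ R3 : ℕ) : ℝ≥0∞) * ENNReal.ofReal (1 / 3) = 1 := by
    rw [finrank_euclideanSpace, Fintype.card_fin, ← ENNReal.ofReal_natCast,
      ← ENNReal.ofReal_mul (by positivity)]
    norm_num
  rw [h3, one_mul]

/-- a linear isometry, on the sphere -/
noncomputable def sph1G (g : R3 ≃ₗᵢ[ℝ] R3) (u : Metric.sphere (0 : R3) 1) :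
    Metric.sphere (0 : R3) 1 :=
  ⟨g u, by rw [mem_sphere_zero_iff_norm, g.norm_map]; exact mem_sphere_zero_iff_norm.1 u.2⟩

theorem sph1_continuous_G (g : R3 ≃ₗᵢ[ℝ] R3) : Continuous (sph1G g) :=
  Continuous.subtype_mk (g.continuous.comp continuous_subtype_val) _

theorem sph1Cone_G (g : R3 ≃ₗᵢ[ℝ] R3) (s : Set (Metric.sphere (0 : R3) 1)) :
    sph1Cone (sph1G g ⁻¹' s) = g ⁻¹' (sph1Cone s) := by
  ext x
  unfold sph1Cone
  simp only [Set.mem_ofPred_eq, Set.mem_preimage, g.norm_map, ne_eq, map_eq_zero_iff g g.injective]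
  refine and_congr_right fun _ => and_congr_right fun _ => ?_
  rw [← map_smul]
  constructor
  · rintro ⟨u, hu, hu'⟩
    exact ⟨sph1G g u, hu, by rw [← hu']; rfl⟩
  · rintro ⟨v, hv, hv'⟩
    have hn : ‖‖x‖⁻¹ • x‖ = 1 := by
      rw [← g.norm_map, ← hv']
      exact mem_sphere_zero_iff_norm.1 v.2
    refine ⟨⟨‖x‖⁻¹ • x, mem_sphere_zero_iff_norm.2 hn⟩, ?_, rfl⟩
    change sph1G g _ ∈ s
    have : sph1G g ⟨‖x‖⁻¹ • x, mem_sphere_zero_iff_norm.2 hn⟩ = v := Subtype.ext hv'.symm
    rw [this]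
    exact hv

theorem sph1_map_G (g : R3 ≃ₗᵢ[ℝ] R3) :
    Measure.map (sph1G g) (volume : Measure R3).toSphere = (volume : Measure R3).toSphere := by
  refine Measure.ext fun s hs => ?_
  have hm : Measurable (sph1G g) := (sph1_continuous_G g).measurable
  rw [Measure.map_apply hm hs, Measure.toSphere_apply' _ hs, Measure.toSphere_apply' _ (hm hs),
    sph1Cone_eq, sph1Cone_eq, sph1Cone_G,
    g.measurePreserving.measure_preimage (sph1Cone_measurable hs).nullMeasurableSet]

/-- the sphere average as an integral over the open rectangle -/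
theorem sph1_sph {E : Type} [NormedAddCommGroup E] [NormedSpace ℝ E] (f : R3 → E) :
    sph f = (1 / (4 * Real.pi)) • ∫ θ in Set.Ioo 0 Real.pi,
      ∫ φ in Set.Ioo (-Real.pi) Real.pi, Real.sin θ • f (sp θ φ) := by
  unfold sph
  congr 1
  rw [intervalIntegral.integral_of_le Real.pi_pos.le, integral_Ioc_eq_integral_Ioo]
  refine integral_congr_ae (Filter.Eventually.of_forall fun θ => ?_)
  change (∫ φ in (0 : ℝ)..(2 * Real.pi), Real.sin θ • f (sp θ φ)) =
    ∫ φ in Set.Ioo (-Real.pi) Real.pi, Real.sin θ • f (sp θ φ)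
  have hp : Function.Periodic (fun φ => Real.sin θ • f (sp θ φ)) (2 * Real.pi) := by
    intro φ
    have : sp θ (φ + 2 * Real.pi) = sp θ φ := by
      unfold sp
      rw [Real.cos_add_two_pi, Real.sin_add_two_pi]
    simp only [this]
  have h := hp.intervalIntegral_add_eq 0 (-Real.pi)
  rw [zero_add, show -Real.pi + 2 * Real.pi = Real.pi by ring] at h
  rw [h, intervalIntegral.integral_of_le (by linarith only [Real.pi_pos]),
    integral_Ioc_eq_integral_Ioo]

/-- the surface integral over the unit sphere in spherical coordinates -/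
theorem sph1_toSphere {E : Type} [NormedAddCommGroup E] [NormedSpace ℝ E]
    (f : Metric.sphere (0 : R3) 1 → E) (hf : Integrable f (volume : Measure R3).toSphere) :
    ∫ ω, f ω ∂(volume : Measure R3).toSphere = ∫ θ in Set.Ioo 0 Real.pi,
      ∫ φ in Set.Ioo (-Real.pi) Real.pi, Real.sin θ • f (sph1Sp2 (θ, φ)) := by
  have hmp : MeasurePreserving sph1Sp2 (sph1Box2.withDensity (fun p => (sph1Den2 p : ℝ≥0∞)))
      (volume : Measure R3).toSphere := ⟨sph1_continuous_Sp2.measurable, sph1_map2⟩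
  have hI : Integrable (fun p => f (sph1Sp2 p))
      (sph1Box2.withDensity (fun p => (sph1Den2 p : ℝ≥0∞))) := hmp.integrable_comp_of_integrable hf
  have h1 : ∫ x, f x ∂(volume : Measure R3).toSphere = ∫ p, f (sph1Sp2 p)
      ∂(sph1Box2.withDensity (fun p => (sph1Den2 p : ℝ≥0∞))) := by
    rw [← sph1_map2] at hf ⊢
    exact integral_map sph1_continuous_Sp2.measurable.aemeasurable hf.aestronglyMeasurable
  rw [h1, integral_withDensity_eq_integral_smul sph1_measurable_Den2]
  rw [integrable_withDensity_iff_integrable_smul sph1_measurable_Den2] at hI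
  unfold sph1Box2 at hI ⊢
  rw [integral_prod _ hI]
  refine setIntegral_congr_fun measurableSet_Ioo fun θ hθ => ?_
  refine integral_congr_ae (Filter.Eventually.of_forall fun φ => ?_)
  have hs : 0 < Real.sin θ := Real.sin_pos_of_mem_Ioo hθ
  change sph1Den2 (θ, φ) • f (sph1Sp2 (θ, φ)) = _
  rw [NNReal.smul_def]
  unfold sph1Den2
  rw [Real.coe_toNNReal _ hs.le]

theorem sph1_integrable {E : Type} [NormedAddCommGroup E] [NormedSpace ℝ E] (f : R3 → E)
    (hf : ContinuousOn f (Metric.sphere 0 1)) :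
    Integrable (fun ω : Metric.sphere (0 : R3) 1 => f ω) (volume : Measure R3).toSphere := by
  have hc : Continuous (fun ω : Metric.sphere (0 : R3) 1 => f ω) :=
    continuousOn_iff_continuous_domRestrict.1 hf
  exact hc.integrable_of_hasCompactSupport (HasCompactSupport.of_compactSpace _)

/-- bridge to Mathlib's surface measure -/
theorem sph_eq_toSphere {E : Type} [NormedAddCommGroup E] [NormedSpace ℝ E] (f : R3 → E)
    (hf : ContinuousOn f (Metric.sphere 0 1)) :
    sph f = (1 / (4 * Real.pi)) • ∫ ω : Metric.sphere (0 : R3) 1, f ω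
      ∂(volume : Measure R3).toSphere := by
  rw [sph1_sph, sph1_toSphere _ (sph1_integrable f hf)]
  rfl

end Vale.Agent.P370.Q
end
end

section

section

/-!
Half-filled Mott insulator: common part (site maps, hopping operators).
-/

namespace Vale.Agent.P370.Q

open MeasureTheory Finset ComplexConjugate

namespace Mott

variable {K : ℕ}

/-- families of spin states indexed by site maps -/
abbrev Fam (K : ℕ) : Type := (Fin K → Fin K) → SpinState K

def toFam (c : Tens K (Fin K × Fin 2)) : Fam K := fun π s => c (fun e => (π e, s e))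

def ofFam (c : Fam K) : Tens K (Fin K × Fin 2) :=
  fun I => c (fun e => (I e).1) (fun e => (I e).2)

theorem toFam_ofFam (c : Fam K) : toFam (ofFam c) = c := rfl

/-- real inner product of spin states -/
noncomputable def rp (a b : SpinState K) : ℝ := ∑ s, (conj (a s) * b s).re

theorem rp_self (a : SpinState K) : rp a a = spinNsq a := by
  unfold rp spinNsq
  refine sum_congr rfl fun s _ => ?_
  rw [Complex.conj_mul']
  exact_mod_cast Complex.ofReal_re _

theorem rp_symm (a b : SpinState K) : rp a b = rp b a := by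
  unfold rp
  refine sum_congr rfl fun s _ => ?_
  simp only [Complex.mul_re, Complex.conj_re, Complex.conj_im]
  ring

theorem rp_add_left (a b c : SpinState K) : rp (a + b) c = rp a c + rp b c := by
  unfold rp
  rw [← sum_add_distrib]
  refine sum_congr rfl fun s _ => ?_
  simp only [Pi.add_apply, map_add, add_mul, Complex.add_re]

theorem rp_add_right (a b c : SpinState K) : rp a (b + c) = rp a b + rp a c := by
  rw [rp_symm, rp_add_left, rp_symm b, rp_symm c]

theorem rp_smul_right (r : ℝ) (a b : SpinState K) : rp a (fun s => (r : ℂ) * b s) = r * rp a b := by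
  unfold rp
  rw [mul_sum]
  refine sum_congr rfl fun s _ => ?_
  simp only [Complex.mul_re, Complex.conj_re, Complex.conj_im, Complex.ofReal_re,
    Complex.ofReal_im]
  simp only [Complex.mul_im, Complex.ofReal_re, Complex.ofReal_im]
  ring

theorem rp_smul_left (r : ℝ) (a b : SpinState K) : rp (fun s => (r : ℂ) * a s) b = r * rp a b := by
  rw [rp_symm, rp_smul_right, rp_symm]

theorem rp_sum_right {ι : Type} (S : Finset ι) (a : SpinState K) (f : ι → SpinState K) :
    rp a (∑ i ∈ S, f i) = ∑ i ∈ S, rp a (f i) := by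
  unfold rp
  rw [sum_comm]
  refine sum_congr rfl fun s _ => ?_
  simp only [Finset.sum_apply, mul_sum, Complex.re_sum]

theorem spinNsq_nonneg (a : SpinState K) : 0 ≤ spinNsq a := sum_nonneg fun _ _ => by (clear * -; positivity)

theorem spinNsq_zero : spinNsq (0 : SpinState K) = 0 := by
  simp only [spinNsq, Pi.zero_apply, norm_zero, ne_eq, OfNat.ofNat_ne_zero, not_false_eq_true, zero_pow, sum_const_zero]

theorem spinNsq_add (a b : SpinState K) :
    spinNsq (a + b) = spinNsq a + 2 * rp a b + spinNsq b := by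
  rw [← rp_self, rp_add_left, rp_add_right, rp_add_right, rp_self, rp_self, rp_symm b a]
  ring

theorem rp_le (a b : SpinState K) : |rp a b| ≤ (spinNsq a + spinNsq b) / 2 := by
  have h1 : 0 ≤ spinNsq (a + b) := spinNsq_nonneg _
  have h2 : 0 ≤ spinNsq (a + fun s => ((-1 : ℝ) : ℂ) * b s) := spinNsq_nonneg _
  rw [spinNsq_add] at h1 h2
  rw [rp_smul_right] at h2
  have h3 : spinNsq (fun s => ((-1 : ℝ) : ℂ) * b s) = spinNsq b := by
    simp only [spinNsq, Complex.ofReal_neg, Complex.ofReal_one, neg_mul, one_mul, norm_neg]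
  rw [h3] at h2
  rw [abs_le]
  constructor <;> linarith

/-- hopping operator -/
noncomputable def hop (t : Fin K → Fin K → ℝ) (c : Fam K) : Fam K :=
  fun ρ => ∑ e, ∑ b, fun s => (t (ρ e) b : ℂ) * c (Function.update ρ e b) s

theorem hop_apply (t : Fin K → Fin K → ℝ) (c : Fam K) (ρ : Fin K → Fin K) (s : Fin K → Fin 2) :
    hop t c ρ s = ∑ e, ∑ b, (t (ρ e) b : ℂ) * c (Function.update ρ e b) s := by
  simp only [hop, Finset.sum_apply]

theorem hop_add (t : Fin K → Fin K → ℝ) (c d : Fam K) : hop t (c + d) = hop t c + hop t d := by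
  funext ρ s
  rw [Pi.add_apply, Pi.add_apply, hop_apply, hop_apply, hop_apply, ← sum_add_distrib]
  refine sum_congr rfl fun e _ => ?_
  rw [← sum_add_distrib]
  refine sum_congr rfl fun b _ => ?_
  rw [Pi.add_apply, Pi.add_apply]
  ring

theorem rp_hop (t : Fin K → Fin K → ℝ) (a : SpinState K) (c : Fam K) (ρ : Fin K → Fin K) :
    rp a (hop t c ρ) = ∑ e, ∑ b, t (ρ e) b * rp a (c (Function.update ρ e b)) := by
  unfold hop
  rw [rp_sum_right]
  refine sum_congr rfl fun e _ => ?_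
  rw [rp_sum_right]
  refine sum_congr rfl fun b _ => ?_
  rw [rp_smul_right]

theorem sum_split {M : Type} [AddCommMonoid M] {N : ℕ} {A : Type} [Fintype A] [DecidableEq A]
    (F : (Fin N → A × Fin 2) → M) :
    ∑ I, F I = ∑ ρ : Fin N → A, ∑ s : Fin N → Fin 2, F (fun e => (ρ e, s e)) := by
  rw [← (Equiv.arrowProdEquivProdArrow (Fin N) (fun _ => A) (fun _ => Fin 2)).symm.sum_comp,
    Fintype.sum_prod_type]
  rfl

/-- exchange of old and new value -/
def swapEquiv {N : ℕ} {A : Type} (e : Fin N) : ((Fin N → A) × A) ≃ ((Fin N → A) × A) where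
  toFun p := (Function.update p.1 e p.2, p.1 e)
  invFun p := (Function.update p.1 e p.2, p.1 e)
  left_inv p := by simp
  right_inv p := by simp

theorem sum_swap {M : Type} [AddCommMonoid M] {N : ℕ} {A : Type} [Fintype A] [DecidableEq A]
    (e : Fin N) (F : (Fin N → A) → A → M) :
    ∑ ρ, ∑ b, F ρ b = ∑ ρ, ∑ b, F (Function.update ρ e b) (ρ e) := by
  rw [← Fintype.sum_prod_type', ← Fintype.sum_prod_type', ← (swapEquiv e).sum_comp]
  rfl

theorem sum_update {N : ℕ} {A : Type} [Fintype A] [DecidableEq A]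
    (e : Fin N) (G : (Fin N → A) → ℝ) :
    ∑ ρ, ∑ b, G (Function.update ρ e b) = Fintype.card A * ∑ ρ, G ρ := by
  rw [sum_swap e (fun ρ b => G (Function.update ρ e b))]
  simp only [Function.update_idem, Function.update_eq_self, sum_const, card_univ, nsmul_eq_mul, mul_sum]

theorem nsq_split (c : Tens K (Fin K × Fin 2)) : nsq c = ∑ ρ, spinNsq (toFam c ρ) := by
  unfold nsq spinNsq toFam
  rw [sum_split]

theorem oneE_split (h : Fin K → Fin K → ℝ) (c : Tens K (Fin K × Fin 2)) :
    oneE (spin1 h) c = ∑ ρ, rp (toFam c ρ) (hop h (toFam c) ρ) := by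
  unfold oneE
  rw [sum_split, Complex.re_sum]
  refine sum_congr rfl fun ρ _ => ?_
  rw [rp_hop, Complex.re_sum]
  unfold rp
  simp only [mul_sum, Complex.re_sum]
  rw [sum_comm]
  refine sum_congr rfl fun e _ => ?_
  conv_rhs => rw [sum_comm]
  refine sum_congr rfl fun s _ => ?_
  rw [Fintype.sum_prod_type]
  refine sum_congr rfl fun b _ => ?_
  rw [sum_eq_single (s e)]
  · have : (Function.update (fun e => (ρ e, s e)) e (b, s e)) =
        fun e' => (Function.update ρ e b e', s e') := by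
      funext e'
      by_cases h : e' = e
      · subst h; simp
      · simp [h]
    simp only [spin1, if_true, this, toFam]
    simp only [Complex.mul_re, Complex.mul_im, Complex.ofReal_re, Complex.ofReal_im,
      Complex.conj_re, Complex.conj_im]
    ring
  · intro σ _ hσ
    have : spin1 h (ρ e, s e) (b, σ) = 0 := by
      simp [spin1, Ne.symm hσ]
    rw [this]
    simp only [Complex.ofReal_zero, zero_mul, Complex.zero_re]
  · simp only [mem_univ, not_true_eq_false, Complex.mul_re, Complex.ofReal_re, Complex.conj_re, Complex.conj_im, neg_mul, sub_neg_eq_add, Complex.ofReal_im, Complex.mul_im, zero_mul, sub_zero, mul_eq_zero, IsEmpty.forall_iff]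

/-- symmetry of the hopping operator -/
theorem hop_symm {t : Fin K → Fin K → ℝ} (ht : ∀ i j, t i j = t j i) (c d : Fam K) :
    ∑ ρ, rp (c ρ) (hop t d ρ) = ∑ ρ, rp (d ρ) (hop t c ρ) := by
  simp only [rp_hop]
  rw [sum_comm]
  conv_rhs => rw [sum_comm]
  refine sum_congr rfl fun e _ => ?_
  rw [sum_swap e]
  refine sum_congr rfl fun ρ _ => ?_
  refine sum_congr rfl fun b _ => ?_
  rw [Function.update_self, Function.update_idem, Function.update_eq_self, rp_symm, ht]

/-- norm bound of the hopping operator -/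
theorem hop_bound {t : Fin K → Fin K → ℝ} {τ : ℝ} (ht : ∀ i j, |t i j| ≤ τ) (c : Fam K) :
    |∑ ρ, rp (c ρ) (hop t c ρ)| ≤ (K : ℝ) ^ 2 * τ * ∑ ρ, spinNsq (c ρ) := by
  simp only [rp_hop]
  rw [sum_comm]
  have key : ∀ e : Fin K, |∑ ρ, ∑ b, t (ρ e) b * rp (c ρ) (c (Function.update ρ e b))| ≤
      K * τ * ∑ ρ, spinNsq (c ρ) := by
    intro e
    have h1 : |∑ ρ, ∑ b, t (ρ e) b * rp (c ρ) (c (Function.update ρ e b))| ≤
        ∑ ρ, ∑ b, τ * ((spinNsq (c ρ) + spinNsq (c (Function.update ρ e b))) / 2) := by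
      refine (abs_sum_le_sum_abs _ _).trans (sum_le_sum fun ρ _ => ?_)
      refine (abs_sum_le_sum_abs _ _).trans (sum_le_sum fun b _ => ?_)
      rw [abs_mul]
      exact mul_le_mul (ht _ _) (rp_le _ _) (abs_nonneg _) ((abs_nonneg _).trans (ht (ρ e) b))
    refine h1.trans (le_of_eq ?_)
    have h2 := sum_update e (fun ρ => spinNsq (c ρ))
    have h3 : ∀ ρ : Fin K → Fin K, ∑ b : Fin K,
        τ * ((spinNsq (c ρ) + spinNsq (c (Function.update ρ e b))) / 2) =
        τ / 2 * (K * spinNsq (c ρ)) + τ / 2 * ∑ b, spinNsq (c (Function.update ρ e b)) := by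
      intro ρ
      rw [← mul_sum, ← sum_div, sum_add_distrib]
      simp only [sum_const, card_univ, Fintype.card_fin, nsmul_eq_mul]
      ring
    simp only [h3]
    rw [sum_add_distrib, ← mul_sum, ← mul_sum, ← mul_sum, h2]
    simp only [Fintype.card_fin]
    ring
  refine (abs_sum_le_sum_abs _ _).trans ((sum_le_sum fun e _ => key e).trans (le_of_eq ?_))
  simp only [sum_const, card_univ, Fintype.card_fin, nsmul_eq_mul]
  ring

theorem twoE_split {N : ℕ} {A : Type} [Fintype A] [DecidableEq A] (v : A → A → A → A → ℝ)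
    (c : Tens N (A × Fin 2)) :
    twoE (spin2 v) c = ∑ ρ : Fin N → A, ∑ s : Fin N → Fin 2, ∑ e, ∑ f ∈ Ioi e, ∑ a, ∑ b,
      v (ρ e) a (ρ f) b * (conj (c (fun e => (ρ e, s e))) *
        c (fun e' => (Function.update (Function.update ρ e a) f b e', s e'))).re := by
  unfold twoE
  rw [sum_split, Complex.re_sum]
  refine sum_congr rfl fun ρ _ => ?_
  rw [Complex.re_sum]
  refine sum_congr rfl fun s _ => ?_
  rw [Complex.re_sum]
  refine sum_congr rfl fun e _ => ?_
  rw [Complex.re_sum]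
  refine sum_congr rfl fun f hf => ?_
  have hef : e ≠ f := (Finset.mem_Ioi.1 hf).ne
  rw [Complex.re_sum, Fintype.sum_prod_type]
  refine sum_congr rfl fun a _ => ?_
  rw [sum_eq_single (s e)]
  · rw [Complex.re_sum, Fintype.sum_prod_type]
    refine sum_congr rfl fun b _ => ?_
    rw [sum_eq_single (s f)]
    · have : (Function.update (Function.update (fun e => (ρ e, s e)) e (a, s e)) f (b, s f)) =
          fun e' => (Function.update (Function.update ρ e a) f b e', s e') := by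
        funext e'
        by_cases h : e' = f
        · subst h; simp
        · by_cases h' : e' = e
          · subst h'; simp only [ne_eq, h, not_false_eq_true, Function.update_of_ne, Function.update_self]
          · simp only [ne_eq, h, not_false_eq_true, Function.update_of_ne, h']
      rw [this]
      simp only [spin2, and_self, if_true]
      rw [Complex.re_ofReal_mul]
    · intro σ _ hσ
      have : spin2 v (ρ e, s e) (a, s e) (ρ f, s f) (b, σ) = 0 := by
        simp [spin2, Ne.symm hσ]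
      rw [this]
      simp
    · simp only [mem_univ, not_true_eq_false, Complex.mul_re, Complex.ofReal_re, Complex.conj_re, Complex.conj_im, neg_mul, sub_neg_eq_add, Complex.ofReal_im, Complex.mul_im, zero_mul, sub_zero, mul_eq_zero, IsEmpty.forall_iff]
  · intro σ _ hσ
    rw [Complex.re_sum]
    refine sum_eq_zero fun b _ => ?_
    have : spin2 v (ρ e, s e) (a, σ) (ρ f, s f) b = 0 := by
      simp [spin2, Ne.symm hσ]
    rw [this]
    simp only [Complex.ofReal_zero, zero_mul, Complex.zero_re]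
  · simp only [mem_univ, not_true_eq_false, Complex.re_sum, Complex.mul_re, Complex.ofReal_re, Complex.conj_re, Complex.conj_im, neg_mul, sub_neg_eq_add, Complex.ofReal_im, Complex.mul_im, zero_mul, sub_zero, IsEmpty.forall_iff]

/-- diagonal interactions -/
theorem twoE_diag (W : Fin K → Fin K → ℝ) (c : Tens K (Fin K × Fin 2)) :
    twoE (spin2 (fun i j k l => if i = j ∧ k = l then W i k else 0)) c =
      ∑ ρ, (∑ e, ∑ f ∈ Ioi e, W (ρ e) (ρ f)) * spinNsq (toFam c ρ) := by
  rw [twoE_split]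
  refine sum_congr rfl fun ρ _ => ?_
  unfold spinNsq
  rw [mul_sum]
  refine sum_congr rfl fun s _ => ?_
  rw [sum_mul]
  refine sum_congr rfl fun e _ => ?_
  rw [sum_mul]
  refine sum_congr rfl fun f hf => ?_
  rw [sum_eq_single (ρ e)]
  · rw [sum_eq_single (ρ f)]
    · simp only [and_self, if_true]
      congr 1
      have : (fun e' => (Function.update (Function.update ρ e (ρ e)) f (ρ f) e', s e')) =
          fun e => (ρ e, s e) := by
        simp
      rw [this, Complex.conj_mul']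
      exact_mod_cast Complex.ofReal_re _
    · intro b _ hb
      rw [if_neg (fun h => hb h.2.symm), zero_mul]
    · simp only [mem_univ, not_true_eq_false, and_self, ↓reduceIte, Function.update_eq_self, Complex.mul_re, Complex.conj_re, Complex.conj_im, neg_mul, sub_neg_eq_add, mul_eq_zero, IsEmpty.forall_iff]
  · intro a _ ha
    refine sum_eq_zero fun b _ => ?_
    rw [if_neg (fun h => ha h.1.symm), zero_mul]
  · simp only [mem_univ, not_true_eq_false, true_and, Function.update_eq_self, Complex.mul_re, Complex.conj_re, Complex.conj_im, neg_mul, sub_neg_eq_add, ite_mul, zero_mul, sum_ite_eq, ↓reduceIte, mul_eq_zero, IsEmpty.forall_iff]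

theorem nsq_nonneg {N : ℕ} {ι : Type} [Fintype ι] [DecidableEq ι] (c : Tens N ι) : 0 ≤ nsq c :=
  sum_nonneg fun _ _ => by (clear * -; positivity)

theorem twoE_bound {N : ℕ} {A : Type} [Fintype A] [DecidableEq A] {v : A → A → A → A → ℝ}
    {δ : ℝ} (hδ : 0 ≤ δ) (hv : ∀ p a q b, |v p a q b| ≤ δ) (c : Tens N (A × Fin 2)) :
    |twoE (spin2 v) c| ≤ (N : ℝ) ^ 2 * (Fintype.card A : ℝ) ^ 2 * δ * nsq c := by
  rw [twoE_split]
  have hc : nsq c = ∑ ρ : Fin N → A, ∑ s : Fin N → Fin 2, ‖c (fun e => (ρ e, s e))‖ ^ 2 := by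
    unfold nsq
    rw [sum_split]
  have h0 : (∑ ρ : Fin N → A, ∑ s : Fin N → Fin 2, ∑ e, ∑ f ∈ Ioi e, ∑ a, ∑ b,
      v (ρ e) a (ρ f) b * (conj (c (fun e => (ρ e, s e))) *
        c (fun e' => (Function.update (Function.update ρ e a) f b e', s e'))).re) =
      ∑ e, ∑ f ∈ Ioi e, ∑ s : Fin N → Fin 2, ∑ ρ : Fin N → A, ∑ a, ∑ b,
      v (ρ e) a (ρ f) b * (conj (c (fun e => (ρ e, s e))) *
        c (fun e' => (Function.update (Function.update ρ e a) f b e', s e'))).re := by
    rw [sum_comm]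
    conv_rhs =>
      enter [2, e]
      rw [sum_comm]
    conv_rhs => rw [sum_comm]
    refine sum_congr rfl fun s _ => ?_
    conv_rhs =>
      enter [2, e]
      rw [sum_comm]
    conv_rhs => rw [sum_comm]
  rw [h0]
  have key : ∀ e f : Fin N, |∑ s : Fin N → Fin 2, ∑ ρ : Fin N → A, ∑ a, ∑ b,
      v (ρ e) a (ρ f) b * (conj (c (fun e => (ρ e, s e))) *
        c (fun e' => (Function.update (Function.update ρ e a) f b e', s e'))).re| ≤
      (Fintype.card A : ℝ) ^ 2 * δ * nsq c := by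
    intro e f
    have h1 : |∑ s : Fin N → Fin 2, ∑ ρ : Fin N → A, ∑ a, ∑ b,
      v (ρ e) a (ρ f) b * (conj (c (fun e => (ρ e, s e))) *
        c (fun e' => (Function.update (Function.update ρ e a) f b e', s e'))).re| ≤
      ∑ s : Fin N → Fin 2, ∑ ρ : Fin N → A, ∑ a, ∑ b, δ / 2 * (‖c (fun e => (ρ e, s e))‖ ^ 2 +
        ‖c (fun e' => (Function.update (Function.update ρ e a) f b e', s e'))‖ ^ 2) := by
      refine (abs_sum_le_sum_abs _ _).trans (sum_le_sum fun s _ => ?_)
      refine (abs_sum_le_sum_abs _ _).trans (sum_le_sum fun ρ _ => ?_)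
      refine (abs_sum_le_sum_abs _ _).trans (sum_le_sum fun a _ => ?_)
      refine (abs_sum_le_sum_abs _ _).trans (sum_le_sum fun b _ => ?_)
      rw [abs_mul]
      have h2 : |(conj (c (fun e => (ρ e, s e))) *
        c (fun e' => (Function.update (Function.update ρ e a) f b e', s e'))).re| ≤
          (‖c (fun e => (ρ e, s e))‖ ^ 2 +
        ‖c (fun e' => (Function.update (Function.update ρ e a) f b e', s e'))‖ ^ 2) / 2 := by
        refine (Complex.abs_re_le_norm _).trans ?_
        rw [norm_mul, Complex.norm_conj]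
        nlinarith only [sq_nonneg (‖c (fun e => (ρ e, s e))‖ -           ‖c (fun e' => (Function.update (Function.update ρ e a) f b e', s e'))‖)]
      calc _ ≤ δ * ((‖c (fun e => (ρ e, s e))‖ ^ 2 +
        ‖c (fun e' => (Function.update (Function.update ρ e a) f b e', s e'))‖ ^ 2) / 2) :=
            mul_le_mul (hv _ _ _ _) h2 (abs_nonneg _) hδ
        _ = _ := by ring
    refine h1.trans (le_of_eq ?_)
    have h3 : ∀ s : Fin N → Fin 2, ∑ ρ : Fin N → A, ∑ a, ∑ b,
        ‖c (fun e' => (Function.update (Function.update ρ e a) f b e', s e'))‖ ^ 2 =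
        (Fintype.card A : ℝ) ^ 2 * ∑ ρ : Fin N → A, ‖c (fun e' => (ρ e', s e'))‖ ^ 2 := by
      intro s
      have h4 := sum_update e (fun ρ : Fin N → A => ∑ b,
        ‖c (fun e' => (Function.update ρ f b e', s e'))‖ ^ 2)
      have h5 := sum_update f (fun ρ : Fin N → A => ‖c (fun e' => (ρ e', s e'))‖ ^ 2)
      rw [h5] at h4
      rw [h4]
      ring
    simp only [← mul_sum, sum_add_distrib, h3]
    rw [hc, sum_comm (s := (univ : Finset (Fin N → A)))]
    simp only [sum_const, card_univ, nsmul_eq_mul]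
    simp only [← mul_sum]
    ring
  refine (abs_sum_le_sum_abs _ _).trans ?_
  have h6 : ∀ e : Fin N, |∑ f ∈ Ioi e, ∑ s : Fin N → Fin 2, ∑ ρ : Fin N → A, ∑ a, ∑ b,
      v (ρ e) a (ρ f) b * (conj (c (fun e => (ρ e, s e))) *
        c (fun e' => (Function.update (Function.update ρ e a) f b e', s e'))).re| ≤
      N * ((Fintype.card A : ℝ) ^ 2 * δ * nsq c) := by
    intro e
    refine (abs_sum_le_sum_abs _ _).trans ((sum_le_sum fun f _ => key e f).trans ?_)
    rw [sum_const, nsmul_eq_mul]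
    refine mul_le_mul_of_nonneg_right ?_ (by have := nsq_nonneg c; (clear * - hδ this; positivity))
    have : #(Ioi e) ≤ Fintype.card (Fin N) := card_le_univ _
    rw [Fintype.card_fin] at this
    exact_mod_cast this
  refine (sum_le_sum fun e _ => h6 e).trans (le_of_eq ?_)
  simp only [sum_const, card_univ, Fintype.card_fin, nsmul_eq_mul]
  ring

theorem oneE_add {N : ℕ} {ι : Type} [Fintype ι] [DecidableEq ι] (h h' : ι → ι → ℝ)
    (c : Tens N ι) : oneE (fun p q => h p q + h' p q) c = oneE h c + oneE h' c := by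
  unfold oneE
  simp only [Complex.ofReal_add, add_mul, sum_add_distrib, Complex.add_re]

theorem twoE_add {N : ℕ} {ι : Type} [Fintype ι] [DecidableEq ι] (v v' : ι → ι → ι → ι → ℝ)
    (c : Tens N ι) :
    twoE (fun p a q b => v p a q b + v' p a q b) c = twoE v c + twoE v' c := by
  unfold twoE
  simp only [Complex.ofReal_add, add_mul, sum_add_distrib, Complex.add_re]

end Mott

end Vale.Agent.P370.Q
end
end

section

section

/-!
Half-filled Mott insulator: classical energies, antisymmetry, second order operator.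
-/

namespace Vale.Agent.P370.Q

open MeasureTheory Finset ComplexConjugate

namespace Mott

variable {K : ℕ}

theorem sum_pairs (g : Fin K → Fin K → ℝ) (hg : ∀ i j, g i j = g j i) :
    ∑ e, ∑ f, g e f = ∑ e, g e e + 2 * ∑ e, ∑ f ∈ Ioi e, g e f := by
  have h := Finset.sum_sum_Ioi_add_eq_sum_sum_off_diag g
  have h1 : ∀ e, ∑ f, g e f = g e e + ∑ f ∈ ({e} : Finset (Fin K))ᶜ, g f e := by
    intro e
    rw [← Finset.sum_singleton (fun f => g e f) e]
    rw [← sum_add_sum_compl {e} (fun f => g e f)]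
    congr 1
    exact sum_congr rfl fun f _ => hg _ _
  simp only [h1, sum_add_distrib]
  rw [← h, mul_sum]
  congr 1
  refine sum_congr rfl fun e _ => ?_
  rw [mul_sum]
  refine sum_congr rfl fun f _ => ?_
  rw [hg f e]
  ring

/-- occupation numbers minus one -/
def xv (ρ : Fin K → Fin K) (i : Fin K) : ℤ := (∑ e, if ρ e = i then 1 else 0) - 1

theorem sum_comp_xv (ρ : Fin K → Fin K) (g : Fin K → ℝ) :
    ∑ e, g (ρ e) = ∑ i, ((xv ρ i : ℝ) + 1) * g i := by
  have h : ∀ i, ((xv ρ i : ℝ) + 1) * g i = ∑ e, if ρ e = i then g i else 0 := by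
    intro i
    unfold xv
    push_cast
    rw [sub_add_cancel, sum_mul]
    refine sum_congr rfl fun e _ => ?_
    split_ifs <;> simp
  simp only [h]
  rw [sum_comm]
  simp only [sum_ite_eq, mem_univ, ↓reduceIte]

theorem xv_sum (ρ : Fin K → Fin K) : ∑ i, (xv ρ i : ℝ) = 0 := by
  have h := sum_comp_xv ρ (fun _ => 1)
  simp only [mul_one, sum_add_distrib, sum_const, card_univ, Fintype.card_fin, nsmul_eq_mul] at h
  linarith

theorem xv_nonneg_of_surj {ρ : Fin K → Fin K} (h : ∀ i, xv ρ i = 0) : Function.Bijective ρ := by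
  refine Finite.surjective_iff_bijective.1 fun i => ?_
  by_contra hne
  have h1 : xv ρ i = -1 := by
    unfold xv
    rw [sum_eq_zero]
    · rfl
    · intro e _
      rw [if_neg]
      exact fun he => hne ⟨e, he⟩
  rw [h i] at h1
  norm_num at h1

theorem xv_bij {ρ : Fin K → Fin K} (h : Function.Bijective ρ) (i : Fin K) : xv ρ i = 0 := by
  obtain ⟨e, he⟩ := h.surjective i
  unfold xv
  rw [sum_eq_single e]
  · simp [he]
  · intro f _ hf
    rw [if_neg]
    exact fun h' => hf (h.injective (h'.trans he.symm))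
  · simp only [mem_univ, not_true_eq_false, ite_eq_right_iff, one_ne_zero, imp_false, IsEmpty.forall_iff]

theorem xv_update (ρ : Fin K → Fin K) (e b i : Fin K) :
    xv (Function.update ρ e b) i =
      xv ρ i - (if ρ e = i then 1 else 0) + (if b = i then 1 else 0) := by
  unfold xv
  have h1 : ∑ f, (if Function.update ρ e b f = i then (1 : ℤ) else 0) =
      ∑ f, (if ρ f = i then (1 : ℤ) else 0) + ∑ f, (if f = e then
        ((if b = i then 1 else 0) - (if ρ e = i then 1 else 0)) else 0) := by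
    rw [← sum_add_distrib]
    refine sum_congr rfl fun f _ => ?_
    by_cases h : f = e
    · subst h
      simp
    · simp [h]
  rw [h1, sum_ite_eq' univ e]
  simp only [sum_boole, mem_univ, ↓reduceIte]
  ring

theorem xv_ge (ρ : Fin K → Fin K) (i : Fin K) : -1 ≤ xv ρ i := by
  unfold xv
  have : (0 : ℤ) ≤ ∑ e, if ρ e = i then 1 else 0 := sum_nonneg fun e _ => by split_ifs <;> simp
  linarith

/-- classical interaction energy -/
noncomputable def ws (W : Fin K → Fin K → ℝ) (ρ : Fin K → Fin K) : ℝ :=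
  ∑ e, ∑ f ∈ Ioi e, W (ρ e) (ρ f)

section

variable {W : Fin K → Fin K → ℝ} {w0 w1 : ℝ}

theorem ws_formula (hs : ∀ i j, W i j = W j i) (hd : ∀ i, W i i = w0)
    (hr : ∀ i, ∑ j, W i j = w1) (ρ : Fin K → Fin K) :
    ws W ρ - ws W id = (∑ i, ∑ j, (xv ρ i : ℝ) * (xv ρ j : ℝ) * W i j) / 2 := by
  have h1 := sum_pairs (fun e f => W (ρ e) (ρ f)) (fun _ _ => hs _ _)
  have h2 := sum_pairs (fun e f => W e f) (fun _ _ => hs _ _)
  simp only [hd] at h1 h2
  have h3 : ∑ e, ∑ f, W (ρ e) (ρ f) =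
      ∑ i, ∑ j, ((xv ρ i : ℝ) + 1) * ((xv ρ j : ℝ) + 1) * W i j := by
    have h4 : ∀ e, ∑ f, W (ρ e) (ρ f) = ∑ j, ((xv ρ j : ℝ) + 1) * W (ρ e) j :=
      fun e => sum_comp_xv ρ (fun j => W (ρ e) j)
    simp only [h4]
    rw [sum_comp_xv ρ (fun i => ∑ j, ((xv ρ j : ℝ) + 1) * W i j)]
    refine sum_congr rfl fun i _ => ?_
    rw [mul_sum]
    exact sum_congr rfl fun j _ => by ring
  have h5 : ∑ i, ∑ j, ((xv ρ i : ℝ) + 1) * ((xv ρ j : ℝ) + 1) * W i j =
      ∑ i, ∑ j, (xv ρ i : ℝ) * (xv ρ j : ℝ) * W i j + ∑ i, ∑ j, W i j := by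
    have h6 : ∀ i j, ((xv ρ i : ℝ) + 1) * ((xv ρ j : ℝ) + 1) * W i j =
        (xv ρ i : ℝ) * (xv ρ j : ℝ) * W i j + W i j + (xv ρ i : ℝ) * W i j +
          (xv ρ j : ℝ) * W j i := by
      intro i j
      rw [hs j i]
      ring
    have h7 : ∑ i, ∑ j, (xv ρ i : ℝ) * W i j = 0 := by
      simp only [← mul_sum, hr]
      rw [← sum_mul, xv_sum, zero_mul]
    have h8 : ∑ i, ∑ j, (xv ρ j : ℝ) * W j i = 0 := by
      rw [sum_comm]
      exact h7
    simp only [h6, sum_add_distrib, h7, h8]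
    ring
  unfold ws
  simp only [id]
  linarith

theorem ws_bij (hs : ∀ i j, W i j = W j i) (hd : ∀ i, W i i = w0)
    (hr : ∀ i, ∑ j, W i j = w1) {ρ : Fin K → Fin K} (hρ : Function.Bijective ρ) :
    ws W ρ = ws W id := by
  have h := ws_formula hs hd hr ρ
  simp only [xv_bij hρ] at h
  simp only [Int.cast_zero, mul_zero, zero_mul, sum_const_zero, zero_div] at h
  linarith only [h]

theorem ws_hop (hs : ∀ i j, W i j = W j i) (hd : ∀ i, W i i = w0)
    (hr : ∀ i, ∑ j, W i j = w1) {ρ : Fin K → Fin K} {e b : Fin K}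
    (hρ : Function.Bijective (Function.update ρ e b)) :
    ws W ρ - ws W id = w0 - W (ρ e) b := by
  have h := ws_formula hs hd hr ρ
  have hx : ∀ i, (xv ρ i : ℝ) = (if i = ρ e then 1 else 0) - (if i = b then 1 else 0) := by
    intro i
    have h1 := xv_update ρ e b i
    rw [xv_bij hρ] at h1
    have h2 : xv ρ i = (if ρ e = i then 1 else 0) - (if b = i then 1 else 0) := by linarith only [h1]
    rw [h2]
    push_cast
    simp only [eq_comm]
  rw [h]
  simp only [hx, sub_mul, mul_sub, sum_sub_distrib, ite_mul, mul_ite, one_mul, zero_mul, mul_one,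
    mul_zero, sum_ite_eq', mem_univ, if_true, hd]
  rw [hs b (ρ e)]
  ring

end

/-- antisymmetry of families -/
def FAnti (c : Fam K) : Prop :=
  ∀ (g : Equiv.Perm (Fin K)) (ρ : Fin K → Fin K) (s : Fin K → Fin 2),
    c (fun e => ρ (g e)) (fun e => s (g e)) = ((Equiv.Perm.sign g : ℤ) : ℂ) * c ρ s

theorem toFam_anti {c : Tens K (Fin K × Fin 2)} (hc : IsAnti c) : FAnti (toFam c) :=
  fun g ρ s => hc g (fun e => (ρ e, s e))

theorem ofFam_anti {c : Fam K} (hc : FAnti c) : IsAnti (ofFam c) :=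
  fun g I => hc g (fun e => (I e).1) (fun e => (I e).2)

theorem anti_swap {c : Fam K} (hc : FAnti c) {e f : Fin K} (hef : e ≠ f) (ρ : Fin K → Fin K)
    (s : Fin K → Fin 2) :
    c (fun x => ρ (Equiv.swap e f x)) (fun x => s (Equiv.swap e f x)) = -c ρ s := by
  rw [hc, Equiv.Perm.sign_swap hef]
  simp only [Units.val_neg, Units.val_one, Int.reduceNeg, Int.cast_neg, Int.cast_one, neg_mul, one_mul]

theorem comp_swap_eq {α : Type} {f : Fin K → α} {x y : Fin K} (h : f x = f y) :
    (fun z => f (Equiv.swap x y z)) = f := by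
  funext z
  rw [Equiv.swap_apply_def]
  split_ifs with h1 h2
  · rw [h1, h]
  · rw [h2, h]
  · rfl

theorem zero_of_eq {c : Fam K} (hc : FAnti c) {e f : Fin K} (hef : e ≠ f) {ρ : Fin K → Fin K}
    {s : Fin K → Fin 2} (h1 : ρ e = ρ f) (h2 : s e = s f) : c ρ s = 0 := by
  have h := anti_swap hc hef ρ s
  rw [comp_swap_eq h1, comp_swap_eq h2] at h
  have h3 : (2 : ℂ) * c ρ s = 0 := by linear_combination h
  simpa only [mul_eq_zero, OfNat.ofNat_ne_zero, false_or] using h3

theorem xv_le {c : Fam K} (hc : FAnti c) {ρ : Fin K → Fin K} (h : c ρ ≠ 0) (i : Fin K) :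
    xv ρ i ≤ 1 := by
  by_contra hlt
  push Not at hlt
  apply h
  have h1 : 2 < #(univ.filter (fun e => ρ e = i)) := by
    have h2 : (#(univ.filter (fun e => ρ e = i)) : ℤ) = xv ρ i + 1 := by
      unfold xv
      rw [card_filter]
      push_cast
      ring
    have : (2 : ℤ) < #(univ.filter (fun e => ρ e = i)) := by rw [h2]; linarith only [hlt]
    exact_mod_cast this
  obtain ⟨x, hx, y, hy, z, hz, hxy, hxz, hyz⟩ := two_lt_card.1 h1
  simp only [mem_filter, mem_univ, true_and] at hx hy hz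
  funext s
  rcases (by
    have := (s x).isLt
    have := (s y).isLt
    have := (s z).isLt
    rcases eq_or_ne (s x) (s y) with h | h
    · exact Or.inl h
    · rcases eq_or_ne (s x) (s z) with h' | h'
      · exact Or.inr (Or.inl h')
      · right; right
        apply Fin.ext
        have a1 : (s x).val ≠ (s y).val := fun hh => h (Fin.ext hh)
        have a2 : (s x).val ≠ (s z).val := fun hh => h' (Fin.ext hh)
        (clear hc i hlt h1 hxy hxz hyz hx hy hz; omega) : s x = s y ∨ s x = s z ∨ s y = s z) with h3 | h3 | h3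
  · exact zero_of_eq hc hxy (hx.trans hy.symm) h3
  · exact zero_of_eq hc hxz (hx.trans hz.symm) h3
  · exact zero_of_eq hc hyz (hy.trans hz.symm) h3

theorem ws_gap {h W t : Fin K → Fin K → ℝ} {v : Fin K → Fin K → Fin K → Fin K → ℝ}
    {ε0 w0 w1 u τ δ : ℝ} (H : MottHyp K h W t v ε0 w0 w1 u τ δ) {c : Fam K} (hc : FAnti c)
    {ρ : Fin K → Fin K} (hρ : ¬ Function.Bijective ρ) (hne : c ρ ≠ 0) :
    u ≤ ws W ρ - ws W id := by
  rw [ws_formula H.W_symm H.W_diag H.W_row]
  have h1 := H.W_pd (xv ρ) (fun i => abs_le.2 ⟨xv_ge ρ i, xv_le hc hne i⟩)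
    (fun h0 => hρ (xv_nonneg_of_surj fun i => by rw [h0]; rfl))
  linarith only [h1]

theorem hop_anti (t : Fin K → Fin K → ℝ) {c : Fam K} (hc : FAnti c) : FAnti (hop t c) := by
  intro g ρ s
  rw [hop_apply, hop_apply, mul_sum]
  conv_rhs => rw [← Equiv.sum_comp g]
  refine sum_congr rfl fun e _ => ?_
  rw [mul_sum]
  refine sum_congr rfl fun b _ => ?_
  have h1 : Function.update (fun e => ρ (g e)) e b = fun x => Function.update ρ (g e) b (g x) := by
    funext x
    by_cases hx : x = e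
    · subst hx; simp
    · have : g x ≠ g e := fun h => hx (g.injective h)
      simp [hx, this]
  rw [h1, hc]
  ring

/-- restriction to bijective site maps -/
def bp (c : Fam K) : Fam K := fun ρ => if Function.Bijective ρ then c ρ else 0

/-- restriction to site maps that are not bijective -/
def bq (c : Fam K) : Fam K := fun ρ => if Function.Bijective ρ then 0 else c ρ

theorem bp_add_bq (c : Fam K) : bp c + bq c = c := by
  funext ρ
  rw [Pi.add_apply]
  unfold bp bq
  split_ifs <;> simp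

theorem bp_anti {c : Fam K} (hc : FAnti c) : FAnti (bp c) := by
  intro g ρ s
  unfold bp
  have h1 : Function.Bijective (fun e => ρ (g e)) ↔ Function.Bijective ρ :=
    Function.Bijective.of_comp_iff ρ g.bijective
  by_cases h : Function.Bijective ρ
  · rw [if_pos h, if_pos (h1.2 h)]
    exact hc g ρ s
  · rw [if_neg h, if_neg (fun h' => h (h1.1 h'))]
    simp

theorem bq_anti {c : Fam K} (hc : FAnti c) : FAnti (bq c) := by
  intro g ρ s
  unfold bq
  have h1 : Function.Bijective (fun e => ρ (g e)) ↔ Function.Bijective ρ :=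
    Function.Bijective.of_comp_iff ρ g.bijective
  by_cases h : Function.Bijective ρ
  · rw [if_pos h, if_pos (h1.2 h)]
    simp
  · rw [if_neg h, if_neg (fun h' => h (h1.1 h'))]
    exact hc g ρ s

/-- action of a transposition of sites on a spin state, expectation of `1 - SWAP` -/
noncomputable def sw (φ : SpinState K) (i j : Fin K) : ℝ :=
  spinNsq φ - (∑ s, conj (φ s) * φ (s ∘ Equiv.swap i j)).re

theorem bij_formula {c : Fam K} (hc : FAnti c) {π : Fin K → Fin K} (hπ : Function.Bijective π)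
    (e f : Fin K) :
    spinNsq (c π) - rp (c π) (fun s => c π (fun x => s (Equiv.swap e f x))) =
      sw (c id) (π e) (π f) ∧ spinNsq (c π) = spinNsq (c id) := by
  set g : Equiv.Perm (Fin K) := Equiv.ofBijective π hπ with hg
  have hgπ : ∀ x, g x = π x := fun x => rfl
  have h0 : ∀ s : Fin K → Fin 2, c π (s ∘ g) = ((Equiv.Perm.sign g : ℤ) : ℂ) * c id s := by
    intro s
    exact hc g id s
  have hsq : ∀ z : ℂ, conj (((Equiv.Perm.sign g : ℤ) : ℂ) * z) = ((Equiv.Perm.sign g : ℤ) : ℂ) *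
      conj z := by
    intro z
    rw [map_mul]
    congr 1
    exact Complex.conj_ofReal (Equiv.Perm.sign g : ℤ)
  have hone : ((Equiv.Perm.sign g : ℤ) : ℂ) * ((Equiv.Perm.sign g : ℤ) : ℂ) = 1 := by
    rcases Int.units_eq_one_or (Equiv.Perm.sign g) with h | h <;> rw [h] <;> simp only [Units.val_neg, Units.val_one, Int.reduceNeg, Int.cast_neg, Int.cast_one, mul_neg, mul_one, neg_neg]
  have hnorm : ‖((Equiv.Perm.sign g : ℤ) : ℂ)‖ = 1 := by
    rcases Int.units_eq_one_or (Equiv.Perm.sign g) with h | h <;> rw [h] <;> simp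
  have hre : ∀ F : (Fin K → Fin 2) → ℝ, ∑ s, F s = ∑ s : Fin K → Fin 2, F (s ∘ g) := by
    intro F
    exact ((g.symm.arrowCongr (Equiv.refl (Fin 2))).sum_comp F).symm
  have h2 : spinNsq (c π) = spinNsq (c id) := by
    unfold spinNsq
    rw [hre]
    refine sum_congr rfl fun s _ => ?_
    rw [h0, norm_mul, hnorm, one_mul]
  refine ⟨?_, h2⟩
  unfold sw
  rw [h2]
  congr 1
  unfold rp
  rw [hre, Complex.re_sum]
  refine sum_congr rfl fun s _ => ?_
  have h3 : (fun x => (s ∘ g) (Equiv.swap e f x)) = (s ∘ Equiv.swap (π e) (π f)) ∘ g := by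
    funext x
    simp only [Function.comp]
    congr 1
    rw [← hgπ e, ← hgπ f]
    rw [Equiv.swap_apply_def, Equiv.swap_apply_def]
    simp only [g.injective.eq_iff]
    split_ifs <;> rfl
  beta_reduce
  rw [h3, h0, h0, hsq]
  congr 1
  linear_combination (conj (c id s) * c id (s ∘ Equiv.swap (π e) (π f))) * hone

end Mott

end Vale.Agent.P370.Q
end
end

section

section

/-!
Half-filled Mott insulator: the second order operator.
-/

namespace Vale.Agent.P370.Q

open MeasureTheory Finset ComplexConjugate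

namespace Mott

variable {K : ℕ}

theorem not_bij_of_eq {ρ : Fin K → Fin K} {e f : Fin K} (hef : e ≠ f) (h : ρ e = ρ f) :
    ¬ Function.Bijective ρ := fun hb => hef (hb.injective h)

theorem bp_zero {c : Fam K} {ρ : Fin K → Fin K} (h : ¬ Function.Bijective ρ) : bp c ρ = 0 :=
  if_neg h

theorem bp_eq {c : Fam K} {ρ : Fin K → Fin K} (h : Function.Bijective ρ) : bp c ρ = c ρ :=
  if_pos h

theorem hop_bp_bij (t : Fin K → Fin K → ℝ) (ht : ∀ i, t i i = 0) (c : Fam K)
    {π : Fin K → Fin K} (hπ : Function.Bijective π) : hop t (bp c) π = 0 := by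
  funext s
  rw [hop_apply]
  refine sum_eq_zero fun e _ => sum_eq_zero fun b _ => ?_
  by_cases hb : b = π e
  · rw [hb, ht]
    simp
  · obtain ⟨f, hf⟩ := hπ.surjective b
    have hfe : f ≠ e := fun h => hb (by rw [← hf, h])
    rw [bp_zero (not_bij_of_eq hfe (ρ := Function.update π e b) (by simp [hfe, hf]))]
    simp

theorem hop_bp (t : Fin K → Fin K → ℝ) {c : Fam K} (hc : FAnti c) {π : Fin K → Fin K}
    (hπ : Function.Bijective π) {e f : Fin K} (hef : e ≠ f) :
    hop t (bp c) (Function.update π e (π f)) =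
      fun s => (t (π f) (π e) : ℂ) * (c π s - c π (fun x => s (Equiv.swap e f x))) := by
  funext s
  set ρ := Function.update π e (π f) with hρ
  have hρe : ρ e = π f := by simp [hρ]
  have hρf : ρ f = π f := by simp [hρ, hef.symm]
  have hρx : ∀ x, x ≠ e → ρ x = π x := fun x hx => by simp [hρ, hx]
  rw [hop_apply, sum_eq_add e f hef]
  · have h1 : ∑ b, (t (ρ e) b : ℂ) * bp c (Function.update ρ e b) s =
        (t (π f) (π e) : ℂ) * c π s := by
      rw [sum_eq_single (π e)]
      · have : Function.update ρ e (π e) = π := by simp [hρ]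
        rw [this, bp_eq hπ, hρe]
      · intro b _ hb
        obtain ⟨g, hg⟩ := hπ.surjective b
        have hge : g ≠ e := fun h => hb (by rw [← hg, h])
        rw [bp_zero (not_bij_of_eq hge (by simp [hge, hρx, hg]))]
        simp
      · simp only [mem_univ, not_true_eq_false, mul_eq_zero, Complex.ofReal_eq_zero, IsEmpty.forall_iff]
    have h2 : ∑ b, (t (ρ f) b : ℂ) * bp c (Function.update ρ f b) s =
        -((t (π f) (π e) : ℂ) * c π (fun x => s (Equiv.swap e f x))) := by
      rw [sum_eq_single (π e)]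
      · have : Function.update ρ f (π e) = fun x => π (Equiv.swap e f x) := by
          funext x
          by_cases hxf : x = f
          · subst hxf; simp
          · by_cases hxe : x = e
            · subst hxe; simp [hxf, hρe]
            · rw [Equiv.swap_apply_of_ne_of_ne hxe hxf]
              simp [hxf, hρx x hxe]
        have hb : Function.Bijective (fun x => π (Equiv.swap e f x)) :=
          hπ.comp (Equiv.swap e f).bijective
        rw [this, bp_eq hb, hρf]
        have h3 := anti_swap hc hef π (fun x => s (Equiv.swap e f x))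
        simp only [Equiv.swap_apply_self] at h3
        rw [h3]
        ring
      · intro b _ hb
        obtain ⟨g, hg⟩ := hπ.surjective b
        have hge : g ≠ e := fun h => hb (by rw [← hg, h])
        have hnb : ¬ Function.Bijective (Function.update ρ f b) := by
          by_cases hgf : g = f
          · subst hgf
            exact not_bij_of_eq hef (by simp [hef, hρe, hg])
          · exact not_bij_of_eq hgf (by simp [hgf, hρx g hge, hg])
        rw [bp_zero hnb]
        simp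
      · simp only [mem_univ, not_true_eq_false, mul_eq_zero, Complex.ofReal_eq_zero, IsEmpty.forall_iff]
    rw [h1, h2]
    ring
  · intro e' _ he'
    refine sum_eq_zero fun b _ => ?_
    rw [bp_zero (not_bij_of_eq hef (by simp [he'.1.symm, he'.2.symm, hρe, hρf]))]
    simp
  · simp only [mem_univ, not_true_eq_false, IsEmpty.forall_iff]
  · simp only [mem_univ, not_true_eq_false, IsEmpty.forall_iff]

/-- number of bijective site maps -/
def nB (K : ℕ) : ℕ := #(univ.filter (fun ρ : Fin K → Fin K => Function.Bijective ρ))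

theorem nB_pos : 0 < nB K :=
  card_pos.2 ⟨id, mem_filter.2 ⟨mem_univ _, Function.bijective_id⟩⟩

theorem sum_bij (F : (Fin K → Fin K) → ℝ) (a : ℝ)
    (h1 : ∀ ρ, Function.Bijective ρ → F ρ = a) (h2 : ∀ ρ, ¬ Function.Bijective ρ → F ρ = 0) :
    ∑ ρ, F ρ = nB K * a := by
  rw [← sum_filter_add_sum_filter_not univ (fun ρ : Fin K → Fin K => Function.Bijective ρ)]
  rw [sum_congr rfl (fun ρ hρ => h1 ρ (mem_filter.1 hρ).2),
    sum_congr rfl (fun ρ hρ => h2 ρ (mem_filter.1 hρ).2)]
  simp [nB]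

theorem sum_bp_sq {c : Fam K} (hc : FAnti c) :
    ∑ ρ, spinNsq (bp c ρ) = nB K * spinNsq (c id) := by
  refine sum_bij _ _ (fun ρ hρ => ?_) (fun ρ hρ => ?_)
  · rw [bp_eq hρ]
    rcases isEmpty_or_nonempty (Fin K) with hK | ⟨⟨e⟩⟩
    · have : ρ = id := Subsingleton.elim _ _
      rw [this]
    · exact (bij_formula hc hρ e e).2
  · rw [bp_zero hρ, spinNsq_zero]

/-- second order formula -/
theorem second_order {t₁ t₂ : Fin K → Fin K → ℝ} (h1 : ∀ i j, t₁ i j = t₁ j i)
    (h2 : ∀ i j, t₂ i j = t₂ j i) (h0 : ∀ i, t₁ i i = 0) {c : Fam K}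
    (hc : FAnti c) :
    ∑ ρ, rp (hop t₁ (bp c) ρ) (hop t₂ (bp c) ρ) =
      nB K * ∑ i, ∑ j, t₁ i j * t₂ i j * sw (c id) i j := by
  have e1 : ∑ ρ, rp (hop t₁ (bp c) ρ) (hop t₂ (bp c) ρ) =
      ∑ ρ, rp (hop t₂ (bp c) ρ) (hop t₁ (bp c) ρ) := sum_congr rfl fun ρ _ => rp_symm _ _
  rw [e1, hop_symm h1]
  refine sum_bij _ _ (fun π hπ => ?_) (fun ρ hρ => ?_)
  · rw [rp_hop]
    have key : ∀ e, ∑ b, t₁ (π e) b *
        rp (bp c π) (hop t₂ (bp c) (Function.update π e b)) =
        ∑ j, t₁ (π e) j * t₂ (π e) j * sw (c id) (π e) j := by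
      intro e
      refine sum_congr rfl fun b _ => ?_
      by_cases hb : b = π e
      · rw [hb, h0]
        ring
      · obtain ⟨f, hf⟩ := hπ.surjective b
        have hef : e ≠ f := fun h => hb (by rw [← hf, h])
        subst hf
        rw [hop_bp t₂ hc hπ hef, bp_eq hπ, rp_smul_right]
        have h3 := (bij_formula hc hπ e f).1
        have h4 : rp (c π) (fun s => c π s - c π (fun x => s (Equiv.swap e f x))) =
            sw (c id) (π e) (π f) := by
          rw [← h3, ← rp_self]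
          unfold rp
          rw [← sum_sub_distrib]
          refine sum_congr rfl fun s _ => ?_
          rw [mul_sub, Complex.sub_re]
        rw [h4, h2 (π f)]
        ring
    simp only [key]
    exact (Equiv.sum_comp (Equiv.ofBijective π hπ)
      (fun i => ∑ j, t₁ i j * t₂ i j * sw (c id) i j))
  · rw [bp_zero hρ]
    unfold rp
    simp only [Pi.zero_apply, map_zero, zero_mul, Complex.zero_re, sum_const_zero]

theorem sw_symm (φ : SpinState K) (i j : Fin K) : sw φ i j = sw φ j i := by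
  unfold sw
  rw [Equiv.swap_comm]

theorem sw_bounds (φ : SpinState K) (i j : Fin K) : 0 ≤ sw φ i j ∧ sw φ i j ≤ 2 * spinNsq φ := by
  have h1 : (∑ s, conj (φ s) * φ (s ∘ Equiv.swap i j)).re =
      rp φ (fun s => φ (s ∘ Equiv.swap i j)) := by
    unfold rp
    rw [Complex.re_sum]
  have h2 : spinNsq (fun s => φ (s ∘ Equiv.swap i j)) = spinNsq φ := by
    unfold spinNsq
    exact ((Equiv.swap i j).arrowCongr (Equiv.refl (Fin 2))).sum_comp (fun s => ‖φ s‖ ^ 2)
  have h3 := rp_le φ (fun s => φ (s ∘ Equiv.swap i j))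
  rw [h2, abs_le] at h3
  unfold sw
  rw [h1]
  constructor <;> linarith only [h3]

/-! ### largest eigenvalue of the Heisenberg form -/

theorem heisE_eq (J : Fin K → Fin K → ℝ) (φ : SpinState K) :
    heisE J φ = ∑ i, ∑ j ∈ Ioi i, J i j * sw φ i j := rfl

theorem heisE_le (J : Fin K → Fin K → ℝ) (φ : SpinState K) :
    heisE J φ ≤ (∑ i, ∑ j ∈ Ioi i, 2 * |J i j|) * spinNsq φ := by
  rw [heisE_eq, sum_mul]
  refine sum_le_sum fun i _ => ?_
  rw [sum_mul]
  refine sum_le_sum fun j _ => ?_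
  have h := sw_bounds φ i j
  calc J i j * sw φ i j ≤ |J i j| * sw φ i j := mul_le_mul_of_nonneg_right (le_abs_self _) h.1
    _ ≤ |J i j| * (2 * spinNsq φ) := mul_le_mul_of_nonneg_left h.2 (abs_nonneg _)
    _ = _ := by ring

theorem heis_bdd (J : Fin K → Fin K → ℝ) :
    BddAbove {E | ∃ φ : SpinState K, spinNsq φ = 1 ∧ heisE J φ = E} := by
  refine ⟨∑ i, ∑ j ∈ Ioi i, 2 * |J i j|, ?_⟩
  rintro E ⟨φ, hφ, rfl⟩
  have := heisE_le J φ
  rwa [hφ, mul_one] at this

theorem spinNsq_smul (r : ℝ) (φ : SpinState K) :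
    spinNsq (fun s => (r : ℂ) * φ s) = r ^ 2 * spinNsq φ := by
  unfold spinNsq
  rw [mul_sum]
  refine sum_congr rfl fun s _ => ?_
  rw [norm_mul, mul_pow, Complex.norm_real, Real.norm_eq_abs, sq_abs]

theorem sw_smul (r : ℝ) (φ : SpinState K) (i j : Fin K) :
    sw (fun s => (r : ℂ) * φ s) i j = r ^ 2 * sw φ i j := by
  unfold sw
  rw [spinNsq_smul, mul_sub]
  congr 1
  rw [Complex.re_sum, Complex.re_sum, mul_sum]
  refine sum_congr rfl fun s _ => ?_
  simp only [map_mul, Complex.conj_ofReal, Complex.mul_re, Complex.ofReal_re, Complex.conj_re, Complex.ofReal_im, Complex.conj_im, Complex.mul_im]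
  ring

theorem heisE_smul (J : Fin K → Fin K → ℝ) (r : ℝ) (φ : SpinState K) :
    heisE J (fun s => (r : ℂ) * φ s) = r ^ 2 * heisE J φ := by
  rw [heisE_eq, heisE_eq, mul_sum]
  refine sum_congr rfl fun i _ => ?_
  rw [mul_sum]
  refine sum_congr rfl fun j _ => ?_
  rw [sw_smul]
  ring

theorem spinNsq_eq_zero {φ : SpinState K} (h : spinNsq φ = 0) : φ = 0 := by
  funext s
  have h1 := (sum_eq_zero_iff_of_nonneg (s := univ) (f := fun s => ‖φ s‖ ^ 2)
    (fun _ _ => by (clear * -; positivity))).1 h s (mem_univ s)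
  simpa only [Pi.zero_apply, ne_eq, OfNat.ofNat_ne_zero, not_false_eq_true, pow_eq_zero_iff, norm_eq_zero] using     h1

theorem heisE_le_max (J : Fin K → Fin K → ℝ) (φ : SpinState K) :
    heisE J φ ≤ heisMax J * spinNsq φ := by
  rcases (spinNsq_nonneg φ).lt_or_eq with h | h
  · set r : ℝ := (Real.sqrt (spinNsq φ))⁻¹ with hr
    have hr2 : r ^ 2 * spinNsq φ = 1 := by
      rw [hr, inv_pow, Real.sq_sqrt h.le]
      exact inv_mul_cancel₀ h.ne'
    have h1 : heisE J (fun s => (r : ℂ) * φ s) ≤ heisMax J :=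
      le_csSup (heis_bdd J) ⟨_, by rw [spinNsq_smul, hr2], rfl⟩
    rw [heisE_smul] at h1
    calc heisE J φ = (r ^ 2 * heisE J φ) * spinNsq φ := by
          rw [mul_right_comm, hr2, one_mul]
      _ ≤ _ := mul_le_mul_of_nonneg_right h1 h.le
  · have h0 := spinNsq_eq_zero h.symm
    rw [h0, spinNsq_zero, mul_zero, heisE_eq]
    refine (sum_eq_zero fun i _ => sum_eq_zero fun j _ => ?_).le
    unfold sw
    simp [spinNsq_zero]

/-- unit spin state -/
noncomputable def unitS (K : ℕ) : SpinState K := fun s => if s = 0 then 1 else 0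

theorem unitS_nsq : spinNsq (unitS K) = 1 := by
  unfold spinNsq unitS
  rw [sum_eq_single 0]
  · simp only [↓reduceIte, norm_one, one_pow]
  · intro s _ hs
    simp [hs]
  · simp only [mem_univ, not_true_eq_false, ↓reduceIte, norm_one, one_pow, one_ne_zero, imp_self]

theorem heisMax_nonneg {J : Fin K → Fin K → ℝ} (hJ : ∀ i j, i < j → 0 ≤ J i j) :
    0 ≤ heisMax J := by
  have h := heisE_le_max J (unitS K)
  rw [unitS_nsq, mul_one] at h
  refine le_trans ?_ h
  rw [heisE_eq]
  exact sum_nonneg fun i _ => sum_nonneg fun j hj =>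
    mul_nonneg (hJ i j (Finset.mem_Ioi.1 hj)) (sw_bounds _ _ _).1

theorem heisMax_attained (J : Fin K → Fin K → ℝ) :
    ∃ φ : SpinState K, spinNsq φ = 1 ∧ heisE J φ = heisMax J := by
  have hcont : Continuous (fun φ : SpinState K => spinNsq φ) := by
    unfold spinNsq
    fun_prop
  have hcont2 : Continuous (fun φ : SpinState K => heisE J φ) := by
    unfold heisE spinNsq
    refine continuous_finsetSum _ fun i _ => continuous_finsetSum _ fun j _ => ?_
    refine continuous_const.mul ?_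
    refine Continuous.sub (by fun_prop) ?_
    refine Complex.continuous_re.comp ?_
    refine continuous_finsetSum _ fun s _ => ?_
    exact (Complex.continuous_conj.comp (continuous_apply s)).mul (continuous_apply _)
  have hcomp : IsCompact {φ : SpinState K | spinNsq φ = 1} := by
    refine Metric.isCompact_of_isClosed_isBounded (isClosed_eq hcont continuous_const) ?_
    refine (Metric.isBounded_closedBall (x := (0 : SpinState K)) (r := 1)).subset ?_
    intro φ hφ
    rw [mem_closedBall_zero_iff, pi_norm_le_iff_of_nonneg zero_le_one]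
    intro s
    have h1 : ‖φ s‖ ^ 2 ≤ spinNsq φ :=
      single_le_sum (f := fun s => ‖φ s‖ ^ 2) (fun _ _ => by (clear * -; positivity)) (mem_univ s)
    have hφ1 : spinNsq φ = 1 := hφ
    rw [hφ1] at h1
    nlinarith only [h1]
  obtain ⟨φ, hφ, hmax⟩ := hcomp.exists_isMaxOn ⟨unitS K, unitS_nsq⟩ hcont2.continuousOn
  refine ⟨φ, hφ, le_antisymm (le_csSup (heis_bdd J) ⟨φ, hφ, rfl⟩) ?_⟩
  refine csSup_le ⟨_, unitS K, unitS_nsq, rfl⟩ ?_
  rintro E ⟨χ, hχ, rfl⟩
  exact hmax hχ

/-! ### energy of the model -/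

/-- energy of the exact model -/
noncomputable def en0 (W t : Fin K → Fin K → ℝ) (ε0 : ℝ) (C : Fam K) : ℝ :=
  ∑ ρ, (ws W ρ + K * ε0) * spinNsq (C ρ) + ∑ ρ, rp (C ρ) (hop t C ρ)

theorem enT_split (W t : Fin K → Fin K → ℝ) (ε0 : ℝ) (c : Tens K (Fin K × Fin 2)) :
    enT (fun i j => (if i = j then ε0 else 0) + t i j)
      (fun i j k l => if i = j ∧ k = l then W i k else 0) c = en0 W t ε0 (toFam c) := by
  unfold enT en0
  have h1 : spin1 (fun i j : Fin K => (if i = j then ε0 else 0) + t i j) =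
      fun p q => spin1 (fun i j => if i = j then ε0 else 0) p q + spin1 t p q := by
    funext p q
    unfold spin1
    split_ifs <;> simp
  rw [h1, oneE_add, oneE_split, oneE_split, twoE_diag]
  have h2 : ∀ ρ, rp (toFam c ρ) (hop (fun i j => if i = j then ε0 else 0) (toFam c) ρ) =
      K * ε0 * spinNsq (toFam c ρ) := by
    intro ρ
    rw [rp_hop]
    have h3 : ∀ e, ∑ b, (if ρ e = b then ε0 else 0) *
        rp (toFam c ρ) (toFam c (Function.update ρ e b)) = ε0 * spinNsq (toFam c ρ) := by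
      intro e
      rw [sum_eq_single (ρ e)]
      · rw [if_pos rfl, Function.update_eq_self, rp_self]
      · intro b _ hb
        rw [if_neg hb.symm, zero_mul]
      · simp only [mem_univ, not_true_eq_false, ↓reduceIte, Function.update_eq_self, mul_eq_zero, IsEmpty.forall_iff]
    simp only [h3]
    simp only [sum_const, card_univ, Fintype.card_fin, nsmul_eq_mul]
    ring
  simp only [h2]
  simp only [add_mul, sum_add_distrib]
  unfold ws
  ring

theorem enT_error {h W t : Fin K → Fin K → ℝ} {v : Fin K → Fin K → Fin K → Fin K → ℝ}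
    {ε0 w0 w1 u τ δ : ℝ} (H : MottHyp K h W t v ε0 w0 w1 u τ δ) (c : Tens K (Fin K × Fin 2)) :
    |enT h v c - en0 W t ε0 (toFam c)| ≤ 2 * K ^ 4 * δ * nsq c := by
  rw [← enT_split]
  have h1 : spin1 h = fun p q => spin1 (fun i j => (if i = j then ε0 else 0) + t i j) p q +
      spin1 (fun i j => h i j - (if i = j then ε0 else 0) - t i j) p q := by
    funext p q
    unfold spin1
    split_ifs <;> ring
  have h2 : spin2 v = fun p a q b =>
      spin2 (fun i j k l : Fin K => if i = j ∧ k = l then W i k else 0) p a q b +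
      spin2 (fun i j k l => v i j k l - (if i = j ∧ k = l then W i k else 0)) p a q b := by
    funext p a q b
    unfold spin2
    split_ifs <;> ring
  have h3 : enT h v c - enT (fun i j => (if i = j then ε0 else 0) + t i j)
      (fun i j k l => if i = j ∧ k = l then W i k else 0) c =
      oneE (spin1 (fun i j => h i j - (if i = j then ε0 else 0) - t i j)) c +
      twoE (spin2 (fun i j k l => v i j k l - (if i = j ∧ k = l then W i k else 0))) c := by
    unfold enT
    rw [h1, h2, oneE_add, twoE_add]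
    ring
  rw [h3]
  have h4 : |oneE (spin1 (fun i j => h i j - (if i = j then ε0 else 0) - t i j)) c| ≤
      (K : ℝ) ^ 2 * δ * nsq c := by
    rw [oneE_split, nsq_split]
    exact hop_bound H.h_near _
  have h5 := twoE_bound H.δ_nonneg H.v_near c
  rw [Fintype.card_fin] at h5
  have hK : (2 : ℝ) ≤ K := by exact_mod_cast H.two_le
  have hK2 : (1 : ℝ) ≤ (K : ℝ) ^ 2 := by linarith only [mul_nonneg_of_nonpos_of_nonpos (Mathlib.Tactic.Linarith.sub_nonpos_of_le (Mathlib.Tactic.Linarith.natCast_nonneg ℝ K)) (Mathlib.Tactic.Linarith.sub_nonpos_of_le hK), hK]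
  have hδc : 0 ≤ (K : ℝ) ^ 2 * δ * nsq c := by
    have := nsq_nonneg c
    have := H.δ_nonneg
    (clear h1 h2 h3 h4 h5 hK2; positivity)
  calc _ ≤ (K : ℝ) ^ 2 * δ * nsq c + (K : ℝ) ^ 2 * (K : ℝ) ^ 2 * δ * nsq c :=
        (abs_add_le _ _).trans (add_le_add h4 h5)
    _ ≤ (K : ℝ) ^ 2 * ((K : ℝ) ^ 2 * δ * nsq c) + (K : ℝ) ^ 2 * (K : ℝ) ^ 2 * δ * nsq c :=
        by linarith only [mul_nonneg_of_nonpos_of_nonpos (Mathlib.Tactic.Linarith.sub_nonpos_of_le hK2) (Mathlib.Tactic.Linarith.sub_nonpos_of_le hδc)]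
    _ = _ := by ring

theorem u_le {h W t : Fin K → Fin K → ℝ} {v : Fin K → Fin K → Fin K → Fin K → ℝ}
    {ε0 w0 w1 u τ δ : ℝ} (H : MottHyp K h W t v ε0 w0 w1 u τ δ) {i j : Fin K} (hij : i ≠ j) :
    u ≤ w0 - W i j := by
  have h1 := H.W_pd (fun k => (if k = i then 1 else 0) - (if k = j then 1 else 0)) (by
    intro k
    split_ifs <;> simp) (by
    intro h0
    have := congrFun h0 i
    simp only [↓reduceIte, hij, sub_zero, Pi.zero_apply, one_ne_zero] at this)
  push_cast at h1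
  simp only [sub_mul, mul_sub, sum_sub_distrib, ite_mul, mul_ite, one_mul, zero_mul, mul_one,
    mul_zero, sum_ite_eq', mem_univ, if_true, H.W_diag] at h1
  rw [H.W_symm j i] at h1
  linarith only [h1]

/-- the hopping operator and the resolvent -/
theorem hop_res {h W t : Fin K → Fin K → ℝ} {v : Fin K → Fin K → Fin K → Fin K → ℝ}
    {ε0 w0 w1 u τ δ : ℝ} (H : MottHyp K h W t v ε0 w0 w1 u τ δ) {a : ℝ} (ha : a < u) (C : Fam K)
    (ρ : Fin K → Fin K) :
    hop t (bp C) ρ = fun s => ((ws W ρ - ws W id - a : ℝ) : ℂ) *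
      hop (fun i j => t i j / (w0 - W i j - a)) (bp C) ρ s := by
  by_cases hρ : Function.Bijective ρ
  · rw [hop_bp_bij t H.t_diag C hρ, hop_bp_bij _ (fun i => by rw [H.t_diag, zero_div]) C hρ]
    funext s
    simp
  · funext s
    rw [hop_apply, hop_apply, mul_sum]
    refine sum_congr rfl fun e _ => ?_
    rw [mul_sum]
    refine sum_congr rfl fun b _ => ?_
    by_cases hb : Function.Bijective (Function.update ρ e b)
    · have hne : ρ e ≠ b := by
        intro h'
        rw [← h', Function.update_eq_self] at hb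
        exact hρ hb
      have h1 := ws_hop H.W_symm H.W_diag H.W_row hb
      have h2 := u_le H hne
      have h3 : w0 - W (ρ e) b - a ≠ 0 := by
        intro h0
        linarith
      rw [h1, ← mul_assoc]
      congr 1
      rw [← Complex.ofReal_mul]
      congr 1
      (clear * - h3; field_simp)
    · rw [bp_zero hb]
      simp

/-- superexchange form -/
theorem mottJ_form {W t : Fin K → Fin K → ℝ} {w0 : ℝ} (hW : ∀ i j, W i j = W j i)
    (ht : ∀ i j, t i j = t j i) (ht0 : ∀ i, t i i = 0) (φ : SpinState K) :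
    ∑ i, ∑ j, t i j ^ 2 / (w0 - W i j) * sw φ i j = heisE (mottJ W t w0) φ := by
  rw [sum_pairs (fun i j => t i j ^ 2 / (w0 - W i j) * sw φ i j)
    (fun i j => by rw [hW i j, ht i j, sw_symm])]
  simp only [ht0]
  rw [heisE_eq]
  unfold mottJ
  simp only [mul_sum]
  simp only [ne_eq, OfNat.ofNat_ne_zero, not_false_eq_true, zero_pow, zero_div, zero_mul, sum_const_zero, zero_add]
  refine sum_congr rfl fun i _ => sum_congr rfl fun j _ => by ring

theorem en0_split {h W t : Fin K → Fin K → ℝ} {v : Fin K → Fin K → Fin K → Fin K → ℝ}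
    {ε0 w0 w1 u τ δ : ℝ} (H : MottHyp K h W t v ε0 w0 w1 u τ δ) (C : Fam K) :
    en0 W t ε0 C = mottBase W ε0 * ∑ ρ, spinNsq (C ρ) +
      ∑ ρ, (ws W ρ - ws W id) * spinNsq (bq C ρ) + 2 * ∑ ρ, rp (bq C ρ) (hop t (bp C) ρ) +
      ∑ ρ, rp (bq C ρ) (hop t (bq C) ρ) := by
  have h1 : ∑ ρ, (ws W ρ + K * ε0) * spinNsq (C ρ) = mottBase W ε0 * ∑ ρ, spinNsq (C ρ) +
      ∑ ρ, (ws W ρ - ws W id) * spinNsq (bq C ρ) := by
    rw [mul_sum, ← sum_add_distrib]
    refine sum_congr rfl fun ρ _ => ?_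
    have h2 : mottBase W ε0 = ws W id + K * ε0 := by
      unfold mottBase ws
      simp only [id]
      ring
    rw [h2]
    by_cases hρ : Function.Bijective ρ
    · rw [ws_bij H.W_symm H.W_diag H.W_row hρ]
      ring
    · have : bq C ρ = C ρ := if_neg hρ
      rw [this]
      ring
  have h3 : ∑ ρ, rp (C ρ) (hop t C ρ) = 2 * ∑ ρ, rp (bq C ρ) (hop t (bp C) ρ) +
      ∑ ρ, rp (bq C ρ) (hop t (bq C) ρ) := by
    have h4 : ∀ ρ, rp (C ρ) (hop t C ρ) = rp (bp C ρ) (hop t (bp C) ρ) +
        rp (bp C ρ) (hop t (bq C) ρ) + (rp (bq C ρ) (hop t (bp C) ρ) +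
        rp (bq C ρ) (hop t (bq C) ρ)) := by
      intro ρ
      conv_lhs => rw [← bp_add_bq C]
      rw [hop_add, Pi.add_apply, Pi.add_apply, rp_add_left, rp_add_right, rp_add_right]
    have h5 : ∑ ρ, rp (bp C ρ) (hop t (bp C) ρ) = 0 := by
      refine sum_eq_zero fun ρ _ => ?_
      by_cases hρ : Function.Bijective ρ
      · rw [hop_bp_bij t H.t_diag C hρ]
        simp [rp]
      · rw [bp_zero hρ]
        simp only [rp, Pi.zero_apply, map_zero, zero_mul, Complex.zero_re, sum_const_zero]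
    simp only [h4, sum_add_distrib]
    rw [h5, hop_symm H.t_symm (bp C) (bq C)]
    ring
  unfold en0
  rw [h1, h3]
  ring

end Mott

end Vale.Agent.P370.Q
end
end

section

section

/-!
Functions `(P + ‖x‖ Q) exp (-κ ‖x‖)` on `ℝ³` with polynomials `P`, `Q`, and the operator
`‖x‖ (-Δ/2 + κ²/2)` on them.
-/

namespace Vale.Agent.P370.Hyd

open MeasureTheory Filter Topology MvPolynomial

abbrev R3 : Type := EuclideanSpace ℝ (Fin 3)

/-- polynomials in three variables -/
abbrev Pl : Type := MvPolynomial (Fin 3) ℝ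

/-- evaluation -/
noncomputable def ev (P : Pl) (x : R3) : ℝ := MvPolynomial.eval (fun i => x i) P

/-- the coordinate vector -/
noncomputable def ei (i : Fin 3) : R3 := EuclideanSpace.single i 1

theorem ei_apply (i j : Fin 3) : ei i j = if j = i then 1 else 0 := by
  simp only [ei, PiLp.single_apply]

theorem ev_add (P Q : Pl) (x : R3) : ev (P + Q) x = ev P x + ev Q x := by simp only [ev, map_add]

theorem ev_mul (P Q : Pl) (x : R3) : ev (P * Q) x = ev P x * ev Q x := by simp [ev]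

theorem ev_C (a : ℝ) (x : R3) : ev (C a) x = a := by simp only [ev, eval_C]

theorem ev_X (i : Fin 3) (x : R3) : ev (X i) x = x i := by simp [ev]

theorem continuous_ev (P : Pl) : Continuous (ev P) := by
  unfold ev
  exact (MvPolynomial.continuous_eval P).comp (by fun_prop)

theorem hasDerivAt_ev (P : Pl) (i : Fin 3) (x : R3) :
    HasDerivAt (fun t : ℝ => ev P (x + t • ei i)) (ev (pderiv i P) x) 0 := by
  induction P using MvPolynomial.induction_on with
  | C a =>
    simp only [ev_C, pderiv_C]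
    simpa [ev] using hasDerivAt_const (0 : ℝ) a
  | add P Q hP hQ =>
    simp only [ev_add, map_add]
    exact hP.add hQ
  | mul_X P j hP =>
    have h2 : ∀ t : ℝ, ev (P * X j) (x + t • ei i)
        = ev P (x + t • ei i) * (x j + t * (if j = i then 1 else 0)) := by
      intro t
      rw [ev_mul, ev_X, PiLp.add_apply, PiLp.smul_apply, ei_apply, smul_eq_mul]
    have h1 : HasDerivAt (fun t : ℝ => x j + t * (if j = i then (1 : ℝ) else 0))
        (if j = i then (1 : ℝ) else 0) 0 := by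
      have h3 := ((hasDerivAt_id (0 : ℝ)).mul_const (if j = i then (1 : ℝ) else 0)).const_add (x j)
      exact h3.congr_deriv (one_mul _)
    have h4 := hP.mul h1
    have h5 : HasDerivAt (fun t : ℝ => ev (P * X j) (x + t • ei i))
        (ev (pderiv i P) x * (x j + 0 * (if j = i then (1 : ℝ) else 0))
          + ev P (x + (0 : ℝ) • ei i) * (if j = i then (1 : ℝ) else 0)) 0 :=
      h4.congr_of_eventuallyEq (Eventually.of_forall h2)
    refine h5.congr_deriv ?_
    rw [zero_smul, add_zero, zero_mul, add_zero, Derivation.leibniz, pderiv_X, Pi.single_apply,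
      ev_add, smul_eq_mul, smul_eq_mul, ev_mul, ev_mul, ev_X]
    by_cases h : j = i
    · subst h
      simp only [ev, ↓reduceIte, mul_one, map_one]
      ring
    · rw [if_neg h, if_neg h]
      simp only [ev, mul_zero, add_zero, map_zero, zero_add]
      ring

theorem norm_add_smul_sq (i : Fin 3) (x : R3) (t : ℝ) :
    ‖x + t • ei i‖ ^ 2 = ‖x‖ ^ 2 + 2 * t * x i + t ^ 2 := by
  have h := norm_add_sq_real x (t • ei i)
  rw [h, real_inner_smul_right, norm_smul]
  have h1 : inner ℝ x (ei i) = x i := by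
    simp only [ei, PiLp.inner_apply, PiLp.single_apply, RCLike.inner_apply, Real.ringHom_apply, ite_mul, one_mul, zero_mul, Finset.sum_ite_eq', Finset.mem_univ, ↓reduceIte]
  have h2 : ‖ei i‖ = 1 := by simp [ei]
  rw [h1, h2, mul_one, Real.norm_eq_abs, sq_abs]
  ring

theorem hasDerivAt_norm (i : Fin 3) (x : R3) (hx : x ≠ 0) :
    HasDerivAt (fun t : ℝ => ‖x + t • ei i‖) (x i / ‖x‖) 0 := by
  have hx0 : 0 < ‖x‖ := norm_pos_iff.2 hx
  have e : (fun t : ℝ => ‖x + t • ei i‖)
      = fun t : ℝ => Real.sqrt (‖x‖ ^ 2 + 2 * t * x i + t ^ 2) := by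
    funext t
    rw [← norm_add_smul_sq, Real.sqrt_sq (norm_nonneg _)]
  rw [e]
  have h1 : HasDerivAt (fun t : ℝ => ‖x‖ ^ 2 + 2 * t * x i + t ^ 2) (2 * x i) 0 := by
    have h2 := (((hasDerivAt_id (0 : ℝ)).const_mul 2).mul_const (x i)).const_add (‖x‖ ^ 2)
    have h3 := (hasDerivAt_pow 2 (0 : ℝ))
    exact (h2.add h3).congr_deriv (by simp only [mul_one, Nat.cast_ofNat, Nat.add_one_sub_one, pow_one, mul_zero, add_zero])
  have h5 := h1.sqrt (by simp; exact hx)
  refine h5.congr_deriv ?_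
  have e2 : Real.sqrt (‖x‖ ^ 2 + 2 * 0 * x i + 0 ^ 2) = ‖x‖ := by
    rw [mul_zero, zero_mul, add_zero, zero_pow two_ne_zero, add_zero, Real.sqrt_sq hx0.le]
  rw [e2]
  (clear * - hx; field_simp)

/-- the function `(P + ‖x‖ Q) exp (-κ ‖x‖)` -/
noncomputable def xp (κ : ℝ) (P Q : Pl) (x : R3) : ℝ :=
  (ev P x + ‖x‖ * ev Q x) * Real.exp (-κ * ‖x‖)

/-- its partial derivatives (away from the origin) -/
noncomputable def xpd (κ : ℝ) (P Q : Pl) (i : Fin 3) (x : R3) : ℝ :=
  (ev (pderiv i P) x + (x i / ‖x‖) * ev Q x + ‖x‖ * ev (pderiv i Q) x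
    - κ * (x i / ‖x‖) * (ev P x + ‖x‖ * ev Q x)) * Real.exp (-κ * ‖x‖)

/-- its second partial derivatives (away from the origin) -/
noncomputable def xpdd (κ : ℝ) (P Q : Pl) (i : Fin 3) (x : R3) : ℝ :=
  (ev (pderiv i (pderiv i P)) x + ((1 - (x i / ‖x‖) ^ 2) / ‖x‖) * ev Q x
    + 2 * (x i / ‖x‖) * ev (pderiv i Q) x + ‖x‖ * ev (pderiv i (pderiv i Q)) x
    - κ * ((1 - (x i / ‖x‖) ^ 2) / ‖x‖) * (ev P x + ‖x‖ * ev Q x)
    - 2 * κ * (x i / ‖x‖) * (ev (pderiv i P) x + (x i / ‖x‖) * ev Q x + ‖x‖ * ev (pderiv i Q) x)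
    + κ ^ 2 * (x i / ‖x‖) ^ 2 * (ev P x + ‖x‖ * ev Q x)) * Real.exp (-κ * ‖x‖)

theorem hasDerivAt_xp (κ : ℝ) (P Q : Pl) (i : Fin 3) (x : R3) (hx : x ≠ 0) :
    HasDerivAt (fun t : ℝ => xp κ P Q (x + t • ei i)) (xpd κ P Q i x) 0 := by
  have hr := hasDerivAt_norm i x hx
  have hP := hasDerivAt_ev P i x
  have hQ := hasDerivAt_ev Q i x
  have hE := (hr.const_mul (-κ)).exp
  have h := (hP.add (hr.mul hQ)).mul hE
  refine h.congr_deriv ?_
  simp only [Pi.add_apply, Pi.mul_apply, zero_smul, add_zero]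
  have hx0 : ‖x‖ ≠ 0 := norm_ne_zero_iff.2 hx
  unfold xpd
  ring

theorem hasDerivAt_xpd (κ : ℝ) (P Q : Pl) (i : Fin 3) (x : R3) (hx : x ≠ 0) :
    HasDerivAt (fun t : ℝ => xpd κ P Q i (x + t • ei i)) (xpdd κ P Q i x) 0 := by
  have hx0 : ‖x‖ ≠ 0 := norm_ne_zero_iff.2 hx
  have hr := hasDerivAt_norm i x hx
  have hP := hasDerivAt_ev P i x
  have hQ := hasDerivAt_ev Q i x
  have hP' := hasDerivAt_ev (pderiv i P) i x
  have hQ' := hasDerivAt_ev (pderiv i Q) i x
  have hE := (hr.const_mul (-κ)).exp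
  have hc : HasDerivAt (fun t : ℝ => (x + t • ei i) i) 1 0 := by
    have h1 := hasDerivAt_ev (X i) i x
    simp only [ev_X, pderiv_X_self] at h1
    simpa only [PiLp.add_apply, PiLp.smul_apply, smul_eq_mul, hasDerivAt_const_add_iff, ev, map_one] using h1
  have hs : HasDerivAt (fun t : ℝ => (x + t • ei i) i / ‖x + t • ei i‖)
      ((1 - (x i / ‖x‖) ^ 2) / ‖x‖) 0 := by
    have h1 := hc.div hr (by simpa using hx)
    simp only [zero_smul, add_zero] at h1
    refine h1.congr_deriv ?_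
    field_simp
  have h := (((hP'.add (hs.mul hQ)).add (hr.mul hQ')).sub
    ((hs.const_mul κ).mul (hP.add (hr.mul hQ)))).mul hE
  refine h.congr_deriv ?_
  simp only [Pi.add_apply, Pi.mul_apply, Pi.sub_apply, zero_smul, add_zero]
  unfold xpdd
  ring

/-- Laplacian of a polynomial -/
noncomputable def lapP (P : Pl) : Pl := ∑ i, pderiv i (pderiv i P)

/-- Euler operator -/
noncomputable def eul (P : Pl) : Pl := ∑ i, X i * pderiv i P

/-- `|x|²` -/
noncomputable def nsq : Pl := ∑ i : Fin 3, X i ^ 2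

theorem ev_nsq (x : R3) : ev nsq x = ‖x‖ ^ 2 := by
  unfold nsq ev
  rw [EuclideanSpace.norm_sq_eq, map_sum]
  simp

/-- the polynomial part of `‖x‖ (-Δ/2 + κ²/2)` -/
noncomputable def TP (κ : ℝ) (P Q : Pl) : Pl :=
  C κ * (eul P + P) - (eul Q + Q) - C (1 / 2) * (nsq * lapP Q)

/-- the `‖x‖`-part of `‖x‖ (-Δ/2 + κ²/2)` -/
noncomputable def TQ (κ : ℝ) (P Q : Pl) : Pl :=
  C κ * (eul Q + C 2 * Q) - C (1 / 2) * lapP P

theorem lap_xp (κ : ℝ) (P Q : Pl) (x : R3) (hx : x ≠ 0) :
    ‖x‖ * (-(1 / 2) * ∑ i, xpdd κ P Q i x + κ ^ 2 / 2 * xp κ P Q x)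
      = xp κ (TP κ P Q) (TQ κ P Q) x := by
  have hr : ‖x‖ ≠ 0 := norm_ne_zero_iff.2 hx
  have hsum : x 0 ^ 2 + x 1 ^ 2 + x 2 ^ 2 = ‖x‖ ^ 2 := by
    rw [EuclideanSpace.norm_sq_eq, Fin.sum_univ_three]
    simp
  have h3 : (x 0 / ‖x‖) ^ 2 + (x 1 / ‖x‖) ^ 2 + (x 2 / ‖x‖) ^ 2 = 1 := by
    rw [div_pow, div_pow, div_pow, ← add_div, ← add_div, hsum]
    exact div_self (pow_ne_zero 2 hr)
  obtain ⟨a, ha⟩ : ∃ a, a = x 0 / ‖x‖ := ⟨_, rfl⟩
  obtain ⟨b, hb⟩ : ∃ b, b = x 1 / ‖x‖ := ⟨_, rfl⟩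
  obtain ⟨c, hc⟩ : ∃ c, c = x 2 / ‖x‖ := ⟨_, rfl⟩
  have hx0 : x 0 = a * ‖x‖ := by rw [ha]; field_simp
  have hx1 : x 1 = b * ‖x‖ := by rw [hb]; (clear * - hr; field_simp)
  have hx2 : x 2 = c * ‖x‖ := by rw [hc]; field_simp
  have e1 : ev (TP κ P Q) x = κ * (x 0 * ev (pderiv 0 P) x + x 1 * ev (pderiv 1 P) x
      + x 2 * ev (pderiv 2 P) x + ev P x) - (x 0 * ev (pderiv 0 Q) x + x 1 * ev (pderiv 1 Q) x
      + x 2 * ev (pderiv 2 Q) x + ev Q x) - (1 / 2) * (‖x‖ ^ 2 * (ev (pderiv 0 (pderiv 0 Q)) x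
      + ev (pderiv 1 (pderiv 1 Q)) x + ev (pderiv 2 (pderiv 2 Q)) x)) := by
    have := ev_nsq x
    unfold TP eul lapP
    simp only [Fin.sum_univ_three]
    unfold ev at this ⊢
    simp only [map_sub, map_add, map_mul, MvPolynomial.eval_C, MvPolynomial.eval_X, this]
  have e2 : ev (TQ κ P Q) x = κ * (x 0 * ev (pderiv 0 Q) x + x 1 * ev (pderiv 1 Q) x
      + x 2 * ev (pderiv 2 Q) x + 2 * ev Q x) - (1 / 2) * (ev (pderiv 0 (pderiv 0 P)) x
      + ev (pderiv 1 (pderiv 1 P)) x + ev (pderiv 2 (pderiv 2 P)) x) := by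
    unfold TQ eul lapP
    simp only [Fin.sum_univ_three]
    unfold ev
    simp only [map_sub, map_mul, eval_C, map_add, eval_X]
  unfold xp
  rw [e1, e2]
  simp only [Fin.sum_univ_three]
  unfold xpdd
  rw [← ha, ← hb, ← hc, hx0, hx1, hx2]
  have habc : a ^ 2 + b ^ 2 + c ^ 2 = 1 := by
    rw [ha, hb, hc]
    exact h3
  have hc2 : c ^ 2 = 1 - a ^ 2 - b ^ 2 := by linarith only [habc]
  generalize ‖x‖ = r at hr ⊢
  field_simp
  ring_nf
  simp only [hc2]
  ring

end Vale.Agent.P370.Hyd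
end
end

section

section

/-!
Degree filtration and the operator `‖x‖ (-Δ/2 + κ²/2)` on pairs of polynomials.
-/

namespace Vale.Agent.P370.Hyd

open MvPolynomial

/-- polynomials of degree `< N` -/
noncomputable def lt (N : ℕ) : Submodule ℝ Pl where
  carrier := {P | ∀ d : Fin 3 →₀ ℕ, N ≤ d.degree → coeff d P = 0}
  add_mem' hP hQ d hd := by rw [coeff_add, hP d hd, hQ d hd, add_zero]
  zero_mem' d _ := coeff_zero d
  smul_mem' c P hP d hd := by rw [coeff_smul, hP d hd, smul_zero]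

theorem lt_mono {N M : ℕ} (h : N ≤ M) : lt N ≤ lt M := fun _ hP d hd => hP d (h.trans hd)

theorem monomial_mem_lt {N : ℕ} {d : Fin 3 →₀ ℕ} (h : d.degree < N) (c : ℝ) :
    (monomial d c : Pl) ∈ lt N := by
  intro e he
  rw [coeff_monomial, if_neg]
  rintro rfl
  omega

theorem isHomogeneous_mem_lt {N k : ℕ} {P : Pl} (hP : P.IsHomogeneous k) (h : k < N) :
    P ∈ lt N := by
  intro d hd
  exact hP.coeff_eq_zero (by omega)

/-- linear conditions on `lt N` may be checked on monomials -/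
theorem lt_induction {N : ℕ} {S : Submodule ℝ Pl} (f : Pl →ₗ[ℝ] Pl)
    (h : ∀ (d : Fin 3 →₀ ℕ) (c : ℝ), d.degree < N → f (monomial d c) ∈ S) {P : Pl}
    (hP : P ∈ lt N) : f P ∈ S := by
  rw [P.as_sum, map_sum]
  refine Submodule.sum_mem _ fun d hd => h d _ ?_
  by_contra hcon
  exact (mem_support_iff.1 hd) (hP d (by omega))

theorem degree_sub_single {d : Fin 3 →₀ ℕ} {i : Fin 3} (h : d i ≠ 0) :
    (d - Finsupp.single i 1).degree + 1 = d.degree := by
  have h1 : Finsupp.single i 1 ≤ d := by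
    rw [Finsupp.single_le_iff]
    omega
  conv_rhs => rw [← tsub_add_cancel_of_le h1]
  rw [map_add, Finsupp.degree_single]

theorem pderiv_mem_lt {N : ℕ} (i : Fin 3) {P : Pl} (hP : P ∈ lt (N + 1)) :
    pderiv i P ∈ lt N := by
  refine lt_induction ((pderiv i : Derivation ℝ Pl Pl) : Pl →ₗ[ℝ] Pl) (fun d c hd => ?_) hP
  show pderiv i (monomial d c) ∈ lt N
  rw [pderiv_monomial]
  by_cases h : d i = 0
  · rw [h, Nat.cast_zero, mul_zero, monomial_zero]
    exact Submodule.zero_mem _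
  · refine monomial_mem_lt ?_ _
    have := degree_sub_single h
    omega

theorem lt_zero {P : Pl} (hP : P ∈ lt 0) : P = 0 := by
  ext d
  rw [hP d (Nat.zero_le _), coeff_zero]

theorem pderiv_lt_zero (i : Fin 3) {P : Pl} (hP : P ∈ lt 1) : pderiv i P = 0 :=
  lt_zero (pderiv_mem_lt i hP)

theorem X_mul_mem_lt {N : ℕ} (i : Fin 3) {P : Pl} (hP : P ∈ lt N) : X i * P ∈ lt (N + 1) := by
  refine lt_induction (LinearMap.mulLeft ℝ (X i : Pl)) (fun d c hd => ?_) hP
  show X i * monomial d c ∈ lt (N + 1)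
  rw [X, monomial_mul]
  refine monomial_mem_lt ?_ _
  rw [map_add, Finsupp.degree_single]
  omega

theorem C_mul_mem_lt {N : ℕ} (a : ℝ) {P : Pl} (hP : P ∈ lt N) : C a * P ∈ lt N := by
  rw [← smul_eq_C_mul]
  exact Submodule.smul_mem _ _ hP

theorem nsq_mul_mem_lt {N : ℕ} {P : Pl} (hP : P ∈ lt N) : nsq * P ∈ lt (N + 2) := by
  unfold nsq
  rw [Finset.sum_mul]
  refine Submodule.sum_mem _ fun i _ => ?_
  rw [pow_two, mul_assoc]
  exact X_mul_mem_lt i (X_mul_mem_lt i hP)

theorem lapP_mem_lt {N : ℕ} {P : Pl} (hP : P ∈ lt (N + 2)) : lapP P ∈ lt N :=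
  Submodule.sum_mem _ fun i _ => pderiv_mem_lt i (pderiv_mem_lt i hP)

theorem lapP_lt_one {P : Pl} (hP : P ∈ lt 1) : lapP P = 0 := by
  unfold lapP
  refine Finset.sum_eq_zero fun i _ => ?_
  rw [pderiv_lt_zero i hP, map_zero]

theorem eul_monomial (d : Fin 3 →₀ ℕ) (c : ℝ) :
    eul (monomial d c) = (d.degree : ℝ) • (monomial d c : Pl) := by
  have h := (isHomogeneous_monomial (σ := Fin 3) c (n := d.degree) rfl).sum_X_mul_pderiv
  unfold eul
  rw [h, Nat.cast_smul_eq_nsmul]

/-- linear version of the Euler operator -/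
noncomputable def eulL : Pl →ₗ[ℝ] Pl :=
  ∑ i, (LinearMap.mulLeft ℝ (X i : Pl)).comp ((pderiv i : Derivation ℝ Pl Pl) : Pl →ₗ[ℝ] Pl)

theorem eulL_apply (P : Pl) : eulL P = eul P := by
  unfold eulL eul
  rw [LinearMap.sum_apply]
  rfl

/-- linear version of the Laplacian -/
noncomputable def lapL : Pl →ₗ[ℝ] Pl :=
  ∑ i, ((pderiv i : Derivation ℝ Pl Pl) : Pl →ₗ[ℝ] Pl).comp
    ((pderiv i : Derivation ℝ Pl Pl) : Pl →ₗ[ℝ] Pl)

theorem lapL_apply (P : Pl) : lapL P = lapP P := by
  unfold lapL lapP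
  rw [LinearMap.sum_apply]
  rfl

theorem eul_sub_mem_lt {N : ℕ} {P : Pl} (hP : P ∈ lt (N + 1)) :
    eul P - (N : ℝ) • P ∈ lt N := by
  have h := lt_induction (S := lt N) (eulL - (N : ℝ) • LinearMap.id) (fun d c hd => ?_) hP
  · rwa [LinearMap.sub_apply, eulL_apply] at h
  · rw [LinearMap.sub_apply, eulL_apply, eul_monomial, LinearMap.smul_apply, LinearMap.id_apply,
      ← sub_smul]
    rcases Nat.lt_succ_iff_lt_or_eq.1 hd with h | h
    · exact Submodule.smul_mem _ _ (monomial_mem_lt h c)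
    · rw [h, sub_self, zero_smul]
      exact Submodule.zero_mem _

/-- the operator on pairs -/
noncomputable def TL (κ : ℝ) : Pl × Pl →ₗ[ℝ] Pl × Pl :=
  LinearMap.prod
    (κ • (eulL + LinearMap.id).comp (LinearMap.fst ℝ Pl Pl)
      - (eulL + LinearMap.id).comp (LinearMap.snd ℝ Pl Pl)
      - (1 / 2 : ℝ) • ((LinearMap.mulLeft ℝ nsq).comp lapL).comp (LinearMap.snd ℝ Pl Pl))
    (κ • (eulL + (2 : ℝ) • LinearMap.id).comp (LinearMap.snd ℝ Pl Pl)
      - (1 / 2 : ℝ) • lapL.comp (LinearMap.fst ℝ Pl Pl))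

theorem TL_apply (κ : ℝ) (z : Pl × Pl) : TL κ z = (TP κ z.1 z.2, TQ κ z.1 z.2) := by
  refine Prod.ext ?_ ?_
  · show κ • (eulL z.1 + z.1) - (eulL z.2 + z.2) - (1 / 2 : ℝ) • (nsq * lapL z.2) = _
    rw [eulL_apply, eulL_apply, lapL_apply, smul_eq_C_mul, smul_eq_C_mul]
    rfl
  · show κ • (eulL z.2 + (2 : ℝ) • z.2) - (1 / 2 : ℝ) • lapL z.1 = _
    rw [eulL_apply, lapL_apply, smul_eq_C_mul, smul_eq_C_mul, smul_eq_C_mul]
    rfl

/-- the filtration -/
noncomputable def E (N : ℕ) : Submodule ℝ (Pl × Pl) := (lt N).prod (lt (N - 1))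

theorem E_mono {N M : ℕ} (h : N ≤ M) : E N ≤ E M := by
  intro z hz
  exact ⟨lt_mono h hz.1, lt_mono (by omega) hz.2⟩

theorem TL_sub_mem (κ : ℝ) {N : ℕ} {z : Pl × Pl} (hz : z ∈ E (N + 1)) :
    TL κ z - (κ * (N + 1)) • z ∈ E N := by
  obtain ⟨h1, h2⟩ := hz
  rw [Nat.add_sub_cancel] at h2
  rw [TL_apply]
  refine ⟨?_, ?_⟩
  · show TP κ z.1 z.2 - (κ * (N + 1)) • z.1 ∈ lt N
    have e : TP κ z.1 z.2 - (κ * (N + 1)) • z.1
        = C κ * (eul z.1 - (N : ℝ) • z.1) - (eul z.2 + z.2) - C (1 / 2) * (nsq * lapP z.2) := by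
      unfold TP
      rw [smul_eq_C_mul, smul_eq_C_mul, C_mul, C_add, C_1]
      ring
    rw [e]
    refine Submodule.sub_mem _ (Submodule.sub_mem _ (C_mul_mem_lt _ (eul_sub_mem_lt h1)) ?_) ?_
    · refine Submodule.add_mem _ ?_ h2
      rcases Nat.eq_zero_or_pos N with hN | hN
      · subst hN
        rw [lt_zero h2]
        unfold eul
        simp
      · obtain ⟨M, rfl⟩ : ∃ M, N = M + 1 := ⟨N - 1, by omega⟩
        have := eul_sub_mem_lt h2
        have h3 := Submodule.add_mem _ (lt_mono (Nat.le_succ M) this)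
          (Submodule.smul_mem _ (M : ℝ) h2)
        rwa [sub_add_cancel] at h3
    · refine C_mul_mem_lt _ ?_
      rcases Nat.lt_or_ge N 2 with hN | hN
      · rw [lapP_lt_one (lt_mono (by omega) h2), mul_zero]
        exact Submodule.zero_mem _
      · obtain ⟨M, rfl⟩ : ∃ M, N = M + 2 := ⟨N - 2, by (clear * - hN; omega)⟩
        exact nsq_mul_mem_lt (lapP_mem_lt h2)
  · show TQ κ z.1 z.2 - (κ * (N + 1)) • z.2 ∈ lt (N - 1)
    rcases Nat.eq_zero_or_pos N with hN | hN
    · subst hN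
      rw [lt_zero h2]
      have : lapP z.1 = 0 := lapP_lt_one h1
      unfold TQ eul
      rw [this]
      simp
    · obtain ⟨M, rfl⟩ : ∃ M, N = M + 1 := ⟨N - 1, by omega⟩
      have e : TQ κ z.1 z.2 - (κ * ((M + 1 : ℕ) + 1)) • z.2
          = C κ * (eul z.2 - (M : ℝ) • z.2) - C (1 / 2) * lapP z.1 := by
        unfold TQ
        rw [smul_eq_C_mul, smul_eq_C_mul, C_mul, C_add, C_1]
        push_cast
        rw [C_add, C_1]
        have h2 : (C 2 : Pl) = 1 + 1 := by
          rw [← C_1, ← C_add]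
          norm_num
        rw [h2]
        ring
      rw [e, Nat.add_sub_cancel]
      exact Submodule.sub_mem _ (C_mul_mem_lt _ (eul_sub_mem_lt h2))
        (C_mul_mem_lt _ (lapP_mem_lt h1))

theorem TL_mem (κ : ℝ) {N : ℕ} {z : Pl × Pl} (hz : z ∈ E N) : TL κ z ∈ E N := by
  rcases Nat.eq_zero_or_pos N with hN | hN
  · subst hN
    have h1 : z = 0 := Prod.ext (lt_zero hz.1) (lt_zero hz.2)
    rw [h1, map_zero]
    exact Submodule.zero_mem _
  · obtain ⟨M, rfl⟩ : ∃ M, N = M + 1 := ⟨N - 1, by omega⟩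
    have h1 := TL_sub_mem κ hz
    have h2 := Submodule.add_mem _ (E_mono (Nat.le_succ M) h1)
      (Submodule.smul_mem _ (κ * (M + 1)) hz)
    rwa [sub_add_cancel] at h2

end Vale.Agent.P370.Hyd
end
end

section

section

/-!
Green's identity on `ℝ³` for functions with a cusp at the origin.
-/

namespace Vale.Agent.P370.Hyd

open MeasureTheory Filter Topology MvPolynomial

/-- exponential decay -/
def Dec (f : R3 → ℝ) : Prop := ∃ C c : ℝ, 0 < c ∧ ∀ x, |f x| ≤ C * Real.exp (-c * ‖x‖)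

theorem Dec.nonneg {f : R3 → ℝ} (hf : Dec f) :
    ∃ C c : ℝ, 0 ≤ C ∧ 0 < c ∧ ∀ x, |f x| ≤ C * Real.exp (-c * ‖x‖) := by
  obtain ⟨C, c, hc, h⟩ := hf
  refine ⟨|C|, c, abs_nonneg _, hc, fun x => (h x).trans ?_⟩
  exact mul_le_mul_of_nonneg_right (le_abs_self C) (Real.exp_pos _).le

theorem Dec.add {f g : R3 → ℝ} (hf : Dec f) (hg : Dec g) : Dec fun x => f x + g x := by
  obtain ⟨C, c, hC, hc, h⟩ := hf.nonneg
  obtain ⟨D, d, hD, hd, k⟩ := hg.nonneg
  refine ⟨C + D, min c d, lt_min hc hd, fun x => ?_⟩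
  have h1 : Real.exp (-c * ‖x‖) ≤ Real.exp (-(min c d) * ‖x‖) := by
    apply Real.exp_le_exp.2
    have := min_le_left c d
    linarith only [mul_nonneg_of_nonpos_of_nonpos (Mathlib.Tactic.Linarith.sub_nonpos_of_le this) (Mathlib.Tactic.Linarith.sub_nonpos_of_le (norm_nonneg x))]
  have h2 : Real.exp (-d * ‖x‖) ≤ Real.exp (-(min c d) * ‖x‖) := by
    apply Real.exp_le_exp.2
    have := min_le_right c d
    nlinarith only [this, norm_nonneg x]
  calc |f x + g x| ≤ |f x| + |g x| := abs_add_le _ _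
    _ ≤ C * Real.exp (-(min c d) * ‖x‖) + D * Real.exp (-(min c d) * ‖x‖) :=
      add_le_add ((h x).trans (mul_le_mul_of_nonneg_left h1 hC))
        ((k x).trans (mul_le_mul_of_nonneg_left h2 hD))
    _ = _ := by ring

theorem Dec.bdd_mul {f g : R3 → ℝ} (hf : Dec f) {B : ℝ} (hg : ∀ x, |g x| ≤ B) :
    Dec fun x => g x * f x := by
  obtain ⟨C, c, hC, hc, h⟩ := hf.nonneg
  refine ⟨B * C, c, hc, fun x => ?_⟩
  rw [abs_mul, mul_assoc]
  exact mul_le_mul (hg x) (h x) (abs_nonneg _) ((abs_nonneg _).trans (hg x))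

theorem Dec.const_mul {f : R3 → ℝ} (hf : Dec f) (a : ℝ) : Dec fun x => a * f x :=
  hf.bdd_mul (g := fun _ => a) (B := |a|) fun _ => le_rfl

theorem Dec.bound {f : R3 → ℝ} (hf : Dec f) : ∃ B, ∀ x, |f x| ≤ B := by
  obtain ⟨C, c, hC, hc, h⟩ := hf.nonneg
  refine ⟨C, fun x => (h x).trans ?_⟩
  refine mul_le_of_le_one_right hC (Real.exp_le_one_iff.2 ?_)
  linarith only [mul_nonneg_of_nonpos_of_nonpos (le_of_lt (Mathlib.Tactic.Linarith.sub_neg_of_lt hc)) (Mathlib.Tactic.Linarith.sub_nonpos_of_le (norm_nonneg x))]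

theorem Dec.mul {f g : R3 → ℝ} (hf : Dec f) (hg : Dec g) : Dec fun x => f x * g x := by
  obtain ⟨B, hB⟩ := hf.bound
  exact hg.bdd_mul hB

theorem integrable_exp {c : ℝ} (hc : 0 < c) :
    Integrable (fun x : R3 => Real.exp (-c * ‖x‖)) := by
  have h := (integrable_fun_norm_addHaar (μ := (volume : Measure R3)) (F := ℝ)
    (f := fun r => Real.exp (-c * r))).2 ?_
  · exact h
  · have h1 := integrableOn_rpow_mul_exp_neg_mul_rpow (s := 2) (p := 1) (b := c) (by norm_num)
      one_pos hc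
    refine h1.congr_fun (fun r hr => ?_) measurableSet_Ioi
    simp only [Real.rpow_ofNat, Real.rpow_one, neg_mul, finrank_euclideanSpace, Fintype.card_fin, Nat.add_one_sub_one, smul_eq_mul]

theorem integrable_exp_div {c : ℝ} (hc : 0 < c) :
    Integrable (fun x : R3 => Real.exp (-c * ‖x‖) / ‖x‖) := by
  have h := (integrable_fun_norm_addHaar (μ := (volume : Measure R3)) (F := ℝ)
    (f := fun r => Real.exp (-c * r) / r)).2 ?_
  · exact h
  · have h1 := integrableOn_rpow_mul_exp_neg_mul_rpow (s := 1) (p := 1) (b := c) (by norm_num)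
      one_pos hc
    refine h1.congr_fun (fun r hr => ?_) measurableSet_Ioi
    have hr0 : r ≠ 0 := ne_of_gt hr
    simp only [Real.rpow_one, neg_mul, finrank_euclideanSpace, Fintype.card_fin, Nat.add_one_sub_one, smul_eq_mul]
    field_simp

theorem Dec.integrable {f : R3 → ℝ} (hf : Dec f) (hm : AEStronglyMeasurable f volume) :
    Integrable f := by
  obtain ⟨C, c, hc, h⟩ := hf
  exact ((integrable_exp hc).const_mul C).mono' hm (Eventually.of_forall h)

theorem Dec.integrable_div {f : R3 → ℝ} (hf : Dec f) (hm : AEStronglyMeasurable f volume) :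
    Integrable (fun x => f x / ‖x‖) := by
  obtain ⟨C, c, hc, h⟩ := hf
  refine ((integrable_exp_div hc).const_mul C).mono' ?_ (Eventually.of_forall fun x => ?_)
  · simp only [div_eq_mul_inv]
    exact hm.mul (measurable_norm.inv.aestronglyMeasurable)
  · rw [norm_div, norm_norm, Real.norm_eq_abs, ← mul_div_assoc]
    exact div_le_div_of_nonneg_right (h x) (norm_nonneg _)

/-- one dimensional integration by parts along a coordinate direction -/
theorem integral_dir_deriv (i : Fin 3) (G G' : R3 → ℝ) (hG : Integrable G) (hG' : Integrable G')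
    (hd : ∀ x, x ≠ 0 → HasDerivAt (fun t : ℝ => G (x + t • ei i)) (G' x) 0)
    (hc : ContinuousOn G' {0}ᶜ) : ∫ x, G' x = 0 := by
  have hmeas : Measurable G' := measurable_of_continuousOn_compl_singleton 0 hc
  -- the line through the origin is null
  have hnull : ∀ᵐ x : R3, ∀ s : ℝ, x + s • ei i ≠ 0 := by
    have h1 : volume ((Submodule.span ℝ {ei i} : Submodule ℝ R3) : Set R3) = 0 := by
      apply Measure.addHaar_submodule
      intro h
      have h2 := congrArg (fun S : Submodule ℝ R3 => Module.finrank ℝ S) h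
      simp only [finrank_top, finrank_euclideanSpace, Fintype.card_fin] at h2
      have h3 := finrank_span_le_card (R := ℝ) ({ei i} : Set R3)
      simp only [Set.toFinset_singleton, Finset.card_singleton] at h3
      omega
    rw [ae_iff]
    refine measure_mono_null (fun x hx => ?_) h1
    simp only [ne_eq, not_forall, not_not, Set.mem_ofPred_eq] at hx
    obtain ⟨s, hs⟩ := hx
    rw [SetLike.mem_coe, Submodule.mem_span_singleton]
    exact ⟨-s, by rw [neg_smul]; exact (eq_neg_of_add_eq_zero_left hs).symm⟩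
  have hftc : ∀ᵐ x : R3, ∫ s in (0 : ℝ)..1, G' (x + s • ei i) = G (x + ei i) - G x := by
    filter_upwards [hnull] with x hx
    have h1 : ∀ s ∈ Set.uIcc (0 : ℝ) 1,
        HasDerivAt (fun s : ℝ => G (x + s • ei i)) (G' (x + s • ei i)) s := by
      intro s _
      have h2 := hd (x + s • ei i) (hx s)
      have h3 := HasDerivAt.comp_sub_const (f := fun t : ℝ => G (x + s • ei i + t • ei i))
        s s (by simpa only [sub_self] using h2)
      refine h3.congr_of_eventuallyEq (Eventually.of_forall fun t => ?_)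
      simp only
      congr 1
      rw [add_assoc, ← add_smul]
      congr 2
      ring
    have h4 : Continuous fun s : ℝ => G' (x + s • ei i) := by
      refine continuous_iff_continuousAt.2 fun s => ?_
      have h5 : ContinuousAt G' (x + s • ei i) :=
        hc.continuousAt (isOpen_compl_singleton.mem_nhds (hx s))
      exact ContinuousAt.comp (f := fun s : ℝ => x + s • ei i) h5 (by fun_prop)
    have h6 := intervalIntegral.integral_eq_sub_of_hasDerivAt h1 (h4.intervalIntegrable 0 1)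
    rw [h6]
    simp only [one_smul, zero_smul, add_zero]
  -- Fubini
  have hint : Integrable (fun z : R3 × ℝ => G' (z.1 + z.2 • ei i))
      (volume.prod (volume.restrict (Set.Ioc 0 1))) := by
    rw [integrable_prod_iff']
    · refine ⟨Eventually.of_forall fun s => ?_, ?_⟩
      · exact hG'.comp_add_right (s • ei i)
      · have : ∀ s : ℝ, ∫ x : R3, ‖G' (x + s • ei i)‖ = ∫ x : R3, ‖G' x‖ := fun s =>
          integral_add_right_eq_self (fun x => ‖G' x‖) (s • ei i)
        simp only [this]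
        exact integrable_const _
    · refine Measurable.aestronglyMeasurable ?_
      exact hmeas.comp (by fun_prop)
  have e1 : ∫ x : R3, ∫ s in (0 : ℝ)..1, G' (x + s • ei i) = ∫ x, G' x := by
    simp only [intervalIntegral.integral_of_le zero_le_one]
    rw [integral_integral_swap hint]
    have : ∀ s : ℝ, ∫ x : R3, G' (x + s • ei i) = ∫ x : R3, G' x := fun s =>
      integral_add_right_eq_self G' (s • ei i)
    simp only [this]
    simp only [integral_const, MeasurableSet.univ, measureReal_restrict_apply, Set.univ_inter, Real.volume_real_Ioc, sub_zero, zero_le_one, sup_of_le_left, smul_eq_mul, one_mul]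
  rw [← e1, integral_congr_ae hftc, integral_sub (hG.comp_add_right (ei i)) hG,
    integral_add_right_eq_self G (ei i), sub_self]

/-- admissible functions with their partial derivatives away from the origin -/
structure Adm (w : R3 → ℝ) (dw : Fin 3 → R3 → ℝ) : Prop where
  cont : Continuous w
  deriv : ∀ i x, x ≠ 0 → HasDerivAt (fun t : ℝ => w (x + t • ei i)) (dw i x) 0
  dcont : ∀ i, ContinuousOn (dw i) {0}ᶜ
  dec : Dec w
  ddec : ∀ i, Dec (dw i)

theorem Adm.meas {w : R3 → ℝ} {dw : Fin 3 → R3 → ℝ} (h : Adm w dw) (i : Fin 3) :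
    Measurable (dw i) := measurable_of_continuousOn_compl_singleton 0 (h.dcont i)

theorem Adm.add {v w : R3 → ℝ} {dv dw : Fin 3 → R3 → ℝ} (hv : Adm v dv) (hw : Adm w dw) :
    Adm (fun x => v x + w x) (fun i x => dv i x + dw i x) :=
  ⟨hv.cont.add hw.cont, fun i x hx => (hv.deriv i x hx).add (hw.deriv i x hx),
    fun i => (hv.dcont i).add (hw.dcont i), hv.dec.add hw.dec, fun i => (hv.ddec i).add (hw.ddec i)⟩

theorem Adm.const_mul {v : R3 → ℝ} {dv : Fin 3 → R3 → ℝ} (hv : Adm v dv) (a : ℝ) :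
    Adm (fun x => a * v x) (fun i x => a * dv i x) :=
  ⟨continuous_const.mul hv.cont, fun i x hx => (hv.deriv i x hx).const_mul a,
    fun i => continuousOn_const.mul (hv.dcont i), hv.dec.const_mul a,
    fun i => (hv.ddec i).const_mul a⟩

theorem Adm.zero : Adm (fun _ => 0) (fun _ _ => 0) :=
  ⟨continuous_const, fun _ _ _ => hasDerivAt_const _ _, fun _ => continuousOn_const,
    ⟨0, 1, one_pos, fun _ => by simp only [abs_zero, neg_mul, one_mul, zero_mul, Std.le_refl]⟩, fun _ => ⟨0, 1, one_pos, fun _ => by simp⟩⟩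

/-! ### Growth of polynomials -/

theorem le_exp_div {η : ℝ} (hη : 0 < η) {r : ℝ} (_hr : 0 ≤ r) : r ≤ η⁻¹ * Real.exp (η * r) := by
  have h := Real.add_one_le_exp (η * r)
  rw [← div_eq_inv_mul, le_div_iff₀ hη]
  linarith

theorem ev_growth (P : Pl) : ∀ η : ℝ, 0 < η → ∃ C : ℝ, 0 ≤ C ∧
    ∀ x, |ev P x| ≤ C * Real.exp (η * ‖x‖) := by
  induction P using MvPolynomial.induction_on with
  | C a =>
    intro η hη
    refine ⟨|a|, abs_nonneg _, fun x => ?_⟩
    rw [ev_C]
    exact le_mul_of_one_le_right (abs_nonneg _) (Real.one_le_exp (by (clear * - hη; positivity)))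
  | add P Q hP hQ =>
    intro η hη
    obtain ⟨C, hC, h⟩ := hP η hη
    obtain ⟨D, hD, k⟩ := hQ η hη
    refine ⟨C + D, add_nonneg hC hD, fun x => ?_⟩
    rw [ev_add, add_mul]
    exact (abs_add_le _ _).trans (add_le_add (h x) (k x))
  | mul_X P j hP =>
    intro η hη
    obtain ⟨C, hC, h⟩ := hP (η / 2) (by (clear * - hη; positivity))
    refine ⟨C * (η / 2)⁻¹, by positivity, fun x => ?_⟩
    rw [ev_mul, ev_X, abs_mul]
    have h1 : |x j| ≤ ‖x‖ := by
      rw [← Real.norm_eq_abs]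
      exact PiLp.norm_apply_le x j
    have h2 := h1.trans (le_exp_div (half_pos hη) (norm_nonneg x))
    calc |ev P x| * |x j| ≤ (C * Real.exp (η / 2 * ‖x‖)) *
          ((η / 2)⁻¹ * Real.exp (η / 2 * ‖x‖)) :=
          mul_le_mul (h x) h2 (abs_nonneg _) (by positivity)
      _ = C * (η / 2)⁻¹ * (Real.exp (η / 2 * ‖x‖) * Real.exp (η / 2 * ‖x‖)) := by ring
      _ = _ := by
        rw [← Real.exp_add]
        congr 2
        ring

theorem dec_ev {κ : ℝ} (hκ : 0 < κ) (P : Pl) : Dec fun x => ev P x * Real.exp (-κ * ‖x‖) := by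
  obtain ⟨C, hC, h⟩ := ev_growth P (κ / 2) (half_pos hκ)
  refine ⟨C, κ / 2, half_pos hκ, fun x => ?_⟩
  rw [abs_mul, abs_of_pos (Real.exp_pos _)]
  calc |ev P x| * Real.exp (-κ * ‖x‖) ≤ (C * Real.exp (κ / 2 * ‖x‖)) * Real.exp (-κ * ‖x‖) := by
        gcongr
        exact h x
    _ = C * (Real.exp (κ / 2 * ‖x‖) * Real.exp (-κ * ‖x‖)) := by ring
    _ = _ := by
      rw [← Real.exp_add]
      congr 2
      ring

theorem dec_norm_ev {κ : ℝ} (hκ : 0 < κ) (P : Pl) :
    Dec fun x => ‖x‖ * ev P x * Real.exp (-κ * ‖x‖) := by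
  obtain ⟨C, hC, h⟩ := ev_growth P (κ / 4) (by positivity)
  refine ⟨C * (κ / 4)⁻¹, κ / 2, half_pos hκ, fun x => ?_⟩
  rw [abs_mul, abs_of_pos (Real.exp_pos _), abs_mul, abs_norm]
  calc ‖x‖ * |ev P x| * Real.exp (-κ * ‖x‖)
      ≤ ((κ / 4)⁻¹ * Real.exp (κ / 4 * ‖x‖)) * (C * Real.exp (κ / 4 * ‖x‖))
        * Real.exp (-κ * ‖x‖) := by
        gcongr
        · exact le_exp_div (by positivity) (norm_nonneg x)
        · exact h x
    _ = C * (κ / 4)⁻¹ * (Real.exp (κ / 4 * ‖x‖) * Real.exp (κ / 4 * ‖x‖)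
        * Real.exp (-κ * ‖x‖)) := by ring
    _ = _ := by
      rw [← Real.exp_add, ← Real.exp_add]
      congr 2
      ring

theorem abs_unit_le (i : Fin 3) (x : R3) : |x i / ‖x‖| ≤ 1 := by
  rw [abs_div, abs_norm]
  refine div_le_one_of_le₀ ?_ (norm_nonneg _)
  rw [← Real.norm_eq_abs]
  exact PiLp.norm_apply_le x i

theorem dec_xp {κ : ℝ} (hκ : 0 < κ) (P Q : Pl) : Dec (xp κ P Q) := by
  have h := (dec_ev hκ P).add (dec_norm_ev hκ Q)
  obtain ⟨C, c, hc, h⟩ := h
  refine ⟨C, c, hc, fun x => ?_⟩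
  have := h x
  unfold xp
  rwa [add_mul]

theorem continuous_xp (κ : ℝ) (P Q : Pl) : Continuous (xp κ P Q) := by
  unfold xp
  have h1 := continuous_ev P
  have h2 := continuous_ev Q
  (clear * - h1 h2; fun_prop)

theorem continuousOn_unit (i : Fin 3) : ContinuousOn (fun x : R3 => x i / ‖x‖) {0}ᶜ := by
  refine ContinuousOn.div (Continuous.continuousOn (by fun_prop)) continuous_norm.continuousOn
    fun x hx => ?_
  exact norm_ne_zero_iff.2 hx

theorem continuousOn_xpd (κ : ℝ) (P Q : Pl) (i : Fin 3) : ContinuousOn (xpd κ P Q i) {0}ᶜ := by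
  unfold xpd
  have h0 := continuousOn_unit i
  have h1 := (continuous_ev P).continuousOn (s := {0}ᶜ)
  have h2 := (continuous_ev Q).continuousOn (s := {0}ᶜ)
  have h3 := (continuous_ev (pderiv i P)).continuousOn (s := {0}ᶜ)
  have h4 := (continuous_ev (pderiv i Q)).continuousOn (s := {0}ᶜ)
  have h5 := (continuous_norm (E := R3)).continuousOn (s := {0}ᶜ)
  have h6 : ContinuousOn (fun x : R3 => Real.exp (-κ * ‖x‖)) {0}ᶜ :=
    Continuous.continuousOn (by fun_prop)
  exact (((h3.add (h0.mul h2)).add (h5.mul h4)).sub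
    ((continuousOn_const.mul h0).mul (h1.add (h5.mul h2)))).mul h6

theorem continuousOn_xpdd (κ : ℝ) (P Q : Pl) (i : Fin 3) : ContinuousOn (xpdd κ P Q i) {0}ᶜ := by
  unfold xpdd
  have h0 := continuousOn_unit i
  have h1 := (continuous_ev P).continuousOn (s := {0}ᶜ)
  have h2 := (continuous_ev Q).continuousOn (s := {0}ᶜ)
  have h3 := (continuous_ev (pderiv i P)).continuousOn (s := {0}ᶜ)
  have h4 := (continuous_ev (pderiv i Q)).continuousOn (s := {0}ᶜ)
  have h3' := (continuous_ev (pderiv i (pderiv i P))).continuousOn (s := {0}ᶜ)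
  have h4' := (continuous_ev (pderiv i (pderiv i Q))).continuousOn (s := {0}ᶜ)
  have h5 := (continuous_norm (E := R3)).continuousOn (s := {0}ᶜ)
  have h6 : ContinuousOn (fun x : R3 => Real.exp (-κ * ‖x‖)) {0}ᶜ :=
    Continuous.continuousOn (by fun_prop)
  have h7 : ContinuousOn (fun x : R3 => (1 - (x i / ‖x‖) ^ 2) / ‖x‖) {0}ᶜ :=
    (continuousOn_const.sub (h0.pow 2)).div h5 fun x hx => norm_ne_zero_iff.2 hx
  exact (((((h3'.add (h7.mul h2)).add ((continuousOn_const.mul h0).mul h4)).add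
    (h5.mul h4')).sub ((continuousOn_const.mul h7).mul (h1.add (h5.mul h2)))).sub
    ((continuousOn_const.mul h0).mul ((h3.add (h0.mul h2)).add (h5.mul h4)))).add
    ((continuousOn_const.mul (h0.pow 2)).mul (h1.add (h5.mul h2))) |>.mul h6

theorem dec_xpd {κ : ℝ} (hκ : 0 < κ) (P Q : Pl) (i : Fin 3) : Dec (xpd κ P Q i) := by
  have h := (((dec_ev hκ (pderiv i P)).add ((dec_ev hκ Q).bdd_mul (abs_unit_le i))).add
    (dec_norm_ev hκ (pderiv i Q))).add
    (((dec_xp hκ P Q).bdd_mul (abs_unit_le i)).const_mul (-κ))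
  obtain ⟨C, c, hc, h⟩ := h
  refine ⟨C, c, hc, fun x => ?_⟩
  have := h x
  unfold xpd
  unfold xp at this
  refine le_trans (le_of_eq ?_) this
  congr 1
  ring

theorem adm_xp {κ : ℝ} (hκ : 0 < κ) (P Q : Pl) : Adm (xp κ P Q) (xpd κ P Q) :=
  ⟨continuous_xp κ P Q, fun i x hx => hasDerivAt_xp κ P Q i x hx,
    fun i => continuousOn_xpd κ P Q i, dec_xp hκ P Q, fun i => dec_xpd hκ P Q i⟩

/-- the second derivatives are `Dec + Dec / ‖x‖` -/
theorem xpdd_split {κ : ℝ} (hκ : 0 < κ) (P Q : Pl) (i : Fin 3) :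
    ∃ A B : R3 → ℝ, Dec A ∧ Dec B ∧ ∀ x, x ≠ 0 → |xpdd κ P Q i x| ≤ |A x| + |B x / ‖x‖| := by
  refine ⟨fun x => ev (pderiv i (pderiv i P)) x * Real.exp (-κ * ‖x‖)
      + 2 * ((x i / ‖x‖) * (ev (pderiv i Q) x * Real.exp (-κ * ‖x‖)))
      + ‖x‖ * ev (pderiv i (pderiv i Q)) x * Real.exp (-κ * ‖x‖)
      + (-(2 * κ)) * ((x i / ‖x‖) * (ev (pderiv i P) x * Real.exp (-κ * ‖x‖)
        + (x i / ‖x‖) * (ev Q x * Real.exp (-κ * ‖x‖))
        + ‖x‖ * ev (pderiv i Q) x * Real.exp (-κ * ‖x‖)))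
      + κ ^ 2 * ((x i / ‖x‖) * ((x i / ‖x‖) * xp κ P Q x)),
    fun x => (1 - (x i / ‖x‖) ^ 2) * (ev Q x * Real.exp (-κ * ‖x‖) + (-κ) * xp κ P Q x),
    ?_, ?_, ?_⟩
  · exact (((((dec_ev hκ _).add (((dec_ev hκ _).bdd_mul (abs_unit_le i)).const_mul 2)).add
      (dec_norm_ev hκ _)).add
      (((((dec_ev hκ _).add ((dec_ev hκ _).bdd_mul (abs_unit_le i))).add
        (dec_norm_ev hκ _)).bdd_mul (abs_unit_le i)).const_mul (-(2 * κ)))).add
      ((((dec_xp hκ P Q).bdd_mul (abs_unit_le i)).bdd_mul (abs_unit_le i)).const_mul (κ ^ 2)))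
  · refine ((dec_ev hκ Q).add ((dec_xp hκ P Q).const_mul (-κ))).bdd_mul (B := 1) fun x => ?_
    have h1 : (x i / ‖x‖) ^ 2 ≤ 1 := by
      rw [← sq_abs]
      have := abs_unit_le i x
      linarith only [mul_nonneg_of_nonpos_of_nonpos (Mathlib.Tactic.Linarith.sub_nonpos_of_le this) (Mathlib.Tactic.Linarith.sub_nonpos_of_le (abs_nonneg (x.ofLp i / ‖x‖))), this]
    rw [abs_of_nonneg (by linarith only [h1])]
    linarith only [sq_nonneg (x i / ‖x‖)]
  · intro x hx
    refine le_trans (le_of_eq ?_) (abs_add_le _ _)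
    congr 1
    unfold xpdd xp
    have hr : ‖x‖ ≠ 0 := norm_ne_zero_iff.2 hx
    field_simp
    ring

/-- kinetic form -/
noncomputable def kin (dv dw : Fin 3 → R3 → ℝ) : ℝ := (1 / 2) * ∑ i, ∫ x, dv i x * dw i x

/-- L² inner product -/
noncomputable def ip (v w : R3 → ℝ) : ℝ := ∫ x, v x * w x

/-- weighted inner product -/
noncomputable def ipr (v w : R3 → ℝ) : ℝ := ∫ x, v x * w x / ‖x‖

/-- Green's identity -/
theorem green {κ : ℝ} (hκ : 0 < κ) (P Q : Pl) {w : R3 → ℝ} {dw : Fin 3 → R3 → ℝ} (hw : Adm w dw) :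
    kin (xpd κ P Q) dw + κ ^ 2 / 2 * ip (xp κ P Q) w
      = ipr (xp κ (TP κ P Q) (TQ κ P Q)) w := by
  have hm1 : ∀ i, Measurable (xpd κ P Q i) := fun i =>
    measurable_of_continuousOn_compl_singleton 0 (continuousOn_xpd κ P Q i)
  have hm2 : ∀ i, Measurable (xpdd κ P Q i) := fun i =>
    measurable_of_continuousOn_compl_singleton 0 (continuousOn_xpdd κ P Q i)
  have hmw : Measurable w := hw.cont.measurable
  have hne : ∀ᵐ x : R3, x ≠ 0 := by
    rw [ae_iff]
    simp
  have i1 : ∀ i, Integrable fun x => xpd κ P Q i x * dw i x := fun i =>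
    ((dec_xpd hκ P Q i).mul (hw.ddec i)).integrable ((hm1 i).mul (hw.meas i)).aestronglyMeasurable
  have i2 : ∀ i, Integrable fun x => xpdd κ P Q i x * w x := by
    intro i
    obtain ⟨A, B, hA, hB, hAB⟩ := xpdd_split hκ P Q i
    obtain ⟨C, c, hc, h⟩ := hA.mul hw.dec
    obtain ⟨D, d, hd, k⟩ := hB.mul hw.dec
    refine (((integrable_exp hc).const_mul C).add ((integrable_exp_div hd).const_mul D)).mono'
      ((hm2 i).mul hmw).aestronglyMeasurable ?_
    filter_upwards [hne] with x hx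
    rw [Real.norm_eq_abs, abs_mul]
    calc |xpdd κ P Q i x| * |w x| ≤ (|A x| + |B x / ‖x‖|) * |w x| := by
          gcongr
          exact hAB x hx
      _ = |A x * w x| + |B x * w x| / ‖x‖ := by
          rw [abs_mul, abs_mul, abs_div, abs_norm]
          ring
      _ ≤ _ := by
          refine add_le_add (h x) ?_
          show |B x * w x| / ‖x‖ ≤ D * (Real.exp (-d * ‖x‖) / ‖x‖)
          rw [← mul_div_assoc]
          exact div_le_div_of_nonneg_right (k x) (norm_nonneg _)
  have key : ∀ i, ∫ x, (xpdd κ P Q i x * w x + xpd κ P Q i x * dw i x) = 0 := by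
    intro i
    refine integral_dir_deriv i (fun x => xpd κ P Q i x * w x) _ ?_ ((i2 i).add (i1 i)) ?_ ?_
    · exact ((dec_xpd hκ P Q i).mul hw.dec).integrable ((hm1 i).mul hmw).aestronglyMeasurable
    · intro x hx
      have h := (hasDerivAt_xpd κ P Q i x hx).mul (hw.deriv i x hx)
      refine h.congr_deriv ?_
      simp only [zero_smul, add_zero]
    · exact ((continuousOn_xpdd κ P Q i).mul hw.cont.continuousOn).add
        ((continuousOn_xpd κ P Q i).mul (hw.dcont i))
  have key2 : ∀ i, ∫ x, xpd κ P Q i x * dw i x = -∫ x, xpdd κ P Q i x * w x := by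
    intro i
    have := key i
    rw [integral_add (i2 i) (i1 i)] at this
    linarith only [this]
  have i3 : Integrable fun x => xp κ P Q x * w x :=
    ((dec_xp hκ P Q).mul hw.dec).integrable
      ((continuous_xp κ P Q).mul hw.cont).aestronglyMeasurable
  unfold kin ip ipr
  simp only [key2]
  rw [Finset.sum_neg_distrib, ← integral_finsetSum _ fun i _ => i2 i]
  have e : (1 / 2 : ℝ) * -∫ x, ∑ i, xpdd κ P Q i x * w x
      = ∫ x, (-(1 / 2)) * ∑ i, xpdd κ P Q i x * w x := by
    rw [integral_const_mul]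
    ring
  rw [e, ← integral_const_mul, ← integral_add
    ((integrable_finsetSum _ fun i _ => i2 i).const_mul _) (i3.const_mul _)]
  refine integral_congr_ae ?_
  filter_upwards [hne] with x hx
  rw [← lap_xp κ P Q x hx, ← Finset.sum_mul]
  have hr : ‖x‖ ≠ 0 := norm_ne_zero_iff.2 hx
  (clear * - hr; field_simp)

end Vale.Agent.P370.Hyd
end
end

section

section

/-!
Density of polynomials times exponentials: an integrable function with an exponential moment all
of whose polynomial moments vanish is zero.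
-/

namespace Vale.Agent.P370

open MeasureTheory Filter Topology
open scoped RealInnerProductSpace

section

variable {E : Type*} [NormedAddCommGroup E] [InnerProductSpace ℝ E] [MeasurableSpace E]
  [BorelSpace E] [CompleteSpace E] [SecondCountableTopology E] {μ : Measure E}

/-- directional moments of `f x * exp (i y ⟪t, x⟫)` -/
noncomputable def dmom (μ : Measure E) (f : E → ℝ) (t : E) (y : ℝ) (m : ℕ) : ℂ :=
  ∫ x, (f x : ℂ) * (((⟪t, x⟫ : ℝ) : ℂ) ^ m * Complex.exp ((y * ⟪t, x⟫ : ℝ) * Complex.I)) ∂μ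

theorem pow_le_factorial_mul_exp {a : ℝ} (ha : 0 ≤ a) (m : ℕ) :
    a ^ m ≤ m.factorial * Real.exp a := by
  have h := Real.pow_div_factorial_le_exp a ha m
  rwa [div_le_iff₀ (by positivity), mul_comm] at h

omit [CompleteSpace E] [SecondCountableTopology E] in
theorem integrable_dmom {f : E → ℝ} (hfm : AEStronglyMeasurable f μ) {c : ℝ}
    (hf : Integrable (fun x => f x * Real.exp (c * ‖x‖)) μ) (t : E) {h : ℝ} (hh : 0 ≤ h)
    (hth : h * ‖t‖ < c) (m : ℕ) :
    Integrable (fun x => |f x| * (|⟪t, x⟫| ^ m * Real.exp (h * |⟪t, x⟫|))) μ := by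
  obtain ⟨d, hd⟩ : ∃ d : ℝ, d = c - h * ‖t‖ := ⟨_, rfl⟩
  have hd0 : 0 < d := by linarith only [hth, hd]
  -- |⟪t,x⟫|^m ≤ (‖t‖/d)^m * m! * exp (d ‖x‖)
  have key : ∀ x : E, |⟪t, x⟫| ^ m * Real.exp (h * |⟪t, x⟫|)
      ≤ ((‖t‖ / d) ^ m * m.factorial) * Real.exp (c * ‖x‖) := by
    intro x
    have h1 : |⟪t, x⟫| ≤ ‖t‖ * ‖x‖ := abs_real_inner_le_norm t x
    have h2 : |⟪t, x⟫| ^ m ≤ (‖t‖ / d) ^ m * (m.factorial * Real.exp (d * ‖x‖)) := by
      calc |⟪t, x⟫| ^ m ≤ (‖t‖ * ‖x‖) ^ m := pow_le_pow_left₀ (abs_nonneg _) h1 m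
        _ = (‖t‖ / d) ^ m * (d * ‖x‖) ^ m := by
          rw [← mul_pow]
          congr 1
          (clear * - hd0; field_simp)
        _ ≤ _ := by
          gcongr
          exact pow_le_factorial_mul_exp (by (clear * - hd0; positivity)) m
    have h3 : Real.exp (h * |⟪t, x⟫|) ≤ Real.exp (h * ‖t‖ * ‖x‖) := by
      apply Real.exp_le_exp.2
      calc h * |⟪t, x⟫| ≤ h * (‖t‖ * ‖x‖) := by (clear * - h1 hh; gcongr)
        _ = _ := by ring
    calc |⟪t, x⟫| ^ m * Real.exp (h * |⟪t, x⟫|)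
        ≤ ((‖t‖ / d) ^ m * (m.factorial * Real.exp (d * ‖x‖))) * Real.exp (h * ‖t‖ * ‖x‖) := by
          gcongr
      _ = ((‖t‖ / d) ^ m * m.factorial) * (Real.exp (d * ‖x‖) * Real.exp (h * ‖t‖ * ‖x‖)) := by
          ring
      _ = _ := by
          rw [← Real.exp_add, hd]
          congr 2
          ring
  refine ((hf.abs.const_mul ((‖t‖ / d) ^ m * m.factorial)).mono' ?_ ?_)
  · refine (hfm.norm.congr ?_).mul ?_
    · exact Eventually.of_forall fun x => Real.norm_eq_abs _
    · refine Continuous.aestronglyMeasurable ?_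
      fun_prop
  · refine Eventually.of_forall fun x => ?_
    rw [Real.norm_of_nonneg (by (clear * -; positivity)), abs_mul, abs_of_pos (Real.exp_pos _)]
    calc |f x| * (|⟪t, x⟫| ^ m * Real.exp (h * |⟪t, x⟫|))
        ≤ |f x| * (((‖t‖ / d) ^ m * m.factorial) * Real.exp (c * ‖x‖)) :=
          mul_le_mul_of_nonneg_left (key x) (abs_nonneg _)
      _ = _ := by ring

theorem dmom_step {f : E → ℝ} (hfm : AEStronglyMeasurable f μ) {c : ℝ} (hc : 0 < c)
    (hf : Integrable (fun x => f x * Real.exp (c * ‖x‖)) μ) (t : E) {y h : ℝ}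
    (hth : |h| * ‖t‖ < c) (hy : ∀ m, dmom μ f t y m = 0) (m : ℕ) :
    dmom μ f t (y + h) m = 0 := by
  let F : ℕ → E → ℂ := fun j x => ((h : ℂ) * Complex.I) ^ j / (j.factorial : ℂ) *
    ((f x : ℂ) * (((⟪t, x⟫ : ℝ) : ℂ) ^ (m + j) * Complex.exp ((y * ⟪t, x⟫ : ℝ) * Complex.I)))
  have hF : ∀ j, ∫ x, F j x ∂μ = 0 := by
    intro j
    have := hy (m + j)
    unfold dmom at this
    show ∫ x, ((h : ℂ) * Complex.I) ^ j / (j.factorial : ℂ) *
      ((f x : ℂ) * (((⟪t, x⟫ : ℝ) : ℂ) ^ (m + j) *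
        Complex.exp ((y * ⟪t, x⟫ : ℝ) * Complex.I))) ∂μ = 0
    rw [integral_const_mul, this, mul_zero]
  have hsum := hasSum_integral_of_dominated_convergence (F := F) (μ := μ)
    (f := fun x => (f x : ℂ) * (((⟪t, x⟫ : ℝ) : ℂ) ^ m *
      Complex.exp (((y + h) * ⟪t, x⟫ : ℝ) * Complex.I)))
    (fun j x => |f x| * (|⟪t, x⟫| ^ m * ((|h| * |⟪t, x⟫|) ^ j / j.factorial)))
    ?_ ?_ ?_ ?_ ?_
  · simp only [hF] at hsum
    exact (hsum.unique hasSum_zero)
  · intro j
    refine AEStronglyMeasurable.const_mul ?_ _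
    refine (Complex.continuous_ofReal.comp_aestronglyMeasurable hfm).mul ?_
    refine Continuous.aestronglyMeasurable ?_
    (clear * -; fun_prop)
  · intro j
    refine Eventually.of_forall fun x => le_of_eq ?_
    show ‖((h : ℂ) * Complex.I) ^ j / (j.factorial : ℂ) *
      ((f x : ℂ) * (((⟪t, x⟫ : ℝ) : ℂ) ^ (m + j) *
        Complex.exp ((y * ⟪t, x⟫ : ℝ) * Complex.I)))‖ = _
    rw [norm_mul, norm_mul, norm_mul, Complex.norm_exp_ofReal_mul_I, norm_div, norm_pow, norm_mul,
      norm_pow, Complex.norm_real, Complex.norm_real, Complex.norm_real, Complex.norm_I,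
      Complex.norm_natCast, Real.norm_eq_abs, Real.norm_eq_abs, Real.norm_eq_abs]
    ring
  · refine Eventually.of_forall fun x => ?_
    refine Summable.mul_left _ (Summable.mul_left _ ?_)
    exact Real.summable_pow_div_factorial _
  · have e : ∀ x, ∑' j : ℕ, |f x| * (|⟪t, x⟫| ^ m * ((|h| * |⟪t, x⟫|) ^ j / j.factorial))
        = |f x| * (|⟪t, x⟫| ^ m * Real.exp (|h| * |⟪t, x⟫|)) := by
      intro x
      rw [tsum_mul_left, tsum_mul_left, Real.exp_eq_exp_ℝ, NormedSpace.exp_eq_tsum_div]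
    simp only [e]
    exact integrable_dmom hfm hf t (abs_nonneg h) hth m
  · refine Eventually.of_forall fun x => ?_
    have h1 := NormedSpace.expSeries_div_hasSum_exp (𝔸 := ℂ) (((h * ⟪t, x⟫ : ℝ) : ℂ) * Complex.I)
    rw [← Complex.exp_eq_exp_ℂ] at h1
    have h2 := h1.mul_left ((f x : ℂ) * (((⟪t, x⟫ : ℝ) : ℂ) ^ m *
      Complex.exp ((y * ⟪t, x⟫ : ℝ) * Complex.I)))
    have e1 : ∀ j, F j x = (f x : ℂ) * (((⟪t, x⟫ : ℝ) : ℂ) ^ m *
        Complex.exp ((y * ⟪t, x⟫ : ℝ) * Complex.I)) *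
        ((((h * ⟪t, x⟫ : ℝ) : ℂ) * Complex.I) ^ j / j.factorial) := by
      intro j
      show ((h : ℂ) * Complex.I) ^ j / (j.factorial : ℂ) *
        ((f x : ℂ) * (((⟪t, x⟫ : ℝ) : ℂ) ^ (m + j) *
          Complex.exp ((y * ⟪t, x⟫ : ℝ) * Complex.I))) = _
      push_cast
      ring
    have e2 : (f x : ℂ) * (((⟪t, x⟫ : ℝ) : ℂ) ^ m *
        Complex.exp (((y + h) * ⟪t, x⟫ : ℝ) * Complex.I))
        = (f x : ℂ) * (((⟪t, x⟫ : ℝ) : ℂ) ^ m * Complex.exp ((y * ⟪t, x⟫ : ℝ) * Complex.I)) *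
          Complex.exp (((h * ⟪t, x⟫ : ℝ) : ℂ) * Complex.I) := by
      rw [mul_assoc, mul_assoc, ← Complex.exp_add]
      congr 3
      push_cast
      ring
    have e3 : (fun j => F j x) = fun j => (f x : ℂ) * (((⟪t, x⟫ : ℝ) : ℂ) ^ m *
        Complex.exp ((y * ⟪t, x⟫ : ℝ) * Complex.I)) *
        ((((h * ⟪t, x⟫ : ℝ) : ℂ) * Complex.I) ^ j / j.factorial) := funext e1
    rw [e2, e3]
    exact h2

theorem dmom_zero {f : E → ℝ} (hfm : AEStronglyMeasurable f μ) {c : ℝ} (hc : 0 < c)
    (hf : Integrable (fun x => f x * Real.exp (c * ‖x‖)) μ) (t : E)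
    (h0 : ∀ m : ℕ, ∫ x, f x * ⟪t, x⟫ ^ m ∂μ = 0) (y : ℝ) (m : ℕ) : dmom μ f t y m = 0 := by
  -- a step size
  obtain ⟨n, hn⟩ := exists_nat_gt (|y| * ‖t‖ / c)
  have hn0 : 0 < (n : ℝ) := lt_of_le_of_lt (by positivity) hn
  have hstep : ∀ k : ℕ, ∀ m, dmom μ f t (k * (y / n)) m = 0 := by
    intro k
    induction k with
    | zero =>
      intro m
      unfold dmom
      simp only [Nat.cast_zero, zero_mul, Complex.ofReal_zero, Complex.exp_zero, mul_one]
      have := h0 m
      have h2 : ∫ x, (((f x * ⟪t, x⟫ ^ m : ℝ)) : ℂ) ∂μ = 0 := by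
        rw [integral_complex_ofReal, this, Complex.ofReal_zero]
      rw [← h2]
      refine integral_congr_ae (Eventually.of_forall fun x => ?_)
      push_cast
      rfl
    | succ k ih =>
      intro m
      have e : ((k + 1 : ℕ) : ℝ) * (y / n) = k * (y / n) + y / n := by
        push_cast
        ring
      rw [e]
      refine dmom_step hfm hc hf t ?_ ih m
      rw [abs_div, abs_of_pos hn0, div_mul_eq_mul_div, div_lt_iff₀ hn0]
      rw [div_lt_iff₀ hc] at hn
      linarith only [hn]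
  have := hstep n m
  rwa [mul_div_cancel₀ _ hn0.ne'] at this

/-- An integrable function with an exponential moment and vanishing directional moments is
zero. -/
theorem ae_zero_of_moments [FiniteDimensional ℝ E] {f : E → ℝ}
    (hfm : AEStronglyMeasurable f μ) {c : ℝ} (hc : 0 < c)
    (hf : Integrable (fun x => f x * Real.exp (c * ‖x‖)) μ)
    (h0 : ∀ (t : E) (m : ℕ), ∫ x, f x * ⟪t, x⟫ ^ m ∂μ = 0) : f =ᵐ[μ] 0 := by
  have hfi : Integrable f μ := by
    refine hf.mono hfm (Eventually.of_forall fun x => ?_)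
    rw [norm_mul, Real.norm_of_nonneg (Real.exp_pos _).le]
    exact le_mul_of_one_le_right (norm_nonneg _) (Real.one_le_exp (by (clear * - hc; positivity)))
  let μp : Measure E := μ.withDensity fun x => ENNReal.ofReal (f x)
  let μm : Measure E := μ.withDensity fun x => ENNReal.ofReal (-f x)
  have hpf : IsFiniteMeasure μp := isFiniteMeasure_withDensity_ofReal hfi.2
  have hmf : IsFiniteMeasure μm := isFiniteMeasure_withDensity_ofReal hfi.neg.2
  have hchar : ∀ t, charFun μp t = charFun μm t := by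
    intro t
    have h1 := dmom_zero hfm hc hf t (h0 t) 1 0
    unfold dmom at h1
    simp only [pow_zero, one_mul] at h1
    rw [charFun_apply, charFun_apply]
    have e : ∀ g : E → ℝ, Integrable g μ →
        ∫ x, Complex.exp (⟪x, t⟫ * Complex.I) ∂(μ.withDensity fun x => ENNReal.ofReal (g x))
        = ∫ x, ((max (g x) 0 : ℝ) : ℂ) * Complex.exp (⟪x, t⟫ * Complex.I) ∂μ := by
      intro g hg
      rw [integral_withDensity_eq_integral_toReal_smul₀]
      · refine integral_congr_ae (Eventually.of_forall fun x => ?_)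
        simp only [ENNReal.toReal_ofReal', Complex.real_smul]
      · exact hg.1.aemeasurable.ennreal_ofReal
      · exact Eventually.of_forall fun x => ENNReal.ofReal_lt_top
    have e' : ∀ g : E → ℝ, Integrable g μ →
        Integrable (fun x => ((max (g x) 0 : ℝ) : ℂ) * Complex.exp (⟪x, t⟫ * Complex.I)) μ := by
      intro g hg
      refine hg.abs.mono' ?_ ?_
      · refine (Complex.continuous_ofReal.comp_aestronglyMeasurable
          (hg.pos_part.1)).mul ?_
        exact Continuous.aestronglyMeasurable (by fun_prop)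
      · refine Eventually.of_forall fun x => ?_
        rw [norm_mul, Complex.norm_exp_ofReal_mul_I, mul_one, Complex.norm_real,
          Real.norm_of_nonneg (le_max_right _ _)]
        exact max_le (le_abs_self _) (abs_nonneg _)
    rw [e f hfi, e (fun x => -f x) hfi.neg, ← sub_eq_zero, ← integral_sub (e' f hfi)
      (e' (fun x => -f x) hfi.neg)]
    rw [← h1]
    refine integral_congr_ae (Eventually.of_forall fun x => ?_)
    simp only
    rw [← sub_mul, ← Complex.ofReal_sub, real_inner_comm]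
    congr 2
    have := max_zero_sub_eq_self (f x)
    exact this
  have hμ : μp = μm := Measure.ext_of_charFun (funext hchar)
  refine hfi.ae_eq_zero_of_forall_setIntegral_eq_zero fun s hs _ => ?_
  rw [integral_eq_lintegral_pos_part_sub_lintegral_neg_part hfi.integrableOn]
  have h1 : ∫⁻ a in s, ENNReal.ofReal (f a) ∂μ = μp s := by
    rw [withDensity_apply _ hs]
  have h2 : ∫⁻ a in s, ENNReal.ofReal (-f a) ∂μ = μm s := by
    rw [withDensity_apply _ hs]
  rw [h1, h2, hμ, sub_self]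

end

end Vale.Agent.P370
end
end

section

section

/-!
The Sturmian lower bound: for `u` orthogonal (with the weight `1 / ‖x‖`) to `E n`,
`κ (n + 1) ∫ u² / ‖x‖ ≤ ½ ∫ |∇ u|² + κ²/2 ∫ u²`.
-/

namespace Vale.Agent.P370.Hyd

open MeasureTheory Filter Topology MvPolynomial
open scoped NNReal ENNReal RealInnerProductSpace

instance finite_index (N : ℕ) : Finite {d : Fin 3 →₀ ℕ // d.degree < N} := by
  have h : Set.Finite {d : Fin 3 →₀ ℕ | d.degree < N} := by
    refine (Set.finite_Iic (Finsupp.equivFunOnFinite.symm fun _ => N)).subset fun d hd => ?_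
    rw [Set.mem_Iic, Finsupp.le_def]
    intro i
    have h1 : d i ≤ d.degree := Finsupp.le_degree i d
    have h2 : d.degree < N := hd
    simp only [Finsupp.equivFunOnFinite_symm_apply_apply]
    omega
  exact h.to_subtype

/-- the coefficients as coordinates -/
noncomputable def ltCoord (N : ℕ) : lt N →ₗ[ℝ] ({d : Fin 3 →₀ ℕ // d.degree < N} → ℝ) where
  toFun P d := coeff d.1 P.1
  map_add' P Q := by
    funext d
    exact coeff_add _ _ _
  map_smul' c P := by
    funext d
    exact coeff_smul _ _ _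

theorem ltCoord_injective (N : ℕ) : Function.Injective (ltCoord N) := by
  intro P Q h
  refine Subtype.ext (MvPolynomial.ext _ _ fun d => ?_)
  rcases Nat.lt_or_ge d.degree N with hd | hd
  · exact congrFun h ⟨d, hd⟩
  · rw [P.2 d hd, Q.2 d hd]

instance (N : ℕ) : FiniteDimensional ℝ (lt N) :=
  FiniteDimensional.of_injective (ltCoord N) (ltCoord_injective N)

/-- `E N` as a product -/
noncomputable def eEquiv (N : ℕ) : E N ≃ₗ[ℝ] (lt N × lt (N - 1)) where
  toFun z := (⟨z.1.1, z.2.1⟩, ⟨z.1.2, z.2.2⟩)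
  invFun z := ⟨(z.1.1, z.2.1), z.1.2, z.2.2⟩
  left_inv _ := rfl
  right_inv _ := rfl
  map_add' _ _ := rfl
  map_smul' _ _ := rfl

instance (N : ℕ) : FiniteDimensional ℝ (E N) :=
  LinearEquiv.finiteDimensional (eEquiv N).symm

/-- the measure `dx / ‖x‖` -/
noncomputable def μr : Measure R3 := volume.withDensity fun x => ((‖x‖₊⁻¹ : ℝ≥0) : ℝ≥0∞)

theorem measurable_nninv : Measurable fun x : R3 => (‖x‖₊⁻¹ : ℝ≥0) := measurable_nnnorm.inv

theorem integral_μr (f : R3 → ℝ) : ∫ x, f x ∂μr = ∫ x, f x / ‖x‖ := by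
  unfold μr
  rw [integral_withDensity_eq_integral_smul measurable_nninv]
  refine integral_congr_ae (Eventually.of_forall fun x => ?_)
  simp only [NNReal.smul_def, NNReal.coe_inv, coe_nnnorm, smul_eq_mul]
  rw [div_eq_inv_mul]

theorem integrable_μr {f : R3 → ℝ} : Integrable f μr ↔ Integrable fun x => f x / ‖x‖ := by
  unfold μr
  rw [integrable_withDensity_iff_integrable_smul measurable_nninv]
  refine integrable_congr (Eventually.of_forall fun x => ?_)
  simp only [NNReal.smul_def, NNReal.coe_inv, coe_nnnorm, smul_eq_mul]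
  rw [div_eq_inv_mul]

theorem μr_ac : μr ≪ volume := withDensity_absolutelyContinuous _ _

theorem memLp_of_dec {w : R3 → ℝ} (hc : Continuous w) (hd : Dec w) : MemLp w 2 μr := by
  rw [memLp_two_iff_integrable_sq hc.aestronglyMeasurable, integrable_μr]
  have h := (hd.mul hd).integrable_div (hc.mul hc).aestronglyMeasurable
  refine h.congr (Eventually.of_forall fun x => ?_)
  simp only
  rw [sq]

/-- the weighted Hilbert space -/
abbrev Hs : Type := Lp ℝ 2 μr

/-- class of an admissible function -/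
noncomputable def toH (w : R3 → ℝ) (hc : Continuous w) (hd : Dec w) : Hs :=
  (memLp_of_dec hc hd).toLp w

theorem inner_toH {v w : R3 → ℝ} (hv : Continuous v) (hv' : Dec v) (hw : Continuous w)
    (hw' : Dec w) : ⟪toH v hv hv', toH w hw hw'⟫ = ipr v w := by
  rw [L2.inner_def]
  unfold ipr
  rw [← integral_μr]
  refine integral_congr_ae ?_
  filter_upwards [(memLp_of_dec hv hv').coeFn_toLp, (memLp_of_dec hw hw').coeFn_toLp] with x h1 h2
  show ⟪(toH v hv hv') x, (toH w hw hw') x⟫ = v x * w x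
  unfold toH
  rw [h1, h2]
  simp only [RCLike.inner_apply, Real.ringHom_apply, mul_comm]

/-- the map from pairs of polynomials to the Hilbert space -/
noncomputable def Ξ {κ : ℝ} (hκ : 0 < κ) : Pl × Pl →ₗ[ℝ] Hs where
  toFun z := toH (xp κ z.1 z.2) (continuous_xp κ z.1 z.2) (dec_xp hκ z.1 z.2)
  map_add' z z' := by
    unfold toH
    rw [← MemLp.toLp_add]
    refine (MemLp.toLp_eq_toLp_iff _ _).2 (Eventually.of_forall fun x => ?_)
    simp only [xp, Prod.fst_add, Prod.snd_add, ev_add, Pi.add_apply]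
    ring
  map_smul' c z := by
    unfold toH
    rw [RingHom.id_apply, ← MemLp.toLp_const_smul]
    refine (MemLp.toLp_eq_toLp_iff _ _).2 (Eventually.of_forall fun x => ?_)
    simp only [xp, Prod.smul_fst, Prod.smul_snd, Pi.smul_apply, smul_eq_mul, ev, smul_eval]
    ring

theorem inner_Ξ_left {κ : ℝ} (hκ : 0 < κ) (z : Pl × Pl) {w : R3 → ℝ} (hw : Continuous w)
    (hw' : Dec w) : ⟪Ξ hκ z, toH w hw hw'⟫ = ipr (xp κ z.1 z.2) w :=
  inner_toH (continuous_xp κ z.1 z.2) (dec_xp hκ z.1 z.2) hw hw'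

/-- the energy form with parameter `κ` -/
noncomputable def en (κ : ℝ) (v w : R3 → ℝ) (dv dw : Fin 3 → R3 → ℝ) : ℝ :=
  kin dv dw + κ ^ 2 / 2 * ip v w

theorem green' {κ : ℝ} (hκ : 0 < κ) (z : Pl × Pl) {w : R3 → ℝ} {dw : Fin 3 → R3 → ℝ}
    (hw : Adm w dw) : en κ (xp κ z.1 z.2) w (xpd κ z.1 z.2) dw
      = ⟪Ξ hκ (TL κ z), toH w hw.cont hw.dec⟫ := by
  rw [inner_Ξ_left, TL_apply]
  exact green hκ z.1 z.2 hw

theorem kin_comm (dv dw : Fin 3 → R3 → ℝ) : kin dv dw = kin dw dv := by
  unfold kin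
  simp only [mul_comm]

theorem ip_comm (v w : R3 → ℝ) : ip v w = ip w v := by
  unfold ip
  simp only [mul_comm]

theorem ipr_comm (v w : R3 → ℝ) : ipr v w = ipr w v := by
  unfold ipr
  simp only [mul_comm]

theorem en_comm (κ : ℝ) (v w : R3 → ℝ) (dv dw : Fin 3 → R3 → ℝ) :
    en κ v w dv dw = en κ w v dw dv := by
  unfold en
  rw [kin_comm, ip_comm]

theorem TL_symm {κ : ℝ} (hκ : 0 < κ) (z z' : Pl × Pl) :
    ⟪Ξ hκ (TL κ z), Ξ hκ z'⟫ = ⟪Ξ hκ z, Ξ hκ (TL κ z')⟫ := by
  have h1 := green' hκ z (adm_xp hκ z'.1 z'.2)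
  have h2 := green' hκ z' (adm_xp hκ z.1 z.2)
  rw [en_comm] at h2
  calc ⟪Ξ hκ (TL κ z), Ξ hκ z'⟫ = _ := h1.symm
    _ = ⟪Ξ hκ (TL κ z'), Ξ hκ z⟫ := h2
    _ = _ := real_inner_comm _ _

theorem Adm.int_mul {v w : R3 → ℝ} {dv dw : Fin 3 → R3 → ℝ} (hv : Adm v dv) (hw : Adm w dw) :
    Integrable fun x => v x * w x :=
  (hv.dec.mul hw.dec).integrable (hv.cont.mul hw.cont).aestronglyMeasurable

theorem Adm.int_mul_div {v w : R3 → ℝ} {dv dw : Fin 3 → R3 → ℝ} (hv : Adm v dv)
    (hw : Adm w dw) : Integrable fun x => v x * w x / ‖x‖ :=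
  (hv.dec.mul hw.dec).integrable_div (hv.cont.mul hw.cont).aestronglyMeasurable

theorem Adm.int_dmul {v w : R3 → ℝ} {dv dw : Fin 3 → R3 → ℝ} (hv : Adm v dv) (hw : Adm w dw)
    (i : Fin 3) : Integrable fun x => dv i x * dw i x :=
  ((hv.ddec i).mul (hw.ddec i)).integrable ((hv.meas i).mul (hw.meas i)).aestronglyMeasurable

theorem int3 {f g h : R3 → ℝ} (hf : Integrable f) (hg : Integrable g) (hh : Integrable h) :
    ∫ x, (f x - 2 * g x + h x) = (∫ x, f x) - 2 * (∫ x, g x) + ∫ x, h x := by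
  have h1 := integral_add (f := fun x => f x - 2 * g x) (g := h) (hf.sub (hg.const_mul 2)) hh
  have h2 := integral_sub (f := f) (g := fun x => 2 * g x) hf (hg.const_mul 2)
  rw [h1, h2, integral_const_mul]

theorem kin_sub {v w : R3 → ℝ} {dv dw : Fin 3 → R3 → ℝ} (hv : Adm v dv) (hw : Adm w dw) :
    kin (fun i x => dv i x - dw i x) (fun i x => dv i x - dw i x)
      = kin dv dv - 2 * kin dv dw + kin dw dw := by
  unfold kin
  have : ∀ i, ∫ x, (dv i x - dw i x) * (dv i x - dw i x)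
      = (∫ x, dv i x * dv i x) - 2 * (∫ x, dv i x * dw i x) + ∫ x, dw i x * dw i x := by
    intro i
    rw [← int3 (hv.int_dmul hv i) (hv.int_dmul hw i) (hw.int_dmul hw i)]
    refine integral_congr_ae (Eventually.of_forall fun x => ?_)
    simp only
    ring
  simp only [this, Finset.sum_add_distrib, Finset.sum_sub_distrib, ← Finset.mul_sum]
  ring

theorem ip_sub {v w : R3 → ℝ} {dv dw : Fin 3 → R3 → ℝ} (hv : Adm v dv) (hw : Adm w dw) :
    ip (fun x => v x - w x) (fun x => v x - w x) = ip v v - 2 * ip v w + ip w w := by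
  unfold ip
  rw [← int3 (hv.int_mul hv) (hv.int_mul hw) (hw.int_mul hw)]
  refine integral_congr_ae (Eventually.of_forall fun x => ?_)
  simp only
  ring

theorem kin_nonneg (dv : Fin 3 → R3 → ℝ) : 0 ≤ kin dv dv := by
  unfold kin
  refine mul_nonneg (by (clear * -; norm_num)) (Finset.sum_nonneg fun i _ => integral_nonneg fun x => ?_)
  exact mul_self_nonneg _

theorem ip_nonneg (v : R3 → ℝ) : 0 ≤ ip v v := integral_nonneg fun _ => mul_self_nonneg _

theorem en_nonneg (κ : ℝ) (v : R3 → ℝ) (dv : Fin 3 → R3 → ℝ) : 0 ≤ en κ v v dv dv :=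
  add_nonneg (kin_nonneg dv) (mul_nonneg (by positivity) (ip_nonneg v))

theorem en_sub (κ : ℝ) {v w : R3 → ℝ} {dv dw : Fin 3 → R3 → ℝ} (hv : Adm v dv) (hw : Adm w dw) :
    en κ (fun x => v x - w x) (fun x => v x - w x) (fun i x => dv i x - dw i x)
      (fun i x => dv i x - dw i x) = en κ v v dv dv - 2 * en κ v w dv dw + en κ w w dw dw := by
  unfold en
  rw [kin_sub hv hw, ip_sub hv hw]
  ring

/-- density -/
theorem dense_Ξ {κ : ℝ} (hκ : 0 < κ) : (⊤ : Submodule ℝ Hs)
    ≤ (⨆ N : ℕ, (E N).map (Ξ hκ)).topologicalClosure := by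
  rw [top_le_iff, Submodule.topologicalClosure_eq_top_iff, Submodule.eq_bot_iff]
  intro h hh
  have horth : ∀ P : Pl, ∫ x, ev P x * Real.exp (-κ * ‖x‖) * h x ∂μr = 0 := by
    intro P
    obtain ⟨N, hN⟩ : ∃ N, P ∈ lt N := by
      refine ⟨P.totalDegree + 1, fun d hd => ?_⟩
      by_contra hcon
      have h1 := le_totalDegree (mem_support_iff.2 hcon)
      have h2 : (d.sum fun _ e => e) = d.degree := rfl
      omega
    have h1 : Ξ hκ (P, 0) ∈ ⨆ N : ℕ, (E N).map (Ξ hκ) :=
      Submodule.mem_iSup_of_mem N ⟨(P, 0), ⟨hN, Submodule.zero_mem _⟩, rfl⟩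
    have h2 := hh _ h1
    rw [L2.inner_def] at h2
    rw [← h2]
    refine integral_congr_ae ?_
    filter_upwards [(memLp_of_dec (continuous_xp κ P 0) (dec_xp hκ P 0)).coeFn_toLp] with x hx
    show _ = ⟪(toH (xp κ P 0) (continuous_xp κ P 0) (dec_xp hκ P 0)) x, h x⟫
    unfold toH
    rw [hx]
    simp only [ev, xp, map_zero, mul_zero, add_zero]
    simp [mul_comm]
  have hmeas : AEStronglyMeasurable (h : R3 → ℝ) volume :=
    (Lp.stronglyMeasurable h).aestronglyMeasurable
  have hexp : ∀ c : ℝ, 0 < c → MemLp (fun x : R3 => Real.exp (-c * ‖x‖)) 2 μr := fun c hc =>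
    memLp_of_dec (by fun_prop) ⟨1, c, hc, fun x => by rw [abs_of_pos (Real.exp_pos _), one_mul]⟩
  have hz : (fun x => (h x) * Real.exp (-κ * ‖x‖) / ‖x‖) =ᵐ[volume] 0 := by
    refine ae_zero_of_moments (c := κ / 2) ?_ (by positivity) ?_ ?_
    · simp only [div_eq_mul_inv]
      exact (hmeas.mul (by fun_prop : Continuous fun x : R3 =>
        Real.exp (-κ * ‖x‖)).aestronglyMeasurable).mul measurable_norm.inv.aestronglyMeasurable
    · have h1 : Integrable (fun x => h x * Real.exp (-(κ / 2) * ‖x‖)) μr :=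
        (Lp.memLp h).integrable_mul (hexp (κ / 2) (by positivity))
      rw [integrable_μr] at h1
      refine h1.congr (Eventually.of_forall fun x => ?_)
      simp only
      rw [div_mul_eq_mul_div, mul_assoc, ← Real.exp_add]
      congr 3
      ring
    · intro t m
      have h1 := horth ((∑ i, C (t i) * X i) ^ m)
      rw [integral_μr] at h1
      rw [← h1]
      refine integral_congr_ae (Eventually.of_forall fun x => ?_)
      simp only
      have h2 : ev ((∑ i, C (t i) * X i) ^ m) x = ⟪t, x⟫ ^ m := by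
        simp [ev, PiLp.inner_apply, mul_comm]
      rw [h2]
      ring
  have hne : ∀ᵐ x : R3, x ≠ 0 := by
    rw [ae_iff]
    simp
  have h0 : (h : R3 → ℝ) =ᵐ[volume] 0 := by
    filter_upwards [hz, hne] with x hx hx0
    have hr : ‖x‖ ≠ 0 := norm_ne_zero_iff.2 hx0
    simp only [Pi.zero_apply, div_eq_zero_iff, mul_eq_zero, Real.exp_ne_zero, or_false, hr] at hx ⊢
    exact hx
  exact Lp.eq_zero_iff_ae_eq_zero.2 (μr_ac.ae_eq h0)

end Vale.Agent.P370.Hyd
end
end

section

section

/-! The Sturmian lower bound. -/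

namespace Vale.Agent.P370.Hyd

open MeasureTheory Filter Topology MvPolynomial
open scoped NNReal ENNReal RealInnerProductSpace

section

variable {κ : ℝ} (hκ : 0 < κ)

/-- the finite dimensional spaces -/
noncomputable def SN (N : ℕ) : Submodule ℝ Hs := (E N).map (Ξ hκ)

instance (N : ℕ) : FiniteDimensional ℝ (SN hκ N) := by
  unfold SN
  infer_instance

theorem SN_mono : Monotone (SN hκ) := fun _ _ h => Submodule.map_mono (E_mono h)

theorem exists_rep_SN {N : ℕ} {y : Hs} (hy : y ∈ SN hκ N) : ∃ z ∈ E N, Ξ hκ z = y := hy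

/-- on `S (N+1) ⊖ S N` the operator is multiplication by `κ (N + 1)` -/
theorem TL_eigen {N : ℕ} {g : Pl × Pl} (hg : g ∈ E (N + 1))
    (hg' : ∀ y ∈ E N, ⟪Ξ hκ y, Ξ hκ g⟫ = 0) : Ξ hκ (TL κ g) = (κ * (N + 1)) • Ξ hκ g := by
  have h1 := TL_sub_mem κ hg
  have h2 : Ξ hκ (TL κ g - (κ * (N + 1)) • g) = 0 := by
    rw [← inner_self_eq_zero (𝕜 := ℝ)]
    have h3 : ∀ y ∈ E N, ⟪Ξ hκ y, Ξ hκ (TL κ g - (κ * (N + 1)) • g)⟫ = 0 := by
      intro y hy
      rw [map_sub, inner_sub_right, map_smul, inner_smul_right, hg' y hy, mul_zero, sub_zero,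
        ← TL_symm]
      exact hg' _ (TL_mem κ hy)
    exact h3 _ h1
  rw [map_sub, map_smul, sub_eq_zero] at h2
  exact h2

include hκ in
theorem sturm (n : ℕ) {u : R3 → ℝ} {du : Fin 3 → R3 → ℝ} (hu : Adm u du)
    (horth : ∀ z ∈ E n, ipr (xp κ z.1 z.2) u = 0) :
    κ * (n + 1) * ipr u u ≤ en κ u u du du := by
  obtain ⟨U, hU⟩ : ∃ U : Hs, U = toH u hu.cont hu.dec := ⟨_, rfl⟩
  have hpm : ∀ N, (SN hκ N).starProjection U ∈ SN hκ N := fun N =>
    Submodule.starProjection_apply_mem _ _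
  choose z hz hzp using fun N => exists_rep_SN hκ (hpm N)
  have hUo : ∀ N, ∀ y ∈ E N, ⟪Ξ hκ y, U⟫ = ⟪Ξ hκ y, Ξ hκ (z N)⟫ := by
    intro N y hy
    have h1 := Submodule.starProjection_inner_eq_zero (K := SN hκ N) U (Ξ hκ y) ⟨y, hy, rfl⟩
    rw [inner_sub_left, sub_eq_zero] at h1
    rw [hzp, real_inner_comm, h1, real_inner_comm]
  have hp0 : Ξ hκ (z n) = 0 := by
    rw [← inner_self_eq_zero (𝕜 := ℝ), ← hUo n _ (hz n), hU, inner_Ξ_left]
    exact horth _ (hz n)
  -- (a)
  have ha : ∀ N, ⟪Ξ hκ (TL κ (z N)), Ξ hκ (z N)⟫ ≤ en κ u u du du := by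
    intro N
    have h1 := en_nonneg κ (fun x => u x - xp κ (z N).1 (z N).2 x)
      (fun i x => du i x - xpd κ (z N).1 (z N).2 i x)
    rw [en_sub κ hu (adm_xp hκ (z N).1 (z N).2)] at h1
    have h2 := green' hκ (z N) hu
    have h3 := green' hκ (z N) (adm_xp hκ (z N).1 (z N).2)
    rw [← hU, hUo N _ (TL_mem κ (hz N))] at h2
    have h4 : toH (xp κ (z N).1 (z N).2) (adm_xp hκ (z N).1 (z N).2).cont
      (adm_xp hκ (z N).1 (z N).2).dec = Ξ hκ (z N) := rfl
    rw [h4] at h3
    rw [en_comm κ u (xp κ (z N).1 (z N).2), h2, h3] at h1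
    linarith only [h1]
  -- (b)
  have hb : ∀ N, n ≤ N →
      κ * (n + 1) * ‖Ξ hκ (z N)‖ ^ 2 ≤ ⟪Ξ hκ (TL κ (z N)), Ξ hκ (z N)⟫ := by
    intro N hN
    induction N, hN using Nat.le_induction with
    | base => rw [hp0, norm_zero, inner_zero_right]; simp
    | succ N hN ih =>
      obtain ⟨g, hg⟩ : ∃ g, g = z (N + 1) - z N := ⟨_, rfl⟩
      have hgE : g ∈ E (N + 1) := by
        rw [hg]
        exact Submodule.sub_mem _ (hz (N + 1)) (E_mono (Nat.le_succ N) (hz N))
      have hgo : ∀ y ∈ E N, ⟪Ξ hκ y, Ξ hκ g⟫ = 0 := by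
        intro y hy
        rw [hg, map_sub, inner_sub_right, ← hUo N y hy,
          ← hUo (N + 1) y (E_mono (Nat.le_succ N) hy), sub_self]
      have hT := TL_eigen hκ hgE hgo
      have hz1 : z (N + 1) = z N + g := by rw [hg]; abel
      have e1 : ⟪Ξ hκ (TL κ (z (N + 1))), Ξ hκ (z (N + 1))⟫
          = ⟪Ξ hκ (TL κ (z N)), Ξ hκ (z N)⟫ + κ * (N + 1) * ‖Ξ hκ g‖ ^ 2 := by
        rw [hz1, map_add, map_add, map_add, inner_add_left, inner_add_right, inner_add_right,
          hT, inner_smul_left, inner_smul_left, hgo _ (TL_mem κ (hz N)),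
          real_inner_comm (Ξ hκ (z N)) (Ξ hκ g), hgo _ (hz N), real_inner_self_eq_norm_sq]
        simp only [add_zero, Real.ringHom_apply, mul_zero, zero_add]
      have e2 : ‖Ξ hκ (z (N + 1))‖ ^ 2 = ‖Ξ hκ (z N)‖ ^ 2 + ‖Ξ hκ g‖ ^ 2 := by
        rw [hz1, map_add, ← real_inner_self_eq_norm_sq, inner_add_left, inner_add_right,
          inner_add_right, real_inner_comm (Ξ hκ (z N)) (Ξ hκ g), hgo _ (hz N),
          real_inner_self_eq_norm_sq, real_inner_self_eq_norm_sq]
        ring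
      rw [e1, e2]
      have h5 : (n : ℝ) ≤ N := by exact_mod_cast hN
      have h6 : κ * (n + 1) * ‖Ξ hκ g‖ ^ 2 ≤ κ * (N + 1) * ‖Ξ hκ g‖ ^ 2 := by (clear * - hκ h5; gcongr)
      linarith only [ih, h6]
  -- (c)
  have hc : Tendsto (fun N => ‖Ξ hκ (z N)‖ ^ 2) atTop (𝓝 (ipr u u)) := by
    have h1 := Submodule.starProjection_tendsto_self (SN hκ) (SN_mono hκ) U (dense_Ξ hκ)
    have h2 : ‖U‖ ^ 2 = ipr u u := by
      rw [← real_inner_self_eq_norm_sq, hU, inner_toH]
    rw [← h2]
    have h3 := (h1.norm).pow 2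
    refine h3.congr fun N => ?_
    rw [hzp]
  refine le_of_tendsto (hc.const_mul (κ * (n + 1))) ?_
  filter_upwards [eventually_ge_atTop n] with N hN
  exact (hb N hN).trans (ha N)

end

end Vale.Agent.P370.Hyd
end
end

section

section

/-! The quadratic form inequality for the hydrogen atom. -/

namespace Vale.Agent.P370.Hyd

open MeasureTheory Filter Topology MvPolynomial
open scoped NNReal ENNReal RealInnerProductSpace

/-- admissible functions as a vector space -/
noncomputable def AdmS : Submodule ℝ ((R3 → ℝ) × (Fin 3 → R3 → ℝ)) where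
  carrier := {p | Adm p.1 p.2}
  add_mem' h h' := h.add h'
  zero_mem' := Adm.zero
  smul_mem' c _ h := h.const_mul c

/-- the kinetic form -/
noncomputable def kinB : AdmS →ₗ[ℝ] AdmS →ₗ[ℝ] ℝ :=
  LinearMap.mk₂ ℝ (fun v w => kin v.1.2 w.1.2)
    (fun v v' w => by
      unfold kin
      rw [← mul_add, ← Finset.sum_add_distrib]
      congr 1
      refine Finset.sum_congr rfl fun i _ => ?_
      rw [← integral_add (v.2.int_dmul w.2 i) (v'.2.int_dmul w.2 i)]
      exact integral_congr_ae (Eventually.of_forall fun x => add_mul _ _ _))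
    (fun c v w => by
      have hs : ∀ i, ∫ x, (c • v).1.2 i x * w.1.2 i x = c * ∫ x, v.1.2 i x * w.1.2 i x := by
        intro i
        rw [← integral_const_mul]
        exact integral_congr_ae (Eventually.of_forall fun x => mul_assoc _ _ _)
      unfold kin
      rw [smul_eq_mul, Finset.sum_congr rfl fun i _ => hs i, ← Finset.mul_sum, mul_left_comm])
    (fun v w w' => by
      unfold kin
      rw [← mul_add, ← Finset.sum_add_distrib]
      congr 1
      refine Finset.sum_congr rfl fun i _ => ?_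
      rw [← integral_add (v.2.int_dmul w.2 i) (v.2.int_dmul w'.2 i)]
      exact integral_congr_ae (Eventually.of_forall fun x => mul_add _ _ _))
    (fun c v w => by
      have hs : ∀ i, ∫ x, v.1.2 i x * (c • w).1.2 i x = c * ∫ x, v.1.2 i x * w.1.2 i x := by
        intro i
        rw [← integral_const_mul]
        exact integral_congr_ae (Eventually.of_forall fun x => mul_left_comm _ _ _)
      unfold kin
      rw [smul_eq_mul, Finset.sum_congr rfl fun i _ => hs i, ← Finset.mul_sum, mul_left_comm])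

/-- the L² form -/
noncomputable def ipB : AdmS →ₗ[ℝ] AdmS →ₗ[ℝ] ℝ :=
  LinearMap.mk₂ ℝ (fun v w => ip v.1.1 w.1.1)
    (fun v v' w => by
      unfold ip
      rw [← integral_add (v.2.int_mul w.2) (v'.2.int_mul w.2)]
      exact integral_congr_ae (Eventually.of_forall fun x => add_mul _ _ _))
    (fun c v w => by
      unfold ip
      rw [smul_eq_mul, ← integral_const_mul]
      exact integral_congr_ae (Eventually.of_forall fun x => mul_assoc _ _ _))
    (fun v w w' => by
      unfold ip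
      rw [← integral_add (v.2.int_mul w.2) (v.2.int_mul w'.2)]
      exact integral_congr_ae (Eventually.of_forall fun x => mul_add _ _ _))
    (fun c v w => by
      unfold ip
      rw [smul_eq_mul, ← integral_const_mul]
      exact integral_congr_ae (Eventually.of_forall fun x => mul_left_comm _ _ _))

/-- the Coulomb form -/
noncomputable def iprB : AdmS →ₗ[ℝ] AdmS →ₗ[ℝ] ℝ :=
  LinearMap.mk₂ ℝ (fun v w => ipr v.1.1 w.1.1)
    (fun v v' w => by
      unfold ipr
      rw [← integral_add (v.2.int_mul_div w.2) (v'.2.int_mul_div w.2)]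
      refine integral_congr_ae (Eventually.of_forall fun x => ?_)
      show (v.1.1 x + v'.1.1 x) * w.1.1 x / ‖x‖ = _
      rw [add_mul, add_div])
    (fun c v w => by
      unfold ipr
      rw [smul_eq_mul, ← integral_const_mul]
      refine integral_congr_ae (Eventually.of_forall fun x => ?_)
      show (c * v.1.1 x) * w.1.1 x / ‖x‖ = c * (v.1.1 x * w.1.1 x / ‖x‖)
      ring)
    (fun v w w' => by
      unfold ipr
      rw [← integral_add (v.2.int_mul_div w.2) (v.2.int_mul_div w'.2)]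
      refine integral_congr_ae (Eventually.of_forall fun x => ?_)
      show v.1.1 x * (w.1.1 x + w'.1.1 x) / ‖x‖ = _
      rw [mul_add, add_div])
    (fun c v w => by
      unfold ipr
      rw [smul_eq_mul, ← integral_const_mul]
      refine integral_congr_ae (Eventually.of_forall fun x => ?_)
      show v.1.1 x * (c * w.1.1 x) / ‖x‖ = c * (v.1.1 x * w.1.1 x / ‖x‖)
      ring)

theorem kinB_comm (v w : AdmS) : kinB v w = kinB w v := kin_comm _ _

theorem ipB_comm (v w : AdmS) : ipB v w = ipB w v := ip_comm _ _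

theorem iprB_comm (v w : AdmS) : iprB v w = iprB w v := ipr_comm _ _

/-- the classes in the weighted space -/
noncomputable def toHL : AdmS →ₗ[ℝ] Hs where
  toFun v := toH v.1.1 v.2.cont v.2.dec
  map_add' v w := by
    unfold toH
    rw [← MemLp.toLp_add]
    exact (MemLp.toLp_eq_toLp_iff _ _).2 (Eventually.of_forall fun x => rfl)
  map_smul' c v := by
    unfold toH
    rw [RingHom.id_apply, ← MemLp.toLp_const_smul]
    exact (MemLp.toLp_eq_toLp_iff _ _).2 (Eventually.of_forall fun x => rfl)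

/-- the form `H - e` with `e = -κ² / 2` -/
noncomputable def QB (κ : ℝ) : AdmS →ₗ[ℝ] AdmS →ₗ[ℝ] ℝ := kinB + (κ ^ 2 / 2) • ipB - iprB

theorem QB_apply (κ : ℝ) (v w : AdmS) :
    QB κ v w = kinB v w + κ ^ 2 / 2 * ipB v w - iprB v w := rfl

theorem QB_comm (κ : ℝ) (v w : AdmS) : QB κ v w = QB κ w v := by
  rw [QB_apply, QB_apply, kinB_comm, ipB_comm, iprB_comm]

theorem QB_nonneg (n : ℕ) {u : AdmS}
    (horth : ∀ z ∈ E n, ⟪Ξ (κ := 1 / ((n : ℝ) + 1)) (by positivity) z, toHL u⟫ = 0) :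
    0 ≤ QB (1 / ((n : ℝ) + 1)) u u := by
  have hκ : (0 : ℝ) < 1 / ((n : ℝ) + 1) := by positivity
  have h := sturm hκ n u.2 fun z hz => by
    have := horth z hz
    rwa [show toHL u = toH u.1.1 u.2.cont u.2.dec from rfl, inner_Ξ_left] at this
  have h1 : 1 / ((n : ℝ) + 1) * (n + 1) = 1 := by
    field_simp
  rw [h1, one_mul] at h
  have h2 : QB (1 / ((n : ℝ) + 1)) u u
      = en (1 / ((n : ℝ) + 1)) u.1.1 u.1.1 u.1.2 u.1.2 - ipr u.1.1 u.1.1 := rfl
  rw [h2]
  linarith only [h]

/-- **Form inequality for the hydrogen atom.** -/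
theorem hyd_lower (n : ℕ) {ι : Type*} [Fintype ι] [DecidableEq ι] (φ : ι → AdmS) (e : ι → ℝ)
    (hEig : ∀ a w, kinB (φ a) w - iprB (φ a) w = e a * ipB (φ a) w)
    (horth : ∀ a b, ipB (φ a) (φ b) = if a = b then 1 else 0)
    (he : ∀ a, e a < -(1 / (2 * ((n : ℝ) + 1) ^ 2)))
    (hcard : Module.finrank ℝ (E n) ≤ Fintype.card ι) (u : AdmS) :
    ∑ a, (e a - -(1 / (2 * ((n : ℝ) + 1) ^ 2))) * (ipB (φ a) u) ^ 2
      + -(1 / (2 * ((n : ℝ) + 1) ^ 2)) * ipB u u ≤ kinB u u - iprB u u := by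
  have hκ : (0 : ℝ) < 1 / ((n : ℝ) + 1) := by positivity
  obtain ⟨e', he'⟩ : ∃ e' : ℝ, e' = -(1 / (2 * ((n : ℝ) + 1) ^ 2)) := ⟨_, rfl⟩
  have hee : (1 / ((n : ℝ) + 1)) ^ 2 / 2 = -e' := by
    rw [he']
    field_simp
  rw [← he'] at he ⊢
  set κ : ℝ := 1 / ((n : ℝ) + 1) with hκd
  -- the form on eigenfunctions
  have hQφ : ∀ a w, QB κ (φ a) w = (e a - e') * ipB (φ a) w := by
    intro a w
    rw [QB_apply, hee]
    have := hEig a w
    linarith only [this]
  -- the span of the eigenfunctions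
  let F : (ι → ℝ) →ₗ[ℝ] AdmS :=
    { toFun := fun c => ∑ a, c a • φ a
      map_add' := fun c d => by
        simp only [Pi.add_apply, add_smul, Finset.sum_add_distrib]
      map_smul' := fun c d => by
        simp only [Pi.smul_apply, smul_eq_mul, RingHom.id_apply, Finset.smul_sum, smul_smul] }
  have hF : ∀ c, F c = ∑ a, c a • φ a := fun c => rfl
  have hQF : ∀ c w, QB κ (F c) w = ∑ a, c a * ((e a - e') * ipB (φ a) w) := by
    intro c w
    rw [hF, map_sum, LinearMap.sum_apply]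
    refine Finset.sum_congr rfl fun a _ => ?_
    rw [map_smul, LinearMap.smul_apply, smul_eq_mul, hQφ]
  have hipF : ∀ a c, ipB (φ a) (F c) = c a := by
    intro a c
    rw [hF, map_sum]
    rw [Finset.sum_eq_single a]
    · rw [map_smul, horth, if_pos rfl, smul_eq_mul, mul_one]
    · intro b _ hb
      rw [map_smul, horth, if_neg hb.symm, smul_zero]
    · intro h
      exact absurd (Finset.mem_univ a) h
  have hQFF : ∀ c, QB κ (F c) (F c) = ∑ a, (e a - e') * c a ^ 2 := by
    intro c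
    rw [hQF]
    refine Finset.sum_congr rfl fun a _ => ?_
    rw [hipF]
    ring
  have hQFneg : ∀ c, QB κ (F c) (F c) ≤ 0 := by
    intro c
    rw [hQFF]
    refine Finset.sum_nonpos fun a _ => ?_
    exact mul_nonpos_of_nonpos_of_nonneg (by linarith only [he a]) (sq_nonneg _)
  -- projection
  let L : (ι → ℝ) →ₗ[ℝ] SN hκ n :=
    ((SN hκ n).orthogonalProjectionOnto : Hs →ₗ[ℝ] SN hκ n).comp (toHL.comp F)
  have hproj : ∀ y : Hs, (SN hκ n).orthogonalProjectionOnto y = 0 →
      ∀ z ∈ E n, ⟪Ξ hκ z, y⟫ = 0 := by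
    intro y hy z hz
    have h1 := Submodule.starProjection_inner_eq_zero (K := SN hκ n) y (Ξ hκ z) ⟨z, hz, rfl⟩
    have h2 : (SN hκ n).starProjection y = 0 := by
      rw [Submodule.starProjection_apply, hy, ZeroMemClass.coe_zero]
    rw [h2, sub_zero] at h1
    rw [real_inner_comm]
    exact h1
  have hLinj : Function.Injective L := by
    rw [injective_iff_map_eq_zero]
    intro c hc
    have h1 : 0 ≤ QB κ (F c) (F c) := QB_nonneg n (hproj _ hc)
    have h2 : ∑ a, (e a - e') * c a ^ 2 = 0 := by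
      rw [← hQFF]
      exact le_antisymm (hQFneg c) h1
    have h3 : ∑ a, (e' - e a) * c a ^ 2 = 0 := by
      rw [← neg_eq_zero, ← Finset.sum_neg_distrib, ← h2]
      exact Finset.sum_congr rfl fun a _ => by ring
    rw [Finset.sum_eq_zero_iff_of_nonneg fun a _ =>
      mul_nonneg (by linarith only [he a]) (sq_nonneg _)] at h3
    funext a
    have h4 := h3 a (Finset.mem_univ a)
    have h5 : e' - e a ≠ 0 := by
      have := he a
      intro h
      linarith only [this, h]
    simpa [h5] using h4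
  have hfr : Module.finrank ℝ (ι → ℝ) = Module.finrank ℝ (SN hκ n) := by
    refine le_antisymm (LinearMap.finrank_le_finrank_of_injective hLinj) ?_
    rw [Module.finrank_fintype_fun_eq_card]
    refine le_trans ?_ hcard
    exact Submodule.finrank_map_le (Ξ hκ) (E n)
  have hLsurj : Function.Surjective L :=
    (LinearMap.injective_iff_surjective_of_finrank_eq_finrank hfr).1 hLinj
  -- the decomposition
  obtain ⟨d, hd⟩ : ∃ d : ι → ℝ, ∀ a, d a = ipB (φ a) u := ⟨fun a => ipB (φ a) u, fun _ => rfl⟩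
  obtain ⟨u', hu'⟩ : ∃ u', u' = u - F d := ⟨_, rfl⟩
  have hu'φ : ∀ a, ipB (φ a) u' = 0 := by
    intro a
    rw [hu', map_sub, hipF, hd, sub_self]
  obtain ⟨c, hc⟩ := hLsurj ((SN hκ n).orthogonalProjectionOnto (toHL u'))
  have h0 : (SN hκ n).orthogonalProjectionOnto (toHL (u' - F c)) = 0 := by
    rw [map_sub, map_sub, sub_eq_zero]
    exact hc.symm
  have h1 : 0 ≤ QB κ (u' - F c) (u' - F c) := QB_nonneg n (hproj _ h0)
  have h2 : QB κ (F c) u' = 0 := by
    rw [hQF]
    refine Finset.sum_eq_zero fun a _ => ?_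
    rw [hu'φ, mul_zero, mul_zero]
  have h3 : QB κ (u' - F c) (u' - F c) = QB κ u' u' + QB κ (F c) (F c) := by
    have e1 : QB κ (u' - F c) = QB κ u' - QB κ (F c) := map_sub _ _ _
    rw [e1, LinearMap.sub_apply, map_sub (QB κ u'), map_sub (QB κ (F c)), QB_comm κ u' (F c), h2]
    ring
  have h4 : 0 ≤ QB κ u' u' := by
    have := hQFneg c
    linarith only [h1, h3, this]
  have h5 : QB κ (F d) u' = 0 := by
    rw [hQF]
    refine Finset.sum_eq_zero fun a _ => ?_
    rw [hu'φ, mul_zero, mul_zero]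
  have h6 : u = u' + F d := by
    rw [hu']
    abel
  have h7 : QB κ u u = QB κ u' u' + QB κ (F d) (F d) := by
    have e1 : QB κ (u' + F d) = QB κ u' + QB κ (F d) := map_add _ _ _
    conv_lhs => rw [h6]
    rw [e1, LinearMap.add_apply, map_add (QB κ u'), map_add (QB κ (F d)), QB_comm κ u' (F d), h5]
    ring
  rw [hQFF] at h7
  simp only [hd] at h7
  rw [QB_apply, hee] at h7
  linarith only [h4, h7]

end Vale.Agent.P370.Hyd
end
end

section

section

/-! Dimension counts. -/

namespace Vale.Agent.P370.Hyd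

open MeasureTheory Filter Topology MvPolynomial

/-- exponents of degree `< N` -/
noncomputable def expo (N : ℕ) : Finset (Fin 3 →₀ ℕ) :=
  (Finset.range N).biUnion fun k => (Finset.univ : Finset (Fin 3)).finsuppAntidiag k

theorem mem_antidiag {k : ℕ} {d : Fin 3 →₀ ℕ} :
    d ∈ (Finset.univ : Finset (Fin 3)).finsuppAntidiag k ↔ d.degree = k := by
  rw [Finset.mem_finsuppAntidiag, Finsupp.degree_eq_sum]
  simp only [Finset.subset_univ, and_true]

theorem mem_expo {N : ℕ} {d : Fin 3 →₀ ℕ} : d ∈ expo N ↔ d.degree < N := by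
  unfold expo
  simp only [Finset.mem_biUnion, Finset.mem_range, mem_antidiag]
  constructor
  · rintro ⟨k, hk, rfl⟩
    exact hk
  · intro h
    exact ⟨_, h, rfl⟩

theorem card_antidiag (k : ℕ) :
    ((Finset.univ : Finset (Fin 3)).finsuppAntidiag k).card = (k + 2).choose 2 := by
  rw [Finset.card_finsuppAntidiag_nat_eq_choose, Finset.card_univ, Fintype.card_fin]
  have : 3 + k - 1 = k + 2 := by omega
  rw [this, ← Nat.choose_symm_add]

theorem card_expo (N : ℕ) : (expo N).card = ∑ k ∈ Finset.range N, (k + 2).choose 2 := by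
  unfold expo
  rw [Finset.card_biUnion]
  · exact Finset.sum_congr rfl fun k _ => card_antidiag k
  · intro k _ m _ hkm
    show Disjoint _ _
    rw [Finset.disjoint_left]
    intro d hd hd'
    rw [mem_antidiag] at hd hd'
    omega

theorem ltCoord_surjective (N : ℕ) : Function.Surjective (ltCoord N) := by
  intro f
  classical
  have hfin : Finite {d : Fin 3 →₀ ℕ // d.degree < N} := finite_index N
  have := Fintype.ofFinite {d : Fin 3 →₀ ℕ // d.degree < N}
  refine ⟨⟨∑ d : {d : Fin 3 →₀ ℕ // d.degree < N}, monomial d.1 (f d), ?_⟩, ?_⟩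
  · exact Submodule.sum_mem _ fun d _ => monomial_mem_lt d.2 _
  · funext d
    show coeff d.1 (∑ d : {d : Fin 3 →₀ ℕ // d.degree < N}, monomial d.1 (f d)) = f d
    rw [coeff_sum]
    simp only [coeff_monomial]
    rw [Finset.sum_eq_single d]
    · simp
    · intro b _ hb
      rw [if_neg]
      intro h
      exact hb (Subtype.ext h)
    · intro h
      exact absurd (Finset.mem_univ d) h

theorem finrank_lt (N : ℕ) : Module.finrank ℝ (lt N) = ∑ k ∈ Finset.range N, (k + 2).choose 2 := by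
  classical
  have hfin : Finite {d : Fin 3 →₀ ℕ // d.degree < N} := finite_index N
  have := Fintype.ofFinite {d : Fin 3 →₀ ℕ // d.degree < N}
  have e := LinearEquiv.ofBijective (ltCoord N) ⟨ltCoord_injective N, ltCoord_surjective N⟩
  rw [e.finrank_eq, Module.finrank_fintype_fun_eq_card, ← card_expo]
  exact Fintype.card_of_subtype _ fun d => mem_expo

theorem finrank_E (n : ℕ) : Module.finrank ℝ (E n) = ∑ k ∈ Finset.range n, (k + 1) ^ 2 := by
  rw [(eEquiv n).finrank_eq, Module.finrank_prod, finrank_lt, finrank_lt]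
  induction n with
  | zero => simp only [Finset.range_zero, Finset.sum_empty, zero_tsub, add_zero]
  | succ n ih =>
    rw [Finset.sum_range_succ _ n, Finset.sum_range_succ (fun k => (k + 1) ^ 2) n, ← ih,
      Nat.add_sub_cancel]
    rcases Nat.eq_zero_or_pos n with h | h
    · subst h
      simp only [Finset.range_zero, Finset.sum_empty, zero_add, Nat.choose_self, add_zero, zero_tsub, one_pow]
    · obtain ⟨m, rfl⟩ : ∃ m, n = m + 1 := ⟨n - 1, by omega⟩
      rw [Nat.add_sub_cancel, Finset.sum_range_succ _ m]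
      have h1 : (m + 1 + 2).choose 2 + (m + 2).choose 2 = (m + 1 + 1) ^ 2 := by
        rw [Nat.choose_two_right, Nat.choose_two_right]
        have e1 : m + 1 + 2 - 1 = m + 2 := by omega
        have e2 : m + 2 - 1 = m + 1 := by omega
        rw [e1, e2]
        have h3 : 2 ∣ (m + 1 + 2) * (m + 2) := by
          have := Nat.even_mul_succ_self (m + 2)
          rw [mul_comm]
          exact this.two_dvd
        have h4 : 2 ∣ (m + 2) * (m + 1) := by
          have := Nat.even_mul_succ_self (m + 1)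
          rw [mul_comm]
          exact this.two_dvd
        obtain ⟨a, ha⟩ := h3
        obtain ⟨b, hb⟩ := h4
        rw [ha, hb, Nat.mul_div_cancel_left _ two_pos, Nat.mul_div_cancel_left _ two_pos]
        (clear * - ha hb; nlinarith)
      omega

/-- homogeneous polynomials of degree `l` -/
abbrev Hom (l : ℕ) : Submodule ℝ Pl := homogeneousSubmodule (Fin 3) ℝ l

/-- harmonic homogeneous polynomials -/
noncomputable def Harm (l : ℕ) : Submodule ℝ Pl := Hom l ⊓ LinearMap.ker lapL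

theorem mem_Harm {l : ℕ} {P : Pl} : P ∈ Harm l ↔ P.IsHomogeneous l ∧ lapP P = 0 := by
  unfold Harm
  rw [Submodule.mem_inf, mem_homogeneousSubmodule, LinearMap.mem_ker, lapL_apply]

theorem Hom_le_lt (l : ℕ) : Hom l ≤ lt (l + 1) := fun _ hP =>
  isHomogeneous_mem_lt ((mem_homogeneousSubmodule _ _).1 hP) (Nat.lt_succ_self l)

instance (l : ℕ) : FiniteDimensional ℝ (Hom l) :=
  Submodule.finiteDimensional_of_le (Hom_le_lt l)

/-- the coefficients as coordinates -/
noncomputable def homCoord (l : ℕ) :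
    Hom l →ₗ[ℝ] ((Finset.univ : Finset (Fin 3)).finsuppAntidiag l → ℝ) where
  toFun P d := coeff d.1 P.1
  map_add' P Q := by
    funext d
    exact coeff_add _ _ _
  map_smul' c P := by
    funext d
    exact coeff_smul _ _ _

theorem homCoord_injective (l : ℕ) : Function.Injective (homCoord l) := by
  intro P Q h
  refine Subtype.ext (MvPolynomial.ext _ _ fun d => ?_)
  by_cases hd : d.degree = l
  · exact congrFun h ⟨d, mem_antidiag.2 hd⟩
  · have h1 := (mem_homogeneousSubmodule _ _).1 P.2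
    have h2 := (mem_homogeneousSubmodule _ _).1 Q.2
    rw [h1.coeff_eq_zero hd, h2.coeff_eq_zero hd]

theorem homCoord_surjective (l : ℕ) : Function.Surjective (homCoord l) := by
  intro f
  classical
  refine ⟨⟨∑ d : (Finset.univ : Finset (Fin 3)).finsuppAntidiag l, monomial d.1 (f d), ?_⟩, ?_⟩
  · exact Submodule.sum_mem _ fun d _ => (mem_homogeneousSubmodule _ _).2
      (isHomogeneous_monomial _ (mem_antidiag.1 d.2))
  · funext d
    show coeff d.1 (∑ d : (Finset.univ : Finset (Fin 3)).finsuppAntidiag l,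
      monomial d.1 (f d)) = f d
    rw [coeff_sum]
    simp only [coeff_monomial]
    rw [Finset.sum_eq_single d]
    · simp
    · intro b _ hb
      rw [if_neg]
      intro h
      exact hb (Subtype.ext h)
    · intro h
      exact absurd (Finset.mem_univ d) h

theorem finrank_Hom (l : ℕ) : Module.finrank ℝ (Hom l) = (l + 2).choose 2 := by
  have e := LinearEquiv.ofBijective (homCoord l) ⟨homCoord_injective l, homCoord_surjective l⟩
  rw [e.finrank_eq, Module.finrank_fintype_fun_eq_card, Fintype.card_coe, card_antidiag]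

theorem lapP_isHomogeneous {l : ℕ} {P : Pl} (hP : P.IsHomogeneous (l + 2)) :
    (lapP P).IsHomogeneous l :=
  IsHomogeneous.sum _ _ _ fun i _ => (hP.pderiv (i := i)).pderiv

instance (l : ℕ) : FiniteDimensional ℝ (Harm l) :=
  Submodule.finiteDimensional_of_le (inf_le_left : Harm l ≤ Hom l)

theorem finrank_Harm_ge (l : ℕ) : 2 * l + 1 ≤ Module.finrank ℝ (Harm l) := by
  rcases Nat.lt_or_ge l 2 with hl | hl
  · have h1 : Harm l = Hom l := by
      refine inf_eq_left.2 fun P hP => ?_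
      rw [LinearMap.mem_ker, lapL_apply]
      rcases Nat.lt_or_ge 0 l with h0 | h0
      · have : l = 1 := by omega
        subst this
        unfold lapP
        refine Finset.sum_eq_zero fun i _ => ?_
        have h2 : pderiv i P ∈ lt 1 := pderiv_mem_lt i (Hom_le_lt 1 hP)
        exact pderiv_lt_zero i h2
      · have : l = 0 := by (clear * - hl h0; omega)
        subst this
        exact lapP_lt_one (Hom_le_lt 0 hP)
    rw [h1, finrank_Hom]
    interval_cases l <;> decide
  · obtain ⟨m, rfl⟩ : ∃ m, l = m + 2 := ⟨l - 2, by (clear * - hl; omega)⟩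
    let f : Hom (m + 2) →ₗ[ℝ] Hom m := (lapL.domRestrict (Hom (m + 2))).codRestrict (Hom m)
      (fun P => by
        rw [LinearMap.domRestrict_apply, lapL_apply]
        exact (mem_homogeneousSubmodule _ _).2
          (lapP_isHomogeneous ((mem_homogeneousSubmodule _ _).1 P.2)))
    have h1 := LinearMap.finrank_range_add_finrank_ker f
    have h2 : Module.finrank ℝ (LinearMap.range f) ≤ Module.finrank ℝ (Hom m) :=
      Submodule.finrank_le _
    have h3 : Module.finrank ℝ (LinearMap.ker f) = Module.finrank ℝ (Harm (m + 2)) := by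
      have e : LinearMap.ker f = (Harm (m + 2)).comap (Hom (m + 2)).subtype := by
        ext P
        rw [LinearMap.mem_ker, Submodule.mem_comap, Submodule.subtype_apply, mem_Harm,
          ← lapL_apply]
        constructor
        · intro h
          exact ⟨(mem_homogeneousSubmodule _ _).1 P.2, congrArg Subtype.val h⟩
        · intro h
          exact Subtype.ext h.2
      rw [e]
      exact (Submodule.comapSubtypeEquivOfLe (inf_le_left : Harm (m + 2) ≤ Hom (m + 2))).finrank_eq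
    rw [finrank_Hom] at h1 h2
    have h4 : (m + 2 + 2).choose 2 = (m + 2).choose 2 + (2 * (m + 2) + 1) := by
      rw [Nat.choose_succ_succ' (m + 3) 1, Nat.choose_succ_succ' (m + 2) 1]
      simp only [Nat.choose_one_right, Nat.reduceAdd]
      ring
    omega

end Vale.Agent.P370.Hyd
end
end

section

section

/-! The subshells: `h(x) L(‖x‖) exp(-‖x‖/n)` with `h` harmonic. -/

namespace Vale.Agent.P370.Hyd

open MeasureTheory Filter Topology MvPolynomial

theorem pderiv_nsq (i : Fin 3) : pderiv i nsq = C 2 * X i := by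
  have h2 : (C 2 : Pl) = 1 + 1 := by
    rw [← C_1, ← C_add]
    norm_num
  unfold nsq
  rw [map_sum, Finset.sum_eq_single i]
  · rw [pow_two, Derivation.leibniz, pderiv_X_self, h2, smul_eq_mul]
    ring
  · intro j _ hj
    rw [pow_two, Derivation.leibniz, pderiv_X_of_ne hj]
    simp
  · intro h
    exact absurd (Finset.mem_univ i) h

theorem lapP_nsq_mul {d : ℕ} {f : Pl} (hf : f.IsHomogeneous d) :
    lapP (nsq * f) = C (4 * (d : ℝ) + 6) * f + nsq * lapP f := by
  have h2 : (C 2 : Pl) = 1 + 1 := by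
    rw [← C_1, ← C_add]
    (clear * -; norm_num)
  have he : X 0 * pderiv 0 f + X 1 * pderiv 1 f + X 2 * pderiv 2 f = C (d : ℝ) * f := by
    have h := hf.sum_X_mul_pderiv
    rw [Fin.sum_univ_three] at h
    rw [h, nsmul_eq_mul]
    rw [show (C (d : ℝ) : Pl) = (d : Pl) from map_natCast C d]
  have hk : ∀ i : Fin 3, pderiv i (pderiv i (nsq * f))
      = C 2 * f + C 4 * (X i * pderiv i f) + nsq * pderiv i (pderiv i f) := by
    intro i
    have h4 : (C 4 : Pl) = C 2 + C 2 := by
      rw [← C_add]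
      norm_num
    rw [Derivation.leibniz, pderiv_nsq, smul_eq_mul, smul_eq_mul, map_add, Derivation.leibniz,
      Derivation.leibniz, pderiv_nsq, Derivation.leibniz, pderiv_C, pderiv_X_self, h4]
    simp only [smul_eq_mul]
    ring
  unfold lapP
  rw [Fin.sum_univ_three, Fin.sum_univ_three, hk, hk, hk]
  have h6 : (C (4 * (d : ℝ) + 6) : Pl) = C 4 * C (d : ℝ) + (C 2 + C 2 + C 2) := by
    rw [← C_mul, ← C_add, ← C_add, ← C_add]
    congr 1
    ring
  rw [h6, add_mul, mul_assoc (C 4), ← he]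
  ring

theorem isHomogeneous_nsq : nsq.IsHomogeneous 2 :=
  IsHomogeneous.sum _ _ _ fun i _ => by
    have := (isHomogeneous_X ℝ i).pow 2
    rwa [one_mul] at this

theorem isHomogeneous_nsq_pow_mul {l : ℕ} {h : Pl} (hh : h.IsHomogeneous l) (i : ℕ) :
    (nsq ^ i * h).IsHomogeneous (2 * i + l) :=
  (isHomogeneous_nsq.pow i).mul hh

theorem lapP_nsq_pow {l : ℕ} {h : Pl} (hh : h ∈ Harm l) (i : ℕ) :
    lapP (nsq ^ i * h) = C (2 * (i : ℝ) * (2 * i + 2 * l + 1)) * (nsq ^ (i - 1) * h) := by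
  obtain ⟨h1, h2⟩ := mem_Harm.1 hh
  induction i with
  | zero =>
    rw [pow_zero, one_mul, h2]
    simp
  | succ i ih =>
    rw [pow_succ', mul_assoc, lapP_nsq_mul (isHomogeneous_nsq_pow_mul h1 i), ih,
      Nat.add_sub_cancel]
    rcases Nat.eq_zero_or_pos i with h0 | h0
    · subst h0
      simp only [Nat.cast_zero, mul_zero, zero_mul, C_0, add_zero, Nat.cast_add, Nat.cast_one]
      congr 2
      push_cast
      ring
    · obtain ⟨j, rfl⟩ : ∃ j, i = j + 1 := ⟨i - 1, by (clear * - h0; omega)⟩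
      rw [Nat.add_sub_cancel, mul_left_comm nsq (C _), ← mul_assoc nsq (nsq ^ j) h, ← pow_succ',
        ← add_mul, ← C_add]
      congr 2
      push_cast
      ring

/-- the pair representing `‖x‖ ^ j h` -/
noncomputable def pw (h : Pl) (j : ℕ) : Pl × Pl :=
  if Even j then (nsq ^ (j / 2) * h, 0) else (0, nsq ^ (j / 2) * h)

theorem xp_pw (κ : ℝ) (h : Pl) (j : ℕ) (x : R3) :
    xp κ (pw h j).1 (pw h j).2 x = ‖x‖ ^ j * ev h x * Real.exp (-κ * ‖x‖) := by
  have hn := ev_nsq x
  unfold ev at hn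
  unfold pw xp
  by_cases hj : Even j
  · rw [if_pos hj]
    obtain ⟨i, rfl⟩ := hj
    have : (i + i) / 2 = i := by (clear * -; omega)
    rw [this]
    simp only [ev, map_mul, map_pow, map_zero, mul_zero, add_zero, hn]
    rw [← pow_mul, two_mul]
  · rw [if_neg hj]
    obtain ⟨i, rfl⟩ := Nat.not_even_iff_odd.1 hj
    have : (2 * i + 1) / 2 = i := by (clear * -; omega)
    rw [this]
    simp only [ev, map_zero, map_mul, map_pow, hn, zero_add]
    rw [← pow_mul]
    ring

theorem eul_of_homog {d : ℕ} {f : Pl} (hf : f.IsHomogeneous d) : eul f = C (d : ℝ) * f := by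
  unfold eul
  rw [hf.sum_X_mul_pderiv, nsmul_eq_mul, show (C (d : ℝ) : Pl) = (d : Pl) from map_natCast C d]

theorem TL_pw (κ : ℝ) {l : ℕ} {h : Pl} (hh : h ∈ Harm l) (j : ℕ) :
    TL κ (pw h j) = (κ * (j + l + 1)) • pw h j
      - ((1 / 2) * (j : ℝ) * (j + 2 * l + 1)) • pw h (j - 1) := by
  obtain ⟨h1, h2⟩ := mem_Harm.1 hh
  by_cases hj : Even j
  · obtain ⟨i, rfl⟩ := hj
    have hp : pw h (i + i) = (nsq ^ i * h, 0) := by
      unfold pw
      rw [if_pos ⟨i, rfl⟩]
      have : (i + i) / 2 = i := by omega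
      rw [this]
    rw [TL_apply, hp]
    rcases Nat.eq_zero_or_pos i with h0 | h0
    · subst h0
      have hl := lapP_nsq_pow hh 0
      have he := eul_of_homog (isHomogeneous_nsq_pow_mul h1 0)
      unfold TP TQ
      simp only [hl, he]
      refine Prod.ext ?_ ?_
      · simp only [Prod.fst_sub, Prod.smul_fst, smul_eq_C_mul]
        simp only [eul, lapP, map_zero, mul_zero, Finset.sum_const_zero, add_zero, sub_zero,
          Nat.cast_zero, zero_mul, C_0, zero_add, pow_zero, one_mul]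
        rw [C_mul, C_add, C_1]
        ring
      · simp only [Prod.snd_sub, Prod.smul_snd, smul_eq_C_mul]
        simp only [eul, lapP, map_zero, mul_zero, Finset.sum_const_zero, add_zero, sub_zero,
          Nat.cast_zero, zero_mul, C_0, zero_add, pow_zero, one_mul]
    · obtain ⟨m, rfl⟩ : ∃ m, i = m + 1 := ⟨i - 1, by omega⟩
      have hp1 : pw h (m + 1 + (m + 1) - 1) = (0, nsq ^ m * h) := by
        unfold pw
        rw [if_neg]
        · have : (m + 1 + (m + 1) - 1) / 2 = m := by omega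
          rw [this]
        · rw [Nat.not_even_iff_odd]
          exact ⟨m, by omega⟩
      rw [hp1]
      have hl := lapP_nsq_pow hh (m + 1)
      have he := eul_of_homog (isHomogeneous_nsq_pow_mul h1 (m + 1))
      unfold TP TQ
      simp only [hl, he]
      refine Prod.ext ?_ ?_
      · simp only [Prod.fst_sub, Prod.smul_fst, smul_eq_C_mul]
        simp only [eul, map_zero, mul_zero, Finset.sum_const_zero, add_zero, sub_zero, lapP]
        have e : C (κ * (((m + 1 + (m + 1) : ℕ) : ℝ) + (l : ℝ) + 1))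
            = (C κ * (C ((2 * (m + 1) + l : ℕ) : ℝ) + 1) : Pl) := by
          rw [← C_1, ← C_add, ← C_mul]
          congr 1
          push_cast
          ring
        rw [e]
        ring
      · simp only [Prod.snd_sub, Prod.smul_snd, smul_eq_C_mul]
        simp only [eul, map_zero, mul_zero, Finset.sum_const_zero, add_zero, Nat.add_sub_cancel, zero_sub]
        rw [← mul_assoc, ← C_mul]
        congr 3
        push_cast
        ring
  · obtain ⟨i, rfl⟩ := Nat.not_even_iff_odd.1 hj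
    have hp : pw h (2 * i + 1) = (0, nsq ^ i * h) := by
      unfold pw
      rw [if_neg hj]
      have : (2 * i + 1) / 2 = i := by omega
      rw [this]
    have hp1 : pw h (2 * i + 1 - 1) = (nsq ^ i * h, 0) := by
      unfold pw
      rw [Nat.add_sub_cancel, if_pos ⟨i, by omega⟩]
      have : (2 * i) / 2 = i := by omega
      rw [this]
    rw [TL_apply, hp, hp1]
    have hl := lapP_nsq_pow hh i
    have he := eul_of_homog (isHomogeneous_nsq_pow_mul h1 i)
    have hnl : nsq * lapP (nsq ^ i * h)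
        = C (2 * (i : ℝ) * (2 * i + 2 * l + 1)) * (nsq ^ i * h) := by
      rw [hl]
      rcases Nat.eq_zero_or_pos i with h0 | h0
      · subst h0
        simp only [CharP.cast_eq_zero, mul_zero, zero_add, zero_mul, C_0, zero_tsub, pow_zero, one_mul]
      · obtain ⟨m, rfl⟩ : ∃ m, i = m + 1 := ⟨i - 1, by omega⟩
        rw [Nat.add_sub_cancel, pow_succ']
        ring
    unfold TP TQ
    simp only [hnl, he]
    refine Prod.ext ?_ ?_
    · simp only [Prod.fst_sub, Prod.smul_fst, smul_eq_C_mul]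
      simp only [eul, map_zero, mul_zero, Finset.sum_const_zero, add_zero, zero_sub]
      have e : C (1 / 2 * ((2 * i + 1 : ℕ) : ℝ) * (((2 * i + 1 : ℕ) : ℝ) + 2 * (l : ℝ) + 1))
          = (C ((2 * i + l : ℕ) : ℝ) + 1 + C (1 / 2) * C (2 * (i : ℝ) * (2 * i + 2 * l + 1)) : Pl)
          := by
        rw [← C_1, ← C_add, ← C_mul, ← C_add]
        congr 1
        push_cast
        ring
      rw [e]
      ring
    · simp only [Prod.snd_sub, Prod.smul_snd, smul_eq_C_mul]
      simp only [lapP, map_zero, Finset.sum_const_zero, mul_zero, sub_zero]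
      rw [← add_mul, ← mul_assoc, ← C_add, ← C_mul]
      congr 2
      push_cast
      ring

/-- Laguerre coefficients -/
noncomputable def cf (κ : ℝ) (l : ℕ) : ℕ → ℝ
  | 0 => 1
  | j + 1 => 2 * (κ * (j + l + 1) - 1) / ((j + 1) * (j + 2 * l + 2)) * cf κ l j

/-- the pair representing `h L(‖x‖)` -/
noncomputable def zf (κ : ℝ) (l M : ℕ) (h : Pl) : Pl × Pl :=
  ∑ j ∈ Finset.range M, cf κ l j • pw h j

theorem TL_zf_aux (κ : ℝ) {l : ℕ} {h : Pl} (hh : h ∈ Harm l) (M : ℕ) :
    TL κ (zf κ l (M + 1) h) = zf κ l (M + 1) h + ((κ * (M + l + 1) - 1) * cf κ l M) • pw h M := by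
  induction M with
  | zero =>
    unfold zf
    rw [Finset.sum_range_one, map_smul, TL_pw κ hh]
    simp only [cf, one_smul, Nat.cast_zero, mul_zero, zero_mul, zero_smul, sub_zero, mul_one]
    rw [sub_smul, one_smul]
    abel
  | succ M ih =>
    unfold zf at ih ⊢
    rw [Finset.sum_range_succ, map_add, ih, map_smul, TL_pw κ hh, Nat.add_sub_cancel, smul_sub,
      smul_smul, smul_smul]
    have e1 : (κ * ((M : ℝ) + l + 1) - 1) * cf κ l M
        = cf κ l (M + 1) * (1 / 2 * ((M + 1 : ℕ) : ℝ) * (((M + 1 : ℕ) : ℝ) + 2 * l + 1)) := by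
      have h1 : ((M : ℝ) + 1) ≠ 0 := by positivity
      have h2 : ((M : ℝ) + 2 * l + 2) ≠ 0 := by (clear * -; positivity)
      rw [cf]
      push_cast
      field_simp
      ring
    rw [e1, sub_mul, one_mul, sub_smul, mul_comm (cf κ l (M + 1)) (κ * _)]
    abel

theorem TL_zf {n l : ℕ} (hl : l < n) {h : Pl} (hh : h ∈ Harm l) :
    TL (1 / (n : ℝ)) (zf (1 / (n : ℝ)) l (n - l) h) = zf (1 / (n : ℝ)) l (n - l) h := by
  obtain ⟨M, rfl⟩ : ∃ M, n = M + l + 1 := ⟨n - l - 1, by omega⟩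
  have : M + l + 1 - l = M + 1 := by omega
  rw [this, TL_zf_aux _ hh]
  have h0 : ((M : ℝ) + l + 1) ≠ 0 := by (clear * -; positivity)
  have h1 : 1 / ((M + l + 1 : ℕ) : ℝ) * ((M : ℝ) + l + 1) - 1 = 0 := by
    push_cast
    field_simp
    ring
  rw [h1, zero_mul, zero_smul, add_zero]

/-- the radial polynomial -/
noncomputable def Lr (κ : ℝ) (l M : ℕ) (r : ℝ) : ℝ := ∑ j ∈ Finset.range M, cf κ l j * r ^ j

theorem xp_zf (κ : ℝ) (l M : ℕ) (h : Pl) (x : R3) :
    xp κ (zf κ l M h).1 (zf κ l M h).2 x = ev h x * (Lr κ l M ‖x‖ * Real.exp (-κ * ‖x‖)) := by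
  induction M with
  | zero =>
    simp [zf, Lr, xp, ev]
  | succ M ih =>
    have e : zf κ l (M + 1) h = zf κ l M h + cf κ l M • pw h M := by
      unfold zf
      rw [Finset.sum_range_succ]
    have e2 : Lr κ l (M + 1) ‖x‖ = Lr κ l M ‖x‖ + cf κ l M * ‖x‖ ^ M := by
      unfold Lr
      rw [Finset.sum_range_succ]
    have h2 := xp_pw κ h M x
    rw [e, e2]
    unfold xp at ih h2 ⊢
    simp only [Prod.fst_add, Prod.smul_fst, ev_add, Prod.snd_add, Prod.smul_snd]
    have e3 : ∀ (c : ℝ) (P : Pl), ev (c • P) x = c * ev P x := fun c P => by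
      simp only [ev, smul_eval]
    rw [e3, e3]
    linear_combination ih + cf κ l M * h2

end Vale.Agent.P370.Hyd
end
end

section

section

/-!
Polar coordinates for (homogeneous) times (radial) functions.
-/

namespace Vale.Agent.P370.GC

open MeasureTheory Set Metric Module

section

variable {E : Type*} [NormedAddCommGroup E] [NormedSpace ℝ E] [MeasurableSpace E]
  [Nontrivial E] (μ : Measure E) [FiniteDimensional ℝ E] [BorelSpace E] [μ.IsAddHaarMeasure]

theorem integral_homog_mul_radial (h : E → ℂ) (m : ℕ)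
    (hh : ∀ t : ℝ, 0 < t → ∀ x, h (t • x) = (t : ℂ) ^ m * h x) (g : ℝ → ℂ) :
    ∫ x, h x * g ‖x‖ ∂μ =
      (∫ ω : sphere (0 : E) 1, h ω ∂μ.toSphere) *
        ∫ r in Ioi (0 : ℝ), (r : ℂ) ^ (m + (finrank ℝ E - 1)) * g r := by
  calc
    ∫ x, h x * g ‖x‖ ∂μ = ∫ x : ({(0)}ᶜ : Set E), h x.1 * g (‖x.1‖) ∂(μ.comap (↑)) := by
      rw [integral_subtype_comap (measurableSet_singleton _).compl fun x ↦ h x * g (‖x‖),
        restrict_compl_singleton]
    _ = ∫ x : (sphere (0 : E) 1) × (Ioi (0 : ℝ)), h x.1 * (((x.2 : ℝ) : ℂ) ^ m * g x.2)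
          ∂μ.toSphere.prod (.volumeIoiPow (finrank ℝ E - 1)) := by
      have := μ.measurePreserving_homeomorphUnitSphereProd.integral_comp
        (Homeomorph.measurableEmbedding _)
        (fun x : (sphere (0 : E) 1) × (Ioi (0 : ℝ)) => h x.1 * (((x.2 : ℝ) : ℂ) ^ m * g x.2))
      rw [← this]
      refine integral_congr_ae (.of_forall fun x => ?_)
      have hx : (0 : ℝ) < ‖(x : E)‖ := norm_pos_iff.2 x.2
      have h1 := hh ‖(x : E)‖ hx (‖(x : E)‖⁻¹ • (x : E))
      rw [smul_smul, mul_inv_cancel₀ hx.ne', one_smul] at h1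
      simp only [homeomorphUnitSphereProd_apply_fst_coe, homeomorphUnitSphereProd_apply_snd_coe]
      rw [h1]
      ring
    _ = (∫ ω : sphere (0 : E) 1, h ω ∂μ.toSphere) *
          ∫ r : Ioi (0 : ℝ), ((r : ℝ) : ℂ) ^ m * g r ∂(.volumeIoiPow (finrank ℝ E - 1)) :=
      integral_prod_mul (fun ω : sphere (0 : E) 1 => h ω)
        (fun r : Ioi (0 : ℝ) => ((r : ℝ) : ℂ) ^ m * g r)
    _ = _ := by
      congr 1
      simp only [Measure.volumeIoiPow, ENNReal.ofReal]
      rw [integral_withDensity_eq_integral_smul,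
        integral_subtype_comap measurableSet_Ioi
          fun a : ℝ ↦ Real.toNNReal (a ^ (finrank ℝ E - 1)) • ((a : ℂ) ^ m * g a),
        setIntegral_congr_fun measurableSet_Ioi fun x hx ↦ ?_]
      · rw [NNReal.smul_def, Real.coe_toNNReal _ (pow_nonneg hx.out.le _)]
        simp only [Complex.real_smul]
        push_cast
        ring
      · exact (measurable_subtype_coe.pow_const _).real_toNNReal

theorem integral_homog_mul_radial_real (h : E → ℝ) (m : ℕ)
    (hh : ∀ t : ℝ, 0 < t → ∀ x, h (t • x) = t ^ m * h x) (g : ℝ → ℝ) :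
    ∫ x, h x * g ‖x‖ ∂μ =
      (∫ ω : sphere (0 : E) 1, h ω ∂μ.toSphere) *
        ∫ r in Ioi (0 : ℝ), r ^ (m + (finrank ℝ E - 1)) * g r := by
  calc
    ∫ x, h x * g ‖x‖ ∂μ = ∫ x : ({(0)}ᶜ : Set E), h x.1 * g (‖x.1‖) ∂(μ.comap (↑)) := by
      rw [integral_subtype_comap (measurableSet_singleton _).compl fun x ↦ h x * g (‖x‖),
        restrict_compl_singleton]
    _ = ∫ x : (sphere (0 : E) 1) × (Ioi (0 : ℝ)), h x.1 * ((x.2 : ℝ) ^ m * g x.2)
          ∂μ.toSphere.prod (.volumeIoiPow (finrank ℝ E - 1)) := by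
      have := μ.measurePreserving_homeomorphUnitSphereProd.integral_comp
        (Homeomorph.measurableEmbedding _)
        (fun x : (sphere (0 : E) 1) × (Ioi (0 : ℝ)) => h x.1 * ((x.2 : ℝ) ^ m * g x.2))
      rw [← this]
      refine integral_congr_ae (.of_forall fun x => ?_)
      have hx : (0 : ℝ) < ‖(x : E)‖ := norm_pos_iff.2 x.2
      have h1 := hh ‖(x : E)‖ hx (‖(x : E)‖⁻¹ • (x : E))
      rw [smul_smul, mul_inv_cancel₀ hx.ne', one_smul] at h1
      simp only [homeomorphUnitSphereProd_apply_fst_coe, homeomorphUnitSphereProd_apply_snd_coe]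
      rw [h1]
      ring
    _ = (∫ ω : sphere (0 : E) 1, h ω ∂μ.toSphere) *
          ∫ r : Ioi (0 : ℝ), (r : ℝ) ^ m * g r ∂(.volumeIoiPow (finrank ℝ E - 1)) :=
      integral_prod_mul (fun ω : sphere (0 : E) 1 => h ω)
        (fun r : Ioi (0 : ℝ) => (r : ℝ) ^ m * g r)
    _ = _ := by
      congr 1
      simp only [Measure.volumeIoiPow, ENNReal.ofReal]
      rw [integral_withDensity_eq_integral_smul,
        integral_subtype_comap measurableSet_Ioi
          fun a : ℝ ↦ Real.toNNReal (a ^ (finrank ℝ E - 1)) • (a ^ m * g a),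
        setIntegral_congr_fun measurableSet_Ioi fun x hx ↦ ?_]
      · rw [NNReal.smul_def, Real.coe_toNNReal _ (pow_nonneg hx.out.le _)]
        simp only [smul_eq_mul]
        ring
      · exact (measurable_subtype_coe.pow_const _).real_toNNReal

end

end Vale.Agent.P370.GC
end
end

section

section

/-! Sphere integrals of products of harmonic polynomials. -/

namespace Vale.Agent.P370.Hyd

open MeasureTheory Filter Topology MvPolynomial

theorem ev_smul_homog {l : ℕ} {P : Pl} (hP : P.IsHomogeneous l) (t : ℝ) (x : R3) :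
    ev P (t • x) = t ^ l * ev P x := by
  unfold ev
  rw [eval_eq', eval_eq', Finset.mul_sum]
  refine Finset.sum_congr rfl fun d hd => ?_
  have h1 : d.degree = l := by
    by_contra hcon
    exact (mem_support_iff.1 hd) (hP.coeff_eq_zero hcon)
  have h2 : ∏ i, (t • x) i ^ d i = t ^ l * ∏ i, x i ^ d i := by
    simp only [PiLp.smul_apply, smul_eq_mul, mul_pow, Finset.prod_mul_distrib]
    rw [Finset.prod_pow_eq_pow_sum, ← h1, Finsupp.degree_eq_sum]
  rw [h2]
  ring

/-- the sphere integral of a product -/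
noncomputable def sph (P Q : Pl) : ℝ :=
  ∫ ω : Metric.sphere (0 : R3) 1, ev P ω * ev Q ω ∂(volume : Measure R3).toSphere

theorem sph_comm (P Q : Pl) : sph P Q = sph Q P := by
  unfold sph
  simp only [mul_comm]

theorem integral_homog {l l' : ℕ} {P Q : Pl} (hP : P.IsHomogeneous l) (hQ : Q.IsHomogeneous l')
    (g : ℝ → ℝ) : ∫ x : R3, ev P x * ev Q x * g ‖x‖
      = sph P Q * ∫ r in Set.Ioi (0 : ℝ), r ^ (l + l' + 2) * g r := by
  have h := Vale.Agent.P370.GC.integral_homog_mul_radial_real (volume : Measure R3)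
    (fun x => ev P x * ev Q x) (l + l') (fun t _ x => by
      rw [ev_smul_homog hP, ev_smul_homog hQ, pow_add]
      ring) g
  rw [h, finrank_euclideanSpace, Fintype.card_fin]
  rfl

instance : IsFiniteMeasure (volume : Measure R3).toSphere := inferInstance

theorem integrable_sph (P Q : Pl) : Integrable
    (fun ω : Metric.sphere (0 : R3) 1 => ev P ω * ev Q ω) (volume : Measure R3).toSphere := by
  have hc : Continuous fun ω : Metric.sphere (0 : R3) 1 => ev P ω * ev Q ω :=
    ((continuous_ev P).comp continuous_subtype_val).mul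
      ((continuous_ev Q).comp continuous_subtype_val)
  exact hc.integrable_of_hasCompactSupport (HasCompactSupport.of_compactSpace _)

/-- bilinear version -/
noncomputable def sphB : Pl →ₗ[ℝ] Pl →ₗ[ℝ] ℝ :=
  LinearMap.mk₂ ℝ sph
    (fun P P' Q => by
      unfold sph
      rw [← integral_add (integrable_sph P Q) (integrable_sph P' Q)]
      refine integral_congr_ae (Eventually.of_forall fun x => ?_)
      simp only [ev_add, add_mul])
    (fun c P Q => by
      unfold sph
      rw [smul_eq_mul, ← integral_const_mul]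
      refine integral_congr_ae (Eventually.of_forall fun x => ?_)
      simp only [ev, smul_eval, mul_assoc])
    (fun P Q Q' => by
      unfold sph
      rw [← integral_add (integrable_sph P Q) (integrable_sph P Q')]
      refine integral_congr_ae (Eventually.of_forall fun x => ?_)
      simp only [ev_add, mul_add])
    (fun c P Q => by
      unfold sph
      rw [smul_eq_mul, ← integral_const_mul]
      refine integral_congr_ae (Eventually.of_forall fun x => ?_)
      simp only [ev, smul_eval]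
      ring)

theorem sphB_apply (P Q : Pl) : sphB P Q = sph P Q := rfl

theorem ev_ne_zero {P : Pl} (hP : P ≠ 0) : ∃ x : R3, ev P x ≠ 0 := by
  by_contra hcon
  push Not at hcon
  apply hP
  refine MvPolynomial.funext fun x => ?_
  have h := hcon (WithLp.toLp 2 x)
  rw [map_zero]
  exact h

theorem integrable_poly_exp {κ : ℝ} (hκ : 0 < κ) (P : Pl) :
    Integrable fun x : R3 => ev P x * Real.exp (-κ * ‖x‖) :=
  (dec_ev hκ P).integrable ((continuous_ev P).mul (by fun_prop)).aestronglyMeasurable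

/-- positivity of integrals of nonnegative continuous functions -/
theorem integral_pos_of_cont {f : R3 → ℝ} (hc : Continuous f) (hi : Integrable f)
    (h0 : ∀ x, 0 ≤ f x) {x₀ : R3} (hx : f x₀ ≠ 0) : 0 < ∫ x, f x :=
  integral_pos_of_integrable_nonneg_nonzero hc hi h0 hx

theorem sph_pos {l : ℕ} {P : Pl} (hP : P.IsHomogeneous l) (h0 : P ≠ 0) : 0 < sph P P := by
  obtain ⟨x₀, hx₀⟩ := ev_ne_zero h0
  have h1 : 0 < ∫ x : R3, ev P x * ev P x * Real.exp (-1 * ‖x‖) := by
    refine integral_pos_of_cont (x₀ := x₀) ?_ ?_ ?_ ?_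
    · exact ((continuous_ev P).mul (continuous_ev P)).mul (by fun_prop)
    · refine (integrable_poly_exp one_pos (P * P)).congr (Eventually.of_forall fun x => ?_)
      simp only [ev_mul]
    · intro x
      exact mul_nonneg (mul_self_nonneg _) (Real.exp_pos _).le
    · exact mul_ne_zero (mul_ne_zero hx₀ hx₀) (Real.exp_ne_zero _)
  have h2 := integral_homog hP hP fun r => Real.exp (-1 * r)
  rw [h2] at h1
  have h3 : 0 ≤ sph P P := by
    unfold sph
    exact integral_nonneg fun ω => mul_self_nonneg _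
  rcases h3.lt_or_eq with h | h
  · exact h
  · rw [← h, zero_mul] at h1
    exact absurd h1 (lt_irrefl _)

/-- orthonormal families for positive definite forms -/
theorem exists_orthonormal_family {V : Type*} [AddCommGroup V] [Module ℝ V]
    [FiniteDimensional ℝ V] (B : V →ₗ[ℝ] V →ₗ[ℝ] ℝ) (hs : ∀ v w, B v w = B w v)
    (hp : ∀ v, v ≠ 0 → 0 < B v v) {N : ℕ} (hN : N ≤ Module.finrank ℝ V) :
    ∃ f : Fin N → V, ∀ i j, B (f i) (f j) = if i = j then 1 else 0 := by
  obtain ⟨b, hb⟩ := LinearMap.BilinForm.exists_orthogonal_basis (K := ℝ) (V := V) (B := B)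
    ⟨fun v w => by rw [RingHom.id_apply]; exact hs v w⟩
  refine ⟨fun i => (Real.sqrt (B (b (Fin.castLE hN i)) (b (Fin.castLE hN i))))⁻¹ •
    b (Fin.castLE hN i), fun i j => ?_⟩
  by_cases hij : i = j
  · subst hij
    rw [if_pos rfl, map_smul, map_smul, LinearMap.smul_apply, smul_eq_mul, smul_eq_mul]
    have h1 := hp (b (Fin.castLE hN i)) (b.ne_zero _)
    have h2 := Real.mul_self_sqrt h1.le
    have h3 : Real.sqrt (B (b (Fin.castLE hN i)) (b (Fin.castLE hN i))) ≠ 0 :=
      (Real.sqrt_pos.2 h1).ne'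
    field_simp
    rw [pow_two]
    exact h2.symm
  · rw [if_neg hij, map_smul, map_smul, LinearMap.smul_apply]
    have h1 : B (b (Fin.castLE hN i)) (b (Fin.castLE hN j)) = 0 :=
      hb (fun h => hij (Fin.castLE_injective hN h))
    rw [h1, smul_zero, smul_zero]

/-- an orthonormal family of `2 l + 1` harmonic polynomials -/
theorem exists_harm (l : ℕ) : ∃ p : Fin (2 * l + 1) → Pl, (∀ i, p i ∈ Harm l) ∧
    ∀ i j, sph (p i) (p j) = if i = j then 1 else 0 := by
  obtain ⟨f, hf⟩ := exists_orthonormal_family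
    ((sphB.domRestrict₁₂ (Harm l) (Harm l)) : Harm l →ₗ[ℝ] Harm l →ₗ[ℝ] ℝ)
    (fun v w => sph_comm _ _)
    (fun v hv => sph_pos (mem_Harm.1 v.2).1 (fun h => hv (Subtype.ext h)))
    (finrank_Harm_ge l)
  exact ⟨fun i => (f i).1, fun i => (f i).2, hf⟩

end Vale.Agent.P370.Hyd
end
end

section

section

/-! The complete orthonormal family of eigenfunctions of the first `n` hydrogen shells. -/

namespace Vale.Agent.P370.Hyd

open MeasureTheory Filter Topology MvPolynomial

/-- decay rate of shell number `k + 1` -/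
noncomputable def kap (k : ℕ) : ℝ := 1 / ((k : ℝ) + 1)

theorem kap_pos (k : ℕ) : 0 < kap k := by
  unfold kap
  positivity

/-- energy of shell number `k + 1` -/
noncomputable def eng (k : ℕ) : ℝ := -(1 / (2 * ((k : ℝ) + 1) ^ 2))

theorem eng_eq (k : ℕ) : eng k = -(kap k ^ 2 / 2) := by
  unfold eng kap
  field_simp

theorem eng_strictMono {k k' : ℕ} (h : k < k') : eng k < eng k' := by
  unfold eng
  have h1 : (k : ℝ) < k' := by exact_mod_cast h
  have h2 : 1 / (2 * ((k' : ℝ) + 1) ^ 2) < 1 / (2 * ((k : ℝ) + 1) ^ 2) := by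
    apply one_div_lt_one_div_of_lt (by positivity)
    (clear * - h1; nlinarith [(Nat.cast_nonneg k : (0 : ℝ) ≤ k)])
  (clear * - h2; linarith)

theorem eng_injective {k k' : ℕ} (h : eng k = eng k') : k = k' := by
  rcases lt_trichotomy k k' with h1 | h1 | h1
  · exact absurd h (eng_strictMono h1).ne
  · exact h1
  · exact absurd h (eng_strictMono h1).ne'

theorem TL_zf' {k l : ℕ} (hl : l ≤ k) {h : Pl} (hh : h ∈ Harm l) :
    TL (kap k) (zf (kap k) l (k + 1 - l) h) = zf (kap k) l (k + 1 - l) h := by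
  have h1 := TL_zf (n := k + 1) (l := l) (by omega) hh
  have h2 : (1 / ((k + 1 : ℕ) : ℝ)) = kap k := by
    unfold kap
    push_cast
    rfl
  rwa [h2] at h1

/-- the eigenfunction of shell `k + 1` attached to the polynomial `h` of degree `l` -/
noncomputable def gS (k l : ℕ) (h : Pl) : AdmS :=
  ⟨(xp (kap k) (zf (kap k) l (k + 1 - l) h).1 (zf (kap k) l (k + 1 - l) h).2,
    xpd (kap k) (zf (kap k) l (k + 1 - l) h).1 (zf (kap k) l (k + 1 - l) h).2),
    adm_xp (kap_pos k) _ _⟩

/-- the radial factor -/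
noncomputable def rad (k l : ℕ) (r : ℝ) : ℝ :=
  Lr (kap k) l (k + 1 - l) r * Real.exp (-kap k * r)

theorem gS_apply (k l : ℕ) (h : Pl) (x : R3) :
    (gS k l h).1.1 x = ev h x * rad k l ‖x‖ := xp_zf _ _ _ _ _

theorem gS_eigen {k l : ℕ} (hl : l ≤ k) {h : Pl} (hh : h ∈ Harm l) (w : AdmS) :
    kinB (gS k l h) w - iprB (gS k l h) w = eng k * ipB (gS k l h) w := by
  have h1 := green (kap_pos k) (zf (kap k) l (k + 1 - l) h).1 (zf (kap k) l (k + 1 - l) h).2 w.2
  have h2 := TL_zf' hl hh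
  rw [TL_apply] at h2
  have h3 : TP (kap k) (zf (kap k) l (k + 1 - l) h).1 (zf (kap k) l (k + 1 - l) h).2
      = (zf (kap k) l (k + 1 - l) h).1 := congrArg Prod.fst h2
  have h4 : TQ (kap k) (zf (kap k) l (k + 1 - l) h).1 (zf (kap k) l (k + 1 - l) h).2
      = (zf (kap k) l (k + 1 - l) h).2 := congrArg Prod.snd h2
  rw [h3, h4] at h1
  rw [eng_eq]
  show kin _ _ - ipr _ _ = -(kap k ^ 2 / 2) * ip _ _
  have h5 : kin (gS k l h).1.2 w.1.2 + kap k ^ 2 / 2 * ip (gS k l h).1.1 w.1.1
      = ipr (gS k l h).1.1 w.1.1 := h1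
  linarith only [h5]

/-- weak eigenfunctions with different eigenvalues are orthogonal -/
theorem orth_of_ne {φ ψ : AdmS} {a b : ℝ}
    (hφ : ∀ w, kinB φ w - iprB φ w = a * ipB φ w) (hψ : ∀ w, kinB ψ w - iprB ψ w = b * ipB ψ w)
    (hab : a ≠ b) : ipB φ ψ = 0 := by
  have h1 := hφ ψ
  have h2 := hψ φ
  rw [kinB_comm, iprB_comm, ipB_comm] at h2
  have h3 : (a - b) * ipB φ ψ = 0 := by linarith only [h1, h2]
  rcases mul_eq_zero.1 h3 with h | h
  · exact absurd (sub_eq_zero.1 h) hab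
  · exact h

theorem ipB_gS {k k' l l' : ℕ} {h h' : Pl} (hh : h.IsHomogeneous l) (hh' : h'.IsHomogeneous l') :
    ipB (gS k l h) (gS k' l' h')
      = sph h h' * ∫ r in Set.Ioi (0 : ℝ), r ^ (l + l' + 2) * (rad k l r * rad k' l' r) := by
  rw [← integral_homog hh hh']
  show ∫ x, _ = _
  refine integral_congr_ae (Eventually.of_forall fun x => ?_)
  show (gS k l h).1.1 x * (gS k' l' h').1.1 x = _
  rw [gS_apply, gS_apply]
  ring

theorem sph_orth {l l' : ℕ} (hl : l ≠ l') {h h' : Pl} (hh : h ∈ Harm l) (hh' : h' ∈ Harm l') :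
    sph h h' = 0 := by
  have h1 : ipB (gS l l h) (gS l' l' h') = 0 :=
    orth_of_ne (gS_eigen le_rfl hh) (gS_eigen le_rfl hh')
      (fun h => hl (eng_injective h))
  rw [ipB_gS (mem_Harm.1 hh).1 (mem_Harm.1 hh').1] at h1
  rcases mul_eq_zero.1 h1 with h2 | h2
  · exact h2
  · exfalso
    have h3 : ∀ r, rad l l r * rad l' l' r = Real.exp (-(kap l + kap l') * r) := by
      intro r
      have e1 : ∀ m : ℕ, m + 1 - m = 1 := fun m => by (clear * -; omega)
      unfold rad Lr
      rw [e1, e1, Finset.sum_range_one, Finset.sum_range_one]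
      simp only [cf, pow_zero, one_mul, mul_one]
      rw [← Real.exp_add]
      congr 1
      ring
    simp only [h3] at h2
    have h4 : 0 < ∫ r in Set.Ioi (0 : ℝ), r ^ (l + l' + 2) * Real.exp (-(kap l + kap l') * r) := by
      have h5 : 0 < kap l + kap l' := add_pos (kap_pos l) (kap_pos l')
      have h6 := Real.integral_rpow_mul_exp_neg_mul_Ioi (a := (l + l' + 2 : ℕ) + 1)
        (by (clear * -; positivity)) h5
      have h7 : ∫ r in Set.Ioi (0 : ℝ), r ^ (l + l' + 2) * Real.exp (-(kap l + kap l') * r)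
          = ∫ r in Set.Ioi (0 : ℝ), r ^ (((l + l' + 2 : ℕ) : ℝ) + 1 - 1)
            * Real.exp (-((kap l + kap l') * r)) := by
        refine setIntegral_congr_fun measurableSet_Ioi fun r _ => ?_
        rw [add_sub_cancel_right, Real.rpow_natCast, neg_mul]
      rw [h7, h6]
      exact mul_pos (Real.rpow_pos_of_pos (by (clear * - h5; positivity)) _) (Real.Gamma_pos_of_pos (by (clear * -; positivity)))
    exact h4.ne' h2

theorem Lr_zero (κ : ℝ) (l M : ℕ) : Lr κ l (M + 1) 0 = 1 := by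
  unfold Lr
  rw [Finset.sum_range_succ', Finset.sum_eq_zero]
  · simp [cf]
  · intro j _
    simp only [ne_eq, Nat.add_eq_zero_iff, one_ne_zero, and_false, not_false_eq_true, zero_pow, mul_zero]

theorem continuous_Lr (κ : ℝ) (l M : ℕ) : Continuous (Lr κ l M) := by
  unfold Lr
  fun_prop

/-- the radial normalisation -/
noncomputable def radN (k l : ℕ) : ℝ := ∫ r in Set.Ioi (0 : ℝ), r ^ (2 * l + 2) * rad k l r ^ 2

theorem ipB_gS_self {k l : ℕ} {h h' : Pl} (hh : h.IsHomogeneous l) (hh' : h'.IsHomogeneous l) :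
    ipB (gS k l h) (gS k l h') = sph h h' * radN k l := by
  rw [ipB_gS hh hh']
  unfold radN
  congr 1
  refine setIntegral_congr_fun measurableSet_Ioi fun r _ => ?_
  rw [pow_two (rad k l r), ← two_mul]

theorem ipB_pos {v : AdmS} {x₀ : R3} (hx : v.1.1 x₀ ≠ 0) : 0 < ipB v v :=
  integral_pos_of_cont (v.2.cont.mul v.2.cont) (v.2.int_mul v.2) (fun _ => mul_self_nonneg _)
    (mul_ne_zero hx hx)

theorem gS_ne_zero {k l : ℕ} (hl : l ≤ k) {h : Pl} (h0 : h ≠ 0) (hh : h.IsHomogeneous l) :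
    ∃ x : R3, (gS k l h).1.1 x ≠ 0 := by
  obtain ⟨x₀, hx₀⟩ := ev_ne_zero h0
  have h1 : Continuous fun t : ℝ => rad k l (t * ‖x₀‖) := by
    unfold rad
    have := continuous_Lr (kap k) l (k + 1 - l)
    (clear * - this; fun_prop)
  have h2 : rad k l (0 * ‖x₀‖) ≠ 0 := by
    have e : k + 1 - l = (k - l) + 1 := by (clear * - hl; omega)
    unfold rad
    rw [zero_mul, e, Lr_zero, one_mul]
    exact Real.exp_ne_zero _
  have h3 : ∀ᶠ t in 𝓝 (0 : ℝ), rad k l (t * ‖x₀‖) ≠ 0 := h1.continuousAt.eventually_ne h2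
  have h4 : ∀ᶠ t in 𝓝[>] (0 : ℝ), rad k l (t * ‖x₀‖) ≠ 0 := h3.filter_mono nhdsWithin_le_nhds
  obtain ⟨t, ht, ht0⟩ := (h4.and self_mem_nhdsWithin).exists
  refine ⟨t • x₀, ?_⟩
  have ht1 : 0 < t := ht0
  rw [gS_apply, ev_smul_homog hh, norm_smul, Real.norm_eq_abs, abs_of_pos ht1]
  exact mul_ne_zero (mul_ne_zero (pow_ne_zero _ ht1.ne') hx₀) ht

theorem radN_pos {k l : ℕ} (hl : l ≤ k) : 0 < radN k l := by
  obtain ⟨p, hp, hp'⟩ := exists_harm l
  have h1 : sph (p 0) (p 0) = 1 := by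
    rw [hp', if_pos rfl]
  have h0 : p 0 ≠ 0 := by
    intro h
    rw [h] at h1
    have h2 : sph (0 : Pl) 0 = 0 := by
      rw [← sphB_apply, map_zero]
    rw [h2] at h1
    exact zero_ne_one h1
  obtain ⟨x, hx⟩ := gS_ne_zero hl h0 (mem_Harm.1 (hp 0)).1
  have h2 := ipB_pos hx
  rwa [ipB_gS_self (mem_Harm.1 (hp 0)).1 (mem_Harm.1 (hp 0)).1, h1, one_mul] at h2

/-- orbital labels: shell `k + 1 ≤ n`, angular momentum `l ≤ k`, and a number `< 2 l + 1` -/
abbrev Orb (n : ℕ) : Type := (k : Fin n) × (l : Fin (k.1 + 1)) × Fin (2 * l.1 + 1)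

/-- the orbitals built from a choice of harmonic polynomials -/
noncomputable def orb {n : ℕ} (p : (l : ℕ) → Fin (2 * l + 1) → Pl) (a : Orb n) : AdmS :=
  (Real.sqrt (radN a.1 a.2.1))⁻¹ • gS a.1 a.2.1 (p a.2.1 a.2.2)

/-- a choice of orthonormal harmonic polynomials -/
structure HarmFam (p : (l : ℕ) → Fin (2 * l + 1) → Pl) : Prop where
  mem : ∀ l i, p l i ∈ Harm l
  orth : ∀ l i j, sph (p l i) (p l j) = if i = j then 1 else 0

theorem exists_harmFam : ∃ p, HarmFam p := by
  choose p hp hp' using exists_harm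
  exact ⟨p, hp, hp'⟩

variable {p : (l : ℕ) → Fin (2 * l + 1) → Pl}

theorem orb_eigen (hp : HarmFam p) {n : ℕ} (a : Orb n) (w : AdmS) :
    kinB (orb p a) w - iprB (orb p a) w = eng a.1 * ipB (orb p a) w := by
  unfold orb
  have h := gS_eigen (k := a.1) (l := a.2.1) (by omega) (hp.mem a.2.1 a.2.2) w
  rw [map_smul, map_smul, map_smul, LinearMap.smul_apply, LinearMap.smul_apply,
    LinearMap.smul_apply, ← smul_sub, h, smul_eq_mul, smul_eq_mul]
  ring

theorem orb_orth (hp : HarmFam p) {n : ℕ} (a b : Orb n) :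
    ipB (orb p a) (orb p b) = if a = b then 1 else 0 := by
  obtain ⟨k, l, i⟩ := a
  obtain ⟨k', l', i'⟩ := b
  by_cases hk : k = k'
  · subst hk
    unfold orb
    rw [map_smul, map_smul, LinearMap.smul_apply, smul_eq_mul, smul_eq_mul]
    simp only
    by_cases hl : l = l'
    · subst hl
      rw [ipB_gS_self (mem_Harm.1 (hp.mem _ _)).1 (mem_Harm.1 (hp.mem _ _)).1, hp.orth]
      have h1 := radN_pos (k := k) (l := l) (by omega)
      by_cases hi : i = i'
      · subst hi
        rw [if_pos rfl, if_pos rfl, one_mul]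
        have h2 := Real.mul_self_sqrt h1.le
        have h3 : Real.sqrt (radN k l) ≠ 0 := (Real.sqrt_pos.2 h1).ne'
        field_simp
        rw [pow_two]
        exact h2.symm
      · rw [if_neg hi, if_neg, zero_mul, mul_zero, mul_zero]
        intro h
        apply hi
        simpa using h
    · have h1 : sph (p l i) (p l' i') = 0 :=
        sph_orth (fun h => hl (Fin.ext h)) (hp.mem _ _) (hp.mem _ _)
      rw [ipB_gS (mem_Harm.1 (hp.mem _ _)).1 (mem_Harm.1 (hp.mem _ _)).1, h1, zero_mul, mul_zero,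
        mul_zero, if_neg]
      intro h
      apply hl
      have h2 := (Sigma.mk.inj_iff.1 h).2
      rw [heq_eq_eq] at h2
      exact (Sigma.mk.inj_iff.1 h2).1
  · rw [if_neg, orth_of_ne (orb_eigen hp _) (orb_eigen hp _)]
    · intro h
      exact hk (Fin.ext (eng_injective h))
    · intro h
      exact hk (Sigma.mk.inj_iff.1 h).1

end Vale.Agent.P370.Hyd
end
end

section

section

set_option exponentiation.threshold 10000

namespace Vale.Agent.P370.Chains

open Finset

/-! ### Interactions in coordinates -/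

variable {n B : ℕ} (A : Fin n → Fin (n ^ 2) → ℤ)

/-! ### Sizes of the heights -/

variable {A}

end Vale.Agent.P370.Chains
end
end

section

section

set_option exponentiation.threshold 10000

namespace Vale.Agent.P370.Chains

open Finset

/-! ### A lemma on alternating chains -/

/-! ### Numerical bounds -/

variable {n B : ℕ} {A : Fin n → Fin (n ^ 2) → ℤ}

/-! ### Cross couplings -/

end Vale.Agent.P370.Chains
end
end

section

section

set_option exponentiation.threshold 10000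

namespace Vale.Agent.P370.Chains

open Finset

variable {n B : ℕ} {A : Fin n → Fin (n ^ 2) → ℤ}

end Vale.Agent.P370.Chains
end
end

section

section

/-!
From the circuit Hamiltonian to the couplings of the Heisenberg model: definitions (real numbers
and integers).
-/

namespace Vale.Agent.P370.H

section co

variable {R : Type} [CommRing R]

/-- coefficient of the product of the directions `a` on the qubit `b` and `a'` on the qubit `b'`;
`pv P a` are the coordinates of the Pauli operator `P` in terms of the three directions -/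
def co2 (pv : ℕ → ℕ → R) (L : List (Tm R)) (b b' a a' : ℕ) : R :=
  (L.map fun t => if t.P = 0 ∨ t.Q = 0 then 0
    else if t.i = b ∧ t.j = b' then t.c * (pv t.P a * pv t.Q a')
    else if t.i = b' ∧ t.j = b then t.c * (pv t.P a' * pv t.Q a) else 0).sum

/-- coefficient of the direction `a` on the qubit `b` -/
def co1 (pv : ℕ → ℕ → R) (L : List (Tm R)) (b a : ℕ) : R :=
  (L.map fun t => if t.P ≠ 0 ∧ t.Q = 0 ∧ t.i = b then t.c * pv t.P a else 0).sum

/-- constant term -/
def co0 (L : List (Tm R)) : R := (L.map fun t => if t.P = 0 then t.c else 0).sum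

end co

/-- coordinates of `Z` and `X` in terms of the directions `Z`, `-Z/2 + √3/2 X`, `-Z/2 - √3/2 X` -/
noncomputable def pvR (P a : ℕ) : ℝ :=
  if P = 2 then (if a = 0 then 2 / 3 else -(1 / 3))
  else if P = 1 then (if a = 0 then 0 else if a = 1 then 1 / √3 else -(1 / √3))
  else 0

/-- couplings between blocks -/
noncomputable def tR {n : ℕ} (C : ℝ) (L : List (Tm ℝ)) (b b' : Fin n) (a a' : Fin 3) : ℝ :=
  1 / 2 * (1 - co2 pvR L b b' a a' / C)

/-- couplings in the blocks -/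
noncomputable def dR {n : ℕ} (C s : ℝ) (L : List (Tm ℝ)) (b : Fin n) (a : Fin 3) : ℝ :=
  -(s ^ 3 / (12 * C)) * co1 pvR L b a

/-! ### integers; `r` is the size parameter, `s = r ^ 100`, `C = r ^ 66`, unit `r ^ 1000` -/

/-- coordinates in the unit `3 u` -/
def pvI (u P a : ℕ) : ℤ :=
  if P = 2 then (if a = 0 then 2 * (u : ℤ) else -(u : ℤ))
  else if P = 1 then (if a = 0 then 0 else if a = 1 then (Nat.sqrt (3 * u ^ 2) : ℤ)
    else -(Nat.sqrt (3 * u ^ 2) : ℤ))
  else 0

/-- cosine and sine in the unit `u` -/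
def trI (u a : ℕ) : ℤ × ℤ :=
  if a = 1 then ((Nat.sqrt ((2 * u ^ 2 + Nat.sqrt (2 * u ^ 4)) / 4) : ℤ),
    (Nat.sqrt ((2 * u ^ 2 - Nat.sqrt (2 * u ^ 4)) / 4) : ℤ))
  else ((Nat.sqrt (u ^ 2 / 2) : ℤ), (Nat.sqrt (u ^ 2 / 2) : ℤ))

/-- the Hamiltonian in the unit `r ^ 1000` -/
def hamI (N m : ℕ) (rs : List Rnd) : List (Tm ℤ) :=
  ham N m rs ((rr N rs.length : ℤ) ^ 1000) (trI (rr N rs.length ^ 1000))

/-- coupling between blocks, times `s ^ 6`, rounded -/
def fI (r : ℕ) (L : List (Tm ℤ)) (b b' a a' : ℕ) : ℤ :=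
  (r : ℤ) ^ 600 * (9 * (r : ℤ) ^ 3066 - co2 (pvI (r ^ 1000)) L b b' a a') / (18 * (r : ℤ) ^ 3066)

/-- coupling in the blocks, rounded -/
def dI (r : ℕ) (L : List (Tm ℤ)) (b a : ℕ) : ℤ :=
  -((r : ℤ) ^ 300 * co1 (pvI (r ^ 1000)) L b a) / (36 * (r : ℤ) ^ 2066)

/-- weight of the pair of spins `i`, `j`; the spins of the block `b` are `4 b + g` -/
def wI (r : ℕ) (L : List (Tm ℤ)) (i j : ℕ) : ℤ :=
  if i / 4 = j / 4 then
    (r : ℤ) ^ 1000 + (if i % 4 = 0 ∧ j % 4 ≠ 0 then dI r L (i / 4) (j % 4 - 1) else 0) +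
      (if j % 4 = 0 ∧ i % 4 ≠ 0 then dI r L (i / 4) (i % 4 - 1) else 0)
  else if i % 4 ≠ 0 ∧ j % 4 ≠ 0 then fI r L (i / 4) (j / 4) (i % 4 - 1) (j % 4 - 1)
  else if i % 4 = 0 ∧ j % 4 = 0 then (r : ℤ) ^ 700 else 0

/-- the weights -/
def wN (r : ℕ) (L : List (Tm ℤ)) (i j : ℕ) : ℕ := min (wI r L i j).toNat (2 * r ^ 1000)

/-- threshold -/
def thrI (N m : ℕ) (rs : List Rnd) : ℤ :=
  (864 * (6 * ((rs.length : ℤ) + 1)) * (rr N rs.length : ℤ) ^ 1000 * ((N + tc rs.length : ℕ) : ℤ) +
      27 * (6 * ((rs.length : ℤ) + 1)) * ((rr N rs.length : ℤ) ^ 400 + (rr N rs.length : ℤ) ^ 300) *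
        ((N + tc rs.length : ℕ) : ℤ) * (((N + tc rs.length : ℕ) : ℤ) - 1) +
      24 * (rr N rs.length : ℤ) ^ 234 * (6 * ((rs.length : ℤ) + 1)) *
        co0 (ham N m rs (1 : ℤ) (fun _ => (0, 0))) -
      88 * (rr N rs.length : ℤ) ^ 234) /
    (144 * (6 * ((rs.length : ℤ) + 1)))

/-! ### the output of the reduction -/

/-- the word `1^a 0 1^b 0 ...` of the list `a, b, ...` -/
def wordOf (l : List ℕ) : List Bool := l.flatMap fun v => List.replicate v true ++ [false]

/-- number of real qubits of the circuit -/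
def zN (z : List Bool) : ℕ := cQubits z + 1

/-- number of spins -/
def zK (z : List Bool) : ℕ := (zN z + tc (rnds z).length) * 4

/-- weights -/
def zW (z : List Bool) (i j : ℕ) : ℕ :=
  wN (rr (zN z) (rnds z).length) (hamI (zN z) (cWitness z) (rnds z)) i j

/-- threshold -/
def zA (z : List Bool) : ℕ := (thrI (zN z) (cWitness z) (rnds z)).toNat

/-- the instance of the Heisenberg model -/
def outW (z : List Bool) : List Bool :=
  wordOf ([zK z, zA z] ++ (List.range (zK z * zK z)).map fun t => zW z (t / zK z) (t % zK z))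

end Vale.Agent.P370.H
end
end

section

section

/-!
Zonal harmonics: the solid Legendre polynomials, values on null vectors.
-/

namespace Vale.Agent.P370.KC

open MeasureTheory Finset ComplexConjugate MvPolynomial Vale.Agent.P370.Q Vale.Agent.P370.Hyd

/-- the linear form of the vector `y` -/
noncomputable def ylin (y : R3) : Pl := ∑ k, C (y k) * X k

/-- solid Legendre polynomials -/
noncomputable def zonP (y : R3) : ℕ → Pl
  | 0 => 1
  | 1 => ylin y
  | (n + 2) => C (1 / ((n : ℝ) + 2)) * (C (2 * (n : ℝ) + 3) * (ylin y * zonP y (n + 1)) -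
      C (((n : ℝ) + 1) * ‖y‖ ^ 2) * (nsq * zonP y n))

theorem zonP_zero (y : R3) : zonP y 0 = 1 := by rw [zonP]
theorem zonP_one (y : R3) : zonP y 1 = ylin y := by rw [zonP]

theorem zonP_succ (y : R3) (n : ℕ) : zonP y (n + 2) =
    C (1 / ((n : ℝ) + 2)) * (C (2 * (n : ℝ) + 3) * (ylin y * zonP y (n + 1)) -
      C (((n : ℝ) + 1) * ‖y‖ ^ 2) * (nsq * zonP y n)) := by rw [zonP]

/-- value of the solid Legendre polynomial -/
noncomputable def zon (l : ℕ) (x y : R3) : ℝ :=
  ‖x‖ ^ l * ‖y‖ ^ l * S3.lp l (inner ℝ x y / (‖x‖ * ‖y‖))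

theorem ev_ylin (y x : R3) : ev (ylin y) x = inner ℝ x y := by
  unfold ev ylin
  rw [map_sum, PiLp.inner_apply]
  refine Finset.sum_congr rfl fun k _ => ?_
  simp

theorem ev_zonP (y x : R3) (l : ℕ) : ev (zonP y l) x = zon l x y := by
  have ht : inner ℝ x y / (‖x‖ * ‖y‖) * (‖x‖ * ‖y‖) = inner ℝ x y := by
    by_cases h : ‖x‖ * ‖y‖ = 0
    · rw [h, mul_zero]
      have h1 := abs_real_inner_le_norm x y
      rw [h] at h1
      exact (abs_nonpos_iff.1 h1).symm
    · exact div_mul_cancel₀ _ h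
  induction l using Nat.twoStepInduction with
  | zero =>
    rw [zonP_zero]
    unfold zon ev
    rw [show S3.lp 0 (inner ℝ x y / (‖x‖ * ‖y‖)) = 1 from rfl]
    simp
  | one =>
    rw [zonP_one, ev_ylin]
    unfold zon
    rw [pow_one, pow_one, show S3.lp 1 (inner ℝ x y / (‖x‖ * ‖y‖)) = inner ℝ x y / (‖x‖ * ‖y‖)
      from rfl]
    (clear * - ht; linarith)
  | more n ih0 ih1 =>
    have hsub : ∀ P Q : Pl, ev (P - Q) x = ev P x - ev Q x := fun P Q => by
      unfold ev; rw [map_sub]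
    rw [zonP_succ, ev_mul, ev_C, hsub, ev_mul, ev_C, ev_mul, ev_mul, ev_C, ev_mul, ev_ylin, ih0,
      ih1, ev_nsq]
    unfold zon
    have h2 := S3.lp_succ n (inner ℝ x y / (‖x‖ * ‖y‖))
    generalize hg : inner ℝ x y / (‖x‖ * ‖y‖) = t at h2 ht ⊢
    have h3 : ((n : ℝ) + 2) ≠ 0 := by (clear * -; positivity)
    rw [← ht, one_div, inv_mul_eq_iff_eq_mul₀ h3]
    have h4 : ((n : ℝ) + 2) * (‖x‖ ^ (n + 2) * ‖y‖ ^ (n + 2) * S3.lp (n + 2) t) =
        ‖x‖ ^ (n + 2) * ‖y‖ ^ (n + 2) * (((n : ℝ) + 2) * S3.lp (n + 2) t) := by ring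
    rw [h4, h2]
    ring

theorem ylin_hom (y : R3) : (ylin y).IsHomogeneous 1 := by
  refine IsHomogeneous.sum _ _ _ fun k _ => ?_
  have := (isHomogeneous_C (Fin 3) (y k)).mul (isHomogeneous_X ℝ k)
  rwa [zero_add] at this

theorem zonP_hom (y : R3) (l : ℕ) : (zonP y l).IsHomogeneous l := by
  induction l using Nat.twoStepInduction with
  | zero => rw [zonP_zero]; exact isHomogeneous_one _ _
  | one => rw [zonP_one]; exact ylin_hom y
  | more n ih0 ih1 =>
    rw [zonP_succ]
    refine IsHomogeneous.C_mul ?_ _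
    refine IsHomogeneous.sub (IsHomogeneous.C_mul ?_ _) (IsHomogeneous.C_mul ?_ _)
    · have := (ylin_hom y).mul ih1
      rwa [show 1 + (n + 1) = n + 2 by ring] at this
    · have := isHomogeneous_nsq.mul ih0
      rwa [add_comm 2 n] at this

/-- directional derivative -/
noncomputable def yd (y : R3) (P : Pl) : Pl := ∑ k, C (y k) * pderiv k P

theorem pderiv_ylin (y : R3) (k : Fin 3) : pderiv k (ylin y) = C (y k) := by
  unfold ylin
  rw [map_sum, Finset.sum_eq_single k]
  · rw [Derivation.leibniz, pderiv_C, pderiv_X_self]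
    simp only [smul_eq_mul, mul_one, mul_zero, add_zero]
  · intro j _ hj
    rw [Derivation.leibniz, pderiv_C, pderiv_X_of_ne hj]
    simp only [smul_eq_mul, mul_zero, add_zero]
  · intro h
    exact absurd (Finset.mem_univ k) h

theorem sum_C_sq (y : R3) : ∑ k, (C (y k) * C (y k) : Pl) = C (‖y‖ ^ 2) := by
  rw [EuclideanSpace.norm_sq_eq, map_sum]
  refine Finset.sum_congr rfl fun k _ => ?_
  rw [← C_mul]
  congr 1
  rw [Real.norm_eq_abs, sq_abs, pow_two]

theorem yd_sub (y : R3) (P Q : Pl) : yd y (P - Q) = yd y P - yd y Q := by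
  unfold yd
  rw [← Finset.sum_sub_distrib]
  refine Finset.sum_congr rfl fun k _ => ?_
  rw [map_sub, mul_sub]

theorem yd_mul (y : R3) (P Q : Pl) : yd y (P * Q) = P * yd y Q + Q * yd y P := by
  unfold yd
  rw [Finset.mul_sum, Finset.mul_sum, ← Finset.sum_add_distrib]
  refine Finset.sum_congr rfl fun k _ => ?_
  rw [Derivation.leibniz]
  simp only [smul_eq_mul]
  ring

theorem yd_C (y : R3) (a : ℝ) : yd y (C a) = 0 := by
  unfold yd
  refine Finset.sum_eq_zero fun k _ => ?_
  rw [pderiv_C, mul_zero]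

theorem yd_ylin (y : R3) : yd y (ylin y) = C (‖y‖ ^ 2) := by
  unfold yd
  rw [← sum_C_sq]
  refine Finset.sum_congr rfl fun k _ => ?_
  rw [pderiv_ylin]

theorem yd_nsq (y : R3) : yd y nsq = C 2 * ylin y := by
  unfold yd ylin
  rw [Finset.mul_sum]
  refine Finset.sum_congr rfl fun k _ => ?_
  rw [pderiv_nsq]
  ring

theorem yd_zonP (y : R3) (l : ℕ) :
    yd y (zonP y (l + 1)) = C (((l : ℝ) + 1) * ‖y‖ ^ 2) * zonP y l := by
  induction l using Nat.twoStepInduction with
  | zero =>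
    rw [zonP_one, zonP_zero, yd_ylin]
    simp
  | one =>
    rw [zonP_succ, zonP_one, zonP_zero, yd_mul, yd_C, yd_sub, yd_mul, yd_mul, yd_mul, yd_mul,
      yd_C, yd_C, yd_ylin, yd_nsq, show (1 : Pl) = C 1 by rw [C_1], yd_C]
    have h1 : (C (1 / (((0 : ℕ) : ℝ) + 2)) : Pl) * C 2 = 1 := by
      rw [← C_mul, ← C_1]
      congr 1
      norm_num
    have h2 : (C (2 * (((0 : ℕ) : ℝ)) + 3) : Pl) = 3 := by
      rw [show (2 * (((0 : ℕ) : ℝ)) + 3) = ((3 : ℕ) : ℝ) by norm_num, map_natCast]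
      norm_num
    have h3 : (C ((((0 : ℕ) : ℝ) + 1) * ‖y‖ ^ 2) : Pl) = C (‖y‖ ^ 2) := by
      congr 1
      simp
    have h4 : (C ((((1 : ℕ) : ℝ) + 1) * ‖y‖ ^ 2) : Pl) = C 2 * C (‖y‖ ^ 2) := by
      rw [← C_mul]
      congr 1
      norm_num
    have h5 : (C 2 : Pl) = 2 := by
      rw [show (2 : ℝ) = ((2 : ℕ) : ℝ) by norm_num, map_natCast]
      norm_num
    rw [h2, h3, h4]
    rw [h5] at h1 ⊢
    simp only [C_1]
    linear_combination (2 * C (‖y‖ ^ 2) * ylin y) * h1
  | more n ih0 ih1 =>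
    have e1 : zonP y (n + 2 + 1) = C (1 / (((n + 1 : ℕ) : ℝ) + 2)) *
        (C (2 * ((n + 1 : ℕ) : ℝ) + 3) * (ylin y * zonP y (n + 2)) -
        C ((((n + 1 : ℕ) : ℝ) + 1) * ‖y‖ ^ 2) * (nsq * zonP y (n + 1))) := zonP_succ y (n + 1)
    rw [e1, yd_mul, yd_C, yd_sub, yd_mul, yd_mul, yd_mul, yd_mul, yd_C, yd_C, yd_ylin, yd_nsq,
      ih1, ih0]
    -- constants
    have h0 : ((n : ℝ) + 2) ≠ 0 := by (clear * -; positivity)
    have hz := zonP_succ y n
    have hN : ∀ m : ℕ, (C (m : ℝ) : Pl) = (m : Pl) := fun m => map_natCast C m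
    have h2 : (C 2 : Pl) = 2 := by
      rw [show (2 : ℝ) = ((2 : ℕ) : ℝ) by norm_num, map_natCast]; norm_num
    have hc1 : (C (1 / (((n + 1 : ℕ) : ℝ) + 2)) : Pl) * ((n : Pl) + 3) = 1 := by
      rw [← hN n, show (3 : Pl) = C 3 by
        rw [show (3 : ℝ) = ((3 : ℕ) : ℝ) by norm_num, map_natCast]; norm_num, ← C_add, ← C_mul,
        ← C_1]
      congr 1
      have : ((n : ℝ) + 1 + 2) ≠ 0 := by (clear * -; positivity)
      push_cast
      field_simp
      ring
    have hc2 : (C (1 / ((n : ℝ) + 2)) : Pl) * ((n : Pl) + 2) = 1 := by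
      rw [← hN n, ← h2, ← C_add, ← C_mul, ← C_1]
      congr 1
      (clear * - h0; field_simp)
    have hc3 : (C (2 * ((n + 1 : ℕ) : ℝ) + 3) : Pl) = 2 * (n : Pl) + 5 := by
      rw [show (2 * ((n + 1 : ℕ) : ℝ) + 3) = ((2 * n + 5 : ℕ) : ℝ) by push_cast; ring, hN]
      push_cast
      ring
    have hc4 : (C (2 * (n : ℝ) + 3) : Pl) = 2 * (n : Pl) + 3 := by
      rw [show (2 * (n : ℝ) + 3) = ((2 * n + 3 : ℕ) : ℝ) by push_cast; ring, hN]
      push_cast
      ring
    have hc5 : (C ((((n + 1 : ℕ) : ℝ) + 1) * ‖y‖ ^ 2) : Pl) = ((n : Pl) + 2) * C (‖y‖ ^ 2) := by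
      rw [C_mul, show (((n + 1 : ℕ) : ℝ) + 1) = ((n + 2 : ℕ) : ℝ) by push_cast; ring, hN]
      push_cast
      ring
    have hc6 : (C (((n : ℝ) + 1) * ‖y‖ ^ 2) : Pl) = ((n : Pl) + 1) * C (‖y‖ ^ 2) := by
      rw [C_mul, show ((n : ℝ) + 1) = ((n + 1 : ℕ) : ℝ) by push_cast; ring, hN]
      push_cast
      ring
    have hc7 : (C ((((n + 2 : ℕ) : ℝ) + 1) * ‖y‖ ^ 2) : Pl) = ((n : Pl) + 3) * C (‖y‖ ^ 2) := by
      rw [C_mul, show (((n + 2 : ℕ) : ℝ) + 1) = ((n + 3 : ℕ) : ℝ) by push_cast; ring, hN]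
      push_cast
      ring
    rw [hc4, hc6] at hz
    rw [hc3, hc5, hc6, hc7, h2]
    have hz2 : ((n : Pl) + 2) * zonP y (n + 2) = (2 * (n : Pl) + 3) * (ylin y * zonP y (n + 1)) -
        ((n : Pl) + 1) * C (‖y‖ ^ 2) * (nsq * zonP y n) := by
      rw [hz]
      linear_combination ((2 * (n : Pl) + 3) * (ylin y * zonP y (n + 1)) -
        ((n : Pl) + 1) * C (‖y‖ ^ 2) * (nsq * zonP y n)) * hc2
    have hn3 : ((n : Pl) + 3) ≠ 0 := by
      intro h
      rw [h, mul_zero] at hc1
      exact zero_ne_one hc1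
    refine mul_left_cancel₀ hn3 ?_
    linear_combination (exp := 1)
      ((2 * (n : Pl) + 5) * (ylin y * (((n : Pl) + 2) * C (‖y‖ ^ 2) * zonP y (n + 1)) +
        zonP y (n + 2) * C (‖y‖ ^ 2)) - ((n : Pl) + 2) * C (‖y‖ ^ 2) *
        (nsq * (((n : Pl) + 1) * C (‖y‖ ^ 2) * zonP y n) + zonP y (n + 1) * (2 * ylin y))) * hc1 -
        ((n : Pl) + 2) * C (‖y‖ ^ 2) * hz2 

end Vale.Agent.P370.KC
end
end

section

section

open MeasureTheory

namespace Vale.Agent.P370

abbrev E3 := EuclideanSpace ℝ (Fin 3)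

theorem ibp_body {V : Type*} [NormedAddCommGroup V] [NormedSpace ℝ V] [FiniteDimensional ℝ V]
    [MeasurableSpace V] [BorelSpace V] (μ : Measure V) [μ.IsAddHaarMeasure]
    (g : V → ℂ) (hg : ContDiff ℝ 1 g) (hc : HasCompactSupport g)
    (l : V →L[ℝ] E3) (v : Fin 3 → V) (hv : ∀ c, l (v c) = EuclideanSpace.single c 1)
    (G : Fin 3 → E3 → ℝ) (hG : ∀ c, ContDiff ℝ 1 (G c)) :
    ∫ x, (∑ c, (fderiv ℝ (G c) (l x) (EuclideanSpace.single c 1) - G c (l x) ^ 2)) * ‖g x‖ ^ 2 ∂μ
      ≤ ∫ x, ∑ c, ‖fderiv ℝ g x (v c)‖ ^ 2 ∂μ := by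
  have hn : Continuous (fun x => ‖g x‖ ^ 2) := by have := hg.continuous; fun_prop
  have hnc : HasCompactSupport (fun x => ‖g x‖ ^ 2) :=
    hc.comp_left (g := fun z : ℂ => ‖z‖ ^ 2) (by simp only [norm_zero, ne_eq, OfNat.ofNat_ne_zero, not_false_eq_true, zero_pow])
  have hgdc : ∀ w, HasCompactSupport (fun x => fderiv ℝ g x w) := fun w => by
    have := hc.fderiv (𝕜 := ℝ)
    exact this.comp_left (g := fun (L : V →L[ℝ] ℂ) => L w) (by simp)
  have cgd : ∀ w, Continuous (fun x => fderiv ℝ g x w) := fun w =>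
    (hg.continuous_fderiv (by norm_num)).clm_apply continuous_const
  have cG : ∀ c, Continuous (fun x => G c (l x)) := fun c =>
    (hG c).continuous.comp l.continuous
  have cGd : ∀ c, Continuous (fun x => fderiv ℝ (G c) (l x) (EuclideanSpace.single c 1)) :=
    fun c => (((hG c).continuous_fderiv (by norm_num)).comp l.continuous).clm_apply
      continuous_const
  have h1 : ∀ c, ∫ x, (fderiv ℝ (G c) (l x) (EuclideanSpace.single c 1) - G c (l x) ^ 2)
      * ‖g x‖ ^ 2 ∂μ ≤ ∫ x, ‖fderiv ℝ g x (v c)‖ ^ 2 ∂μ := by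
    intro c
    have := ibp_dir μ g hg hc (fun x => G c (l x)) ((hG c).comp l.contDiff) (v c)
    refine le_trans (le_of_eq ?_) this
    congr 1
    ext x
    congr 2
    have hd : HasFDerivAt (fun x => G c (l x)) ((fderiv ℝ (G c) (l x)).comp l) x :=
      (((hG c).differentiable (by norm_num)) (l x)).hasFDerivAt.comp x l.hasFDerivAt
    rw [hd.fderiv]
    simp only [ContinuousLinearMap.comp_apply, hv]
  calc _ = ∑ c, ∫ x, (fderiv ℝ (G c) (l x) (EuclideanSpace.single c 1) - G c (l x) ^ 2)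
      * ‖g x‖ ^ 2 ∂μ := by
        rw [← integral_finsetSum]
        · congr 1; ext x; rw [Finset.sum_mul]
        · intro c _
          exact Continuous.integrable_of_hasCompactSupport
            (((cGd c).sub ((cG c).pow 2)).mul hn) hnc.mul_left
    _ ≤ ∑ c, ∫ x, ‖fderiv ℝ g x (v c)‖ ^ 2 ∂μ := Finset.sum_le_sum fun c _ => h1 c
    _ = _ := by
        rw [← integral_finsetSum]
        intro c _
        apply Continuous.integrable_of_hasCompactSupport
        · have := cgd (v c); (clear * - hg; fun_prop)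
        · exact (hgdc (v c)).comp_left (g := fun z : ℂ => ‖z‖ ^ 2) (by simp)

/-- regularised radius -/
noncomputable def sreg (δ : ℝ) (y : E3) : ℝ := Real.sqrt (‖y‖ ^ 2 + δ ^ 2)

theorem sreg_pos {δ : ℝ} (hδ : 0 < δ) (y : E3) : 0 < sreg δ y :=
  Real.sqrt_pos.2 (by positivity)

theorem sreg_sq (δ : ℝ) (y : E3) : sreg δ y ^ 2 = ‖y‖ ^ 2 + δ ^ 2 :=
  Real.sq_sqrt (by (clear * -; positivity))

theorem norm_le_sreg (δ : ℝ) (y : E3) : ‖y‖ ≤ sreg δ y :=
  Real.le_sqrt_of_sq_le (by nlinarith [sq_nonneg δ])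

/-- component of the radial vector field -/
noncomputable def fld (h : ℝ → ℝ) (δ : ℝ) (c : Fin 3) (y : E3) : ℝ :=
  h (‖y‖ ^ 2) * y c / sreg δ y

theorem contDiff_sreg {δ : ℝ} (hδ : 0 < δ) {n} : ContDiff ℝ n (sreg δ) := by
  unfold sreg
  apply ContDiff.sqrt
  · exact (contDiff_norm_sq ℝ).add contDiff_const
  · intro y; positivity

theorem contDiff_fld {h : ℝ → ℝ} (hh : ContDiff ℝ 1 h) {δ : ℝ} (hδ : 0 < δ) (c : Fin 3) :
    ContDiff ℝ 1 (fld h δ c) := by
  unfold fld
  apply ContDiff.div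
  · apply ContDiff.mul
    · exact hh.comp (contDiff_norm_sq ℝ)
    · fun_prop
  · exact contDiff_sreg hδ
  · intro y; exact (sreg_pos hδ y).ne'

theorem hasFDerivAt_sreg {δ : ℝ} (hδ : 0 < δ) (y : E3) :
    HasFDerivAt (sreg δ) ((1 / sreg δ y) • (innerSL ℝ y)) y := by
  have h1 : HasFDerivAt (fun y : E3 => ‖y‖ ^ 2 + δ ^ 2) (2 • (innerSL ℝ y)) y :=
    (hasStrictFDerivAt_norm_sq y).hasFDerivAt.add_const _
  have h2 := h1.sqrt (by positivity)
  refine h2.congr_fderiv ?_
  ext w
  simp only [sreg]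
  have : Real.sqrt (‖y‖ ^ 2 + δ ^ 2) ≠ 0 := (sreg_pos hδ y).ne'
  simp only [one_div, mul_inv_rev, smul_apply, coe_innerSL_apply, nsmul_eq_mul, Nat.cast_ofNat, smul_eq_mul]
  field_simp

theorem fderiv_fld {h h' : ℝ → ℝ} (hh : ∀ t, HasDerivAt h (h' t) t) {δ : ℝ} (hδ : 0 < δ)
    (c : Fin 3) (y : E3) :
    fderiv ℝ (fld h δ c) y (EuclideanSpace.single c 1)
      = h (‖y‖ ^ 2) / sreg δ y + 2 * h' (‖y‖ ^ 2) * (y c) ^ 2 / sreg δ y
        - h (‖y‖ ^ 2) * (y c) ^ 2 / sreg δ y ^ 3 := by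
  have hs : sreg δ y ≠ 0 := (sreg_pos hδ y).ne'
  have h1 : HasFDerivAt (fun y : E3 => ‖y‖ ^ 2) (2 • (innerSL ℝ y)) y :=
    (hasStrictFDerivAt_norm_sq y).hasFDerivAt
  have h2 : HasFDerivAt (fun y : E3 => h (‖y‖ ^ 2)) (h' (‖y‖ ^ 2) • (2 • (innerSL ℝ y))) y :=
    (hh (‖y‖ ^ 2)).comp_hasFDerivAt y h1
  have h3 : HasFDerivAt (fun y : E3 => y c) (EuclideanSpace.proj c : E3 →L[ℝ] ℝ) y :=
    (EuclideanSpace.proj c : E3 →L[ℝ] ℝ).hasFDerivAt
  have hinv : HasFDerivAt (fun y : E3 => (sreg δ y)⁻¹)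
      ((-(sreg δ y ^ 2)⁻¹) • ((1 / sreg δ y) • (innerSL ℝ y))) y :=
    (hasDerivAt_inv hs).comp_hasFDerivAt y (hasFDerivAt_sreg hδ y)
  have h4 := (h2.mul h3).mul hinv
  have h5 : fld h δ c = ((fun y : E3 => h (‖y‖ ^ 2)) * fun y => y c) * fun y => (sreg δ y)⁻¹ := by
    ext y; simp only [fld, div_eq_mul_inv, Pi.mul_apply]
  rw [h5, h4.fderiv]
  have e1 : inner ℝ y (EuclideanSpace.single c (1:ℝ)) = y c := by
    simp only [EuclideanSpace.inner_single_right, Real.ringHom_apply, one_mul]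
  simp [e1]
  field_simp
  ring

theorem div_fld {h h' : ℝ → ℝ} (hh : ∀ t, HasDerivAt h (h' t) t) {δ : ℝ} (hδ : 0 < δ)
    (y : E3) :
    ∑ c, fderiv ℝ (fld h δ c) y (EuclideanSpace.single c 1)
      = 3 * h (‖y‖ ^ 2) / sreg δ y + 2 * h' (‖y‖ ^ 2) * ‖y‖ ^ 2 / sreg δ y
        - h (‖y‖ ^ 2) * ‖y‖ ^ 2 / sreg δ y ^ 3 := by
  simp_rw [fderiv_fld hh hδ]
  rw [EuclideanSpace.real_norm_sq_eq]
  simp only [Fin.sum_univ_three]
  ring

theorem sq_fld (h : ℝ → ℝ) (δ : ℝ) (y : E3) :
    ∑ c, fld h δ c y ^ 2 = h (‖y‖ ^ 2) ^ 2 * ‖y‖ ^ 2 / sreg δ y ^ 2 := by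
  simp only [fld]
  rw [EuclideanSpace.real_norm_sq_eq]
  simp only [Fin.sum_univ_three]
  ring

end Vale.Agent.P370
end
end

section

section

open MeasureTheory Filter Topology

namespace Vale.Agent.P370

section
variable {V : Type*} [NormedAddCommGroup V] [NormedSpace ℝ V] [FiniteDimensional ℝ V]
    [MeasurableSpace V] [BorelSpace V]

theorem ibp_centers (μ : Measure V) [μ.IsAddHaarMeasure]
    (g : V → ℂ) (hg : ContDiff ℝ 1 g) (hc : HasCompactSupport g)
    (l : V →L[ℝ] E3) (v : Fin 3 → V) (hv : ∀ c, l (v c) = EuclideanSpace.single c 1)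
    {ι : Type*} [Fintype ι] (R : ι → E3)
    {h h' : ℝ → ℝ} (hh1 : ContDiff ℝ 1 h) (hh : ∀ t, HasDerivAt h (h' t) t) {δ : ℝ} (hδ : 0 < δ) :
    ∫ x, ((∑ a, (3 * h (‖l x - R a‖ ^ 2) / sreg δ (l x - R a)
          + 2 * h' (‖l x - R a‖ ^ 2) * ‖l x - R a‖ ^ 2 / sreg δ (l x - R a)
          - h (‖l x - R a‖ ^ 2) * ‖l x - R a‖ ^ 2 / sreg δ (l x - R a) ^ 3))
        - ∑ c, (∑ a, fld h δ c (l x - R a)) ^ 2) * ‖g x‖ ^ 2 ∂μ
      ≤ ∫ x, ∑ c, ‖fderiv ℝ g x (v c)‖ ^ 2 ∂μ := by
  have hG : ∀ c, ContDiff ℝ 1 (fun y : E3 => ∑ a, fld h δ c (y - R a)) := by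
    intro c
    apply ContDiff.sum
    intro a _
    exact (contDiff_fld hh1 hδ c).comp (contDiff_id.sub contDiff_const)
  have := ibp_body μ g hg hc l v hv (fun c y => ∑ a, fld h δ c (y - R a)) hG
  refine le_trans (le_of_eq ?_) this
  congr 1
  ext x
  congr 1
  have hd : ∀ c, fderiv ℝ (fun y : E3 => ∑ a, fld h δ c (y - R a)) (l x)
      (EuclideanSpace.single c 1)
      = ∑ a, fderiv ℝ (fld h δ c) (l x - R a) (EuclideanSpace.single c 1) := by
    intro c
    have h1 : ∀ a, HasFDerivAt (fun y : E3 => fld h δ c (y - R a))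
        (fderiv ℝ (fld h δ c) (l x - R a)) (l x) := by
      intro a
      have h2 : HasFDerivAt (fld h δ c) (fderiv ℝ (fld h δ c) (l x - R a)) (l x - R a) :=
        ((contDiff_fld hh1 hδ c).differentiable (by norm_num) _).hasFDerivAt
      have h3 : HasFDerivAt (fun y : E3 => y - R a) (ContinuousLinearMap.id ℝ E3) (l x) :=
        (hasFDerivAt_id _).sub_const _
      have h5 := h2.comp (l x) h3
      rw [ContinuousLinearMap.comp_id] at h5
      exact h5
    have h4 : HasFDerivAt (fun y : E3 => ∑ a, fld h δ c (y - R a))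
        (∑ a, fderiv ℝ (fld h δ c) (l x - R a)) (l x) :=
      HasFDerivAt.fun_sum fun a _ => h1 a
    rw [h4.fderiv]
    simp only [sum_apply]
  have e1 : ∑ c, ((fderiv ℝ (fun y : E3 => ∑ a, fld h δ c (y - R a)) (l x))
      (EuclideanSpace.single c 1) - (∑ a, fld h δ c (l x - R a)) ^ 2)
      = ∑ a, ∑ c, fderiv ℝ (fld h δ c) (l x - R a) (EuclideanSpace.single c 1)
        - ∑ c, (∑ a, fld h δ c (l x - R a)) ^ 2 := by
    rw [Finset.sum_sub_distrib, Finset.sum_comm]
    simp_rw [hd]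
  rw [e1]
  congr 1
  refine Finset.sum_congr rfl fun a _ => ?_
  rw [div_fld hh hδ]

/-- Hydrogen-type bound with regularised Coulomb potential. -/
theorem hydrogen_reg (μ : Measure V) [μ.IsAddHaarMeasure]
    (g : V → ℂ) (hg : ContDiff ℝ 1 g) (hc : HasCompactSupport g)
    (l : V →L[ℝ] E3) (v : Fin 3 → V) (hv : ∀ c, l (v c) = EuclideanSpace.single c 1)
    (w : E3) {δ : ℝ} (hδ : 0 < δ) (κ : ℝ) (hκ : 0 ≤ κ) :
    ∫ x, 2 * κ / sreg δ (l x - w) * ‖g x‖ ^ 2 ∂μ
      ≤ ∫ x, ∑ c, ‖fderiv ℝ g x (v c)‖ ^ 2 ∂μ + κ ^ 2 * ∫ x, ‖g x‖ ^ 2 ∂μ := by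
  have h1 := ibp_centers μ g hg hc l v hv (fun _ : Unit => w) (h := fun _ => κ)
    (h' := fun _ => 0) contDiff_const (fun t => hasDerivAt_const t κ) hδ
  have hn : Continuous (fun x => ‖g x‖ ^ 2) := by have := hg.continuous; fun_prop
  have hnc : HasCompactSupport (fun x => ‖g x‖ ^ 2) :=
    hc.comp_left (g := fun z : ℂ => ‖z‖ ^ 2) (by simp only [norm_zero, ne_eq, OfNat.ofNat_ne_zero, not_false_eq_true, zero_pow])
  have cs : Continuous (fun x => sreg δ (l x - w)) :=
    (contDiff_sreg hδ (n := 0)).continuous.comp (by (clear * -; fun_prop))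
  have hs : ∀ x, sreg δ (l x - w) ≠ 0 := fun x => (sreg_pos hδ _).ne'
  have i1 : Integrable (fun x => 2 * κ / sreg δ (l x - w) * ‖g x‖ ^ 2) μ := by
    apply Continuous.integrable_of_hasCompactSupport _ hnc.mul_left
    exact (continuous_const.div cs hs).mul hn
  have i2 : Integrable (fun x => ‖g x‖ ^ 2) μ := hn.integrable_of_hasCompactSupport hnc
  have i3 : Integrable (fun x => (2 * κ / sreg δ (l x - w) - κ ^ 2) * ‖g x‖ ^ 2) μ := by
    apply Continuous.integrable_of_hasCompactSupport _ hnc.mul_left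
    exact ((continuous_const.div cs hs).sub continuous_const).mul hn
  have h2 : ∫ x, (2 * κ / sreg δ (l x - w) - κ ^ 2) * ‖g x‖ ^ 2 ∂μ
      ≤ ∫ x, ∑ c, ‖fderiv ℝ g x (v c)‖ ^ 2 ∂μ := by
    refine le_trans ?_ h1
    apply integral_mono i3
    · apply Continuous.integrable_of_hasCompactSupport _ hnc.mul_left
      have cf : ∀ c, Continuous (fun x => fld (fun _ => κ) δ c (l x - w)) := fun c =>
        (contDiff_fld contDiff_const hδ c).continuous.comp (by fun_prop)
      have cl : Continuous (fun x => ‖l x - w‖ ^ 2) := by fun_prop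
      apply Continuous.mul _ hn
      apply Continuous.sub
      · apply continuous_finsetSum
        intro _ _
        apply Continuous.sub
        · apply Continuous.add
          · exact continuous_const.div cs hs
          · exact (continuous_const.mul cl).div cs hs
        · exact (continuous_const.mul cl).div (cs.pow 3) (fun x => pow_ne_zero 3 (hs x))
      · apply continuous_finsetSum
        intro c _
        apply Continuous.pow
        apply continuous_finsetSum
        intro _ _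
        exact cf c
    · intro x
      apply mul_le_mul_of_nonneg_right _ (by positivity)
      simp only [Finset.univ_unique, Finset.sum_singleton, mul_zero, zero_mul, zero_div, add_zero]
      have e1 := sq_fld (fun _ => κ) δ (l x - w)
      rw [e1]
      have hp := sreg_pos hδ (l x - w)
      have hsq := sreg_sq δ (l x - w)
      set s := sreg δ (l x - w) with hsdef
      set r := ‖l x - w‖
      have hrs : r ^ 2 ≤ s ^ 2 := by linarith only [hsq, sq_nonneg δ]
      have e2 : κ * r ^ 2 / s ^ 3 ≤ κ / s := by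
        rw [div_le_div_iff₀ (by (clear * - hp; positivity)) hp]
        linarith only [mul_le_mul_of_nonneg_left hrs (mul_nonneg hκ hp.le)]
      have e3 : κ ^ 2 * r ^ 2 / s ^ 2 ≤ κ ^ 2 := by
        rw [div_le_iff₀ (by positivity)]
        exact mul_le_mul_of_nonneg_left hrs (by (clear * -; positivity))
      have e4 : 3 * κ / s = 2 * κ / s + κ / s := by ring
      linarith only [e2, e3, e4]
  have h3 : ∫ x, (2 * κ / sreg δ (l x - w) - κ ^ 2) * ‖g x‖ ^ 2 ∂μ
      = ∫ x, 2 * κ / sreg δ (l x - w) * ‖g x‖ ^ 2 ∂μ - κ ^ 2 * ∫ x, ‖g x‖ ^ 2 ∂μ := by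
    rw [← integral_const_mul, ← integral_sub i1 (i2.const_mul _)]
    congr 1; ext x; ring
  linarith only [h2, h3]

theorem tendsto_sreg_seq (y : E3) :
    Tendsto (fun n : ℕ => sreg (1 / ((n : ℝ) + 1)) y) atTop (𝓝 ‖y‖) := by
  have h1 : Tendsto (fun n : ℕ => 1 / ((n : ℝ) + 1)) atTop (𝓝 0) :=
    tendsto_one_div_add_atTop_nhds_zero_nat
  have h2 : Tendsto (fun δ : ℝ => sreg δ y) (𝓝 0) (𝓝 (sreg 0 y)) := by
    have : Continuous (fun δ : ℝ => sreg δ y) := by unfold sreg; fun_prop
    exact this.tendsto 0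
  have h3 : sreg 0 y = ‖y‖ := by simp only [sreg, ne_eq, OfNat.ofNat_ne_zero, not_false_eq_true, zero_pow, add_zero, norm_nonneg, Real.sqrt_sq]
  rw [← h3]
  exact h2.comp h1

theorem coulomb_integrable (μ : Measure V) [μ.IsAddHaarMeasure]
    (g : V → ℂ) (hg : ContDiff ℝ 1 g) (hc : HasCompactSupport g)
    (l : V →L[ℝ] E3) (v : Fin 3 → V) (hv : ∀ c, l (v c) = EuclideanSpace.single c 1)
    (w : E3) : Integrable (fun x => ‖g x‖ ^ 2 / ‖l x - w‖) μ := by
  have hn : Continuous (fun x => ‖g x‖ ^ 2) := by have := hg.continuous; fun_prop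
  have hnc : HasCompactSupport (fun x => ‖g x‖ ^ 2) :=
    hc.comp_left (g := fun z : ℂ => ‖z‖ ^ 2) (by simp)
  have hl : Continuous (fun x => ‖l x - w‖) := by (clear * -; fun_prop)
  have hdn : ∀ n : ℕ, (0:ℝ) < 1 / ((n : ℝ) + 1) := fun n => by positivity
  refine (fatou_real (F := fun n x => ‖g x‖ ^ 2 / sreg (1 / ((n : ℝ) + 1)) (l x - w))
    (K := (∫ x, ∑ c, ‖fderiv ℝ g x (v c)‖ ^ 2 ∂μ + 1 ^ 2 * ∫ x, ‖g x‖ ^ 2 ∂μ) / 2)
    ?_ ?_ ?_ ?_ ?_ ?_).1
  · exact hn.measurable.div hl.measurable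
  · intro x; positivity
  · intro n
    have cs : Continuous (fun x => sreg (1 / ((n : ℝ) + 1)) (l x - w)) :=
      (contDiff_sreg (hdn n) (n := 0)).continuous.comp (by fun_prop)
    have : (fun x => ‖g x‖ ^ 2 / sreg (1 / ((n : ℝ) + 1)) (l x - w))
        = fun x => (sreg (1 / ((n : ℝ) + 1)) (l x - w))⁻¹ * ‖g x‖ ^ 2 := by
      ext x; rw [div_eq_inv_mul]
    rw [this]
    exact Continuous.integrable_of_hasCompactSupport
      ((cs.inv₀ (fun x => (sreg_pos (hdn n) _).ne')).mul hn) hnc.mul_left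
  · intro n x
    have := sreg_pos (hdn n) (l x - w)
    (clear * - this; positivity)
  · intro x
    by_cases h0 : l x - w = 0
    · left; rw [h0]; simp only [norm_zero, div_zero]
    · right
      have h1 : ‖l x - w‖ ≠ 0 := norm_ne_zero_iff.2 h0
      exact (tendsto_const_nhds).div (tendsto_sreg_seq _) h1
  · intro n
    have := hydrogen_reg μ g hg hc l v hv w (hdn n) 1 (by norm_num)
    have e : ∫ x, 2 * 1 / sreg (1 / ((n : ℝ) + 1)) (l x - w) * ‖g x‖ ^ 2 ∂μ
        = 2 * ∫ x, ‖g x‖ ^ 2 / sreg (1 / ((n : ℝ) + 1)) (l x - w) ∂μ := by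
      rw [← integral_const_mul]
      congr 1; ext x; ring
    rw [e] at this
    linarith only [this]

end

end Vale.Agent.P370
end
end

section

section

open MeasureTheory Filter Topology

namespace Vale.Agent.P370

section
variable {V : Type*} [NormedAddCommGroup V] [NormedSpace ℝ V] [FiniteDimensional ℝ V]
    [MeasurableSpace V] [BorelSpace V]

end

end Vale.Agent.P370
end
end

section

section

open MeasureTheory Filter Topology

namespace Vale.Agent.P370

end Vale.Agent.P370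
end
end

section

section

/-!
Measure theory of the slots of a finite power of a measure space.
-/

namespace Vale.Agent.P370.NB

open MeasureTheory Function

variable {ι : Type*} [Fintype ι] [DecidableEq ι] {Y : Type*} [MeasurableSpace Y]

/-- the power measure -/
noncomputable abbrev pm (ι : Type*) [Fintype ι] {Y : Type*} [MeasurableSpace Y] (μ : Measure Y) :
    Measure (ι → Y) := Measure.pi fun _ => μ

def slotMap (i : ι) (p : (ι → Y) × Y) : (ι → Y) × Y := (update p.1 i p.2, p.1 i)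

omit [Fintype ι] in
theorem measurable_update_pair (i : ι) :
    Measurable (fun p : (ι → Y) × Y => update p.1 i p.2) := by
  rw [measurable_pi_iff]
  intro j
  by_cases h : j = i
  · subst h
    simp only [update_self]
    exact measurable_snd
  · simp only [update_of_ne h]
    exact (measurable_pi_apply j).comp measurable_fst

omit [Fintype ι] in
theorem measurable_slotMap (i : ι) : Measurable (slotMap (Y := Y) i) :=
  (measurable_update_pair i).prodMk ((measurable_pi_apply i).comp measurable_fst)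

omit [Fintype ι] [MeasurableSpace Y] in
theorem slotMap_slotMap (i : ι) (p : (ι → Y) × Y) : slotMap i (slotMap i p) = p := by
  unfold slotMap
  ext j
  · simp only [update_idem, update_eq_self]
  · simp

variable (μ : Measure Y) [SigmaFinite μ]

theorem measurePreserving_slotMap (i : ι) :
    MeasurePreserving (slotMap i) ((pm ι μ).prod μ) ((pm ι μ).prod μ) := by
  refine ⟨measurable_slotMap i, ?_⟩
  let e : (Option ι → Y) ≃ᵐ (ι → Y) × Y := MeasurableEquiv.piOptionEquivProd (fun _ => Y)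
  have he : MeasurePreserving e.symm ((pm ι μ).prod μ) (pm (Option ι) μ) :=
    ⟨e.symm.measurable, Measure.pi_map_piOptionEquivProd (fun _ : Option ι => μ)⟩
  have he' : MeasurePreserving e (pm (Option ι) μ) ((pm ι μ).prod μ) := he.symm
  let s : (Option ι → Y) ≃ᵐ (Option ι → Y) :=
    MeasurableEquiv.piCongrLeft (fun _ => Y) (Equiv.swap none (some i))
  have hs : MeasurePreserving s (pm (Option ι) μ) (pm (Option ι) μ) :=
    measurePreserving_piCongrLeft (fun _ : Option ι => μ) (Equiv.swap none (some i))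
  have h := (he'.comp (hs.comp he)).map_eq
  have hfun : (e ∘ (s ∘ e.symm)) = slotMap (Y := Y) i := by
    funext p
    apply e.symm.injective
    simp only [comp_apply, MeasurableEquiv.symm_apply_apply]
    funext o
    have h1 : ∀ (q : (ι → Y) × Y), e.symm q none = q.2 := fun q => rfl
    have h2 : ∀ (q : (ι → Y) × Y) (j : ι), e.symm q (some j) = q.1 j := fun q j => rfl
    have h3 : ∀ (f : Option ι → Y), s f = fun o => f (Equiv.swap none (some i) o) := by
      intro f
      funext o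
      have := Equiv.piCongrLeft_apply_apply (P := fun _ : Option ι => Y)
        (Equiv.swap none (some i)) f (Equiv.swap none (some i) o)
      rw [Equiv.swap_apply_self] at this
      exact this
    rw [h3]
    simp only
    cases o with
    | none =>
      rw [Equiv.swap_apply_left, h1, h2]
      rfl
    | some j =>
      by_cases hj : j = i
      · subst hj
        rw [Equiv.swap_apply_right, h1, h2]
        simp only [slotMap, update_self]
      · rw [Equiv.swap_apply_of_ne_of_ne (by simp) (by simpa using hj), h2, h2]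
        simp only [slotMap, update_of_ne hj]
  rw [hfun] at h
  exact h

variable {E : Type*} [NormedAddCommGroup E]

theorem integrable_slotMap (i : ι) {K : (ι → Y) × Y → E} (hK : Integrable K ((pm ι μ).prod μ)) :
    Integrable (fun p => K (slotMap i p)) ((pm ι μ).prod μ) :=
  (measurePreserving_slotMap μ i).integrable_comp_of_integrable hK

variable [NormedSpace ℝ E]

theorem integral_slotMap (i : ι) (K : (ι → Y) × Y → E) (hK : AEStronglyMeasurable K ((pm ι μ).prod μ)) :
    ∫ p, K (slotMap i p) ∂((pm ι μ).prod μ) = ∫ p, K p ∂((pm ι μ).prod μ) := by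
  have h := (measurePreserving_slotMap μ i).map_eq
  conv_rhs => rw [← h]
  rw [integral_map (measurable_slotMap i).aemeasurable]
  rw [h]
  exact hK

/-- iterated form -/
theorem integral_slot₂ (i : ι) (K : (ι → Y) → Y → E)
    (hK : Integrable (fun p : (ι → Y) × Y => K p.1 p.2) ((pm ι μ).prod μ)) :
    ∫ w, ∫ z, K (update w i z) (w i) ∂μ ∂(pm ι μ) = ∫ w, ∫ z, K w z ∂μ ∂(pm ι μ) := by
  have h1 := integral_slotMap μ i _ hK.1
  have h2 := integrable_slotMap μ i hK
  rw [integral_prod _ hK, integral_prod _ h2] at h1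
  exact h1

/-- averaging over one slot -/
theorem integral_slot [CompleteSpace E] (i : ι) {F : (ι → Y) → E} (hF : Integrable F (pm ι μ)) {h : Y → ℝ}
    (hh : Integrable h μ) (h1 : ∫ y, h y ∂μ = 1) :
    ∫ w, F w ∂(pm ι μ) = ∫ w, h (w i) • ∫ z, F (update w i z) ∂μ ∂(pm ι μ) := by
  have hK : Integrable (fun p : (ι → Y) × Y => h p.2 • F p.1) ((pm ι μ).prod μ) :=
    hF.op_fst_snd (op := fun x (c : ℝ) => c • x) (continuous_snd.smul continuous_fst)
      ⟨1, fun x y => by rw [norm_smul]; linarith [mul_comm ‖y‖ ‖x‖]⟩ hh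
  have h2 := integral_slot₂ μ i (fun w z => h z • F w) hK
  have h3 : ∀ w : ι → Y, ∫ z, h z • F w ∂μ = F w := by
    intro w
    rw [integral_smul_const, h1, one_smul]
  simp only [h3] at h2
  rw [← h2]
  refine integral_congr_ae (Filter.Eventually.of_forall fun w => ?_)
  exact integral_smul _ _

end Vale.Agent.P370.NB
end
end

section

section

/-!
Abstract slot projections: a resolution of the identity in each slot, commuting between slots, on a
(semi) inner product space. The weights `‖cfg J u‖ ^ 2` of the configurations form a joint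
distribution whose marginals are `‖p i b u‖ ^ 2`.
-/

namespace Vale.Agent.P370.NB

open scoped ComplexInnerProductSpace

variable {V : Type*} [SeminormedAddCommGroup V] [InnerProductSpace ℂ V]

structure Slots (V : Type*) [SeminormedAddCommGroup V] [InnerProductSpace ℂ V] (N : ℕ)
    (B : Type*) [Fintype B] where
  p : Fin N → B → V →ₗ[ℂ] V
  symm : ∀ i b u v, ⟪p i b u, v⟫ = ⟪u, p i b v⟫
  idem : ∀ i b u, p i b (p i b u) = p i b u
  orth : ∀ i a b u, a ≠ b → p i a (p i b u) = 0
  comm : ∀ i j a b u, i ≠ j → p i a (p j b u) = p j b (p i a u)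
  total : ∀ i u, ∑ b, p i b u = u

namespace Slots

variable {N : ℕ} {B : Type*} [Fintype B] (S : Slots V N B)

theorem norm_sq_sum (i : Fin N) (u : V) : ∑ b, ‖S.p i b u‖ ^ 2 = ‖u‖ ^ 2 := by
  have h : (⟪u, u⟫ : ℂ) = ∑ b, ⟪S.p i b u, S.p i b u⟫ := by
    conv_lhs => rw [← S.total i u]
    rw [sum_inner]
    refine Finset.sum_congr rfl fun b _ => ?_
    rw [S.total i u, S.symm i b u (S.p i b u), S.idem, ← S.symm]
  have h2 := congrArg Complex.re h
  rw [Complex.re_sum] at h2
  simp only [inner_self_eq_norm_sq_to_K] at h2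
  norm_cast at h2
  exact h2.symm

/-- configuration operator for the first `k` slots -/
noncomputable def cfg : (k : ℕ) → (hk : k ≤ N) → (Fin k → B) → V →ₗ[ℂ] V
  | 0, _, _ => LinearMap.id
  | k + 1, hk, J => (S.p ⟨k, hk⟩ (J (Fin.last k))).comp
      (cfg k (Nat.le_of_succ_le hk) (fun i => J i.castSucc))

theorem cfg_succ (k : ℕ) (hk : k + 1 ≤ N) (J : Fin (k + 1) → B) (u : V) :
    S.cfg (k + 1) hk J u =
      S.p ⟨k, hk⟩ (J (Fin.last k)) (S.cfg k (Nat.le_of_succ_le hk) (fun i => J i.castSucc) u) :=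
  rfl

theorem sum_cfg (k : ℕ) (hk : k ≤ N) (u : V) : ∑ J, ‖S.cfg k hk J u‖ ^ 2 = ‖u‖ ^ 2 := by
  induction k with
  | zero =>
    rw [Fintype.sum_unique]
    rfl
  | succ k ih =>
    have h1 : ∑ J : Fin (k + 1) → B, ‖S.cfg (k + 1) hk J u‖ ^ 2 =
        ∑ q : B × (Fin k → B), ‖S.p ⟨k, hk⟩ q.1 (S.cfg k (Nat.le_of_succ_le hk) q.2 u)‖ ^ 2 := by
      refine (Fintype.sum_equiv (Fin.snocEquiv (fun _ => B)) _ _ ?_).symm
      intro q
      rw [cfg_succ]
      simp [Fin.snocEquiv]
    rw [h1, Fintype.sum_prod_type_right]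
    rw [← ih (Nat.le_of_succ_le hk)]
    refine Finset.sum_congr rfl fun J _ => ?_
    exact S.norm_sq_sum ⟨k, hk⟩ (S.cfg k (Nat.le_of_succ_le hk) J u)

theorem cfg_comm (k : ℕ) (hk : k ≤ N) (J : Fin k → B) (i : Fin N) (hi : k ≤ i.val) (b : B) (u : V) :
    S.cfg k hk J (S.p i b u) = S.p i b (S.cfg k hk J u) := by
  induction k with
  | zero => rfl
  | succ k ih =>
    rw [cfg_succ, cfg_succ, ih (Nat.le_of_succ_le hk) _ (by omega)]
    apply S.comm
    intro h
    have := congrArg Fin.val h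
    simp at this
    omega

theorem cfg_p [DecidableEq B] (k : ℕ) (hk : k ≤ N) (J : Fin k → B) (i : Fin k) (b : B) (u : V) :
    S.cfg k hk J (S.p ⟨i.val, lt_of_lt_of_le i.isLt hk⟩ b u) =
      if J i = b then S.cfg k hk J u else 0 := by
  induction k with
  | zero => exact i.elim0
  | succ k ih =>
    rw [cfg_succ, cfg_succ]
    refine Fin.lastCases ?_ (fun j => ?_) i
    · have h1 : (⟨(Fin.last k).val, lt_of_lt_of_le (Fin.last k).isLt hk⟩ : Fin N) = ⟨k, hk⟩ := rfl
      rw [h1, cfg_comm _ _ _ _ _ (le_refl k)]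
      split_ifs with h
      · rw [h, S.idem]
      · exact S.orth _ _ _ _ h
    · have h1 := ih (Nat.le_of_succ_le hk) (fun i => J i.castSucc) j
      have h2 : (⟨(Fin.castSucc j).val, lt_of_lt_of_le (Fin.castSucc j).isLt hk⟩ : Fin N) =
        ⟨j.val, lt_of_lt_of_le j.isLt (Nat.le_of_succ_le hk)⟩ := rfl
      rw [h2, h1]
      split_ifs with h
      · rfl
      · exact map_zero _

theorem marginal [DecidableEq B] (i : Fin N) (b : B) (u : V) :
    ∑ J : Fin N → B, (if J i = b then ‖S.cfg N le_rfl J u‖ ^ 2 else 0) = ‖S.p i b u‖ ^ 2 := by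
  rw [← S.sum_cfg N le_rfl (S.p i b u)]
  refine Finset.sum_congr rfl fun J _ => ?_
  have := S.cfg_p N le_rfl J i b u
  have h2 : (⟨i.val, lt_of_lt_of_le i.isLt le_rfl⟩ : Fin N) = i := rfl
  rw [h2] at this
  rw [this]
  split_ifs <;> simp

theorem weight_marginal [DecidableEq B] (f : B → ℝ) (i : Fin N) (u : V) :
    ∑ b, f b * ‖S.p i b u‖ ^ 2 = ∑ J : Fin N → B, f (J i) * ‖S.cfg N le_rfl J u‖ ^ 2 := by
  have h1 : ∀ b, f b * ‖S.p i b u‖ ^ 2 =
      ∑ J : Fin N → B, (if J i = b then f b * ‖S.cfg N le_rfl J u‖ ^ 2 else 0) := by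
    intro b
    rw [← S.marginal i b u, Finset.mul_sum]
    refine Finset.sum_congr rfl fun J _ => ?_
    split_ifs <;> simp
  simp_rw [h1]
  rw [Finset.sum_comm]
  refine Finset.sum_congr rfl fun J _ => ?_
  rw [Finset.sum_ite_eq]
  simp only [Finset.mem_univ, ↓reduceIte]

theorem cfg_eq_zero [DecidableEq B] (u : V) (b : B) (i j : Fin N)
    (h0 : S.p i b (S.p j b u) = 0) (J : Fin N → B) (hi : J i = b) (hj : J j = b) :
    S.cfg N le_rfl J u = 0 := by
  have h1 := S.cfg_p N le_rfl J i b (S.p j b u)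
  have h2 := S.cfg_p N le_rfl J j b u
  have e1 : (⟨i.val, lt_of_lt_of_le i.isLt le_rfl⟩ : Fin N) = i := rfl
  have e2 : (⟨j.val, lt_of_lt_of_le j.isLt le_rfl⟩ : Fin N) = j := rfl
  rw [e1, if_pos hi] at h1
  rw [e2, if_pos hj] at h2
  rw [← h2, ← h1, h0, map_zero]

end Slots

/-- orthogonal projections `p i a`, `a : A`, in every slot; not nec. summing to one -/
structure PreSlots (V : Type*) [SeminormedAddCommGroup V] [InnerProductSpace ℂ V] (N : ℕ)
    (A : Type*) where
  p : Fin N → A → V →ₗ[ℂ] V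
  symm : ∀ i b u v, ⟪p i b u, v⟫ = ⟪u, p i b v⟫
  idem : ∀ i b u, p i b (p i b u) = p i b u
  orth : ∀ i a b u, a ≠ b → p i a (p i b u) = 0
  comm : ∀ i j a b u, i ≠ j → p i a (p j b u) = p j b (p i a u)

namespace PreSlots

variable {N : ℕ} {A : Type*} [Fintype A] (S : PreSlots V N A)

noncomputable def q (i : Fin N) : Option A → V →ₗ[ℂ] V
  | some a => S.p i a
  | none => LinearMap.id - ∑ a, S.p i a

theorem q_some (i : Fin N) (a : A) : S.q i (some a) = S.p i a := rfl

theorem q_none_apply (i : Fin N) (u : V) : S.q i none u = u - ∑ a, S.p i a u := by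
  simp only [q, LinearMap.sub_apply, LinearMap.id_coe, id_eq, LinearMap.coe_sum, Finset.sum_apply]

theorem p_sum (i : Fin N) (a : A) (u : V) : S.p i a (∑ b, S.p i b u) = S.p i a u := by
  classical
  rw [map_sum, Finset.sum_eq_single a]
  · exact S.idem _ _ _
  · intro b _ hb
    exact S.orth _ _ _ _ (Ne.symm hb)
  · simp only [Finset.mem_univ, not_true_eq_false, IsEmpty.forall_iff]

noncomputable def toSlots : Slots V N (Option A) where
  p := S.q
  symm := by
    intro i b u v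
    cases b with
    | some a => exact S.symm i a u v
    | none =>
      rw [q_none_apply, q_none_apply, inner_sub_left, inner_sub_right, sum_inner, inner_sum]
      congr 1
      exact Finset.sum_congr rfl fun a _ => S.symm i a u v
  idem := by
    intro i b u
    cases b with
    | some a => exact S.idem i a u
    | none =>
      rw [q_none_apply, q_none_apply]
      simp only [map_sub, p_sum, sub_self, Finset.sum_const_zero, sub_zero]
  orth := by
    intro i a b u hab
    cases a with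
    | some a =>
      cases b with
      | some b => exact S.orth i a b u (fun h => hab (by rw [h]))
      | none =>
        rw [q_none_apply, q_some, map_sub, p_sum, sub_self]
    | none =>
      cases b with
      | some b =>
        classical
        rw [q_none_apply, q_some, Finset.sum_eq_single b, S.idem, sub_self]
        · intro c _ hc
          exact S.orth _ _ _ _ hc
        · simp
      | none => exact absurd rfl hab
  comm := by
    have h1 : ∀ (i j : Fin N) (a : A) (u : V), i ≠ j →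
        S.p i a (∑ b, S.p j b u) = ∑ b, S.p j b (S.p i a u) := by
      intro i j a u hij
      rw [map_sum]
      exact Finset.sum_congr rfl fun b _ => S.comm i j a b u hij
    intro i j a b u hij
    cases a with
    | some a =>
      cases b with
      | some b => exact S.comm i j a b u hij
      | none => simp only [q_none_apply, q_some, map_sub, h1 i j a u hij]
    | none =>
      cases b with
      | some b => simp only [q_none_apply, q_some, map_sub, h1 j i b u hij.symm]
      | none =>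
        simp only [q_none_apply, map_sub]
        have h2 : ∑ a, S.p i a (∑ b, S.p j b u) = ∑ b, S.p j b (∑ a, S.p i a u) := by
          simp_rw [map_sum]
          rw [Finset.sum_comm]
          exact Finset.sum_congr rfl fun b _ => Finset.sum_congr rfl fun a _ =>
            S.comm i j a b u hij
        rw [h2]
        abel
  total := by
    intro i u
    rw [Fintype.sum_option, q_none_apply]
    simp only [q_some]
    abel

/-- iterated projection on the orbital configuration `I` -/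
noncomputable def cfg (I : Fin N → A) : V →ₗ[ℂ] V :=
  S.toSlots.cfg N le_rfl (fun i => some (I i))

/-- energy of a configuration -/
def cost {A : Type*} (e : A → ℝ) (eout : ℝ) : Option A → ℝ
  | some a => e a
  | none => eout

theorem energy_eq (e : A → ℝ) (eout : ℝ) (u : V) (i : Fin N) :
    eout * ‖u‖ ^ 2 - ∑ a, (eout - e a) * ‖S.p i a u‖ ^ 2 =
      ∑ J : Fin N → Option A, cost e eout (J i) * ‖S.toSlots.cfg N le_rfl J u‖ ^ 2 := by
  classical
  rw [← S.toSlots.weight_marginal]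
  have h := S.toSlots.norm_sq_sum i u
  rw [Fintype.sum_option] at h ⊢
  simp only [cost]
  have h3 : ∀ a, S.toSlots.p i (some a) u = S.p i a u := fun a => rfl
  simp only [h3] at h ⊢
  have h2 : ∑ a, (eout - e a) * ‖S.p i a u‖ ^ 2 =
      eout * ∑ a, ‖S.p i a u‖ ^ 2 - ∑ a, e a * ‖S.p i a u‖ ^ 2 := by
    rw [Finset.mul_sum, ← Finset.sum_sub_distrib]
    exact Finset.sum_congr rfl fun a _ => by ring
  rw [h2, ← h]
  ring

end PreSlots

/-- combinatorial energy inequality for a configuration without double occupation -/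
theorem cost_ge {A : Type*} [Fintype A] [DecidableEq A] {N : ℕ} (Cl : Finset A) (K : ℕ)
    (hN : N = Cl.card + K) (e : A → ℝ) (en eout g : ℝ) (hg : 0 ≤ g)
    (hcl : ∀ a ∈ Cl, e a ≤ en - g) (hop : ∀ a ∉ Cl, en ≤ e a) (hout : en + g ≤ eout)
    (J : Fin N → Option A) (hJ : ∀ i j a, i ≠ j → J i = some a → J j ≠ some a) :
    ∑ a ∈ Cl, e a + K * en +
      (if (∀ i, J i ≠ none) ∧ (∀ a ∈ Cl, ∃ i, J i = some a) then 0 else g) ≤
      ∑ i, PreSlots.cost e eout (J i) := by
  have key : ∑ i, (PreSlots.cost e eout (J i) - en) =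
      ∑ a ∈ Cl, ∑ i, (if J i = some a then e a - en else 0) +
      ∑ i, (if (∃ a ∈ Cl, J i = some a) then 0 else PreSlots.cost e eout (J i) - en) := by
    rw [Finset.sum_comm, ← Finset.sum_add_distrib]
    refine Finset.sum_congr rfl fun i _ => ?_
    by_cases h : ∃ a ∈ Cl, J i = some a
    · obtain ⟨a, ha, hia⟩ := h
      rw [if_pos ⟨a, ha, hia⟩, Finset.sum_eq_single a, if_pos hia, hia, add_zero]
      · rfl
      · intro b _ hb
        rw [if_neg]
        rw [hia]
        intro h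
        exact hb (Option.some.inj h).symm
      · exact fun h => absurd ha h
    · rw [if_neg h, Finset.sum_eq_zero, zero_add]
      intro a ha
      rw [if_neg]
      exact fun h2 => h ⟨a, ha, h2⟩
  have h1 : ∀ a ∈ Cl, (e a - en) + (if ∃ i, J i = some a then 0 else g) ≤
      ∑ i, (if J i = some a then e a - en else 0) := by
    intro a ha
    by_cases h : ∃ i, J i = some a
    · obtain ⟨i, hi⟩ := h
      rw [if_pos ⟨i, hi⟩, add_zero, Finset.sum_eq_single i, if_pos hi]
      · intro j _ hj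
        rw [if_neg]
        exact hJ i j a (Ne.symm hj) hi
      · simp only [Finset.mem_univ, not_true_eq_false, ite_eq_right_iff, IsEmpty.forall_iff]
    · rw [if_neg h, Finset.sum_eq_zero]
      · have := hcl a ha
        linarith only [this]
      · intro i _
        rw [if_neg]
        exact fun h2 => h ⟨i, h2⟩
  have h2 : ∀ i, (if J i = none then g else 0) ≤
      (if (∃ a ∈ Cl, J i = some a) then 0 else PreSlots.cost e eout (J i) - en) := by
    intro i
    cases hi : J i with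
    | none =>
      rw [if_pos rfl, if_neg (by simp only [reduceCtorEq, and_false, exists_false, not_false_eq_true])]
      simp only [PreSlots.cost]
      linarith only [hout]
    | some b =>
      rw [if_neg (by simp)]
      by_cases hb : b ∈ Cl
      · rw [if_pos ⟨b, hb, rfl⟩]
      · rw [if_neg]
        · simp only [PreSlots.cost]
          have := hop b hb
          linarith only [this]
        · rintro ⟨a, ha, h⟩
          exact hb (by rwa [Option.some.inj h])
  have h3 : ∑ a ∈ Cl, ((e a - en) + (if ∃ i, J i = some a then 0 else g)) +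
      ∑ i, (if J i = none then g else 0) ≤ ∑ i, (PreSlots.cost e eout (J i) - en) := by
    rw [key]
    exact add_le_add (Finset.sum_le_sum h1) (Finset.sum_le_sum fun i _ => h2 i)
  have h4 : (if (∀ i, J i ≠ none) ∧ (∀ a ∈ Cl, ∃ i, J i = some a) then 0 else g) ≤
      ∑ a ∈ Cl, (if ∃ i, J i = some a then 0 else g) + ∑ i, (if J i = none then g else 0) := by
    have p1 : ∀ a ∈ Cl, (0 : ℝ) ≤ (if ∃ i, J i = some a then 0 else g) := by
      intro a _
      split_ifs <;> simp [hg]
    have p2 : ∀ i ∈ (Finset.univ : Finset (Fin N)), (0 : ℝ) ≤ (if J i = none then g else 0) := by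
      intro a _
      split_ifs <;> simp [hg]
    split_ifs with h
    · exact add_nonneg (Finset.sum_nonneg p1) (Finset.sum_nonneg p2)
    · rw [not_and_or] at h
      rcases h with h | h
      · push Not at h
        obtain ⟨i, hi⟩ := h
        have := Finset.single_le_sum p2 (Finset.mem_univ i)
        rw [if_pos hi] at this
        have := Finset.sum_nonneg p1
        (clear K hN e en eout hcl hop hout hJ key h1 h2 h3 p2 i hi; linarith)
      · push Not at h
        obtain ⟨a, ha, hi⟩ := h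
        have := Finset.single_le_sum p1 ha
        rw [if_neg (by simpa only [not_exists, ne_eq] using hi)] at this
        have := Finset.sum_nonneg p2
        (clear K hN e en eout hcl hop hout hJ key h1 h2 h3 p1 a ha hi; linarith)
  rw [Finset.sum_add_distrib, Finset.sum_sub_distrib, Finset.sum_sub_distrib] at h3
  simp only [Finset.sum_const, Finset.card_univ, Fintype.card_fin, nsmul_eq_mul] at h3
  have h5 : (N : ℝ) = Cl.card + K := by
    rw [hN]
    push_cast
    ring
  rw [h5] at h3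
  linarith only [h4, h3]

namespace PreSlots

variable {N : ℕ} {A : Type*} [Fintype A] (S : PreSlots V N A)

open Classical in
/-- the set of orbital configurations that contain all closed orbitals -/
noncomputable def good (Cl : Finset A) : Finset (Fin N → A) :=
  Finset.univ.filter (fun I => ∀ a ∈ Cl, ∃ i, I i = a)

open Classical in
theorem energy_ge (Cl : Finset A) (K : ℕ)
    (hN : N = Cl.card + K) (e : A → ℝ) (en eout g : ℝ) (hg : 0 ≤ g)
    (hcl : ∀ a ∈ Cl, e a ≤ en - g) (hop : ∀ a ∉ Cl, en ≤ e a) (hout : en + g ≤ eout)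
    (u : V) (pauli : ∀ i j a, i ≠ j → S.p i a (S.p j a u) = 0) :
    (∑ a ∈ Cl, e a + K * en) * ‖u‖ ^ 2 +
      g * (‖u‖ ^ 2 - ∑ I ∈ good Cl, ‖S.cfg I u‖ ^ 2) ≤
    ∑ i, (eout * ‖u‖ ^ 2 - ∑ a, (eout - e a) * ‖S.p i a u‖ ^ 2) := by
  simp_rw [S.energy_eq]
  rw [Finset.sum_comm]
  simp_rw [← Finset.sum_mul]
  have h0 := S.toSlots.sum_cfg N le_rfl u
  have h1 : ∀ J : Fin N → Option A, ((∑ a ∈ Cl, e a + K * en) +
      (if (∀ i, J i ≠ none) ∧ (∀ a ∈ Cl, ∃ i, J i = some a) then 0 else g)) *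
        ‖S.toSlots.cfg N le_rfl J u‖ ^ 2 ≤
      (∑ i, cost e eout (J i)) * ‖S.toSlots.cfg N le_rfl J u‖ ^ 2 := by
    intro J
    by_cases hJ : ∀ i j a, i ≠ j → J i = some a → J j ≠ some a
    · exact mul_le_mul_of_nonneg_right (cost_ge Cl K hN e en eout g hg hcl hop hout J hJ)
        (by (clear * -; positivity))
    · push Not at hJ
      obtain ⟨i, j, a, hij, hi, hj⟩ := hJ
      have : S.toSlots.cfg N le_rfl J u = 0 :=
        S.toSlots.cfg_eq_zero u (some a) i j (pauli i j a hij) J hi hj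
      rw [this]
      simp only [ne_eq, norm_zero, OfNat.ofNat_ne_zero, not_false_eq_true, zero_pow, mul_zero, Std.le_refl]
  refine le_trans (le_of_eq ?_) (Finset.sum_le_sum fun J _ => h1 J)
  clear h1
  generalize (∑ a ∈ Cl, e a + K * en) = E
  simp_rw [add_mul]
  rw [Finset.sum_add_distrib, ← Finset.mul_sum, h0]
  congr 1
  have h2 : ∑ I ∈ good Cl, ‖S.cfg I u‖ ^ 2 = ∑ J : Fin N → Option A,
      (if (∀ i, J i ≠ none) ∧ (∀ a ∈ Cl, ∃ i, J i = some a) then
        ‖S.toSlots.cfg N le_rfl J u‖ ^ 2 else 0) := by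
    rw [← Finset.sum_filter]
    refine Finset.sum_bij (fun I _ => fun i => some (I i)) ?_ ?_ ?_ ?_
    · intro I hI
      simp only [good, Finset.mem_filter, Finset.mem_univ, true_and] at hI ⊢
      refine ⟨by simp, fun a ha => ?_⟩
      obtain ⟨i, hi⟩ := hI a ha
      exact ⟨i, by rw [hi]⟩
    · intro I _ I' _ h
      funext i
      exact Option.some.inj (congrFun h i)
    · intro J hJ
      simp only [Finset.mem_filter, Finset.mem_univ, true_and] at hJ
      obtain ⟨h1, h2⟩ := hJ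
      have h3 : ∀ i, ∃ a, J i = some a := fun i => Option.ne_none_iff_exists'.1 (h1 i)
      choose I hI using h3
      refine ⟨I, ?_, ?_⟩
      · simp only [good, Finset.mem_filter, Finset.mem_univ, true_and]
        intro a ha
        obtain ⟨i, hi⟩ := h2 a ha
        exact ⟨i, Option.some.inj (by rw [← hI, hi])⟩
      · funext i
        exact (hI i).symm
    · intro I _
      rfl
  rw [h2, mul_sub, ← h0, Finset.mul_sum, Finset.mul_sum, ← Finset.sum_sub_distrib]
  refine Finset.sum_congr rfl fun J _ => ?_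
  split_ifs <;> ring

end PreSlots

end Vale.Agent.P370.NB
end
end

section

section

/-!
The space of measurable functions on a power `ι → Y` dominated by a product weight, with the `L²`
inner product, and the slot projections on orbitals.
-/

namespace Vale.Agent.P370.NB

open MeasureTheory Function ComplexConjugate

/-- a measure space with an integrable weight -/
structure WSp (Y : Type*) [MeasurableSpace Y] where
  μ : Measure Y
  sf : SigmaFinite μ
  E : Y → ℝ
  meas : Measurable E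
  nonneg : ∀ y, 0 ≤ E y
  le_one : ∀ y, E y ≤ 1
  int : Integrable E μ

attribute [instance] WSp.sf

/-- measurable orbitals dominated by the weight -/
structure Orb {Y : Type*} [MeasurableSpace Y] (D : WSp Y) (χ : Y → ℝ) : Prop where
  meas : Measurable χ
  bound : ∃ C : ℝ, 0 ≤ C ∧ ∀ y, |χ y| ≤ C * D.E y

section

variable {ι : Type*} [Fintype ι] {Y : Type*} [MeasurableSpace Y] (D : WSp Y)

/-- product weight -/
noncomputable def WSp.W (w : ι → Y) : ℝ := ∏ l, D.E (w l)

theorem WSp.W_nonneg (w : ι → Y) : 0 ≤ D.W w := Finset.prod_nonneg fun _ _ => D.nonneg _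

theorem WSp.W_le_one (w : ι → Y) : D.W w ≤ 1 :=
  Finset.prod_le_one (fun _ _ => D.nonneg _) fun _ _ => D.le_one _

theorem WSp.integrable_W : Integrable (fun w : ι → Y => D.W w) (pm ι D.μ) :=
  Integrable.fintype_prod (f := fun _ : ι => D.E) fun _ => D.int

theorem WSp.W_eq [DecidableEq ι] (w : ι → Y) (i : ι) :
    D.W w = D.E (w i) * ∏ l ∈ Finset.univ.erase i, D.E (w l) := by
  unfold WSp.W
  exact (Finset.mul_prod_erase Finset.univ (fun l => D.E (w l)) (Finset.mem_univ i)).symm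

theorem WSp.W_update [DecidableEq ι] (w : ι → Y) (i : ι) (z : Y) :
    D.W (update w i z) = D.E z * ∏ l ∈ Finset.univ.erase i, D.E (w l) := by
  rw [D.W_eq _ i, update_self]
  congr 1
  refine Finset.prod_congr rfl fun l hl => ?_
  rw [update_of_ne (Finset.ne_of_mem_erase hl)]

/-- dominated measurable functions -/
def Dm (f : (ι → Y) → ℂ) : Prop := Measurable f ∧ ∃ C : ℝ, 0 ≤ C ∧ ∀ w, ‖f w‖ ≤ C * D.W w

/-- the space of dominated functions -/
def GW (ι : Type*) [Fintype ι] : Submodule ℂ ((ι → Y) → ℂ) where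
  carrier := {f | Dm D f}
  add_mem' := by
    rintro f g ⟨hf, C, hC, h⟩ ⟨hg, C', hC', h'⟩
    refine ⟨hf.add hg, C + C', add_nonneg hC hC', fun w => ?_⟩
    rw [add_mul]
    exact (norm_add_le _ _).trans (add_le_add (h w) (h' w))
  zero_mem' := ⟨measurable_const, 0, le_rfl, fun w => by simp⟩
  smul_mem' := by
    rintro c f ⟨hf, C, hC, h⟩
    refine ⟨hf.const_smul c, ‖c‖ * C, by positivity, fun w => ?_⟩
    rw [Pi.smul_apply, norm_smul, mul_assoc]
    exact mul_le_mul_of_nonneg_left (h w) (norm_nonneg _)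

/-- type of dominated functions -/
def GT (ι : Type*) [Fintype ι] : Type _ := GW D ι

noncomputable instance : AddCommGroup (GT D ι) := inferInstanceAs (AddCommGroup (GW D ι))
noncomputable instance : Module ℂ (GT D ι) := inferInstanceAs (Module ℂ (GW D ι))

variable {D}

/-- underlying function -/
def GT.fn (f : GT D ι) : (ι → Y) → ℂ := f.1

theorem GT.dm (f : GT D ι) : Dm D f.fn := f.2

theorem GT.ext {f g : GT D ι} (h : f.fn = g.fn) : f = g := Subtype.ext h

theorem GT.fn_add (f g : GT D ι) : (f + g).fn = fun w => f.fn w + g.fn w := rfl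

theorem GT.fn_smul (c : ℂ) (f : GT D ι) : (c • f).fn = fun w => c * f.fn w := rfl

theorem Dm.integrable {f : (ι → Y) → ℂ} (hf : Dm D f) : Integrable f (pm ι D.μ) := by
  obtain ⟨hm, C, hC, h⟩ := hf
  exact (D.integrable_W.const_mul C).mono' hm.aestronglyMeasurable (Filter.Eventually.of_forall h)

/-- product with a bounded function -/
theorem Dm.bdd_mul {f g : (ι → Y) → ℂ} (hf : Dm D f) (hg : Measurable g) {B : ℝ}
    (hB : ∀ w, ‖g w‖ ≤ B) (hB0 : 0 ≤ B) : Dm D (fun w => g w * f w) := by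
  obtain ⟨hm, C, hC, h⟩ := hf
  refine ⟨hg.mul hm, B * C, by (clear * - hB0 hC; positivity), fun w => ?_⟩
  rw [norm_mul, mul_assoc]
  exact mul_le_mul (hB w) (h w) (norm_nonneg _) hB0

theorem Dm.bdd {f : (ι → Y) → ℂ} (hf : Dm D f) : ∃ C : ℝ, 0 ≤ C ∧ ∀ w, ‖f w‖ ≤ C := by
  obtain ⟨hm, C, hC, h⟩ := hf
  refine ⟨C, hC, fun w => (h w).trans ?_⟩
  have := D.W_le_one w
  calc C * D.W w ≤ C * 1 := by (clear * - this hC; gcongr)
    _ = C := mul_one C

theorem Dm.conj {f : (ι → Y) → ℂ} (hf : Dm D f) : Dm D (fun w => conj (f w)) := by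
  obtain ⟨hm, C, hC, h⟩ := hf
  exact ⟨Complex.continuous_conj.measurable.comp hm, C, hC, fun w => by simpa only [RCLike.norm_conj] using h w⟩

theorem Dm.mul {f g : (ι → Y) → ℂ} (hf : Dm D f) (hg : Dm D g) : Dm D (fun w => f w * g w) := by
  obtain ⟨B, hB, h⟩ := hf.bdd
  exact hg.bdd_mul hf.1 h hB

noncomputable instance : PreInnerProductSpace.Core ℂ (GT D ι) where
  inner f g := ∫ w, conj (f.fn w) * g.fn w ∂(pm ι D.μ)
  conj_inner_symm f g := by
    rw [← integral_conj]
    refine integral_congr_ae (Filter.Eventually.of_forall fun w => ?_)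
    simp [mul_comm]
  re_inner_nonneg f := by
    have h : ∫ w, conj (f.fn w) * f.fn w ∂(pm ι D.μ) =
        ((∫ w, ‖f.fn w‖ ^ 2 ∂(pm ι D.μ) : ℝ) : ℂ) := by
      rw [← integral_complex_ofReal]
      refine integral_congr_ae (Filter.Eventually.of_forall fun w => ?_)
      simp only [Complex.conj_mul']
      push_cast
      rfl
    rw [h]
    simp only [RCLike.re_to_complex, Complex.ofReal_re]
    exact integral_nonneg fun w => by positivity
  add_left f g h := by
    rw [← integral_add (f.dm.conj.mul h.dm).integrable (g.dm.conj.mul h.dm).integrable]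
    refine integral_congr_ae (Filter.Eventually.of_forall fun w => ?_)
    simp only [GT.fn_add, map_add, add_mul]
  smul_left f g c := by
    rw [← integral_const_mul]
    refine integral_congr_ae (Filter.Eventually.of_forall fun w => ?_)
    simp only [GT.fn_smul, map_mul, mul_assoc]

noncomputable instance : SeminormedAddCommGroup (GT D ι) :=
  InnerProductSpace.Core.toSeminormedAddCommGroup (𝕜 := ℂ)

noncomputable instance : InnerProductSpace ℂ (GT D ι) := InnerProductSpace.ofCore inferInstance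

theorem GT.inner_def (f g : GT D ι) :
    inner ℂ f g = ∫ w, conj (f.fn w) * g.fn w ∂(pm ι D.μ) := rfl

theorem GT.norm_sq (f : GT D ι) : ‖f‖ ^ 2 = ∫ w, ‖f.fn w‖ ^ 2 ∂(pm ι D.μ) := by
  rw [@norm_sq_eq_re_inner ℂ, GT.inner_def]
  have h : ∫ w, conj (f.fn w) * f.fn w ∂(pm ι D.μ) =
      ((∫ w, ‖f.fn w‖ ^ 2 ∂(pm ι D.μ) : ℝ) : ℂ) := by
    rw [← integral_complex_ofReal]
    refine integral_congr_ae (Filter.Eventually.of_forall fun w => ?_)
    simp only [Complex.conj_mul']
    push_cast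
    rfl
  rw [h]
  simp

end

end Vale.Agent.P370.NB
end
end

section

section

/-!
Slot projections.
-/

namespace Vale.Agent.P370.NB

open MeasureTheory Function ComplexConjugate

variable {ι : Type*} [Fintype ι] [DecidableEq ι] {Y : Type*} [MeasurableSpace Y] {D : WSp Y}

/-- `(|χ⟩⟨χ'|)` in slot `i` -/
noncomputable def op (D : WSp Y) (i : ι) (χ χ' : Y → ℝ) (f : (ι → Y) → ℂ) (w : ι → Y) : ℂ :=
  (χ (w i) : ℂ) * ∫ z, (χ' z : ℂ) * f (update w i z) ∂D.μ

theorem Orb.measC {χ : Y → ℝ} (hχ : Orb D χ) : Measurable (fun z => (χ z : ℂ)) :=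
  Complex.measurable_ofReal.comp hχ.meas

theorem Orb.bdd {χ : Y → ℝ} (hχ : Orb D χ) : ∃ C : ℝ, 0 ≤ C ∧ ∀ y, |χ y| ≤ C := by
  obtain ⟨C, hC, h⟩ := hχ.bound
  refine ⟨C, hC, fun y => (h y).trans ?_⟩
  calc C * D.E y ≤ C * 1 := by gcongr; exact D.le_one y
    _ = C := mul_one C

theorem Orb.integrable {χ : Y → ℝ} (hχ : Orb D χ) : Integrable χ D.μ := by
  obtain ⟨C, hC, h⟩ := hχ.bound
  exact (D.int.const_mul C).mono' hχ.meas.aestronglyMeasurable (Filter.Eventually.of_forall h)

theorem Orb.mul {χ θ : Y → ℝ} (hχ : Orb D χ) (hθ : Orb D θ) : Orb D (fun y => χ y * θ y) := by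
  obtain ⟨C, hC, h⟩ := hχ.bdd
  obtain ⟨C', hC', h'⟩ := hθ.bound
  refine ⟨hχ.meas.mul hθ.meas, C * C', by (clear * - hC hC'; positivity), fun y => ?_⟩
  rw [abs_mul, mul_assoc]
  exact mul_le_mul (h y) (h' y) (abs_nonneg _) hC

omit [DecidableEq ι] in
/-- integrability on the product from domination -/
theorem integrable_prod_of_dom {K : (ι → Y) × Y → ℂ} (hm : Measurable K) {C : ℝ}
    (h : ∀ w z, ‖K (w, z)‖ ≤ C * (D.W w * D.E z)) : Integrable K ((pm ι D.μ).prod D.μ) := by
  refine ((D.integrable_W.mul_prod D.int).const_mul C).mono' hm.aestronglyMeasurable ?_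
  exact Filter.Eventually.of_forall fun p => h p.1 p.2

theorem Dm.slice_measurable {f : (ι → Y) → ℂ} (hf : Dm D f) (i : ι) (w : ι → Y) :
    Measurable (fun z => f (update w i z)) :=
  hf.1.comp (measurable_update w)

theorem Dm.slice_integrable {f : (ι → Y) → ℂ} (hf : Dm D f) (i : ι) {χ : Y → ℝ} (hχ : Orb D χ)
    (w : ι → Y) : Integrable (fun z => (χ z : ℂ) * f (update w i z)) D.μ := by
  obtain ⟨B, hB, h⟩ := hf.bdd
  obtain ⟨C, hC, h'⟩ := hχ.bound
  refine (D.int.const_mul (C * B)).mono'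
    (hχ.measC.mul (hf.slice_measurable i w)).aestronglyMeasurable
    (Filter.Eventually.of_forall fun z => ?_)
  rw [norm_mul, Complex.norm_real, Real.norm_eq_abs]
  calc |χ z| * ‖f (update w i z)‖ ≤ (C * D.E z) * B := by
        apply mul_le_mul (h' z) (h _) (norm_nonneg _)
        exact mul_nonneg hC (D.nonneg z)
    _ = _ := by ring

theorem Dm.op {f : (ι → Y) → ℂ} (hf : Dm D f) (i : ι) {χ χ' : Y → ℝ} (hχ : Orb D χ)
    (hχ' : Orb D χ') : Dm D (op D i χ χ' f) := by
  obtain ⟨hm, B, hB, h⟩ := hf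
  obtain ⟨C, hC, hc⟩ := hχ.bound
  obtain ⟨C', hC', hc'⟩ := hχ'.bound
  have hE : 0 ≤ ∫ z, D.E z ∂D.μ := integral_nonneg D.nonneg
  refine ⟨?_, C * (C' * B * ∫ z, D.E z ∂D.μ), by (clear * - hC hC' hB hE; positivity), fun w => ?_⟩
  · have h1 : Measurable (fun p : (ι → Y) × Y => (χ' p.2 : ℂ) * f (update p.1 i p.2)) :=
      (hχ'.measC.comp measurable_snd).mul (hm.comp (measurable_update_pair i))
    have h2 : StronglyMeasurable (fun w : ι → Y => ∫ z, (χ' z : ℂ) * f (update w i z) ∂D.μ) :=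
      h1.stronglyMeasurable.integral_prod_right'
    exact (hχ.measC.comp (measurable_pi_apply i)).mul h2.measurable
  · unfold NB.op
    rw [norm_mul, Complex.norm_real, Real.norm_eq_abs]
    have h1 : ‖∫ z, (χ' z : ℂ) * f (update w i z) ∂D.μ‖ ≤
        ∫ z, (C' * B * ∏ l ∈ Finset.univ.erase i, D.E (w l)) * D.E z ∂D.μ := by
      refine norm_integral_le_of_norm_le (D.int.const_mul _) (Filter.Eventually.of_forall fun z => ?_)
      rw [norm_mul, Complex.norm_real, Real.norm_eq_abs]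
      have h2 := h (update w i z)
      rw [D.W_update] at h2
      have h3 : 0 ≤ ∏ l ∈ Finset.univ.erase i, D.E (w l) :=
        Finset.prod_nonneg fun _ _ => D.nonneg _
      have h4 := D.nonneg z
      have h5 := D.le_one z
      calc |χ' z| * ‖f (update w i z)‖
          ≤ (C' * D.E z) * (B * (D.E z * ∏ l ∈ Finset.univ.erase i, D.E (w l))) := by
            apply mul_le_mul (hc' z) h2 (norm_nonneg _)
            exact mul_nonneg hC' h4
        _ ≤ (C' * D.E z) * (B * (1 * ∏ l ∈ Finset.univ.erase i, D.E (w l))) := by (clear * - h5 h3 hB hC' h4; gcongr)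
        _ = _ := by ring
    rw [integral_const_mul] at h1
    have h4 := D.nonneg (w i)
    calc |χ (w i)| * ‖∫ z, (χ' z : ℂ) * f (update w i z) ∂D.μ‖
        ≤ (C * D.E (w i)) * ((C' * B * ∏ l ∈ Finset.univ.erase i, D.E (w l)) * ∫ z, D.E z ∂D.μ) :=
          mul_le_mul (hc _) h1 (norm_nonneg _) (mul_nonneg hC h4)
      _ = C * (C' * B * ∫ z, D.E z ∂D.μ) * (D.E (w i) *
          ∏ l ∈ Finset.univ.erase i, D.E (w l)) := by ring
      _ = _ := by rw [← D.W_eq w i]

omit [Fintype ι] in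
theorem op_op_same (i : ι) (χ χ' θ θ' : Y → ℝ) (f : (ι → Y) → ℂ) :
    op D i χ χ' (op D i θ θ' f) = fun w => ((∫ z, χ' z * θ z ∂D.μ : ℝ) : ℂ) * op D i χ θ' f w := by
  funext w
  unfold op
  simp only [update_self, update_idem]
  have : ∀ z, (χ' z : ℂ) * ((θ z : ℂ) * ∫ z', (θ' z' : ℂ) * f (update w i z') ∂D.μ) =
      ((χ' z * θ z : ℝ) : ℂ) * ∫ z', (θ' z' : ℂ) * f (update w i z') ∂D.μ := by
    intro z
    push_cast
    ring
  simp only [this]
  rw [integral_mul_const, integral_complex_ofReal]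
  ring

theorem op_symm (i : ι) {χ χ' : Y → ℝ} (hχ : Orb D χ) (hχ' : Orb D χ')
    {f g : (ι → Y) → ℂ} (hf : Dm D f) (hg : Dm D g) :
    ∫ w, conj (op D i χ χ' f w) * g w ∂(pm ι D.μ) =
      ∫ w, conj (f w) * op D i χ' χ g w ∂(pm ι D.μ) := by
  have hfm := hf.1
  have hgm := hg.1
  obtain ⟨_, B, hB, h⟩ := hf
  obtain ⟨_, B', hB', h'⟩ := hg.conj.conj
  obtain ⟨Bg, hBg0, hBg⟩ := hg.bdd
  obtain ⟨C, hC, hc⟩ := hχ.bound
  obtain ⟨C', hC', hc'⟩ := hχ'.bdd
  have hK : Integrable (fun p : (ι → Y) × Y => (χ' (p.1 i) : ℂ) * (χ p.2 : ℂ) *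
      (conj (f p.1) * g (update p.1 i p.2))) ((pm ι D.μ).prod D.μ) := by
    refine integrable_prod_of_dom (C := C' * C * (B * Bg)) ?_ ?_
    · exact ((hχ'.measC.comp ((measurable_pi_apply i).comp measurable_fst)).mul
        (hχ.measC.comp measurable_snd)).mul
        (((Complex.continuous_conj.measurable.comp hfm).comp measurable_fst).mul
          (hgm.comp (measurable_update_pair i)))
    · intro w z
      simp only [norm_mul, Complex.norm_real, Real.norm_eq_abs, RCLike.norm_conj]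
      have h1 := D.nonneg z
      have h2 := D.W_nonneg w
      calc |χ' (w i)| * |χ z| * (‖f w‖ * ‖g (update w i z)‖)
          ≤ C' * (C * D.E z) * ((B * D.W w) * Bg) := by
            gcongr
            · exact hc' _
            · exact hc z
            · exact h w
            · exact hBg _
        _ = _ := by ring
  have h1 := integral_slot₂ D.μ i (fun w z => (χ' (w i) : ℂ) * (χ z : ℂ) *
      (conj (f w) * g (update w i z))) hK
  simp only [update_self, update_idem, update_eq_self] at h1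
  have h2 : ∀ w, conj (op D i χ χ' f w) * g w =
      ∫ z, (χ' z : ℂ) * (χ (w i) : ℂ) * (conj (f (update w i z)) * g w) ∂D.μ := by
    intro w
    unfold op
    rw [map_mul, Complex.conj_ofReal, ← integral_conj, mul_right_comm, ← integral_const_mul]
    refine integral_congr_ae (Filter.Eventually.of_forall fun z => ?_)
    simp only [map_mul, Complex.conj_ofReal]
    ring
  have h3 : ∀ w, conj (f w) * op D i χ' χ g w =
      ∫ z, (χ' (w i) : ℂ) * (χ z : ℂ) * (conj (f w) * g (update w i z)) ∂D.μ := by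
    intro w
    unfold op
    rw [← mul_assoc, ← integral_const_mul]
    refine integral_congr_ae (Filter.Eventually.of_forall fun z => ?_)
    ring
  simp only [h2, h3]
  exact h1

/-- integrability for two different slots -/
theorem Dm.slice₂_integrable {f : (ι → Y) → ℂ} (hf : Dm D f) (i j : ι) {χ θ : Y → ℝ}
    (hχ : Orb D χ) (hθ : Orb D θ) (w : ι → Y) :
    Integrable (fun p : Y × Y => (χ p.1 : ℂ) * (θ p.2 : ℂ) *
      f (update (update w i p.1) j p.2)) (D.μ.prod D.μ) := by
  obtain ⟨B, hB, h⟩ := hf.bdd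
  obtain ⟨C, hC, hc⟩ := hχ.bound
  obtain ⟨C', hC', hc'⟩ := hθ.bound
  have hm : Measurable (fun p : Y × Y => update (update w i p.1) j p.2) := by
    have h1 : Measurable (fun p : Y × Y => ((update w i p.1, p.2) : (ι → Y) × Y)) :=
      ((measurable_update w).comp measurable_fst).prodMk measurable_snd
    exact (measurable_update_pair j).comp h1
  refine ((D.int.mul_prod D.int).const_mul (C * C' * B)).mono'
    (((hχ.measC.comp measurable_fst).mul (hθ.measC.comp measurable_snd)).mul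
      (hf.1.comp hm)).aestronglyMeasurable (Filter.Eventually.of_forall fun p => ?_)
  simp only [norm_mul, Complex.norm_real, Real.norm_eq_abs]
  have h1 := D.nonneg p.1
  have h2 := D.nonneg p.2
  calc |χ p.1| * |θ p.2| * ‖f (update (update w i p.1) j p.2)‖
      ≤ (C * D.E p.1) * (C' * D.E p.2) * B := by
        gcongr
        · exact hc _
        · exact hc' _
        · exact h _
    _ = _ := by ring

theorem op_comm {i j : ι} (hij : i ≠ j) {χ χ' θ θ' : Y → ℝ} (_hχ : Orb D χ) (hχ' : Orb D χ')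
    (_hθ : Orb D θ) (hθ' : Orb D θ') {f : (ι → Y) → ℂ} (hf : Dm D f) :
    op D i χ χ' (op D j θ θ' f) = op D j θ θ' (op D i χ χ' f) := by
  funext w
  unfold op
  simp only [update_of_ne hij, update_of_ne hij.symm]
  have h1 := integral_integral_swap (f := fun z z' => (χ' z : ℂ) * (θ' z' : ℂ) *
    f (update (update w i z) j z')) (hf.slice₂_integrable i j hχ' hθ' w)
  have e1 : ∫ z, (χ' z : ℂ) * ((θ (w j) : ℂ) * ∫ z', (θ' z' : ℂ) *
      f (update (update w i z) j z') ∂D.μ) ∂D.μ = (θ (w j) : ℂ) *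
      ∫ z, ∫ z', (χ' z : ℂ) * (θ' z' : ℂ) * f (update (update w i z) j z') ∂D.μ ∂D.μ := by
    rw [← integral_const_mul]
    refine integral_congr_ae (Filter.Eventually.of_forall fun z => ?_)
    simp only
    rw [mul_left_comm, ← integral_const_mul]
    congr 1
    refine integral_congr_ae (Filter.Eventually.of_forall fun z' => ?_)
    ring
  have e2 : ∫ z', (θ' z' : ℂ) * ((χ (w i) : ℂ) * ∫ z, (χ' z : ℂ) *
      f (update (update w j z') i z) ∂D.μ) ∂D.μ = (χ (w i) : ℂ) *
      ∫ z', ∫ z, (χ' z : ℂ) * (θ' z' : ℂ) * f (update (update w i z) j z') ∂D.μ ∂D.μ := by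
    rw [← integral_const_mul]
    refine integral_congr_ae (Filter.Eventually.of_forall fun z' => ?_)
    simp only
    rw [mul_left_comm, ← integral_const_mul]
    congr 1
    refine integral_congr_ae (Filter.Eventually.of_forall fun z => ?_)
    simp only
    rw [update_comm hij]
    ring
  rw [e1, e2, h1]
  ring

/-- antisymmetric functions on a power -/
def Anti (f : (ι → Y) → ℂ) : Prop :=
  ∀ (i j : ι), i ≠ j → ∀ w, f (w ∘ Equiv.swap i j) = -f w

theorem op_pauli {i j : ι} (hij : i ≠ j) {χ : Y → ℝ} (hχ : Orb D χ)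
    {f : (ι → Y) → ℂ} (hf : Dm D f) (ha : Anti f) (θ θ' : Y → ℝ) (w : ι → Y) :
    op D i θ χ (op D j θ' χ f) w = 0 := by
  unfold op
  simp only [update_of_ne hij.symm]
  have e1 : ∫ z, (χ z : ℂ) * ((θ' (w j) : ℂ) * ∫ z', (χ z' : ℂ) *
      f (update (update w i z) j z') ∂D.μ) ∂D.μ = (θ' (w j) : ℂ) *
      ∫ z, ∫ z', (χ z : ℂ) * (χ z' : ℂ) * f (update (update w i z) j z') ∂D.μ ∂D.μ := by
    rw [← integral_const_mul]
    refine integral_congr_ae (Filter.Eventually.of_forall fun z => ?_)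
    simp only
    rw [mul_left_comm, ← integral_const_mul]
    congr 1
    refine integral_congr_ae (Filter.Eventually.of_forall fun z' => ?_)
    ring
  have h1 := integral_integral_swap (f := fun z z' => (χ z : ℂ) * (χ z' : ℂ) *
    f (update (update w i z) j z')) (hf.slice₂_integrable i j hχ hχ w)
  have h2 : ∀ z z', f (update (update w i z') j z) = -f (update (update w i z) j z') := by
    intro z z'
    rw [← ha i j hij]
    congr 1
    funext l
    simp only [comp_apply]
    by_cases hl : l = i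
    · subst hl
      rw [Equiv.swap_apply_left, update_self, update_of_ne hij, update_self]
    · by_cases hl' : l = j
      · subst hl'
        rw [Equiv.swap_apply_right, update_self, update_of_ne hij, update_self]
      · rw [Equiv.swap_apply_of_ne_of_ne hl hl', update_of_ne hl', update_of_ne hl,
          update_of_ne hl', update_of_ne hl]
  have h3 : ∫ z', ∫ z, (χ z : ℂ) * (χ z' : ℂ) * f (update (update w i z) j z') ∂D.μ ∂D.μ =
      -∫ z, ∫ z', (χ z : ℂ) * (χ z' : ℂ) * f (update (update w i z) j z') ∂D.μ ∂D.μ := by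
    rw [← integral_neg]
    refine integral_congr_ae (Filter.Eventually.of_forall fun z' => ?_)
    simp only
    rw [← integral_neg]
    refine integral_congr_ae (Filter.Eventually.of_forall fun z => ?_)
    simp only
    rw [h2 z' z]
    ring
  rw [e1]
  have h4 : ∫ z, ∫ z', (χ z : ℂ) * (χ z' : ℂ) * f (update (update w i z) j z') ∂D.μ ∂D.μ = 0 := by
    rw [← self_eq_neg]
    exact h1.trans h3
  rw [h4]
  ring

end Vale.Agent.P370.NB
end
end

section

section

/-!
Configurations of orthonormal orbitals.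
-/

namespace Vale.Agent.P370.NB

open MeasureTheory Function ComplexConjugate

namespace Slots

open scoped ComplexInnerProductSpace

variable {V : Type*} [SeminormedAddCommGroup V] [InnerProductSpace ℂ V]
variable {N : ℕ} {B : Type*} [Fintype B] (S : Slots V N B)

theorem comm' (i j : Fin N) (a b : B) (u : V) : S.p i a (S.p j b u) = S.p j b (S.p i a u) := by
  classical
  by_cases hij : i = j
  · subst hij
    by_cases hab : a = b
    · rw [hab]
    · rw [S.orth _ _ _ _ hab, S.orth _ _ _ _ (Ne.symm hab)]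
  · exact S.comm _ _ _ _ _ hij

theorem p_cfg (k : ℕ) (hk : k ≤ N) (J : Fin k → B) (i : Fin N) (b : B) (u : V) :
    S.p i b (S.cfg k hk J u) = S.cfg k hk J (S.p i b u) := by
  induction k with
  | zero => rfl
  | succ k ih =>
    rw [cfg_succ, cfg_succ, S.comm', ih]

theorem p_cfg_self (J : Fin N → B) (i : Fin N) (u : V) :
    S.p i (J i) (S.cfg N le_rfl J u) = S.cfg N le_rfl J u := by
  classical
  rw [p_cfg]
  have h := S.cfg_p N le_rfl J i (J i) u
  rw [if_pos rfl] at h
  exact h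

theorem inner_cfg (k : ℕ) (hk : k ≤ N) (J : Fin k → B) (u v : V)
    (hv : ∀ i : Fin k, S.p ⟨i.val, lt_of_lt_of_le i.isLt hk⟩ (J i) v = v) :
    ⟪v, S.cfg k hk J u⟫ = ⟪v, u⟫ := by
  induction k with
  | zero => rfl
  | succ k ih =>
    rw [cfg_succ, ← S.symm]
    have h1 := hv (Fin.last k)
    have h2 : (⟨(Fin.last k).val, lt_of_lt_of_le (Fin.last k).isLt hk⟩ : Fin N) = ⟨k, hk⟩ := rfl
    rw [h2] at h1
    rw [h1]
    exact ih _ _ fun i => hv i.castSucc

end Slots

variable {Y : Type*} [MeasurableSpace Y]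

/-- an orthonormal family of orbitals -/
structure Fam (D : WSp Y) (A : Type*) [DecidableEq A] where
  θ : A → Y → ℝ
  orb : ∀ a, Orb D (θ a)
  ortho : ∀ a b, ∫ y, θ a y * θ b y ∂D.μ = if a = b then 1 else 0

section
variable {ι : Type*} [Fintype ι] [DecidableEq ι] {D : WSp Y} {A : Type*} [DecidableEq A]
  (F : Fam D A)

noncomputable def Fam.opG (i : ι) (a : A) : GT D ι →ₗ[ℂ] GT D ι where
  toFun f := ⟨op D i (F.θ a) (F.θ a) f.fn, f.dm.op i (F.orb a) (F.orb a)⟩
  map_add' f g := by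
    apply GT.ext
    funext w
    show op D i (F.θ a) (F.θ a) (f + g).fn w = op D i (F.θ a) (F.θ a) f.fn w +
      op D i (F.θ a) (F.θ a) g.fn w
    unfold op
    rw [← mul_add, ← integral_add (f.dm.slice_integrable i (F.orb a) w)
      (g.dm.slice_integrable i (F.orb a) w)]
    congr 1
    refine integral_congr_ae (Filter.Eventually.of_forall fun z => ?_)
    simp only [GT.fn_add, mul_add]
  map_smul' c f := by
    apply GT.ext
    funext w
    show op D i (F.θ a) (F.θ a) (c • f).fn w = c * op D i (F.θ a) (F.θ a) f.fn w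
    unfold op
    have h : ∫ z, (F.θ a z : ℂ) * (c • f).fn (update w i z) ∂D.μ =
        c * ∫ z, (F.θ a z : ℂ) * f.fn (update w i z) ∂D.μ := by
      rw [← integral_const_mul]
      refine integral_congr_ae (Filter.Eventually.of_forall fun z => ?_)
      simp only [GT.fn_smul]
      ring
    rw [h]
    ring

theorem Fam.opG_fn (i : ι) (a : A) (f : GT D ι) :
    (F.opG i a f).fn = op D i (F.θ a) (F.θ a) f.fn := rfl

/-- product of orbitals -/
noncomputable def Fam.po (I : ι → A) (w : ι → Y) : ℝ := ∏ l, F.θ (I l) (w l)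

omit [DecidableEq ι] in
theorem Fam.po_dm (I : ι → A) : Dm D (fun w => (F.po I w : ℂ)) := by
  refine ⟨Complex.measurable_ofReal.comp
    (Finset.measurable_fun_prod _ fun l _ => (F.orb (I l)).meas.comp (measurable_pi_apply l)), ?_⟩
  choose C hC h using fun a => (F.orb a).bound
  refine ⟨∏ l, C (I l), Finset.prod_nonneg fun l _ => hC _, fun w => ?_⟩
  rw [Complex.norm_real, Real.norm_eq_abs, Fam.po, Finset.abs_prod, WSp.W,
    ← Finset.prod_mul_distrib]
  exact Finset.prod_le_prod (fun l _ => abs_nonneg _) fun l _ => h _ _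

noncomputable def Fam.poG (I : ι → A) : GT D ι := ⟨fun w => (F.po I w : ℂ), F.po_dm I⟩

omit [DecidableEq ι] in
theorem Fam.poG_fn (I : ι → A) : (F.poG I).fn = fun w => (F.po I w : ℂ) := rfl

omit [DecidableEq ι] in
theorem Fam.integral_po_po (I J : ι → A) :
    ∫ w, F.po I w * F.po J w ∂(pm ι D.μ) = if I = J then 1 else 0 := by
  have h1 : ∀ w : ι → Y, F.po I w * F.po J w = ∏ l, (F.θ (I l) (w l) * F.θ (J l) (w l)) :=
    fun w => Finset.prod_mul_distrib.symm
  simp only [h1]
  rw [integral_fintype_prod_eq_prod (f := fun l y => F.θ (I l) y * F.θ (J l) y)]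
  simp only [F.ortho]
  by_cases h : I = J
  · subst h
    simp only [↓reduceIte, Finset.prod_const_one]
  · rw [if_neg h]
    obtain ⟨l, hl⟩ := Function.ne_iff.1 h
    exact Finset.prod_eq_zero (Finset.mem_univ l) (if_neg hl)

omit [DecidableEq ι] in
theorem Fam.inner_poG (I J : ι → A) : inner ℂ (F.poG I) (F.poG J) = if I = J then (1 : ℂ) else 0 := by
  rw [GT.inner_def]
  simp only [Fam.poG_fn, Complex.conj_ofReal]
  have := F.integral_po_po I J
  have h2 : ∀ w : ι → Y, ((F.po I w : ℂ) * (F.po J w : ℂ)) = ((F.po I w * F.po J w : ℝ) : ℂ) :=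
    fun w => (Complex.ofReal_mul _ _).symm
  simp only [h2]
  rw [integral_complex_ofReal, this]
  split_ifs <;> simp

theorem Fam.op_po (I : ι → A) (i : ι) :
    op D i (F.θ (I i)) (F.θ (I i)) (fun w => (F.po I w : ℂ)) = fun w => (F.po I w : ℂ) := by
  funext w
  unfold op
  have h1 : ∀ z, (F.θ (I i) z : ℂ) * (F.po I (update w i z) : ℂ) =
      ((F.θ (I i) z * F.θ (I i) z : ℝ) : ℂ) *
        ((∏ l ∈ Finset.univ.erase i, F.θ (I l) (w l) : ℝ) : ℂ) := by
    intro z
    have : F.po I (update w i z) = F.θ (I i) z *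
        ∏ l ∈ Finset.univ.erase i, F.θ (I l) (w l) := by
      unfold Fam.po
      rw [← Finset.mul_prod_erase Finset.univ (fun l => F.θ (I l) (update w i z l))
        (Finset.mem_univ i), update_self]
      congr 1
      refine Finset.prod_congr rfl fun l hl => ?_
      rw [update_of_ne (Finset.ne_of_mem_erase hl)]
    rw [this]
    push_cast
    ring
  simp only [h1]
  rw [integral_mul_const, integral_complex_ofReal, F.ortho, if_pos rfl]
  have h2 : F.po I w = F.θ (I i) (w i) * ∏ l ∈ Finset.univ.erase i, F.θ (I l) (w l) :=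
    (Finset.mul_prod_erase Finset.univ (fun l => F.θ (I l) (w l)) (Finset.mem_univ i)).symm
  rw [h2]
  push_cast
  ring

/-- a function fixed by all projections is a multiple of the product of orbitals -/
theorem Fam.fixed (I : ι → A) (g : (ι → Y) → ℂ)
    (hg : ∀ i, op D i (F.θ (I i)) (F.θ (I i)) g = g) :
    ∃ c : ℂ, ∀ w, g w = c * F.po I w := by
  have key : ∀ S : Finset ι, ∃ h : (ι → Y) → ℂ,
      (∀ w, g w = ((∏ i ∈ S, F.θ (I i) (w i) : ℝ) : ℂ) * h w) ∧
      ∀ i ∈ S, ∀ w z, h (update w i z) = h w := by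
    intro S
    induction S using Finset.induction_on with
    | empty => exact ⟨g, fun w => by simp, fun i hi => by simp at hi⟩
    | insert i S hi ih =>
      obtain ⟨h, h1, h2⟩ := ih
      refine ⟨fun w => ∫ z, (F.θ (I i) z : ℂ) * h (update w i z) ∂D.μ, fun w => ?_, ?_⟩
      · conv_lhs => rw [← hg i]
        unfold op
        rw [Finset.prod_insert hi]
        push_cast
        rw [mul_assoc]
        congr 1
        rw [← integral_const_mul]
        refine integral_congr_ae (Filter.Eventually.of_forall fun z => ?_)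
        simp only
        rw [h1 (update w i z)]
        have h3 : ∏ j ∈ S, F.θ (I j) (update w i z j) = ∏ j ∈ S, F.θ (I j) (w j) := by
          refine Finset.prod_congr rfl fun j hj => ?_
          rw [update_of_ne]
          rintro rfl
          exact hi hj
        rw [h3]
        push_cast
        ring
      · intro j hj w z'
        simp only
        refine integral_congr_ae (Filter.Eventually.of_forall fun z => ?_)
        simp only
        rw [Finset.mem_insert] at hj
        rcases hj with rfl | hj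
        · rw [update_idem]
        · have hne : i ≠ j := by
            rintro rfl
            exact hi hj
          rw [update_comm hne.symm, h2 j hj]
  obtain ⟨h, h1, h2⟩ := key Finset.univ
  rcases isEmpty_or_nonempty (ι → Y) with he | ⟨⟨w₀⟩⟩
  · exact ⟨0, fun w => (he.false w).elim⟩
  · refine ⟨h w₀, fun w => ?_⟩
    have h3 : ∀ T : Finset ι, h (T.piecewise w w₀) = h w₀ := by
      intro T
      induction T using Finset.induction_on with
      | empty => simp
      | insert j T hj ih =>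
        rw [Finset.piecewise_insert, h2 j (Finset.mem_univ j), ih]
    have h4 := h3 Finset.univ
    rw [Finset.piecewise_univ] at h4
    rw [h1 w, h4, mul_comm]
    rfl

end

section
variable {D : WSp Y} {A : Type*} [Fintype A] [DecidableEq A] (F : Fam D A) {N : ℕ}

noncomputable def Fam.pre (F : Fam D A) (N : ℕ) : PreSlots (GT D (Fin N)) N A where
  p i a := F.opG i a
  symm i a f g := op_symm i (F.orb a) (F.orb a) f.dm g.dm
  idem i a f := by
    apply GT.ext
    rw [F.opG_fn, F.opG_fn, op_op_same, F.ortho, if_pos rfl]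
    funext w
    rw [Complex.ofReal_one, one_mul]
  orth i a b f hab := by
    apply GT.ext
    rw [F.opG_fn, F.opG_fn, op_op_same, F.ortho, if_neg hab]
    funext w
    rw [Complex.ofReal_zero, zero_mul]
    rfl
  comm i j a b f hij := by
    apply GT.ext
    rw [F.opG_fn, F.opG_fn, F.opG_fn, F.opG_fn]
    exact op_comm hij (F.orb a) (F.orb a) (F.orb b) (F.orb b) f.dm

/-- orbital coefficients -/
noncomputable def Fam.coef (I : Fin N → A) (f : (Fin N → Y) → ℂ) : ℂ :=
  ∫ w, (F.po I w : ℂ) * f w ∂(pm (Fin N) D.μ)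

omit [Fintype A] in
theorem Fam.inner_poG_left (I : Fin N → A) (f : GT D (Fin N)) :
    inner ℂ (F.poG I) f = F.coef I f.fn := by
  rw [GT.inner_def]
  simp only [poG_fn, Complex.conj_ofReal]
  rfl

theorem Fam.cfg_eq (I : Fin N → A) (f : GT D (Fin N)) :
    (F.pre N).cfg I f = F.coef I f.fn • F.poG I := by
  have h1 : ∀ i, op D i (F.θ (I i)) (F.θ (I i)) ((F.pre N).cfg I f).fn =
      ((F.pre N).cfg I f).fn := by
    intro i
    have := (F.pre N).toSlots.p_cfg_self (fun i => some (I i)) i f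
    exact congrArg GT.fn this
  obtain ⟨c, hc⟩ := F.fixed I _ h1
  have h2 : (F.pre N).cfg I f = c • F.poG I := by
    apply GT.ext
    funext w
    rw [hc w]
    rfl
  have h3 : inner ℂ (F.poG I) ((F.pre N).cfg I f) = inner ℂ (F.poG I) f := by
    apply (F.pre N).toSlots.inner_cfg
    intro i
    apply GT.ext
    exact F.op_po I i
  rw [h2, inner_smul_right, F.inner_poG, if_pos rfl, mul_one, F.inner_poG_left] at h3
  rw [h2, h3]

theorem Fam.norm_cfg_sq (I : Fin N → A) (f : GT D (Fin N)) :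
    ‖(F.pre N).cfg I f‖ ^ 2 = ‖F.coef I f.fn‖ ^ 2 := by
  have h : ‖F.poG I‖ ^ 2 = 1 := by
    rw [@norm_sq_eq_re_inner ℂ, F.inner_poG, if_pos rfl]
    simp only [RCLike.one_re]
  rw [F.cfg_eq, norm_smul, mul_pow, h, mul_one]

open Classical in
/-- **Occupation number inequality** for dominated antisymmetric functions -/
theorem Fam.energy_ge (Cl : Finset A) (K : ℕ)
    (hN : N = Cl.card + K) (e : A → ℝ) (en eout g : ℝ) (hg : 0 ≤ g)
    (hcl : ∀ a ∈ Cl, e a ≤ en - g) (hop : ∀ a ∉ Cl, en ≤ e a) (hout : en + g ≤ eout)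
    (f : (Fin N → Y) → ℂ) (hf : Dm D f) (ha : Anti f) :
    (∑ a ∈ Cl, e a + K * en) * (∫ w, ‖f w‖ ^ 2 ∂(pm (Fin N) D.μ)) +
      g * ((∫ w, ‖f w‖ ^ 2 ∂(pm (Fin N) D.μ)) -
        ∑ I ∈ PreSlots.good (N := N) Cl, ‖F.coef I f‖ ^ 2) ≤
    ∑ i, (eout * (∫ w, ‖f w‖ ^ 2 ∂(pm (Fin N) D.μ)) -
      ∑ a, (eout - e a) * ∫ w, ‖op D i (F.θ a) (F.θ a) f w‖ ^ 2 ∂(pm (Fin N) D.μ)) := by
  obtain ⟨u, hu⟩ : ∃ u : GT D (Fin N), u.fn = f := ⟨⟨f, hf⟩, rfl⟩
  subst hu
  have h := (F.pre N).energy_ge Cl K hN e en eout g hg hcl hop hout u ?_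
  · have h1 := fun I : Fin N → A => F.norm_cfg_sq I u
    have h2 : ∀ i a, ‖(F.pre N).p i a u‖ ^ 2 =
        ∫ w, ‖op D i (F.θ a) (F.θ a) u.fn w‖ ^ 2 ∂(pm (Fin N) D.μ) := fun i a => GT.norm_sq _
    simp only [GT.norm_sq u, h1, h2] at h
    exact h
  · intro i j a hij
    apply GT.ext
    funext w
    exact op_pauli hij (F.orb a) hf ha _ _ w

noncomputable def Fam.lin (G : Finset (Fin N → A)) (c : (Fin N → A) → ℂ) (w : Fin N → Y) : ℂ :=
  ∑ I ∈ G, c I * F.po I w

omit [Fintype A] in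
theorem Fam.lin_eq (G : Finset (Fin N → A)) (c : (Fin N → A) → ℂ) :
    F.lin G c = (∑ I ∈ G, c I • (F.poG I : GT D (Fin N)) : GT D (Fin N)).fn := by
  unfold Fam.lin
  induction G using Finset.induction_on with
  | empty => simp only [Finset.sum_empty]; rfl
  | insert I G hI ih =>
    rw [Finset.sum_insert hI, GT.fn_add, ← ih]
    funext w
    rw [Finset.sum_insert hI]
    rfl

theorem Fam.lin_dm (G : Finset (Fin N → A)) (c : (Fin N → A) → ℂ) : Dm D (F.lin G c) := by
  rw [F.lin_eq]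
  exact GT.dm _

omit [Fintype A] in
theorem Fam.inner_lin (G : Finset (Fin N → A)) (c : (Fin N → A) → ℂ) (I : Fin N → A) (hI : I ∈ G) :
    inner ℂ (F.poG I) (∑ I ∈ G, c I • (F.poG I : GT D (Fin N))) = c I := by
  rw [inner_sum, Finset.sum_eq_single I]
  · rw [inner_smul_right, F.inner_poG, if_pos rfl, mul_one]
  · intro J _ hJ
    rw [inner_smul_right, F.inner_poG, if_neg hJ.symm, mul_zero]
  · exact fun h => absurd hI h

theorem Fam.norm_lin (G : Finset (Fin N → A)) (c : (Fin N → A) → ℂ) :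
    ∫ w, ‖F.lin G c w‖ ^ 2 ∂(pm (Fin N) D.μ) = ∑ I ∈ G, ‖c I‖ ^ 2 := by
  rw [F.lin_eq, ← GT.norm_sq, @norm_sq_eq_re_inner ℂ, sum_inner, map_sum]
  refine Finset.sum_congr rfl fun I hI => ?_
  rw [inner_smul_left, F.inner_lin G c I hI, Complex.conj_mul']
  norm_cast

theorem Fam.norm_sub_proj (G : Finset (Fin N → A)) (f : (Fin N → Y) → ℂ) (hf : Dm D f) :
    ∫ w, ‖f w - F.lin G (fun I => F.coef I f) w‖ ^ 2 ∂(pm (Fin N) D.μ) =
      (∫ w, ‖f w‖ ^ 2 ∂(pm (Fin N) D.μ)) - ∑ I ∈ G, ‖F.coef I f‖ ^ 2 := by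
  obtain ⟨u, hu⟩ : ∃ u : GT D (Fin N), u.fn = f := ⟨⟨f, hf⟩, rfl⟩
  subst hu
  obtain ⟨P, hP⟩ : ∃ P : GT D (Fin N), P = ∑ I ∈ G, F.coef I u.fn • (F.poG I : GT D (Fin N)) :=
    ⟨_, rfl⟩
  have h1 : ∀ w, u.fn w - F.lin G (fun I => F.coef I u.fn) w = (u - P).fn w := by
    intro w
    rw [F.lin_eq, hP]
    rfl
  simp only [h1]
  rw [← GT.norm_sq, ← GT.norm_sq, @norm_sub_sq ℂ]
  have h2 : ‖P‖ ^ 2 = ∑ I ∈ G, ‖F.coef I u.fn‖ ^ 2 := by
    rw [GT.norm_sq, hP, ← F.lin_eq, F.norm_lin]
  have h3 : RCLike.re (inner ℂ u P) = ∑ I ∈ G, ‖F.coef I u.fn‖ ^ 2 := by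
    rw [hP, inner_sum, map_sum]
    refine Finset.sum_congr rfl fun I hI => ?_
    rw [inner_smul_right, ← inner_conj_symm, F.inner_poG_left, Complex.mul_conj']
    norm_cast
  rw [h2, h3]
  ring

end

end Vale.Agent.P370.NB
end
end

section

section

/-!
Slicing, bounded perturbations and integrals of products.
-/

namespace Vale.Agent.P370.NB

open MeasureTheory Function ComplexConjugate

section slice

variable {ι : Type*} [Fintype ι] [DecidableEq ι] {Y : Type*} [MeasurableSpace Y]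
  (μ : Measure Y) [SigmaFinite μ]

/-- the slice integral is integrable against a weight -/
theorem integrable_slot (i : ι) {F : (ι → Y) → ℝ} (hF : Integrable F (pm ι μ)) {h : Y → ℝ}
    (hh : Integrable h μ) :
    Integrable (fun w => h (w i) * ∫ z, F (update w i z) ∂μ) (pm ι μ) := by
  have hK : Integrable (fun p : (ι → Y) × Y => F p.1 * h p.2) ((pm ι μ).prod μ) :=
    hF.mul_prod hh
  have h2 := (integrable_slotMap μ i hK).integral_prod_left
  refine h2.congr (Filter.Eventually.of_forall fun w => ?_)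
  simp only [slotMap]
  rw [integral_mul_const, mul_comm]

/-- comparison of integrals by comparison of slices -/
theorem integral_le_of_slices (i : ι) {F G : (ι → Y) → ℝ} (hF : Integrable F (pm ι μ))
    (hG : Integrable G (pm ι μ)) {h : Y → ℝ} (hh : Integrable h μ) (h0 : ∀ y, 0 ≤ h y)
    (h1 : ∫ y, h y ∂μ = 1)
    (hle : ∀ w, ∫ z, F (update w i z) ∂μ ≤ ∫ z, G (update w i z) ∂μ) :
    ∫ w, F w ∂(pm ι μ) ≤ ∫ w, G w ∂(pm ι μ) := by
  rw [integral_slot μ i hF hh h1, integral_slot μ i hG hh h1]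
  simp only [smul_eq_mul]
  exact integral_mono (integrable_slot μ i hF hh) (integrable_slot μ i hG hh)
    fun w => mul_le_mul_of_nonneg_left (hle w) (h0 _)

omit [DecidableEq ι] in
/-- integral of a product of one-body functions -/
theorem integral_prod_fun (g : ι → Y → ℝ) :
    ∫ w, ∏ l, g l (w l) ∂(pm ι μ) = ∏ l, ∫ y, g l y ∂μ :=
  integral_fintype_prod_eq_prod (f := g)

omit [DecidableEq ι] in
theorem integrable_prod_fun {g : ι → Y → ℝ} (hg : ∀ l, Integrable (g l) μ) :
    Integrable (fun w : ι → Y => ∏ l, g l (w l)) (pm ι μ) :=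
  Integrable.fintype_prod hg

omit [MeasurableSpace Y] in
theorem prod_one_eq (g : ι → Y → ℝ) (i : ι) (v : Y → ℝ) (w : ι → Y) :
    (∏ l, g l (w l)) * v (w i) = ∏ l, (update g i (fun y => g i y * v y)) l (w l) := by
  rw [← Finset.mul_prod_erase Finset.univ (fun l => g l (w l)) (Finset.mem_univ i),
    ← Finset.mul_prod_erase Finset.univ (fun l => (update g i (fun y => g i y * v y)) l (w l))
    (Finset.mem_univ i), update_self, mul_right_comm]
  congr 1
  refine Finset.prod_congr rfl fun l hl => ?_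
  rw [update_of_ne (Finset.ne_of_mem_erase hl)]

theorem integral_prod_one (g : ι → Y → ℝ) (i : ι) (v : Y → ℝ) :
    ∫ w, (∏ l, g l (w l)) * v (w i) ∂(pm ι μ) =
      (∏ l ∈ Finset.univ.erase i, ∫ y, g l y ∂μ) * ∫ y, g i y * v y ∂μ := by
  simp only [prod_one_eq]
  rw [integral_prod_fun, ← Finset.mul_prod_erase Finset.univ _ (Finset.mem_univ i), update_self,
    mul_comm]
  congr 1
  refine Finset.prod_congr rfl fun l hl => ?_
  rw [update_of_ne (Finset.ne_of_mem_erase hl)]

theorem integrable_prod_one {g : ι → Y → ℝ} (hg : ∀ l, Integrable (g l) μ) (i : ι) {v : Y → ℝ}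
    (hv : Integrable (fun y => g i y * v y) μ) :
    Integrable (fun w : ι → Y => (∏ l, g l (w l)) * v (w i)) (pm ι μ) := by
  simp only [prod_one_eq]
  refine integrable_prod_fun μ fun l => ?_
  by_cases h : l = i
  · subst h
    rw [update_self]
    exact hv
  · rw [update_of_ne h]
    exact hg l

variable {μ}

omit [MeasurableSpace Y] in
/-- slices of a product with a two-body kernel -/
theorem prod_two_update (g : ι → Y → ℝ) {i j : ι} (hij : i ≠ j) (k : Y → Y → ℝ) (w : ι → Y) (z : Y) :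
    (∏ l, g l (update w i z l)) * k (update w i z i) (update w i z j) =
      (∏ l ∈ Finset.univ.erase i, g l (w l)) * (g i z * k z (w j)) := by
  rw [update_self, update_of_ne hij.symm,
    ← Finset.mul_prod_erase Finset.univ (fun l => g l (update w i z l)) (Finset.mem_univ i),
    update_self]
  have : ∏ l ∈ Finset.univ.erase i, g l (update w i z l) =
      ∏ l ∈ Finset.univ.erase i, g l (w l) := by
    refine Finset.prod_congr rfl fun l hl => ?_
    rw [update_of_ne (Finset.ne_of_mem_erase hl)]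
  rw [this]
  ring

omit [MeasurableSpace Y] in
theorem prod_two_aux (g : ι → Y → ℝ) {i j : ι} (hij : i ≠ j) (h K : Y → ℝ) (w : ι → Y) :
    h (w i) * ((∏ l ∈ Finset.univ.erase i, g l (w l)) * K (w j)) =
      ∏ l, (update (update g i h) j (fun y => g j y * K y)) l (w l) := by
  have hj : j ∈ Finset.univ.erase i := Finset.mem_erase.2 ⟨hij.symm, Finset.mem_univ j⟩
  rw [← Finset.mul_prod_erase Finset.univ
    (fun l => (update (update g i h) j (fun y => g j y * K y)) l (w l)) (Finset.mem_univ i),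
    ← Finset.mul_prod_erase (Finset.univ.erase i)
    (fun l => (update (update g i h) j (fun y => g j y * K y)) l (w l)) hj,
    ← Finset.mul_prod_erase (Finset.univ.erase i) (fun l => g l (w l)) hj]
  simp only [update_self, update_of_ne hij]
  have : ∏ l ∈ (Finset.univ.erase i).erase j,
      (update (update g i h) j (fun y => g j y * K y)) l (w l) =
      ∏ l ∈ (Finset.univ.erase i).erase j, g l (w l) := by
    refine Finset.prod_congr rfl fun l hl => ?_
    rw [update_of_ne (Finset.ne_of_mem_erase hl),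
      update_of_ne (Finset.ne_of_mem_erase (Finset.mem_of_mem_erase hl))]
  rw [this]
  ring

variable (μ)

theorem integrable_prod_two {g : ι → Y → ℝ} (hgm : ∀ l, Measurable (g l))
    (hg : ∀ l, Integrable (g l) μ) {i j : ι}
    (hij : i ≠ j) {k : Y → Y → ℝ} (hkm : Measurable (fun p : Y × Y => k p.1 p.2))
    (hk : Integrable (fun p : Y × Y => g i p.1 * g j p.2 * k p.1 p.2) (μ.prod μ))
    {h : Y → ℝ} (hhm : Measurable h) (hh : Integrable h μ) (h1 : ∫ y, h y ∂μ = 1) :
    Integrable (fun w : ι → Y => (∏ l, g l (w l)) * k (w i) (w j)) (pm ι μ) := by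
  have hFm : Measurable (fun w : ι → Y => (∏ l, g l (w l)) * k (w i) (w j)) := by
    refine Measurable.mul (Finset.measurable_fun_prod _ fun l _ =>
      (hgm l).comp (measurable_pi_apply l)) ?_
    have hm : Measurable (fun w : ι → Y => (w i, w j)) :=
      (measurable_pi_apply i).prodMk (measurable_pi_apply j)
    exact hkm.comp hm
  have hKm : Measurable (fun p : (ι → Y) × Y =>
      (fun q : (ι → Y) × Y => ((∏ l, g l (q.1 l)) * k (q.1 i) (q.1 j)) * h q.2)
        (slotMap i p)) :=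
    ((hFm.comp measurable_fst).mul (hhm.comp measurable_snd)).comp (measurable_slotMap i)
  have hK : Integrable (fun p : (ι → Y) × Y =>
      (fun q : (ι → Y) × Y => ((∏ l, g l (q.1 l)) * k (q.1 i) (q.1 j)) * h q.2)
        (slotMap i p)) ((pm ι μ).prod μ) := by
    rw [integrable_prod_iff hKm.aestronglyMeasurable]
    simp only [slotMap, prod_two_update g hij k]
    constructor
    · have h2 := hk.prod_left_ae
      have h3 : ∀ᵐ w : ι → Y ∂(pm ι μ), Integrable (fun z => g i z * g j (w j) * k z (w j)) μ :=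
        (Measure.quasiMeasurePreserving_eval (μ := fun _ : ι => μ) j).ae h2
      filter_upwards [h3] with w hw
      have hj : j ∈ Finset.univ.erase i := Finset.mem_erase.2 ⟨hij.symm, Finset.mem_univ j⟩
      have e : (fun z => ((∏ l ∈ Finset.univ.erase i, g l (w l)) * (g i z * k z (w j))) * h (w i)) =
          fun z => ((∏ l ∈ (Finset.univ.erase i).erase j, g l (w l)) * h (w i)) *
            (g i z * g j (w j) * k z (w j)) := by
        funext z
        rw [← Finset.mul_prod_erase (Finset.univ.erase i) (fun l => g l (w l)) hj]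
        ring
      rw [e]
      exact hw.const_mul _
    · have h2 := hk.integral_norm_prod_right
      have e : (fun w : ι → Y => ∫ z, ‖((∏ l ∈ Finset.univ.erase i, g l (w l)) *
          (g i z * k z (w j))) * h (w i)‖ ∂μ) = fun w => ∏ l, (update (update
            (fun l y => |g l y|) i (fun y => |h y|)) j
            (fun y => |g j y| * ∫ z, ‖g i z * k z y‖ ∂μ)) l (w l) := by
        funext w
        rw [← prod_two_aux (fun l y => |g l y|) hij]
        simp only [norm_mul, Real.norm_eq_abs, Finset.abs_prod]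
        rw [integral_mul_const, integral_const_mul]
        ring
      rw [e]
      refine integrable_prod_fun μ fun l => ?_
      by_cases hlj : l = j
      · subst hlj
        rw [update_self]
        refine h2.congr (Filter.Eventually.of_forall fun y => ?_)
        simp only
        rw [← integral_const_mul]
        refine integral_congr_ae (Filter.Eventually.of_forall fun z => ?_)
        simp only [norm_mul, Real.norm_eq_abs]
        ring
      · rw [update_of_ne hlj]
        by_cases hli : l = i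
        · subst hli
          rw [update_self]
          exact hh.abs
        · rw [update_of_ne hli]
          exact (hg l).abs
  have hK2 := integrable_slotMap μ i hK
  simp only [slotMap_slotMap] at hK2
  have h3 := hK2.integral_prod_left
  refine h3.congr (Filter.Eventually.of_forall fun w => ?_)
  simp only
  rw [integral_const_mul, h1, mul_one]

/-- integral of a product with a two-body kernel -/
theorem integral_prod_two {g : ι → Y → ℝ} (hgm : ∀ l, Measurable (g l))
    (hg : ∀ l, Integrable (g l) μ) {i j : ι}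
    (hij : i ≠ j) {k : Y → Y → ℝ} (hkm : Measurable (fun p : Y × Y => k p.1 p.2))
    (hk : Integrable (fun p : Y × Y => g i p.1 * g j p.2 * k p.1 p.2) (μ.prod μ))
    {h : Y → ℝ} (hhm : Measurable h) (hh : Integrable h μ) (h1 : ∫ y, h y ∂μ = 1) :
    ∫ w, (∏ l, g l (w l)) * k (w i) (w j) ∂(pm ι μ) =
      (∏ l ∈ (Finset.univ.erase i).erase j, ∫ y, g l y ∂μ) *
        ∫ y, (∫ z, g i z * k z y ∂μ) * g j y ∂μ := by
  rw [integral_slot μ i (integrable_prod_two μ hgm hg hij hkm hk hhm hh h1) hh h1]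
  simp only [prod_two_update g hij k, integral_const_mul, smul_eq_mul, prod_two_aux g hij h (fun y => ∫ z, g i z * k z y ∂μ)]
  rw [integral_prod_fun]
  have hj : j ∈ Finset.univ.erase i := Finset.mem_erase.2 ⟨hij.symm, Finset.mem_univ j⟩
  rw [← Finset.mul_prod_erase Finset.univ _ (Finset.mem_univ i),
    ← Finset.mul_prod_erase (Finset.univ.erase i) _ hj]
  simp only [update_self, update_of_ne hij, h1, one_mul]
  rw [mul_comm]
  congr 1
  · refine Finset.prod_congr rfl fun l hl => ?_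
    rw [update_of_ne (Finset.ne_of_mem_erase hl),
      update_of_ne (Finset.ne_of_mem_erase (Finset.mem_of_mem_erase hl))]
  · refine integral_congr_ae (Filter.Eventually.of_forall fun y => ?_)
    exact mul_comm _ _

end slice

section pert

variable {ι : Type*} [Fintype ι] {Y : Type*} [MeasurableSpace Y] {D : WSp Y}

theorem Dm.norm_sq_integrable {f : (ι → Y) → ℂ} (hf : Dm D f) :
    Integrable (fun w => ‖f w‖ ^ 2) (pm ι D.μ) := by
  have h := (hf.mul hf).integrable.norm
  refine h.congr (Filter.Eventually.of_forall fun w => ?_)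
  simp only [norm_mul, sq]

theorem Dm.bdd_norm_sq_integrable {f : (ι → Y) → ℂ} (hf : Dm D f) {V : (ι → Y) → ℝ}
    (hV : Measurable V) {B : ℝ} (hB : ∀ w, |V w| ≤ B) :
    Integrable (fun w => V w * ‖f w‖ ^ 2) (pm ι D.μ) :=
  hf.norm_sq_integrable.bdd_mul hV.aestronglyMeasurable (Filter.Eventually.of_forall hB)

theorem Dm.sub {f g : (ι → Y) → ℂ} (hf : Dm D f) (hg : Dm D g) : Dm D (fun w => f w - g w) := by
  have h := (GW D ι).sub_mem hf hg
  exact h

/-- perturbation by a bounded potential -/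
theorem bdd_pert {f P : (ι → Y) → ℂ} (hf : Dm D f) (hP : Dm D P) {V : (ι → Y) → ℝ}
    (hV : Measurable V) {B : ℝ} (hB : ∀ w, |V w| ≤ B) {t : ℝ} (ht : 0 < t) :
    (∫ w, V w * ‖P w‖ ^ 2 ∂(pm ι D.μ)) - B * t * (∫ w, ‖P w‖ ^ 2 ∂(pm ι D.μ)) -
      B * (1 / t + 1) * (∫ w, ‖f w - P w‖ ^ 2 ∂(pm ι D.μ)) ≤
    ∫ w, V w * ‖f w‖ ^ 2 ∂(pm ι D.μ) := by
  have hQ := hf.sub hP
  have i1 := hf.bdd_norm_sq_integrable hV hB
  have i2 := hP.bdd_norm_sq_integrable hV hB
  have i3 := hP.norm_sq_integrable.const_mul (B * t)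
  have i4 := hQ.norm_sq_integrable.const_mul (B * (1 / t + 1))
  rw [← integral_const_mul, ← integral_const_mul, ← integral_sub i2 i3]
  have i5 : Integrable (fun w => V w * ‖P w‖ ^ 2 - B * t * ‖P w‖ ^ 2) (pm ι D.μ) := i2.sub i3
  rw [← integral_sub i5 i4]
  refine integral_mono (i5.sub i4) i1 fun w => ?_
  have hB0 : 0 ≤ B := (abs_nonneg _).trans (hB w)
  have e1 : ‖f w‖ ^ 2 = ‖P w‖ ^ 2 + 2 * (conj (P w) * (f w - P w)).re + ‖f w - P w‖ ^ 2 := by
    have : f w = P w + (f w - P w) := by ring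
    conv_lhs => rw [this]
    rw [← Complex.normSq_eq_norm_sq, ← Complex.normSq_eq_norm_sq, ← Complex.normSq_eq_norm_sq,
      Complex.normSq_add]
    have e2 : (P w * conj (f w - P w)).re = (conj (P w) * (f w - P w)).re := by
      rw [← Complex.conj_re, map_mul, Complex.conj_conj]
    rw [e2]
    ring
  have e3 : |(conj (P w) * (f w - P w)).re| ≤ ‖P w‖ * ‖f w - P w‖ := by
    refine (Complex.abs_re_le_norm _).trans ?_
    rw [norm_mul, RCLike.norm_conj]
  have e4 : 2 * (‖P w‖ * ‖f w - P w‖) ≤ t * ‖P w‖ ^ 2 + (1 / t) * ‖f w - P w‖ ^ 2 := by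
    have h1 : 0 ≤ (1 / t) * (t * ‖P w‖ - ‖f w - P w‖) ^ 2 := by (clear * - ht; positivity)
    have h2 : (1 / t) * (t * ‖P w‖ - ‖f w - P w‖) ^ 2 = t * ‖P w‖ ^ 2 -
        2 * (‖P w‖ * ‖f w - P w‖) + (1 / t) * ‖f w - P w‖ ^ 2 := by
      field_simp
      ring
    linarith only [h1, h2]
  have e5 : -(B * (2 * (‖P w‖ * ‖f w - P w‖))) ≤ V w * (2 * (conj (P w) * (f w - P w)).re) := by
    have h1 : |V w * (2 * (conj (P w) * (f w - P w)).re)| ≤ B * (2 * (‖P w‖ * ‖f w - P w‖)) := by
      rw [abs_mul, abs_mul, abs_two]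
      exact mul_le_mul (hB w) (by linarith only [e3]) (by (clear * -; positivity)) hB0
    linarith only [h1, neg_abs_le (V w * (2 * (conj (P w) * (f w - P w)).re))]
  have e6 : -(B * ‖f w - P w‖ ^ 2) ≤ V w * ‖f w - P w‖ ^ 2 := by
    have h1 : |V w * ‖f w - P w‖ ^ 2| ≤ B * ‖f w - P w‖ ^ 2 := by
      rw [abs_mul, abs_of_nonneg (sq_nonneg ‖f w - P w‖)]
      exact mul_le_mul_of_nonneg_right (hB w) (sq_nonneg _)
    linarith [neg_abs_le (V w * ‖f w - P w‖ ^ 2)]
  have e7 := mul_le_mul_of_nonneg_left e4 hB0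
  rw [e1]
  linarith

end pert

section opnorm

variable {ι : Type*} [Fintype ι] [DecidableEq ι] {Y : Type*} [MeasurableSpace Y] {D : WSp Y}

omit [Fintype ι] in
theorem op_update (i : ι) (χ χ' : Y → ℝ) (f : (ι → Y) → ℂ) (w : ι → Y) (y : Y) :
    op D i χ χ' f (update w i y) = (χ y : ℂ) * ∫ z, (χ' z : ℂ) * f (update w i z) ∂D.μ := by
  unfold op
  simp only [update_self, update_idem]

end opnorm

end Vale.Agent.P370.NB
end
end

section

section

namespace Vale.Agent.P370.Chains

open Finset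

variable {n B : ℕ} (A : Fin n → Fin (n ^ 2) → ℤ)

end Vale.Agent.P370.Chains
end
end

section

section

namespace Vale.Agent.P370

/-- unary number -/
def un (n : ℕ) : List Bool := List.replicate n true

/-- `F` is a polynomial-time number-valued function (values in unary) -/
def PN (k : ℕ) (F : (Fin k → List Bool) → ℕ) : Prop := PolyTime k (fun v => un (F v))

theorem PolyTime.congr {k : ℕ} {f g : (Fin k → List Bool) → List Bool} (hf : PolyTime k f)
    (h : ∀ v, f v = g v) : PolyTime k g := by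
  have : f = g := funext h
  rwa [← this]

theorem PN.congr {k : ℕ} {F G : (Fin k → List Bool) → ℕ} (hF : PN k F)
    (h : ∀ v, F v = G v) : PN k G := by
  have : F = G := funext h
  rwa [← this]

/-! ### length bounds -/

/-- context with the recursion value removed -/
theorem PolyTime.skip {k : ℕ} {f : (Fin (k + 1) → List Bool) → List Bool}
    (hf : PolyTime (k + 1) f) :
    PolyTime (k + 2) (fun w => f (Fin.cons (w 0) (fun i => w i.succ.succ))) := by
  have := PolyTime.comp (k + 2) (k + 1) f (Fin.cons (fun w => w 0) (fun i w => w i.succ.succ)) hf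
    (by
      intro i
      refine Fin.cases ?_ ?_ i
      · exact PolyTime.proj (k + 2) 0
      · intro j
        exact PolyTime.proj (k + 2) j.succ.succ)
  refine this.congr (fun v => ?_)
  congr 1
  funext i
  refine Fin.cases ?_ ?_ i
  · rfl
  · intro j
    rfl

end Vale.Agent.P370
end
end

section

section

namespace Vale.Agent.P370

open Red Chains

variable {k : ℕ}

variable {n B t t' : (Fin k → List Bool) → ℕ} {f : (Fin k → List Bool) → List Bool}

end Vale.Agent.P370
end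
end

section

section

set_option exponentiation.threshold 10000

namespace Vale.Agent.P370.Red

open Chains Finset

/-! ### The matrix attached to a graph code -/

/-! ### Enumerating sites and nuclei -/

end Vale.Agent.P370.Red
end
end

section

section

/-!
Projection of the open shell onto low lying orbitals.
-/

namespace Vale.Agent.P370.Q

open MeasureTheory Finset ComplexConjugate

namespace OpenS

open Function

section generic

variable {N : ℕ} {ι : Type} [Fintype ι] [DecidableEq ι]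

/-- one-particle term -/
noncomputable def o1 (h : ι → ι → ℝ) (i : Fin N) (c : Tens N ι) (I : Fin N → ι) : ℝ :=
  ∑ a, h (I i) a * (conj (c I) * c (update I i a)).re

/-- two-particle term -/
noncomputable def o2 (v : ι → ι → ι → ι → ℝ) (i j : Fin N) (c : Tens N ι) (I : Fin N → ι) : ℝ :=
  ∑ a, ∑ b, v (I i) a (I j) b * (conj (c I) * c (update (update I i a) j b)).re

theorem oneE_eq (h : ι → ι → ℝ) (c : Tens N ι) : oneE h c = ∑ i, ∑ I, o1 h i c I := by
  unfold oneE o1
  simp only [Complex.re_sum, Complex.re_ofReal_mul]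
  rw [Finset.sum_comm]

theorem twoE_eq (v : ι → ι → ι → ι → ℝ) (c : Tens N ι) :
    twoE v c = ∑ i, ∑ j ∈ Ioi i, ∑ I, o2 v i j c I := by
  unfold twoE o2
  simp only [Complex.re_sum, Complex.re_ofReal_mul]
  rw [Finset.sum_comm]
  refine Finset.sum_congr rfl fun i _ => ?_
  rw [Finset.sum_comm]

/-- the swap `(I, a) ↦ (update I i a, I i)` -/
def swp (i : Fin N) (x : (Fin N → ι) × ι) : (Fin N → ι) × ι := (update x.1 i x.2, x.1 i)

omit [Fintype ι] [DecidableEq ι] in
theorem swp_invol (i : Fin N) : Function.Involutive (swp (ι := ι) i) := by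
  rintro ⟨I, a⟩
  simp only [swp, update_idem, update_eq_self, update_self]

omit [DecidableEq ι] in
theorem sum_update (i : Fin N) (F : (Fin N → ι) → ℝ) :
    ∑ I, ∑ a, F (update I i a) = Fintype.card ι * ∑ I, F I := by
  have h1 : ∑ I, ∑ a, F (update I i a) = ∑ x : (Fin N → ι) × ι, F (swp i x).1 := by
    rw [Fintype.sum_prod_type]
    rfl
  have h2 : ∑ x : (Fin N → ι) × ι, F (swp i x).1 = ∑ x : (Fin N → ι) × ι, F x.1 :=
    Equiv.sum_comp (Function.Involutive.toPerm _ (swp_invol (ι := ι) i)) (fun x => F x.1)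
  rw [h1, h2, Fintype.sum_prod_type]
  simp only [sum_const, card_univ, nsmul_eq_mul, mul_sum]

theorem sum_le_fiber (i : Fin N) (F G : (Fin N → ι) → ℝ)
    (H : ∀ I, ∑ a, G (update I i a) ≤ ∑ a, F (update I i a)) : ∑ I, G I ≤ ∑ I, F I := by
  rcases isEmpty_or_nonempty ι with he | he
  · have : IsEmpty (Fin N → ι) := ⟨fun I => he.elim (I i)⟩
    simp
  · have hpos : (0 : ℝ) < Fintype.card ι := by exact_mod_cast Fintype.card_pos
    have h1 := Finset.sum_le_sum (s := (univ : Finset (Fin N → ι))) fun I _ => H I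
    rw [sum_update, sum_update] at h1
    exact le_of_mul_le_mul_left h1 hpos

end generic

section spin

variable {N : ℕ} {A : Type} [Fintype A] [DecidableEq A]

theorem sum_le_fiber1 (i : Fin N) (F G : (Fin N → A × Fin 2) → ℝ)
    (H : ∀ I s, ∑ p, G (update I i (p, s)) ≤ ∑ p, F (update I i (p, s))) :
    ∑ I, G I ≤ ∑ I, F I := by
  refine sum_le_fiber i F G fun I => ?_
  rw [Fintype.sum_prod_type_right, Fintype.sum_prod_type_right]
  exact Finset.sum_le_sum fun s _ => H I s

theorem sum_le_fiber2 (i j : Fin N) (F G : (Fin N → A × Fin 2) → ℝ)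
    (H : ∀ I s t, ∑ p, ∑ q, G (update (update I i (p, s)) j (q, t)) ≤
      ∑ p, ∑ q, F (update (update I i (p, s)) j (q, t))) :
    ∑ I, G I ≤ ∑ I, F I := by
  have h1 : ∑ I, ∑ b, G (update I j b) ≤ ∑ I, ∑ b, F (update I j b) := by
    refine sum_le_fiber1 i (fun I => ∑ b, F (update I j b)) (fun I => ∑ b, G (update I j b))
      fun I s => ?_
    simp only [Fintype.sum_prod_type_right]
    rw [Finset.sum_comm, Finset.sum_comm (s := (univ : Finset A))]
    exact Finset.sum_le_sum fun t _ => H I s t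
  rcases isEmpty_or_nonempty (A × Fin 2) with he | he
  · have : IsEmpty (Fin N → A × Fin 2) := ⟨fun I => he.elim (I i)⟩
    simp
  · have hpos : (0 : ℝ) < Fintype.card (A × Fin 2) := by exact_mod_cast Fintype.card_pos
    rw [sum_update, sum_update] at h1
    exact le_of_mul_le_mul_left h1 hpos

omit [DecidableEq A] in
theorem fib1 (h : A → A → ℝ) (i : Fin N) (c : Tens N (A × Fin 2)) (I : Fin N → A × Fin 2)
    (s : Fin 2) :
    ∑ p, o1 (spin1 h) i c (update I i (p, s)) =
      qf h (fun p => (c (update I i (p, s))).re) + qf h (fun p => (c (update I i (p, s))).im) := by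
  unfold o1 qf
  rw [← Finset.sum_add_distrib]
  refine Finset.sum_congr rfl fun p _ => ?_
  rw [← Finset.sum_add_distrib, Fintype.sum_prod_type]
  refine Finset.sum_congr rfl fun q _ => ?_
  rw [Finset.sum_eq_single s]
  · simp only [update_self, update_idem, spin1, if_true, Complex.mul_re, Complex.conj_re,
      Complex.conj_im]
    ring
  · intro t _ ht
    simp only [update_self, spin1]
    rw [if_neg (fun h' => ht h'.symm), zero_mul]
  · simp only [mem_univ, not_true_eq_false, update_self, update_idem, Complex.mul_re, Complex.conj_re, Complex.conj_im, neg_mul, sub_neg_eq_add, mul_eq_zero, IsEmpty.forall_iff]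

theorem upd4 {i j : Fin N} (hij : i ≠ j) {ι : Type} (I : Fin N → ι) (x y a b : ι) :
    update (update (update (update I i x) j y) i a) j b = update (update I i a) j b := by
  funext k
  by_cases hk : k = j
  · subst hk
    simp
  · rw [update_of_ne hk, update_of_ne hk]
    by_cases hi : k = i
    · subst hi
      simp
    · rw [update_of_ne hi, update_of_ne hi, update_of_ne hk, update_of_ne hi]

omit [DecidableEq A] in
theorem fib2 (v : A → A → A → A → ℝ) {i j : Fin N} (hij : i ≠ j) (c : Tens N (A × Fin 2))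
    (I : Fin N → A × Fin 2) (s t : Fin 2) :
    ∑ p, ∑ q, o2 (spin2 v) i j c (update (update I i (p, s)) j (q, t)) =
      qf2 v (fun p q => (c (update (update I i (p, s)) j (q, t))).re) +
      qf2 v (fun p q => (c (update (update I i (p, s)) j (q, t))).im) := by
  unfold o2 qf2
  rw [← Finset.sum_add_distrib]
  refine Finset.sum_congr rfl fun p _ => ?_
  rw [← Finset.sum_add_distrib]
  have key : ∀ q, (∑ a, ∑ b, spin2 v (update (update I i (p, s)) j (q, t) i) a
      (update (update I i (p, s)) j (q, t) j) b *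
      (conj (c (update (update I i (p, s)) j (q, t))) *
        c (update (update (update (update I i (p, s)) j (q, t)) i a) j b)).re) =
      ∑ a, ∑ b, (v p a q b * (c (update (update I i (p, s)) j (q, t))).re *
        (c (update (update I i (a, s)) j (b, t))).re + v p a q b *
          (c (update (update I i (p, s)) j (q, t))).im *
        (c (update (update I i (a, s)) j (b, t))).im) := by
    intro q
    simp only [upd4 hij, update_self, update_of_ne hij]
    rw [Fintype.sum_prod_type]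
    refine Finset.sum_congr rfl fun a _ => ?_
    rw [Finset.sum_eq_single s]
    · rw [Fintype.sum_prod_type]
      refine Finset.sum_congr rfl fun b _ => ?_
      rw [Finset.sum_eq_single t]
      · simp only [spin2, and_self, if_true, Complex.mul_re, Complex.conj_re, Complex.conj_im]
        ring
      · intro t' _ ht
        simp only [spin2]
        rw [if_neg (fun h' => ht h'.2.symm), zero_mul]
      · simp only [mem_univ, not_true_eq_false, Complex.mul_re, Complex.conj_re, Complex.conj_im, neg_mul, sub_neg_eq_add, mul_eq_zero, IsEmpty.forall_iff]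
    · intro s' _ hs
      refine Finset.sum_eq_zero fun b _ => ?_
      simp only [spin2]
      rw [if_neg (fun h' => hs h'.1.symm), zero_mul]
    · simp only [mem_univ, not_true_eq_false, Complex.mul_re, Complex.conj_re, Complex.conj_im, neg_mul, sub_neg_eq_add, IsEmpty.forall_iff]
  simp only [key]
  rw [Finset.sum_comm]
  refine Finset.sum_congr rfl fun a _ => ?_
  rw [← Finset.sum_add_distrib]
  refine Finset.sum_congr rfl fun q _ => ?_
  rw [← Finset.sum_add_distrib]

/-! ### the two-body form -/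

omit [DecidableEq A] in
theorem qf2_lin (v : A → A → A → A → ℝ) (x y : A → A → ℝ) (s t : ℝ) :
    qf2 v (fun p q => s * x p q + t * y p q) = s ^ 2 * qf2 v x + t ^ 2 * qf2 v y +
      s * t * ∑ p, ∑ a, ∑ q, ∑ b, v p a q b * (x p q * y a b + y p q * x a b) := by
  unfold qf2
  simp only [Finset.mul_sum, ← Finset.sum_add_distrib]
  refine Finset.sum_congr rfl fun p _ => Finset.sum_congr rfl fun a _ =>
    Finset.sum_congr rfl fun q _ => Finset.sum_congr rfl fun b _ => ?_
  ring

omit [DecidableEq A] in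
theorem qf2_cs (v : A → A → A → A → ℝ) (hvpos : ∀ x, 0 ≤ qf2 v x) {ε : ℝ} (hε : 0 < ε)
    (x y : A → A → ℝ) :
    (1 - ε) * qf2 v x - (1 / ε - 1) * qf2 v y ≤ qf2 v (fun p q => x p q + y p q) := by
  have h1 := hvpos (fun p q => Real.sqrt ε * x p q + (1 / Real.sqrt ε) * y p q)
  have hs : 0 < Real.sqrt ε := Real.sqrt_pos.2 hε
  have hs2 : Real.sqrt ε ^ 2 = ε := Real.sq_sqrt hε.le
  rw [qf2_lin] at h1
  have h2 := qf2_lin v x y 1 1
  simp only [one_mul] at h2
  rw [h2]
  have h3 : (1 / Real.sqrt ε) ^ 2 = 1 / ε := by rw [div_pow, hs2, one_pow]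
  have h4 : Real.sqrt ε * (1 / Real.sqrt ε) = 1 := by (clear * - hε; field_simp)
  rw [h3, h4, hs2] at h1
  (clear * - h1; linarith)

theorem nsq_re_im (z : ℂ) : ‖z‖ ^ 2 = z.re ^ 2 + z.im ^ 2 := by
  rw [← Complex.normSq_eq_norm_sq, Complex.normSq_apply]
  ring

theorem o2_le (v : A → A → A → A → ℝ) {β : ℝ} (hvle : ∀ x, qf2 v x ≤ β * ∑ p, ∑ q, x p q ^ 2)
    {i j : Fin N} (hij : i ≠ j) (c : Tens N (A × Fin 2)) :
    ∑ I, o2 (spin2 v) i j c I ≤ β * nsq c := by
  unfold nsq
  rw [Finset.mul_sum]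
  refine sum_le_fiber2 i j _ _ fun I s t => ?_
  rw [fib2 v hij c I s t]
  simp only [nsq_re_im, mul_add, Finset.sum_add_distrib, ← Finset.mul_sum]
  exact add_le_add (hvle _) (hvle _)

theorem o2_cs (v : A → A → A → A → ℝ) (hvpos : ∀ x, 0 ≤ qf2 v x) {ε : ℝ} (hε : 0 < ε)
    {i j : Fin N} (hij : i ≠ j) (x y : Tens N (A × Fin 2)) :
    (1 - ε) * (∑ I, o2 (spin2 v) i j x I) - (1 / ε - 1) * (∑ I, o2 (spin2 v) i j y I) ≤
      ∑ I, o2 (spin2 v) i j (fun I => x I + y I) I := by
  rw [Finset.mul_sum, Finset.mul_sum, ← Finset.sum_sub_distrib]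
  refine sum_le_fiber2 i j _ _ fun I s t => ?_
  simp only [Finset.sum_sub_distrib, ← Finset.mul_sum]
  rw [fib2 v hij x I s t, fib2 v hij y I s t, fib2 v hij (fun I => x I + y I) I s t]
  have h1 := qf2_cs v hvpos hε (fun p q => (x (update (update I i (p, s)) j (q, t))).re)
    (fun p q => (y (update (update I i (p, s)) j (q, t))).re)
  have h2 := qf2_cs v hvpos hε (fun p q => (x (update (update I i (p, s)) j (q, t))).im)
    (fun p q => (y (update (update I i (p, s)) j (q, t))).im)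
  simp only [Complex.add_re, Complex.add_im]
  linarith

theorem twoE_le (v : A → A → A → A → ℝ) {β : ℝ} (hβ : 0 ≤ β)
    (hvle : ∀ x, qf2 v x ≤ β * ∑ p, ∑ q, x p q ^ 2) (c : Tens N (A × Fin 2)) :
    twoE (spin2 v) c ≤ N ^ 2 * β * nsq c := by
  rw [twoE_eq]
  have hn : 0 ≤ nsq c := Finset.sum_nonneg fun I _ => by (clear * -; positivity)
  have h1 : ∀ i : Fin N, ∑ j ∈ Ioi i, ∑ I, o2 (spin2 v) i j c I ≤ N * (β * nsq c) := by
    intro i
    have h2 : ∑ j ∈ Ioi i, ∑ I, o2 (spin2 v) i j c I ≤ ∑ j ∈ Ioi i, β * nsq c :=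
      Finset.sum_le_sum fun j hj => o2_le v hvle (Finset.mem_Ioi.1 hj).ne c
    refine h2.trans ?_
    rw [Finset.sum_const, nsmul_eq_mul]
    refine mul_le_mul_of_nonneg_right ?_ (mul_nonneg hβ hn)
    have h3 : (Ioi i).card ≤ N := by
      simpa only [Fin.card_Ioi, tsub_le_iff_right, Fintype.card_fin] using Finset.card_le_univ (Ioi i)
    exact_mod_cast h3
  refine (Finset.sum_le_sum fun i _ => h1 i).trans ?_
  rw [Finset.sum_const, nsmul_eq_mul, Finset.card_univ, Fintype.card_fin]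
  linarith

theorem twoE_cs (v : A → A → A → A → ℝ) (hvpos : ∀ x, 0 ≤ qf2 v x) {ε : ℝ} (hε : 0 < ε)
    (x y : Tens N (A × Fin 2)) :
    (1 - ε) * twoE (spin2 v) x - (1 / ε - 1) * twoE (spin2 v) y ≤
      twoE (spin2 v) (fun I => x I + y I) := by
  rw [twoE_eq, twoE_eq, twoE_eq]
  simp only [Finset.mul_sum, ← Finset.sum_sub_distrib]
  refine Finset.sum_le_sum fun i _ => Finset.sum_le_sum fun j hj => ?_
  have h := o2_cs v hvpos hε (Finset.mem_Ioi.1 hj).ne x y
  simpa only [Finset.mul_sum, ← Finset.sum_sub_distrib] using h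

end spin

end OpenS

end Vale.Agent.P370.Q
end
end

section

section

/-!
Projection of the open shell onto low lying orbitals.
-/

namespace Vale.Agent.P370.Q

open MeasureTheory Finset ComplexConjugate

namespace OpenS

open Function

section ext

variable {N : ℕ} {ι κ : Type} [Fintype ι] [DecidableEq ι] [Fintype κ] [DecidableEq κ]

/-- extension by zero along an embedding of the orbitals -/
noncomputable def extT (e : ι → κ) (d : Tens N ι) : Tens N κ :=
  Function.extend (fun J : Fin N → ι => e ∘ J) d (fun _ => 0)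

omit [Fintype ι] [DecidableEq ι] [Fintype κ] [DecidableEq κ] in
theorem extT_apply {e : ι → κ} (he : Injective e) (d : Tens N ι) (J : Fin N → ι) :
    extT e d (e ∘ J) = d J :=
  Function.Injective.extend_apply (he.comp_left (α := Fin N)) d (fun _ => 0) J

omit [Fintype ι] [DecidableEq ι] [Fintype κ] [DecidableEq κ] in
theorem extT_zero {e : ι → κ} (d : Tens N ι) (I : Fin N → κ)
    (hI : I ∉ Set.range (fun J : Fin N → ι => e ∘ J)) : extT e d I = 0 :=
  Function.extend_apply' _ _ _ (by simpa only [not_exists, Set.mem_range] using hI)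

omit [DecidableEq ι] in
theorem nsq_ext {e : ι → κ} (he : Injective e) [DecidableEq ι] (d : Tens N ι) :
    nsq (extT e d) = nsq d := by
  unfold nsq
  refine (Fintype.sum_of_injective (fun J : Fin N → ι => e ∘ J) (he.comp_left (α := Fin N))
    (fun J => ‖d J‖ ^ 2) (fun I => ‖extT e d I‖ ^ 2) ?_ ?_).symm
  · intro I hI
    rw [extT_zero d I hI]
    simp
  · intro J
    simp only [extT_apply he]

omit [Fintype ι] [DecidableEq ι] [Fintype κ] [DecidableEq κ] in
theorem anti_ext {e : ι → κ} (he : Injective e) {d : Tens N ι} (hd : IsAnti d) :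
    IsAnti (extT e d) := by
  intro π I
  by_cases hI : I ∈ Set.range (fun J : Fin N → ι => e ∘ J)
  · obtain ⟨J, rfl⟩ := hI
    have h1 : (fun i => (e ∘ J) (π i)) = e ∘ (fun i => J (π i)) := rfl
    simp only [h1, extT_apply he]
    exact hd π J
  · rw [extT_zero d I hI, extT_zero, mul_zero]
    rintro ⟨J, hJ⟩
    refine hI ⟨fun i => J (π⁻¹ i), ?_⟩
    funext i
    have := congrFun hJ (π⁻¹ i)
    simpa only [Equiv.Perm.coe_inv, comp_apply, Equiv.apply_symm_apply] using this

omit [DecidableEq ι] [DecidableEq κ] in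
theorem o1_ext {e : ι → κ} (he : Injective e) (h : κ → κ → ℝ) (i : Fin N) (d : Tens N ι) :
    ∑ I, o1 h i (extT e d) I = ∑ J, o1 (fun p q => h (e p) (e q)) i d J := by
  refine (Fintype.sum_of_injective (fun J : Fin N → ι => e ∘ J) (he.comp_left (α := Fin N))
    _ _ ?_ ?_).symm
  · intro I hI
    unfold o1
    rw [extT_zero d I hI]
    simp only [map_zero, zero_mul, Complex.zero_re, mul_zero, sum_const_zero]
  · intro J
    unfold o1
    refine Fintype.sum_of_injective e he _ _ ?_ ?_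
    · intro a ha
      rw [extT_zero d (update (e ∘ J) i a)]
      · simp
      · rintro ⟨J', hJ'⟩
        refine ha ⟨J' i, ?_⟩
        have := congrFun hJ' i
        simpa using this
    · intro a
      rw [← Function.comp_update, extT_apply he, extT_apply he]
      rfl

theorem oneE_ext {e : ι → κ} (he : Injective e) (h : κ → κ → ℝ) (d : Tens N ι) :
    oneE h (extT e d) = oneE (fun p q => h (e p) (e q)) d := by
  rw [oneE_eq, oneE_eq]
  exact Finset.sum_congr rfl fun i _ => o1_ext he h i d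

omit [DecidableEq ι] [DecidableEq κ] in
theorem o2_ext {e : ι → κ} (he : Injective e) (v : κ → κ → κ → κ → ℝ) {i j : Fin N}
    (hij : i ≠ j) (d : Tens N ι) :
    ∑ I, o2 v i j (extT e d) I = ∑ J, o2 (fun p a q b => v (e p) (e a) (e q) (e b)) i j d J := by
  refine (Fintype.sum_of_injective (fun J : Fin N → ι => e ∘ J) (he.comp_left (α := Fin N))
    _ _ ?_ ?_).symm
  · intro I hI
    unfold o2
    rw [extT_zero d I hI]
    simp only [map_zero, zero_mul, Complex.zero_re, mul_zero, sum_const_zero]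
  · intro J
    unfold o2
    refine Fintype.sum_of_injective e he _ _ ?_ ?_
    · intro a ha
      refine Finset.sum_eq_zero fun b _ => ?_
      rw [extT_zero d (update (update (e ∘ J) i a) j b)]
      · simp only [comp_apply, mul_zero, Complex.zero_re]
      · rintro ⟨J', hJ'⟩
        refine ha ⟨J' i, ?_⟩
        have := congrFun hJ' i
        simpa [update_of_ne hij] using this
    · intro a
      refine Fintype.sum_of_injective e he _ _ ?_ ?_
      · intro b hb
        rw [extT_zero d (update (update (e ∘ J) i (e a)) j b)]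
        · simp only [comp_apply, mul_zero, Complex.zero_re]
        · rintro ⟨J', hJ'⟩
          refine hb ⟨J' j, ?_⟩
          have := congrFun hJ' j
          simpa using this
      · intro b
        rw [← Function.comp_update, ← Function.comp_update, extT_apply he, extT_apply he]
        rfl

theorem twoE_ext {e : ι → κ} (he : Injective e) (v : κ → κ → κ → κ → ℝ) (d : Tens N ι) :
    twoE v (extT e d) = twoE (fun p a q b => v (e p) (e a) (e q) (e b)) d := by
  rw [twoE_eq, twoE_eq]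
  exact Finset.sum_congr rfl fun i _ => Finset.sum_congr rfl fun j hj =>
    o2_ext he v (Finset.mem_Ioi.1 hj).ne d

end ext

section main

variable {N : ℕ} {B R : Type}

/-- the embedding of the low orbitals -/
def emb : B × Fin 2 → (B ⊕ R) × Fin 2 := fun p => (Sum.inl p.1, p.2)

theorem emb_inj : Injective (emb : B × Fin 2 → (B ⊕ R) × Fin 2) := by
  rintro ⟨p, s⟩ ⟨q, t⟩ h
  simp only [emb, Prod.mk.injEq, Sum.inl.injEq] at h
  simp [h.1, h.2]

variable [Fintype B] [DecidableEq B] [Fintype R] [DecidableEq R]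

theorem enT_ext (h : B ⊕ R → B ⊕ R → ℝ) (v : B ⊕ R → B ⊕ R → B ⊕ R → B ⊕ R → ℝ)
    (d : Tens N (B × Fin 2)) :
    enT h v (extT emb d) = enT (fun i j => h (Sum.inl i) (Sum.inl j))
      (fun i j k l => v (Sum.inl i) (Sum.inl j) (Sum.inl k) (Sum.inl l)) d := by
  unfold enT
  rw [oneE_ext emb_inj, twoE_ext emb_inj]
  rfl

/-- the part without electrons in `R` -/
def cS (c : Tens N ((B ⊕ R) × Fin 2)) : Tens N ((B ⊕ R) × Fin 2) :=
  fun I => if ∀ j, (I j).1.isLeft = true then c I else 0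

/-- the part with electrons in `R` -/
def cR (c : Tens N ((B ⊕ R) × Fin 2)) : Tens N ((B ⊕ R) × Fin 2) :=
  fun I => if ∀ j, (I j).1.isLeft = true then 0 else c I

omit [Fintype B] [DecidableEq B] [Fintype R] [DecidableEq R] in
theorem cS_add_cR (c : Tens N ((B ⊕ R) × Fin 2)) : (fun I => cS c I + cR c I) = c := by
  funext I
  unfold cS cR
  split_ifs <;> simp

omit [Fintype B] [DecidableEq B] [Fintype R] [DecidableEq R] in
theorem cS_eq (c : Tens N ((B ⊕ R) × Fin 2)) :
    cS c = extT emb (fun J : Fin N → B × Fin 2 => c (emb ∘ J)) := by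
  funext I
  by_cases hI : I ∈ Set.range (fun J : Fin N → B × Fin 2 => (emb ∘ J : Fin N → (B ⊕ R) × Fin 2))
  · obtain ⟨J, rfl⟩ := hI
    rw [extT_apply emb_inj]
    unfold cS
    rw [if_pos]
    intro j
    rfl
  · rw [extT_zero _ _ hI]
    unfold cS
    rw [if_neg]
    intro hall
    refine hI ⟨fun j => ((I j).1.getLeft (hall j), (I j).2), ?_⟩
    funext j
    simp [emb]

theorem nsq_split (c : Tens N ((B ⊕ R) × Fin 2)) : nsq c = nsq (cS c) + nsq (cR c) := by
  unfold nsq
  rw [← Finset.sum_add_distrib]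
  refine Finset.sum_congr rfl fun I _ => ?_
  unfold cS cR
  split_ifs <;> simp

/-- weight -/
noncomputable def wt (a b η G : ℝ) (i : Fin N) (I : Fin N → (B ⊕ R) × Fin 2) : ℝ :=
  -η + (if (I i).1.isLeft = true then (if ∀ j, (I j).1.isLeft = true then 0 else (a - b))
    else (a + G))

omit [Fintype B] [DecidableEq B] [Fintype R] [DecidableEq R] in
theorem allL_update (i : Fin N) (I : Fin N → (B ⊕ R) × Fin 2) (p : B ⊕ R) (s : Fin 2) :
    (∀ j, (update I i (p, s) j).1.isLeft = true) ↔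
      (∀ j, j ≠ i → (I j).1.isLeft = true) ∧ p.isLeft = true := by
  constructor
  · intro h
    refine ⟨fun j hj => ?_, ?_⟩
    · have := h j
      rwa [update_of_ne hj] at this
    · have := h i
      rwa [update_self] at this
  · rintro ⟨h1, h2⟩ j
    by_cases hj : j = i
    · subst hj
      rw [update_self]
      exact h2
    · rw [update_of_ne hj]
      exact h1 j hj

omit [DecidableEq B] [DecidableEq R] in
/-- core inequality, others in `S` -/
theorem core1 (h : B ⊕ R → B ⊕ R → ℝ) (a η G : ℝ) (hη : 0 ≤ η)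
    (hone : ∀ x : B ⊕ R → ℝ,
      (∑ i, ∑ j, h (Sum.inl i) (Sum.inl j) * x (Sum.inl i) * x (Sum.inl j)) -
        η * (∑ i, x (Sum.inl i) ^ 2) + (a + G) * (∑ r, x (Sum.inr r) ^ 2) ≤ qf h x)
    (x : B ⊕ R → ℝ) :
    qf h (fun p => if p.isLeft = true then x p else 0) +
      ∑ p : B ⊕ R, (-η + (if p.isLeft = true then 0 else (a + G))) * x p ^ 2 ≤ qf h x := by
  refine le_trans ?_ (hone x)
  have h1 : qf h (fun p => if p.isLeft = true then x p else 0) =
      ∑ i, ∑ j, h (Sum.inl i) (Sum.inl j) * x (Sum.inl i) * x (Sum.inl j) := by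
    unfold qf
    simp only [mul_ite, mul_zero, ite_mul, zero_mul, Fintype.sum_sum_type, Sum.isLeft_inl, ↓reduceIte, sum_ite_irrel, sum_const_zero, Sum.isLeft_inr, Bool.false_eq_true, add_zero]
  rw [h1]
  simp only [Fintype.sum_sum_type, Sum.isLeft_inl, Sum.isLeft_inr, if_true, add_zero,
    Bool.false_eq_true, if_false, ← Finset.mul_sum]
  have h2 : 0 ≤ ∑ r, x (Sum.inr r) ^ 2 := Finset.sum_nonneg fun r _ => sq_nonneg _
  linarith only [mul_nonneg hη h2]

omit [DecidableEq B] [DecidableEq R] in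
/-- core inequality, some other in `R` -/
theorem core2 (h : B ⊕ R → B ⊕ R → ℝ) (a b η G : ℝ) (hη : 0 ≤ η)
    (hone : ∀ x : B ⊕ R → ℝ,
      (∑ i, ∑ j, h (Sum.inl i) (Sum.inl j) * x (Sum.inl i) * x (Sum.inl j)) -
        η * (∑ i, x (Sum.inl i) ^ 2) + (a + G) * (∑ r, x (Sum.inr r) ^ 2) ≤ qf h x)
    (hS : ∀ x : B → ℝ, (a - b) * (∑ i, x i ^ 2) ≤
      ∑ i, ∑ j, h (Sum.inl i) (Sum.inl j) * x i * x j)
    (x : B ⊕ R → ℝ) :
    ∑ p : B ⊕ R, (-η + (if p.isLeft = true then (a - b) else (a + G))) * x p ^ 2 ≤ qf h x := by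
  refine le_trans ?_ (hone x)
  have h1 := hS (fun i => x (Sum.inl i))
  simp only [Fintype.sum_sum_type, Sum.isLeft_inl, Sum.isLeft_inr, if_true,
    Bool.false_eq_true, if_false, ← Finset.mul_sum]
  have h2 : 0 ≤ ∑ r, x (Sum.inr r) ^ 2 := Finset.sum_nonneg fun r _ => sq_nonneg _
  linarith only [h1, mul_nonneg hη h2]

theorem o1_lower (h : B ⊕ R → B ⊕ R → ℝ) (a b η G : ℝ) (hη : 0 ≤ η)
    (hone : ∀ x : B ⊕ R → ℝ,
      (∑ i, ∑ j, h (Sum.inl i) (Sum.inl j) * x (Sum.inl i) * x (Sum.inl j)) -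
        η * (∑ i, x (Sum.inl i) ^ 2) + (a + G) * (∑ r, x (Sum.inr r) ^ 2) ≤ qf h x)
    (hS : ∀ x : B → ℝ, (a - b) * (∑ i, x i ^ 2) ≤
      ∑ i, ∑ j, h (Sum.inl i) (Sum.inl j) * x i * x j)
    (c : Tens N ((B ⊕ R) × Fin 2)) (i : Fin N) :
    (∑ I, (o1 (spin1 h) i (cS c) I + wt a b η G i I * ‖c I‖ ^ 2)) ≤
      ∑ I, o1 (spin1 h) i c I := by
  refine sum_le_fiber1 i _ _ fun I s => ?_
  rw [Finset.sum_add_distrib, fib1, fib1]
  simp only [nsq_re_im, mul_add, Finset.sum_add_distrib]
  by_cases hP : ∀ j, j ≠ i → (I j).1.isLeft = true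
  · have e1 : ∀ p, cS c (update I i (p, s)) =
        if p.isLeft = true then c (update I i (p, s)) else 0 := by
      intro p
      unfold cS
      by_cases hp : p.isLeft = true
      · rw [if_pos ((allL_update i I p s).2 ⟨hP, hp⟩), if_pos hp]
      · rw [if_neg (fun h' => hp ((allL_update i I p s).1 h').2), if_neg hp]
    have e2 : ∀ p, wt a b η G i (update I i (p, s)) =
        -η + (if p.isLeft = true then 0 else (a + G)) := by
      intro p
      unfold wt
      by_cases hp : p.isLeft = true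
      · rw [if_pos ((allL_update i I p s).2 ⟨hP, hp⟩), update_self, if_pos hp]
      · rw [update_self, if_neg hp, if_neg hp]
    have h1 := core1 h a η G hη hone (fun p => (c (update I i (p, s))).re)
    have h2 := core1 h a η G hη hone (fun p => (c (update I i (p, s))).im)
    have e3 : ∀ p, (cS c (update I i (p, s))).re =
        if p.isLeft = true then (c (update I i (p, s))).re else 0 := by
      intro p
      rw [e1]
      split_ifs <;> rfl
    have e4 : ∀ p, (cS c (update I i (p, s))).im =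
        if p.isLeft = true then (c (update I i (p, s))).im else 0 := by
      intro p
      rw [e1]
      split_ifs <;> rfl
    simp only [e2, e3, e4]
    linarith
  · have e1 : ∀ p, cS c (update I i (p, s)) = 0 := by
      intro p
      unfold cS
      rw [if_neg (fun h' => hP ((allL_update i I p s).1 h').1)]
    have e2 : ∀ p, wt a b η G i (update I i (p, s)) =
        -η + (if p.isLeft = true then (a - b) else (a + G)) := by
      intro p
      unfold wt
      rw [if_neg (fun h' => hP ((allL_update i I p s).1 h').1), update_self]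
    have h1 := core2 h a b η G hη hone hS (fun p => (c (update I i (p, s))).re)
    have h2 := core2 h a b η G hη hone hS (fun p => (c (update I i (p, s))).im)
    have e3 : qf h (fun _ => 0) = 0 := by
      unfold qf
      simp only [mul_zero, sum_const_zero]
    simp only [e2, e1, Complex.zero_re, Complex.zero_im, e3]
    linarith

omit [Fintype B] [DecidableEq B] [Fintype R] [DecidableEq R] in
theorem wt_sum_pos (a b η G : ℝ) (I : Fin N → (B ⊕ R) × Fin 2)
    (hI : ∀ j, (I j).1.isLeft = true) : ∑ i, wt a b η G i I = -(N * η) := by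
  unfold wt
  simp only [hI, ↓reduceIte, implies_true, add_zero, sum_neg_distrib, sum_const, card_univ, Fintype.card_fin, nsmul_eq_mul]

omit [Fintype B] [DecidableEq B] [Fintype R] [DecidableEq R] in
theorem wt_sum_neg (a b η G : ℝ) (hb : 0 ≤ b) (hG0 : 0 ≤ G) (I : Fin N → (B ⊕ R) × Fin 2)
    (hI : ¬ ∀ j, (I j).1.isLeft = true) :
    N * a - N * b + G - N * η ≤ ∑ i, wt a b η G i I := by
  have h1 : ∀ i, wt a b η G i I = (-η + (a - b)) +
      (if (I i).1.isLeft = true then 0 else (G + b)) := by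
    intro i
    unfold wt
    rw [if_neg hI]
    split_ifs <;> ring
  simp only [h1, Finset.sum_add_distrib, Finset.sum_const, nsmul_eq_mul, Finset.card_univ,
    Fintype.card_fin]
  push Not at hI
  obtain ⟨j, hj⟩ := hI
  have h2 : (if (I j).1.isLeft = true then 0 else (G + b)) ≤
      ∑ i, (if (I i).1.isLeft = true then 0 else (G + b)) :=
    Finset.single_le_sum (f := fun i => if (I i).1.isLeft = true then 0 else (G + b))
      (fun i _ => by
        split_ifs
        · exact le_rfl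
        · linarith only [hb, hG0]) (Finset.mem_univ j)
  rw [if_neg hj] at h2
  linarith only [hb, h2]

theorem oneE_lower (h : B ⊕ R → B ⊕ R → ℝ) (a b η G : ℝ) (hη : 0 ≤ η) (hb : 0 ≤ b)
    (hG0 : 0 ≤ G)
    (hone : ∀ x : B ⊕ R → ℝ,
      (∑ i, ∑ j, h (Sum.inl i) (Sum.inl j) * x (Sum.inl i) * x (Sum.inl j)) -
        η * (∑ i, x (Sum.inl i) ^ 2) + (a + G) * (∑ r, x (Sum.inr r) ^ 2) ≤ qf h x)
    (hS : ∀ x : B → ℝ, (a - b) * (∑ i, x i ^ 2) ≤
      ∑ i, ∑ j, h (Sum.inl i) (Sum.inl j) * x i * x j)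
    (c : Tens N ((B ⊕ R) × Fin 2)) :
    oneE (spin1 h) (cS c) - N * η * nsq (cS c) +
      (N * a - N * b + G - N * η) * nsq (cR c) ≤ oneE (spin1 h) c := by
  rw [oneE_eq, oneE_eq]
  refine le_trans ?_ (Finset.sum_le_sum fun i _ => o1_lower h a b η G hη hone hS c i)
  simp only [Finset.sum_add_distrib]
  have h1 : ∑ i, ∑ I, wt a b η G i I * ‖c I‖ ^ 2 = ∑ I, (∑ i, wt a b η G i I) * ‖c I‖ ^ 2 := by
    rw [Finset.sum_comm]
    exact Finset.sum_congr rfl fun I _ => (Finset.sum_mul _ _ _).symm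
  have h2 : -(N * η) * nsq (cS c) + (N * a - N * b + G - N * η) * nsq (cR c) ≤
      ∑ I, (∑ i, wt a b η G i I) * ‖c I‖ ^ 2 := by
    unfold nsq
    rw [Finset.mul_sum, Finset.mul_sum, ← Finset.sum_add_distrib]
    refine Finset.sum_le_sum fun I _ => ?_
    by_cases hI : ∀ j, (I j).1.isLeft = true
    · rw [wt_sum_pos a b η G I hI]
      unfold cS cR
      rw [if_pos hI, if_pos hI]
      simp only [neg_mul, norm_zero, ne_eq, OfNat.ofNat_ne_zero, not_false_eq_true, zero_pow, mul_zero, add_zero, Std.le_refl]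
    · have h3 := wt_sum_neg a b η G hb hG0 I hI
      unfold cS cR
      rw [if_neg hI, if_neg hI]
      simp only [norm_zero]
      have h4 : 0 ≤ ‖c I‖ ^ 2 := by (clear * -; positivity)
      linarith only [mul_le_mul_of_nonneg_right h3 h4]
  rw [h1]
  linarith

end main

end OpenS

/-- Open shell with orbitals `Fin K ⊕ R`: if the one-body form puts a large gap `G` on the
orbitals `R`, the ground energy of `K` electrons is that of the orbitals `Fin K` up to a small
error. -/
theorem open_lower {K : ℕ} {R : Type} [Fintype R] [DecidableEq R]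
    (h : Fin K ⊕ R → Fin K ⊕ R → ℝ)
    (v : Fin K ⊕ R → Fin K ⊕ R → Fin K ⊕ R → Fin K ⊕ R → ℝ)
    (a b η G β ε μ : ℝ) (hη : 0 ≤ η) (hb : 0 ≤ b) (hβ : 0 ≤ β)
    (hG0 : 0 ≤ G) (hε : 0 < ε) (hε1 : ε ≤ 1)
    (hsym : ∀ p q, h p q = h q p)
    (hvsym1 : ∀ p a q b, v p a q b = v a p q b) (hvsym2 : ∀ p a q b, v p a q b = v q b p a)
    (hvpos : ∀ x, 0 ≤ qf2 v x) (hvle : ∀ x, qf2 v x ≤ β * ∑ p, ∑ q, x p q ^ 2)
    (hone : ∀ x : Fin K ⊕ R → ℝ,
      (∑ i, ∑ j, h (Sum.inl i) (Sum.inl j) * x (Sum.inl i) * x (Sum.inl j)) -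
        η * (∑ i, x (Sum.inl i) ^ 2) + (a + G) * (∑ r, x (Sum.inr r) ^ 2) ≤ qf h x)
    (hS : ∀ x : Fin K → ℝ, (a - b) * (∑ i, x i ^ 2) ≤
      ∑ i, ∑ j, h (Sum.inl i) (Sum.inl j) * x i * x j)
    (hμ : ∀ d : Tens K (Fin K × Fin 2), IsAnti d →
      μ * nsq d ≤ enT (fun i j => h (Sum.inl i) (Sum.inl j))
        (fun i j k l => v (Sum.inl i) (Sum.inl j) (Sum.inl k) (Sum.inl l)) d)
    (hG : μ ≤ K * a - K * (b + η) + G - K ^ 2 * β / ε)
    (c : Tens K ((Fin K ⊕ R) × Fin 2)) (hc : IsAnti c) :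
    (μ - η * K - ε * K ^ 2 * β) * nsq c ≤ enT h v c := by
  have h1 := OpenS.oneE_lower h a b η G hη hb hG0 hone hS c
  have h2 := OpenS.twoE_cs v hvpos hε (OpenS.cS c) (OpenS.cR c)
  rw [OpenS.cS_add_cR] at h2
  have h3 := OpenS.twoE_le v hβ hvle (OpenS.cS c)
  have h4 := OpenS.twoE_le v hβ hvle (OpenS.cR c)
  have hnS : 0 ≤ nsq (OpenS.cS c) := Finset.sum_nonneg fun I _ => by (clear * -; positivity)
  have hnR : 0 ≤ nsq (OpenS.cR c) := Finset.sum_nonneg fun I _ => by (clear * -; positivity)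
  have h5 : μ * nsq (OpenS.cS c) ≤ enT h v (OpenS.cS c) := by
    rw [OpenS.cS_eq, OpenS.enT_ext, OpenS.nsq_ext OpenS.emb_inj]
    refine hμ _ ?_
    intro π J
    exact hc π (OpenS.emb ∘ J)
  have hn := OpenS.nsq_split c
  have h6 : ε * twoE (spin2 v) (OpenS.cS c) ≤ ε * (K ^ 2 * β * nsq (OpenS.cS c)) :=
    mul_le_mul_of_nonneg_left h3 hε.le
  have hε2 : 0 ≤ 1 / ε - 1 := by
    rw [sub_nonneg, le_div_iff₀ hε]
    linarith only [hε1]
  have h7 : (1 / ε - 1) * twoE (spin2 v) (OpenS.cR c) ≤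
      (1 / ε - 1) * (K ^ 2 * β * nsq (OpenS.cR c)) := mul_le_mul_of_nonneg_left h4 hε2
  have h8 : 0 ≤ K ^ 2 * β * nsq (OpenS.cR c) := by (clear * - hβ hnR; positivity)
  have h9 : μ * nsq (OpenS.cR c) ≤
      (K * a - K * (b + η) + G - K ^ 2 * β / ε) * nsq (OpenS.cR c) :=
    mul_le_mul_of_nonneg_right hG hnR
  have h10 : (K : ℝ) ^ 2 * β / ε * nsq (OpenS.cR c) =
      1 / ε * (K ^ 2 * β * nsq (OpenS.cR c)) := by ring
  have h11 : 0 ≤ η * K * nsq (OpenS.cR c) := by (clear * - hη hnR; positivity)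
  have h12 : 0 ≤ ε * K ^ 2 * β * nsq (OpenS.cR c) := by (clear * - hε hβ hnR; positivity)
  unfold enT at h5 ⊢
  rw [hn]
  linarith only [h1, h2, h5, h6, h7, h8, h9, h10, h11, h12]

/-- Extension by zero: a tensor over the orbitals `Fin K` is a tensor over `Fin K ⊕ R`. -/
theorem open_upper {K : ℕ} {R : Type} [Fintype R] [DecidableEq R]
    (h : Fin K ⊕ R → Fin K ⊕ R → ℝ)
    (v : Fin K ⊕ R → Fin K ⊕ R → Fin K ⊕ R → Fin K ⊕ R → ℝ)
    (d : Tens K (Fin K × Fin 2)) (hd : IsAnti d) :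
    ∃ c : Tens K ((Fin K ⊕ R) × Fin 2), IsAnti c ∧ nsq c = nsq d ∧
      enT h v c = enT (fun i j => h (Sum.inl i) (Sum.inl j))
        (fun i j k l => v (Sum.inl i) (Sum.inl j) (Sum.inl k) (Sum.inl l)) d :=
  ⟨OpenS.extT OpenS.emb d, OpenS.anti_ext OpenS.emb_inj hd, OpenS.nsq_ext OpenS.emb_inj d,
    OpenS.enT_ext h v d⟩

end Vale.Agent.P370.Q
end
end

section

section

/-!
Trigonometric table of the instance builder (ALG2).
-/

namespace Vale.Agent.P370.Q.Alg

open MeasureTheory Finset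

theorem num1_list_sum (f : ℕ → ℕ) (n : ℕ) : ((List.range n).map f).sum = ∑ j ∈ range n, f j := by
  induction n with
  | zero => simp
  | succ n ih => rw [List.range_succ, List.map_append, List.sum_append, ih, sum_range_succ]; simp

theorem aN_eq (k : ℕ) : aN k = pN k := by
  unfold aN pN
  rw [num1_list_sum]
  rfl

theorem ch_le (P m : ℕ) (hP : 1 ≤ P) : ch P m ≤ 2 ^ P := by
  obtain ⟨p, rfl⟩ : ∃ p, P = p + 1 := ⟨P - 1, by omega⟩
  induction m with
  | zero => simp only [ch_zero, zero_le]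
  | succ m ih =>
    have h : (2 ^ (p + 1) + ch (p + 1) m) * 2 ^ (p + 1 - 1) ≤ (2 ^ (p + 1)) ^ 2 := by
      calc (2 ^ (p + 1) + ch (p + 1) m) * 2 ^ (p + 1 - 1)
          ≤ (2 ^ (p + 1) + 2 ^ (p + 1)) * 2 ^ p := by
            rw [Nat.add_sub_cancel]
            (clear * - ih; gcongr)
        _ = (2 ^ (p + 1)) ^ 2 := by ring
    rw [ch_succ]
    exact (Nat.sqrt_le_sqrt h).trans (Nat.sqrt_eq' _).le

theorem num1_sqrt_diff {a s t w : ℝ} (ha : 0 < a) (hs : a ≤ s) (ht : a ≤ t)
    (h : (s - t) * (s + t) = w * a) : |s - t| ≤ |w| / 2 := by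
  have h1 : |s - t| * (s + t) = |w| * a := by
    rw [← abs_of_pos (show 0 < s + t by linarith only [ha, hs, ht]), ← abs_mul, h, abs_mul, abs_of_pos ha]
  have h2 : |s - t| * (2 * a) ≤ |s - t| * (s + t) :=
    mul_le_mul_of_nonneg_left (by linarith only [hs, ht]) (abs_nonneg _)
  have h3 : |s - t| * 2 ≤ |w| := by
    have : (|s - t| * 2) * a ≤ |w| * a := by linarith
    exact le_of_mul_le_mul_right this ha
  linarith only [h3]

/-- error of the iterated half angle formula -/
theorem ch_err (P m : ℕ) (hP : 1 ≤ P) :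
    |(ch P m : ℝ) - 2 ^ P * Real.cos (Real.pi / 2 ^ (m + 1))| ≤ 2 := by
  obtain ⟨p, rfl⟩ : ∃ p, P = p + 1 := ⟨P - 1, by omega⟩
  induction m with
  | zero => simp only [ch_zero, CharP.cast_eq_zero, zero_add, pow_one, Real.cos_pi_div_two, mul_zero, sub_self, abs_zero, Nat.ofNat_nonneg]
  | succ m ih =>
    have hpi := Real.pi_pos
    have hθ0 : 0 ≤ Real.pi / 2 ^ (m + 1) := by positivity
    have hθ1 : Real.pi / 2 ^ (m + 1) ≤ Real.pi / 2 := by
      apply div_le_div_of_nonneg_left hpi.le (by norm_num)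
      calc (2 : ℝ) = 2 ^ 1 := by norm_num
        _ ≤ 2 ^ (m + 1) := pow_le_pow_right₀ (by norm_num) (by omega)
    have hc : 0 ≤ Real.cos (Real.pi / 2 ^ (m + 1)) :=
      Real.cos_nonneg_of_neg_pi_div_two_le_of_le (by linarith only [hpi, hθ0]) hθ1
    have hhalf : Real.cos (Real.pi / 2 ^ (m + 1 + 1)) =
        Real.sqrt ((1 + Real.cos (Real.pi / 2 ^ (m + 1))) / 2) := by
      rw [← Real.cos_half (by linarith only [hpi, hθ0]) (by linarith only [hpi, hθ1])]
      congr 1
      rw [pow_succ 2 (m + 1)]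
      (clear * -; field_simp)
    set x : ℝ := (ch (p + 1) m : ℝ) with hx
    set a : ℝ := 2 ^ p with ha
    have ha0 : 0 < a := by positivity
    have hx0 : 0 ≤ x := by (clear * -; positivity)
    have h2a : (2 : ℝ) ^ (p + 1) = 2 * a := by rw [ha]; ring
    rw [h2a] at ih ⊢
    set c := Real.cos (Real.pi / 2 ^ (m + 1)) with hcdef
    have hv : 2 * a * Real.cos (Real.pi / 2 ^ (m + 1 + 1)) =
        Real.sqrt ((2 * a + 2 * a * c) * a) := by
      rw [hhalf, show (2 * a + 2 * a * c) * a = (2 * a) ^ 2 * ((1 + c) / 2) by ring,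
        Real.sqrt_mul (by positivity), Real.sqrt_sq (by positivity)]
    rw [hv]
    have hu : ((((2 : ℕ) ^ (p + 1) + ch (p + 1) m) * 2 ^ (p + 1 - 1) : ℕ) : ℝ) =
        (2 * a + x) * a := by
      rw [Nat.add_sub_cancel]
      push_cast
      rw [h2a]
    have e1 := Real.nat_sqrt_le_real_sqrt (a := (2 ^ (p + 1) + ch (p + 1) m) * 2 ^ (p + 1 - 1))
    have e2 := Real.real_sqrt_lt_nat_sqrt_succ
      (a := (2 ^ (p + 1) + ch (p + 1) m) * 2 ^ (p + 1 - 1))
    rw [hu] at e1 e2
    have hch : ch (p + 1) (m + 1) =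
        Nat.sqrt ((2 ^ (p + 1) + ch (p + 1) m) * 2 ^ (p + 1 - 1)) := rfl
    rw [← hch] at e1 e2
    have hs : a ≤ Real.sqrt ((2 * a + x) * a) := by
      apply Real.le_sqrt_of_sq_le
      nlinarith
    have ht : a ≤ Real.sqrt ((2 * a + 2 * a * c) * a) := by
      apply Real.le_sqrt_of_sq_le
      have : 0 ≤ a * a * c := by (clear * - hc; positivity)
      linarith only [this, mul_self_nonneg a]
    have hst := num1_sqrt_diff (w := x - 2 * a * c) ha0 hs ht (by
      have q1 := Real.mul_self_sqrt (show 0 ≤ (2 * a + x) * a by (clear * -; positivity))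
      have q2 := Real.mul_self_sqrt (show 0 ≤ (2 * a + 2 * a * c) * a by (clear * - hc; positivity))
      linear_combination q1 - q2)
    rw [abs_le] at hst ⊢
    have h1 : |x - 2 * a * c| ≤ 2 := ih
    constructor
    · linarith only [ih, e2, hst]
    · linarith only [ih, e1, hst]

theorem sh_err (P m : ℕ) (hP : 1 ≤ P) :
    |(sh P m : ℝ) - 2 ^ P * Real.sin (Real.pi / 2 ^ (m + 1))| ≤ 6 * 2 ^ m := by
  have hpi := Real.pi_pos
  have h0 := ch_err P m hP
  have h1 := ch_le P m hP
  set θ := Real.pi / 2 ^ (m + 1) with hθ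
  have hθ0 : 0 ≤ θ := by positivity
  have hθ1 : θ ≤ Real.pi / 2 := by
    apply div_le_div_of_nonneg_left hpi.le (by norm_num)
    calc (2 : ℝ) = 2 ^ 1 := by norm_num
      _ ≤ 2 ^ (m + 1) := pow_le_pow_right₀ (by norm_num) (by omega)
  have hsin : 1 / 2 ^ m ≤ Real.sin θ := by
    refine le_trans (le_of_eq ?_) (Real.mul_le_sin hθ0 hθ1)
    rw [hθ, pow_succ]
    (clear * -; field_simp)
  have h2m : (1 : ℝ) ≤ 2 ^ m := one_le_pow₀ (by norm_num)
  have hsin0 : 0 < Real.sin θ := lt_of_lt_of_le (by (clear * -; positivity)) hsin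
  set S : ℝ := 2 ^ P with hS
  have hS0 : 0 < S := by positivity
  set x : ℝ := (ch P m : ℝ) with hx
  have hx0 : 0 ≤ x := by (clear * -; positivity)
  have hxS : x ≤ S := by
    rw [hx, hS]
    exact_mod_cast h1
  have hc0 : 0 ≤ Real.cos θ := Real.cos_nonneg_of_neg_pi_div_two_le_of_le (by linarith only [hpi, hθ0]) hθ1
  have hc1 := Real.cos_le_one θ
  have hu : ((2 ^ (2 * P) - ch P m ^ 2 : ℕ) : ℝ) = S ^ 2 - x ^ 2 := by
    have : ch P m ^ 2 ≤ 2 ^ (2 * P) := by
      rw [mul_comm, pow_mul]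
      exact Nat.pow_le_pow_left h1 2
    rw [Nat.cast_sub this]
    push_cast
    rw [hS, hx]
    ring
  have e1 := Real.nat_sqrt_le_real_sqrt (a := 2 ^ (2 * P) - ch P m ^ 2)
  have e2 := Real.real_sqrt_lt_nat_sqrt_succ (a := 2 ^ (2 * P) - ch P m ^ 2)
  have hsh : sh P m = Nat.sqrt (2 ^ (2 * P) - ch P m ^ 2) := rfl
  rw [hu, ← hsh] at e1 e2
  set s := Real.sqrt (S ^ 2 - x ^ 2) with hs
  have hs0 : 0 ≤ s := Real.sqrt_nonneg _
  have hsq : s * s = S ^ 2 - x ^ 2 := Real.mul_self_sqrt (by linarith only [hu])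
  set t := S * Real.sin θ with ht
  have ht0 : 0 < t := by positivity
  have htq : t * t = S ^ 2 - (S * Real.cos θ) ^ 2 := by
    have := Real.sin_sq_add_cos_sq θ
    rw [ht]
    linear_combination S ^ 2 * this
  have hd : (s - t) * (s + t) = (S * Real.cos θ - x) * (S * Real.cos θ + x) := by
    linear_combination hsq - htq
  have hd2 : |s - t| * (s + t) ≤ 2 * (2 * S) := by
    rw [← abs_of_pos (show 0 < s + t by linarith only [e1, ht0]), ← abs_mul, hd, abs_mul]
    have g1 : |S * Real.cos θ - x| ≤ 2 := by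
      rw [abs_sub_comm]
      exact h0
    have g2 : |S * Real.cos θ + x| ≤ 2 * S := by
      rw [abs_of_nonneg (by (clear * - hc0; positivity))]
      nlinarith only [hxS, hS0, hc1]
    exact mul_le_mul g1 g2 (abs_nonneg _) (by norm_num)
  have hd3 : |s - t| ≤ 4 * 2 ^ m := by
    have q1 : |s - t| * t ≤ 4 * S := by
      have := mul_le_mul_of_nonneg_left (show t ≤ s + t by linarith only [e1]) (abs_nonneg (s - t))
      linarith only [hd2, this]
    have q2 : S ≤ 2 ^ m * t := by
      have : S * 1 ≤ S * (2 ^ m * Real.sin θ) := by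
        apply mul_le_mul_of_nonneg_left _ hS0.le
        calc (1 : ℝ) = 2 ^ m * (1 / 2 ^ m) := by (clear * -; field_simp)
          _ ≤ 2 ^ m * Real.sin θ := by gcongr
      rw [ht]
      linarith only [this]
    have q3 : |s - t| * t ≤ (4 * 2 ^ m) * t := by linarith only [q1, q2]
    exact le_of_mul_le_mul_right q3 ht0
  rw [abs_le] at hd3 ⊢
  constructor
  · linarith only [h2m, e2, hd3]
  · linarith only [e1, hd3]

theorem gp_eq (c s : ℤ) (j : ℕ) :
    (((gp c s j).1 : ℂ) + ((gp c s j).2 : ℂ) * Complex.I) =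
      ((c : ℂ) + (s : ℂ) * Complex.I) ^ j := by
  induction j with
  | zero => simp [gp_zero]
  | succ j ih =>
    rw [pow_succ, ← ih, gp_succ]
    push_cast
    linear_combination (-((gp c s j).2 : ℂ) * s) * Complex.I_sq

/-- powers of nearby numbers -/
theorem num1_pow_sub {z ζ : ℂ} {d : ℝ} (hζ : ‖ζ‖ ≤ 1) (hd : ‖z - ζ‖ ≤ d) (j : ℕ) :
    ‖z ^ j - ζ ^ j‖ ≤ j * d * (1 + d) ^ j := by
  have hd0 : 0 ≤ d := (norm_nonneg _).trans hd
  have hz : ‖z‖ ≤ 1 + d := by
    calc ‖z‖ = ‖ζ + (z - ζ)‖ := by congr 1; ring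
      _ ≤ ‖ζ‖ + ‖z - ζ‖ := norm_add_le _ _
      _ ≤ 1 + d := by linarith only [hζ, hd]
  induction j with
  | zero => simp
  | succ j ih =>
    calc ‖z ^ (j + 1) - ζ ^ (j + 1)‖ = ‖z ^ j * (z - ζ) + (z ^ j - ζ ^ j) * ζ‖ := by
          congr 1; ring
      _ ≤ ‖z ^ j * (z - ζ)‖ + ‖(z ^ j - ζ ^ j) * ζ‖ := norm_add_le _ _
      _ = ‖z‖ ^ j * ‖z - ζ‖ + ‖z ^ j - ζ ^ j‖ * ‖ζ‖ := by rw [norm_mul, norm_mul, norm_pow]
      _ ≤ (1 + d) ^ j * d + (j * d * (1 + d) ^ j) * 1 := by gcongr
      _ = ((j + 1 : ℕ) : ℝ) * d * (1 + d) ^ j := by push_cast; ring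
      _ ≤ ((j + 1 : ℕ) : ℝ) * d * (1 + d) ^ (j + 1) := by
          gcongr
          · linarith only [hd0]
          · omega

theorem num1_ediv (a b : ℤ) (hb : 0 < b) :
    (((a / b : ℤ) : ℤ) : ℝ) ≤ (a : ℝ) / b ∧ (a : ℝ) / b < ((a / b : ℤ) : ℝ) + 1 := by
  have hb' : (0 : ℝ) < b := by exact_mod_cast hb
  constructor
  · rw [le_div_iff₀ hb']
    exact_mod_cast Int.ediv_mul_le a hb.ne'
  · rw [div_lt_iff₀ hb']
    exact_mod_cast Int.lt_ediv_add_one_mul_self a hb

theorem num1_W (k : ℕ) : (393216 : ℝ) * (an k : ℝ) ^ 3 ≤ 2 ^ aQ k := by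
  have hn : 1 ≤ an k := by unfold an; exact Nat.one_le_two_pow
  have hn3 : 1 ≤ an k ^ 3 := Nat.one_le_pow _ _ hn
  have h : 393216 * an k ^ 3 ≤ 2 ^ aQ k := by
    unfold aQ
    calc 393216 * an k ^ 3 ≤ 2 ^ 20 * 2 ^ (an k ^ 3) := by
          apply Nat.mul_le_mul (by norm_num)
          exact Nat.lt_two_pow_self.le
      _ = 2 ^ (20 + an k ^ 3) := by rw [pow_add]
      _ ≤ 2 ^ (512 * an k ^ 3) := Nat.pow_le_pow_right (by norm_num) (by omega)
  exact_mod_cast h

theorem num1_D (k : ℕ) : (aD k : ℝ) = 2 ^ (2048 * k + 4) := by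
  unfold aD an
  push_cast
  ring

/-- the table of powers: main estimate -/
theorem num1_table {W D θ : ℝ} {c s : ℤ} {j : ℕ} (hW0 : 0 < W) (hD1 : 1 ≤ D)
    (e1 : |(c : ℝ) - W ^ 2 * Real.cos θ| ≤ 2) (e2 : |(s : ℝ) - W ^ 2 * Real.sin θ| ≤ 6 * D)
    (hj : (j : ℝ) ≤ 4 * D ^ 2) (hWD : 96 * D ^ 3 ≤ W) :
    |W * ((gp c s j).1 / W ^ (2 * j)) - W * Real.cos (j * θ)| ≤ 1 ∧
    |W * ((gp c s j).2 / W ^ (2 * j)) - W * Real.sin (j * θ)| ≤ 1 := by
  obtain ⟨z, hz⟩ : ∃ z : ℂ, z = ((c : ℂ) + (s : ℂ) * Complex.I) / (W : ℂ) ^ 2 := ⟨_, rfl⟩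
  obtain ⟨ζ, hζ⟩ : ∃ ζ : ℂ, ζ = Complex.exp ((θ : ℂ) * Complex.I) := ⟨_, rfl⟩
  have hζn : ‖ζ‖ ≤ 1 := by rw [hζ]; exact (Complex.norm_exp_ofReal_mul_I _).le
  have hWc : (W : ℂ) ≠ 0 := by exact_mod_cast hW0.ne'
  have hd : ‖z - ζ‖ ≤ 8 * D / W ^ 2 := by
    have h1 : z - ζ = ((((c : ℝ) - W ^ 2 * Real.cos θ : ℝ) : ℂ) +
        (((s : ℝ) - W ^ 2 * Real.sin θ : ℝ) : ℂ) * Complex.I) / (W : ℂ) ^ 2 := by
      rw [hz, hζ, Complex.exp_mul_I, eq_div_iff (pow_ne_zero 2 hWc), sub_mul,
        div_mul_cancel₀ _ (pow_ne_zero 2 hWc)]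
      push_cast
      ring
    rw [h1, norm_div, norm_pow, Complex.norm_real, Real.norm_of_nonneg hW0.le]
    gcongr
    refine (norm_add_le _ _).trans ?_
    rw [norm_mul, Complex.norm_I, mul_one, Complex.norm_real, Complex.norm_real,
      Real.norm_eq_abs, Real.norm_eq_abs]
    linarith only [hD1, e1, e2]
  have hpow := num1_pow_sub hζn hd j
  have hsmall : W * (j * (8 * D / W ^ 2) * (1 + 8 * D / W ^ 2) ^ j) ≤ 1 := by
    have g0 : (j : ℝ) * (8 * D / W ^ 2) ≤ 32 * D ^ 3 / W ^ 2 := by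
      calc (j : ℝ) * (8 * D / W ^ 2) ≤ (4 * D ^ 2) * (8 * D / W ^ 2) := by (clear * - hj hD1 hW0; gcongr)
        _ = _ := by ring
    have hD3 : 1 ≤ D ^ 3 := one_le_pow₀ hD1
    have hW1 : 1 ≤ W := by linarith only [hWD, hD3]
    have g1 : (j : ℝ) * (8 * D / W ^ 2) ≤ 1 := by
      refine g0.trans ?_
      rw [div_le_one (by (clear * - hW0; positivity))]
      nlinarith only [hWD, hD3]
    have g2 : (1 + 8 * D / W ^ 2) ^ j ≤ 3 := by
      calc (1 + 8 * D / W ^ 2) ^ j ≤ (Real.exp (8 * D / W ^ 2)) ^ j := by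
            gcongr
            have := Real.add_one_le_exp (8 * D / W ^ 2)
            linarith only [this]
        _ = Real.exp (j * (8 * D / W ^ 2)) := by rw [← Real.exp_nat_mul]
        _ ≤ Real.exp 1 := Real.exp_le_exp.2 g1
        _ ≤ 3 := by linarith only [Real.exp_one_lt_d9]
    calc W * (j * (8 * D / W ^ 2) * (1 + 8 * D / W ^ 2) ^ j)
        ≤ W * ((32 * D ^ 3 / W ^ 2) * 3) := by (clear * - g0 g2 hD1 hW0; gcongr)
      _ = 96 * D ^ 3 / W := by field_simp; ring
      _ ≤ 1 := by rw [div_le_one hW0]; exact hWD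
  have hzj : ((gp c s j).1 : ℂ) + ((gp c s j).2 : ℂ) * Complex.I =
      ((W ^ (2 * j) : ℝ) : ℂ) * z ^ j := by
    rw [gp_eq, hz, div_pow, ← pow_mul, Complex.ofReal_pow, mul_div_cancel₀ _ (pow_ne_zero _ hWc)]
  have hre : ((gp c s j).1 : ℝ) / W ^ (2 * j) = (z ^ j).re := by
    have h := congrArg Complex.re hzj
    rw [Complex.re_ofReal_mul] at h
    simp only [Complex.add_re, Complex.mul_re, Complex.I_re, Complex.I_im, mul_zero, mul_one,
      Complex.intCast_re, Complex.intCast_im, sub_self, add_zero] at h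
    rw [h]
    (clear * - hW0; field_simp)
  have him : ((gp c s j).2 : ℝ) / W ^ (2 * j) = (z ^ j).im := by
    have h := congrArg Complex.im hzj
    rw [Complex.im_ofReal_mul] at h
    simp only [Complex.add_im, Complex.mul_im, Complex.I_re, Complex.I_im, mul_zero, mul_one,
      Complex.intCast_re, Complex.intCast_im, zero_add, add_zero] at h
    rw [h]
    field_simp
  have hζj : ζ ^ j = Complex.exp (((j * θ : ℝ) : ℂ) * Complex.I) := by
    rw [hζ, ← Complex.exp_nat_mul]
    congr 1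
    push_cast
    ring
  have hcosj : Real.cos (j * θ) = (ζ ^ j).re := by
    rw [hζj, Complex.exp_ofReal_mul_I_re]
  have hsinj : Real.sin (j * θ) = (ζ ^ j).im := by
    rw [hζj, Complex.exp_ofReal_mul_I_im]
  rw [hre, him, hcosj, hsinj]
  have hfin : W * ‖z ^ j - ζ ^ j‖ ≤ 1 := (mul_le_mul_of_nonneg_left hpow hW0.le).trans hsmall
  constructor
  · rw [← mul_sub, abs_mul, abs_of_pos hW0, ← Complex.sub_re]
    exact (mul_le_mul_of_nonneg_left (Complex.abs_re_le_norm _) hW0.le).trans hfin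
  · rw [← mul_sub, abs_mul, abs_of_pos hW0, ← Complex.sub_im]
    exact (mul_le_mul_of_nonneg_left (Complex.abs_im_le_norm _) hW0.le).trans hfin

theorem num1_aQ_pos (k : ℕ) : 1 ≤ aQ k := by
  have hn : 1 ≤ an k := by unfold an; exact Nat.one_le_two_pow
  unfold aQ
  have : 1 ≤ an k ^ 3 := Nat.one_le_pow _ _ hn
  omega

theorem num1_zet (k j : ℕ) (hj : j ≤ 4 * aD k ^ 2) :
    |(2 : ℝ) ^ aQ k * ((zet k j).1 / (2 ^ aQ k) ^ (2 * j)) -
        2 ^ aQ k * Real.cos (Real.pi * j / (2 * aD k))| ≤ 1 ∧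
    |(2 : ℝ) ^ aQ k * ((zet k j).2 / (2 ^ aQ k) ^ (2 * j)) -
        2 ^ aQ k * Real.sin (Real.pi * j / (2 * aD k))| ≤ 1 := by
  have hn : 1 ≤ an k := by unfold an; exact Nat.one_le_two_pow
  have hn' : (1 : ℝ) ≤ an k := by exact_mod_cast hn
  have hQ := num1_aQ_pos k
  have hDn : (aD k : ℝ) = 16 * an k := by unfold aD; push_cast; ring
  have hD2 := num1_D k
  have hD1 : (1 : ℝ) ≤ aD k := by rw [hDn]; linarith only [hn']
  have hWn := num1_W k
  have hWD : 96 * (aD k : ℝ) ^ 3 ≤ 2 ^ aQ k := by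
    have hD3 : (aD k : ℝ) ^ 3 = 4096 * (an k : ℝ) ^ 3 := by rw [hDn]; ring
    rw [hD3]
    linarith only [hWn]
  have e1 := ch_err (2 * aQ k) (2048 * k + 4) (by omega)
  have e2 := sh_err (2 * aQ k) (2048 * k + 4) (by omega)
  have hang : Real.pi / 2 ^ (2048 * k + 4 + 1) = Real.pi / (2 * aD k) := by
    rw [hD2, pow_succ, mul_comm (2 : ℝ)]
  rw [hang] at e1 e2
  rw [← hD2] at e2
  have hW2 : (2 : ℝ) ^ (2 * aQ k) = (2 ^ aQ k) ^ 2 := by
    rw [← pow_mul, mul_comm]
  rw [hW2] at e1 e2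
  have hj' : (j : ℝ) ≤ 4 * (aD k : ℝ) ^ 2 := by exact_mod_cast hj
  have key := num1_table (W := 2 ^ aQ k) (D := aD k) (θ := Real.pi / (2 * aD k))
    (c := ch (2 * aQ k) (2048 * k + 4)) (s := sh (2 * aQ k) (2048 * k + 4)) (j := j)
    (by positivity) hD1 (by simpa only [Int.cast_natCast] using e1) (by simpa only [Int.cast_natCast] using e2) hj' hWD
  have ha : (j : ℝ) * (Real.pi / (2 * aD k)) = Real.pi * j / (2 * aD k) := by ring
  rw [ha] at key
  exact key

theorem cs_err (k j : ℕ) (_hk : 1 ≤ k) (hj : j ≤ 4 * aD k ^ 2) :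
    |(cs k j : ℝ) - 2 ^ aQ k * Real.cos (Real.pi * j / (2 * aD k))| ≤ 2 := by
  have h := (num1_zet k j hj).1
  have h2 := num1_ediv ((zet k j).1 * 2 ^ aQ k) (2 ^ (2 * aQ k * j)) (by (clear * -; positivity))
  have h3 : cs k j = (zet k j).1 * 2 ^ aQ k / 2 ^ (2 * aQ k * j) := rfl
  rw [← h3] at h2
  push_cast at h2
  rw [show ((zet k j).1 : ℝ) * 2 ^ aQ k / 2 ^ (2 * aQ k * j) =
    2 ^ aQ k * ((zet k j).1 / (2 ^ aQ k) ^ (2 * j)) by
      rw [← pow_mul, show aQ k * (2 * j) = 2 * aQ k * j by ring]; ring] at h2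
  rw [abs_le] at h ⊢
  constructor
  · linarith only [h, h2]
  · linarith only [h, h2]

theorem sn_err (k j : ℕ) (_hk : 1 ≤ k) (hj : j ≤ 4 * aD k ^ 2) :
    |(sn k j : ℝ) - 2 ^ aQ k * Real.sin (Real.pi * j / (2 * aD k))| ≤ 2 := by
  have h := (num1_zet k j hj).2
  have h2 := num1_ediv ((zet k j).2 * 2 ^ aQ k) (2 ^ (2 * aQ k * j)) (by positivity)
  have h3 : sn k j = (zet k j).2 * 2 ^ aQ k / 2 ^ (2 * aQ k * j) := rfl
  rw [← h3] at h2
  push_cast at h2
  rw [show ((zet k j).2 : ℝ) * 2 ^ aQ k / 2 ^ (2 * aQ k * j) =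
    2 ^ aQ k * ((zet k j).2 / (2 ^ aQ k) ^ (2 * j)) by
      rw [← pow_mul, show aQ k * (2 * j) = 2 * aQ k * j by ring]; ring] at h2
  rw [abs_le] at h ⊢
  constructor
  · linarith only [h, h2]
  · linarith only [h, h2]

/-- rounding to the nearest integer -/
theorem num1_round {W c x : ℝ} {C N : ℤ} {Q : ℕ} (hQ : 1 ≤ Q) (hW : W = 2 ^ Q)
    (hN : 0 ≤ N) (hNW : 4 * (N : ℝ) ≤ W) (hC : |(C : ℝ) - W * c| ≤ 2) (hc : 0 ≤ c)
    (hx : x = N * c) :
    |((((C * N + 2 ^ (Q - 1)) / 2 ^ Q).toNat : ℕ) : ℝ) - x| ≤ 1 := by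
  have hW0 : 0 < W := by rw [hW]; (clear * -; positivity)
  have hN' : (0 : ℝ) ≤ N := by exact_mod_cast hN
  have h2 := num1_ediv (C * N + 2 ^ (Q - 1)) (2 ^ Q) (by (clear * -; positivity))
  have hhalf : (2 : ℝ) ^ (Q - 1) = W / 2 := by
    obtain ⟨q, rfl⟩ : ∃ q, Q = q + 1 := ⟨Q - 1, by omega⟩
    rw [hW, Nat.add_sub_cancel, pow_succ]
    ring
  push_cast at h2
  rw [hhalf, ← hW, show ((C : ℝ) * N + W / 2) / W = C * N / W + 1 / 2 by
    (clear * - hW0; field_simp)] at h2
  have h3 : |(C : ℝ) * N / W - x| ≤ 1 / 2 := by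
    rw [hx, show (C : ℝ) * N / W - N * c = (C - W * c) * N / W by (clear * - hW0; field_simp), abs_div, abs_mul,
      abs_of_pos hW0, abs_of_nonneg hN', div_le_iff₀ hW0]
    have := mul_le_mul_of_nonneg_right hC hN'
    linarith only [hNW, this]
  have hx0 : 0 ≤ x := by rw [hx]; (clear * - hN hc; positivity)
  have hnn : 0 ≤ (C * N + 2 ^ (Q - 1)) / 2 ^ Q := by
    have h4 : (-1 : ℝ) < (((C * N + 2 ^ (Q - 1)) / 2 ^ Q : ℤ) : ℝ) := by
      rw [abs_le] at h3
      linarith only [hx0, h2.2, h3.1]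
    have h5 : (-1 : ℤ) < (C * N + 2 ^ (Q - 1)) / 2 ^ Q := by exact_mod_cast h4
    omega
  have h6 : ((((C * N + 2 ^ (Q - 1)) / 2 ^ Q).toNat : ℕ) : ℝ) =
      (((C * N + 2 ^ (Q - 1)) / 2 ^ Q : ℤ) : ℝ) := by
    exact_mod_cast congrArg (fun z : ℤ => (z : ℝ)) (Int.toNat_of_nonneg hnn)
  rw [h6, abs_le]
  rw [abs_le] at h3
  constructor
  · linarith only [h2.2, h3.1]
  · linarith only [h2.1, h3.2]

theorem num1_min {a b x : ℝ} (hx : x ≤ a) (hb : |b - x| ≤ 1) : |min a b - x| ≤ 1 := by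
  rcases le_total a b with h | h
  · rw [min_eq_left h, abs_le]
    rw [abs_le] at hb
    constructor <;> linarith only [hb, h, hx]
  · rwa [min_eq_right h]

/-- multipole orders -/
theorem goodQ (k : ℕ) (hk : 1 ≤ k) : GoodQ k (aq k) := by
  intro d hd1 hd2
  have hn : 1 ≤ an k := by unfold an; exact Nat.one_le_two_pow
  have hn' : (1 : ℝ) ≤ an k := by exact_mod_cast hn
  have hpK : pK k = 2 ^ k := rfl
  have hpi := Real.pi_pos
  have hdK : (d : ℝ) < pK k := by exact_mod_cast hd2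
  have hd0 : (0 : ℝ) ≤ d := by (clear * - hd1; positivity)
  have hD2 := num1_D k
  have hj : d * 2 ^ (2047 * k + 4) ≤ 4 * aD k ^ 2 := by
    have h1 : aD k = 2 ^ k * 2 ^ (2047 * k + 4) := by
      unfold aD an
      rw [← pow_add, show 16 = 2 ^ 4 by norm_num, ← pow_add]
      congr 1
      ring
    have h2 : d * 2 ^ (2047 * k + 4) ≤ aD k := by
      rw [h1]
      exact Nat.mul_le_mul_right _ (by rw [← hpK]; omega)
    have h3 : 1 ≤ aD k := by
      rw [h1]
      exact Nat.succ_le_of_lt (by (clear * -; positivity))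
    calc d * 2 ^ (2047 * k + 4) ≤ aD k := h2
      _ = 1 * aD k * 1 := by ring
      _ ≤ 4 * aD k * aD k := by gcongr; norm_num
      _ = 4 * aD k ^ 2 := by ring
  have hcs := cs_err k (d * 2 ^ (2047 * k + 4)) hk hj
  have hang : Real.pi * ((d * 2 ^ (2047 * k + 4) : ℕ) : ℝ) / (2 * aD k) =
      Real.pi * d / (2 * pK k) := by
    rw [hD2, hpK]
    push_cast
    rw [show 2048 * k + 4 = k + (2047 * k + 4) by ring, pow_add 2 k]
    (clear * - hd1; field_simp)
  rw [hang] at hcs
  have hcos : 0 ≤ Real.cos (Real.pi * d / (2 * pK k)) := by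
    apply Real.cos_nonneg_of_neg_pi_div_two_le_of_le
    · have : 0 ≤ Real.pi * d / (2 * pK k) := by (clear * - hd1; positivity)
      linarith only [hpi, this]
    · have hK0 : (0 : ℝ) < pK k := by linarith only [hdK]
      rw [div_le_div_iff₀ (by (clear * - hK0; positivity)) (by norm_num)]
      nlinarith only [hpi, hdK]
  have hcos1 := Real.cos_le_one (Real.pi * d / (2 * pK k))
  have hW4 : 4 * (((an k : ℤ) - 1 : ℤ) : ℝ) ≤ 2 ^ aQ k := by
    have hWn := num1_W k
    have hn3 : (an k : ℝ) ≤ (an k : ℝ) ^ 3 := by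
      calc (an k : ℝ) = (an k : ℝ) ^ 1 := by ring
        _ ≤ (an k : ℝ) ^ 3 := pow_le_pow_right₀ hn' (by norm_num)
    push_cast
    linarith only [hWn, hn3]
  have key := num1_round (W := 2 ^ aQ k) (Q := aQ k)
    (C := cs k (d * 2 ^ (2047 * k + 4))) (N := (an k : ℤ) - 1)
    (c := Real.cos (Real.pi * d / (2 * pK k)))
    (x := ((pn k : ℝ) - 1) * Real.cos (Real.pi * d / (2 * pK k)))
    (num1_aQ_pos k) rfl (by (clear * - hn; omega)) hW4 hcs hcos (by push_cast; rfl)
  unfold aq
  rw [Nat.cast_min, Nat.cast_sub hn]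
  refine num1_min ?_ key
  have hpn : (pn k : ℝ) = an k := rfl
  rw [hpn]
  push_cast
  have : 0 ≤ (an k : ℝ) - 1 := by linarith only [hn']
  linarith only [mul_nonneg_of_nonpos_of_nonpos (Mathlib.Tactic.Linarith.sub_nonpos_of_le hn') (Mathlib.Tactic.Linarith.sub_nonpos_of_le hcos1)]

end Vale.Agent.P370.Q.Alg
end
end

section

section

/-!
The dimension of the spaces of harmonic polynomials, orthogonality to lower degrees,
orthonormal families are bases.
-/

namespace Vale.Agent.P370.Hyd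

open MeasureTheory Filter Topology MvPolynomial

theorem sph_nsq_right (P Q : Pl) : sph P (nsq * Q) = sph P Q := by
  unfold sph
  refine integral_congr_ae (Eventually.of_forall fun ω => ?_)
  have h : ‖(ω : R3)‖ = 1 := by
    have := ω.2
    rwa [mem_sphere_zero_iff_norm] at this
  simp only [ev_mul, ev_nsq, h]
  ring

theorem nsq_mul_mem_Hom {l : ℕ} {f : Pl} (hf : f ∈ Hom l) : nsq * f ∈ Hom (l + 2) := by
  rw [mem_homogeneousSubmodule] at hf ⊢
  have := isHomogeneous_nsq.mul hf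
  rwa [add_comm] at this

/-- multiplication by `nsq` -/
noncomputable def mulN (l : ℕ) : Hom l →ₗ[ℝ] Pl :=
  (LinearMap.mulLeft ℝ nsq).domRestrict (Hom l)

theorem mulN_apply (l : ℕ) (f : Hom l) : mulN l f = nsq * (f : Pl) := rfl

theorem nsq_ne_zero : nsq ≠ 0 := by
  intro h
  have h1 : ev nsq (ei 0) = 1 := by
    rw [ev_nsq]
    simp only [ei, Fin.isValue, PiLp.norm_single, norm_one, one_pow]
  rw [h] at h1
  simp only [ev, Fin.isValue, map_zero, zero_ne_one] at h1

theorem mulN_injective (l : ℕ) : Function.Injective (mulN l) := by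
  intro f g h
  rw [mulN_apply, mulN_apply] at h
  exact Subtype.ext (mul_left_cancel₀ nsq_ne_zero h)

theorem Harm_eq_Hom {l : ℕ} (hl : l < 2) : Harm l = Hom l := by
  refine inf_eq_left.2 fun P hP => ?_
  rw [LinearMap.mem_ker, lapL_apply]
  rcases Nat.lt_or_ge 0 l with h0 | h0
  · have : l = 1 := by omega
    subst this
    unfold lapP
    refine Finset.sum_eq_zero fun i _ => ?_
    have h2 : pderiv i P ∈ lt 1 := pderiv_mem_lt i (Hom_le_lt 1 hP)
    exact pderiv_lt_zero i h2
  · have : l = 0 := by (clear * - hl h0; omega)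
    subst this
    exact lapP_lt_one (Hom_le_lt 0 hP)

theorem decomp_aux (l : ℕ) (ih : ∀ f ∈ Hom l, ∀ m, l < m → ∀ h ∈ Harm m, sph h f = 0) :
    Hom (l + 2) = Harm (l + 2) ⊔ LinearMap.range (mulN l) ∧
      Module.finrank ℝ (Harm (l + 2)) = 2 * (l + 2) + 1 := by
  have hle : Harm (l + 2) ⊔ LinearMap.range (mulN l) ≤ Hom (l + 2) := by
    refine sup_le inf_le_left ?_
    rintro _ ⟨f, rfl⟩
    exact nsq_mul_mem_Hom f.2
  have hdis : Harm (l + 2) ⊓ LinearMap.range (mulN l) = ⊥ := by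
    rw [eq_bot_iff]
    rintro h ⟨h1, ⟨f, hf⟩⟩
    rw [mulN_apply] at hf
    have h2 : sph h h = 0 := by
      have h3 : sph h h = sph h (nsq * (f : Pl)) := by rw [hf]
      rw [h3, sph_nsq_right]
      exact ih f f.2 (l + 2) (by (clear * -; omega)) h h1
    by_contra h3
    exact (sph_pos (mem_Harm.1 h1).1 h3).ne' h2
  have hr : Module.finrank ℝ (LinearMap.range (mulN l)) = (l + 2).choose 2 := by
    rw [LinearMap.finrank_range_of_inj (mulN_injective l), finrank_Hom]
  have h1 := Submodule.finrank_sup_add_finrank_inf_eq (Harm (l + 2)) (LinearMap.range (mulN l))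
  rw [hdis, finrank_bot, add_zero, hr] at h1
  have h4 : (l + 2 + 2).choose 2 = (l + 2).choose 2 + (2 * (l + 2) + 1) := by
    rw [Nat.choose_succ_succ' (l + 3) 1, Nat.choose_succ_succ' (l + 2) 1]
    simp only [Nat.choose_one_right, Nat.reduceAdd]
    ring
  have h5 := finrank_Harm_ge (l + 2)
  have h6 := Submodule.finrank_mono hle
  rw [finrank_Hom, h1, h4] at h6
  refine ⟨(Submodule.eq_of_le_of_finrank_le hle ?_).symm, by (clear * - h5 h6; omega)⟩
  rw [finrank_Hom, h1, h4]
  omega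

theorem sph_lower : ∀ l : ℕ, ∀ f ∈ Hom l, ∀ m, l < m → ∀ h ∈ Harm m, sph h f = 0 := by
  intro l
  induction l using Nat.strong_induction_on with
  | _ l ih =>
    intro f hf m hm h hh
    rcases Nat.lt_or_ge l 2 with hl | hl
    · rw [← Harm_eq_Hom hl] at hf
      exact sph_orth (by omega) hh hf
    · obtain ⟨l', rfl⟩ : ∃ l', l = l' + 2 := ⟨l - 2, by (clear * - hl; omega)⟩
      obtain ⟨h1, -⟩ := decomp_aux l' (ih l' (by omega))
      rw [h1] at hf
      obtain ⟨u, hu, v, ⟨v', hv'⟩, rfl⟩ := Submodule.mem_sup.1 hf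
      rw [mulN_apply] at hv'
      rw [← sphB_apply, map_add, sphB_apply, sphB_apply, sph_orth (by omega) hh hu, ← hv',
        sph_nsq_right, ih l' (by (clear * -; omega)) v' v'.2 m (by (clear * - hm; omega)) h hh, add_zero]

theorem finrank_Harm (l : ℕ) : Module.finrank ℝ (Harm l) = 2 * l + 1 := by
  rcases Nat.lt_or_ge l 2 with hl | hl
  · rw [Harm_eq_Hom hl, finrank_Hom]
    interval_cases l <;> decide
  · obtain ⟨l', rfl⟩ : ∃ l', l = l' + 2 := ⟨l - 2, by omega⟩
    exact (decomp_aux l' (sph_lower l')).2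

/-- a harmonic polynomial divisible by `nsq` vanishes -/
theorem harm_nsq_zero {l : ℕ} {h Q : Pl} (hh : h ∈ Harm l) (hQ : h = nsq * Q) : h = 0 := by
  by_contra h0
  have hhom := (mem_Harm.1 hh).1
  have hQ0 : Q ≠ 0 := by
    rintro rfl
    exact h0 (by rw [hQ, mul_zero])
  have h1 : h.totalDegree = l := hhom.totalDegree h0
  have h2 : (nsq * Q).totalDegree = nsq.totalDegree + Q.totalDegree :=
    totalDegree_mul_of_isDomain nsq_ne_zero hQ0
  have h3 : nsq.totalDegree = 2 := isHomogeneous_nsq.totalDegree nsq_ne_zero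
  rw [← hQ, h1, h3] at h2
  have h4 : sph h h = 0 := by
    have h5 : sph h h = sph h (nsq * Q) := by rw [← hQ]
    rw [h5, sph_nsq_right, ← sum_homogeneousComponent Q, ← sphB_apply, map_sum]
    refine Finset.sum_eq_zero fun i hi => ?_
    rw [Finset.mem_range] at hi
    rw [sphB_apply]
    exact sph_lower i _ ((mem_homogeneousSubmodule _ _).2
      (homogeneousComponent_isHomogeneous i Q)) l (by omega) h hh
  exact (sph_pos hhom h0).ne' h4

end Vale.Agent.P370.Hyd
end
end

section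

section

/-!
Wick formula for three isotropic linear forms on R^3.
-/

namespace Vale.Agent.P370.GC

open MeasureTheory Set Metric Module

/-- bilinear dot product on C^3 -/
noncomputable def dd (a b : Fin 3 → ℂ) : ℂ := ∑ k, a k * b k

/-- monomial in three linear forms -/
noncomputable def mon (a b c : Fin 3 → ℂ) (p q w : ℕ) (x : V3) : ℂ :=
  lf a x ^ p * lf b x ^ q * lf c x ^ w

theorem continuous_mon (a b c : Fin 3 → ℂ) (p q w : ℕ) : Continuous (mon a b c p q w) := by
  unfold mon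
  (clear * -; fun_prop)

theorem norm_mon_le (a b c : Fin 3 → ℂ) (p q w : ℕ) (x : V3) :
    ‖mon a b c p q w x‖ ≤ (‖lf a‖ ^ p * ‖lf b‖ ^ q * ‖lf c‖ ^ w) * ‖x‖ ^ (p + q + w) := by
  unfold mon
  rw [norm_mul, norm_mul, norm_pow, norm_pow, norm_pow]
  calc ‖lf a x‖ ^ p * ‖lf b x‖ ^ q * ‖lf c x‖ ^ w
      ≤ (‖lf a‖ * ‖x‖) ^ p * (‖lf b‖ * ‖x‖) ^ q * (‖lf c‖ * ‖x‖) ^ w := by
        gcongr <;> exact norm_lf_le _ _
    _ = _ := by ring

theorem mon_smul (a b c : Fin 3 → ℂ) (p q w : ℕ) (t : ℝ) (x : V3) :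
    mon a b c p q w (t • x) = (t : ℂ) ^ (p + q + w) * mon a b c p q w x := by
  unfold mon
  simp only [map_smul, Complex.real_smul]
  ring

theorem integrable_mon_gauss (a b c : Fin 3 → ℂ) (p q w : ℕ) :
    Integrable (fun x : V3 => mon a b c p q w x * Real.exp (-‖x‖ ^ 2)) :=
  integrable_mul_gauss (continuous_mon a b c p q w) (norm_mon_le a b c p q w)

theorem integrable_mon_coord_gauss (a b c : Fin 3 → ℂ) (p q w : ℕ) (k : Fin 3) :
    Integrable (fun x : V3 => mon a b c p q w x * (x k : ℂ) * Real.exp (-‖x‖ ^ 2)) := by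
  refine integrable_mul_gauss (C := ‖lf a‖ ^ p * ‖lf b‖ ^ q * ‖lf c‖ ^ w) (m := p + q + w + 1)
    ((continuous_mon a b c p q w).mul (by fun_prop)) fun x => ?_
  rw [norm_mul, Complex.norm_real, pow_succ, ← mul_assoc]
  gcongr
  · exact norm_mon_le a b c p q w x
  · exact EuclideanSpace.norm_eq x ▸ by
      rw [← EuclideanSpace.norm_eq]
      exact PiLp.norm_apply_le x k

theorem hasFDerivAt_mon (a b c : Fin 3 → ℂ) (p q w : ℕ) (x : V3) :
    HasFDerivAt (mon a b c p q w)
      (((p : ℂ) * mon a b c (p - 1) q w x) • lf a + ((q : ℂ) * mon a b c p (q - 1) w x) • lf b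
        + ((w : ℂ) * mon a b c p q (w - 1) x) • lf c) x := by
  have ha := ((lf a).hasFDerivAt (x := x)).pow p
  have hb := ((lf b).hasFDerivAt (x := x)).pow q
  have hc := ((lf c).hasFDerivAt (x := x)).pow w
  have h := (ha.mul hb).mul hc
  refine h.congr_fderiv ?_
  ext v
  simp only [Pi.mul_apply, nsmul_eq_mul, smul_add, add_apply, smul_apply, smul_eq_mul, mon]
  ring

/-- the Gaussian integral of a monomial -/
noncomputable def gi (a b c : Fin 3 → ℂ) (p q w : ℕ) : ℂ :=
  ∫ x : V3, mon a b c p q w x * Real.exp (-‖x‖ ^ 2)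

theorem gi_zero (a b c : Fin 3 → ℂ) : gi a b c 0 0 0 = (Real.pi : ℂ) ^ (3 / 2 : ℂ) := by
  unfold gi mon
  have h := GaussianFourier.integral_cexp_neg_mul_sq_norm (V := V3) (b := 1) (by simp only [Complex.one_re, zero_lt_one])
  simp only [pow_zero, one_mul, mul_one]
  rw [show (Real.pi : ℂ) ^ (3 / 2 : ℂ) = ((Real.pi : ℂ) / 1) ^ ((finrank ℝ V3 : ℂ) / 2) by simp only [div_one, finrank_euclideanSpace, Fintype.card_fin, Nat.cast_ofNat],
    ← h]
  refine integral_congr_ae (.of_forall fun x => ?_)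
  simp only [Complex.ofReal_exp, Complex.ofReal_neg, Complex.ofReal_pow, neg_mul, one_mul]

theorem gi_succ (a b c : Fin 3 → ℂ) (haa : dd a a = 0) (p q w : ℕ) :
    gi a b c (p + 1) q w = (1 / 2) * ((q : ℂ) * dd a b * gi a b c p (q - 1) w
      + (w : ℂ) * dd a c * gi a b c p q (w - 1)) := by
  have hfd : ∀ (x : V3) (k : Fin 3), fderiv ℝ (mon a b c p q w) x (EuclideanSpace.single k 1) =
      (p : ℂ) * mon a b c (p - 1) q w x * a k + (q : ℂ) * mon a b c p (q - 1) w x * b k
        + (w : ℂ) * mon a b c p q (w - 1) x * c k := by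
    intro x k
    rw [(hasFDerivAt_mon a b c p q w x).fderiv]
    simp only [add_apply, smul_apply, lf_single, smul_eq_mul]
  have i1 := integrable_mon_gauss a b c (p - 1) q w
  have i2 := integrable_mon_gauss a b c p (q - 1) w
  have i3 := integrable_mon_gauss a b c p q (w - 1)
  have hsum : ∀ k : Fin 3, (fun x : V3 => fderiv ℝ (mon a b c p q w) x
      (EuclideanSpace.single k 1) * Real.exp (-‖x‖ ^ 2)) = fun x : V3 =>
        ((p : ℂ) * a k) * (mon a b c (p - 1) q w x * Real.exp (-‖x‖ ^ 2))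
        + ((q : ℂ) * b k) * (mon a b c p (q - 1) w x * Real.exp (-‖x‖ ^ 2))
        + ((w : ℂ) * c k) * (mon a b c p q (w - 1) x * Real.exp (-‖x‖ ^ 2)) := by
    intro k
    funext x
    rw [hfd]
    ring
  have hint : ∀ k : Fin 3, Integrable (fun x : V3 => fderiv ℝ (mon a b c p q w) x
      (EuclideanSpace.single k 1) * Real.exp (-‖x‖ ^ 2)) := by
    intro k
    rw [hsum k]
    exact ((i1.const_mul _).add (i2.const_mul _)).add (i3.const_mul _)
  have h := gauss_ibp (P := mon a b c p q w)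
    (fun x => (hasFDerivAt_mon a b c p q w x).differentiableAt) a hint
    (integrable_mon_coord_gauss a b c p q w) (integrable_mon_gauss a b c p q w)
  have hl : gi a b c (p + 1) q w = ∫ x : V3, mon a b c p q w x * lf a x * Real.exp (-‖x‖ ^ 2) := by
    unfold gi
    refine integral_congr_ae (.of_forall fun x => ?_)
    simp only [mon]
    ring
  rw [hl, h]
  congr 1
  have hk : ∀ k : Fin 3, ∫ x : V3, fderiv ℝ (mon a b c p q w) x
      (EuclideanSpace.single k 1) * Real.exp (-‖x‖ ^ 2) =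
      ((p : ℂ) * a k) * gi a b c (p - 1) q w + ((q : ℂ) * b k) * gi a b c p (q - 1) w
        + ((w : ℂ) * c k) * gi a b c p q (w - 1) := by
    intro k
    have j1 := i1.const_mul ((p : ℂ) * a k)
    have j2 := i2.const_mul ((q : ℂ) * b k)
    have j3 := i3.const_mul ((w : ℂ) * c k)
    have j12 : Integrable (fun x : V3 =>
        ((p : ℂ) * a k) * (mon a b c (p - 1) q w x * Real.exp (-‖x‖ ^ 2))
        + ((q : ℂ) * b k) * (mon a b c p (q - 1) w x * Real.exp (-‖x‖ ^ 2))) := j1.add j2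
    rw [hsum k, integral_add j12 j3, integral_add j1 j2, integral_const_mul, integral_const_mul,
      integral_const_mul]
    rfl
  simp only [hk]
  have e : ∑ k, a k * (((p : ℂ) * a k) * gi a b c (p - 1) q w
      + ((q : ℂ) * b k) * gi a b c p (q - 1) w + ((w : ℂ) * c k) * gi a b c p q (w - 1)) =
      (p : ℂ) * dd a a * gi a b c (p - 1) q w + (q : ℂ) * dd a b * gi a b c p (q - 1) w
      + (w : ℂ) * dd a c * gi a b c p q (w - 1) := by
    unfold dd
    simp only [Fin.sum_univ_three]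
    ring
  rw [e, haa]
  ring

theorem gi_rot (a b c : Fin 3 → ℂ) (p q w : ℕ) : gi a b c p q w = gi b c a q w p := by
  unfold gi mon
  refine integral_congr_ae (.of_forall fun x => ?_)
  simp only
  ring

theorem gi_vanish (a b c : Fin 3 → ℂ) (haa : dd a a = 0) :
    ∀ (n p q w : ℕ), q + w ≤ n → q + w < p → gi a b c p q w = 0 := by
  intro n
  induction n with
  | zero =>
    intro p q w hn hp
    obtain ⟨rfl, rfl⟩ : q = 0 ∧ w = 0 := by (clear * - hn; omega)
    obtain ⟨p, rfl⟩ : ∃ p', p = p' + 1 := ⟨p - 1, by omega⟩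
    rw [gi_succ a b c haa]
    simp only [one_div, CharP.cast_eq_zero, zero_mul, zero_tsub, add_zero, mul_zero]
  | succ n ih =>
    intro p q w hn hp
    obtain ⟨p, rfl⟩ : ∃ p', p = p' + 1 := ⟨p - 1, by omega⟩
    rw [gi_succ a b c haa]
    have t1 : (q : ℂ) * dd a b * gi a b c p (q - 1) w = 0 := by
      rcases Nat.eq_zero_or_pos q with rfl | hq
      · simp only [CharP.cast_eq_zero, zero_mul, zero_tsub]
      · rw [ih p (q - 1) w (by omega) (by omega)]
        simp
    have t2 : (w : ℂ) * dd a c * gi a b c p q (w - 1) = 0 := by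
      rcases Nat.eq_zero_or_pos w with rfl | hw
      · simp
      · rw [ih p q (w - 1) (by omega) (by omega)]
        simp
    rw [t1, t2]
    simp only [one_div, add_zero, mul_zero]

/-- the Wick closed form -/
noncomputable def wick (a b c : Fin 3 → ℂ) (x y z : ℕ) : ℂ :=
  (Real.pi : ℂ) ^ (3 / 2 : ℂ) * (((x + y).factorial * (x + z).factorial * (y + z).factorial : ℕ) : ℂ)
    / ((x.factorial * y.factorial * z.factorial : ℕ) : ℂ)
    * ((dd a b / 2) ^ x * (dd a c / 2) ^ y * (dd b c / 2) ^ z)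

theorem gi_eq_wick_two (a b c : Fin 3 → ℂ) (hbb : dd b b = 0) (z : ℕ) :
    gi a b c 0 z z = wick a b c 0 0 z := by
  rw [gi_rot]
  induction z with
  | zero => rw [gi_zero]; simp [wick]
  | succ z ih =>
    rw [gi_succ b c a hbb]
    simp only [Nat.add_sub_cancel]
    rw [ih]
    unfold wick
    simp only [zero_add, Nat.factorial_zero, Nat.factorial_succ, pow_succ]
    have h1 : ((z.factorial : ℕ) : ℂ) ≠ 0 := by exact_mod_cast z.factorial_ne_zero
    have h2 : ((z : ℂ) + 1) ≠ 0 := by exact_mod_cast Nat.succ_ne_zero z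
    push_cast
    field_simp
    ring

theorem wick_alg_aux (K u v X Y Z P Q R x y z U V W : ℂ) (hX : X ≠ 0) (hY : Y ≠ 0) (hZ : Z ≠ 0)
    (hx : x + 1 ≠ 0) (hy : y + 1 ≠ 0) :
    (1 / 2) * ((x + 1 + z) * (2 * u) * (K * (R * P * ((y + 1 + z) * Q)) / (X * ((y + 1) * Y) * Z)
        * (U * (V * v) * W))
      + (y + 1 + z) * (2 * v) * (K * (R * ((x + 1 + z) * P) * Q) / (((x + 1) * X) * Y * Z)
        * ((U * u) * V * W))) =
    K * (((x + y + 2) * R) * ((x + 1 + z) * P) * ((y + 1 + z) * Q)) /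
      (((x + 1) * X) * ((y + 1) * Y) * Z) * ((U * u) * (V * v) * W) := by
  have e1 : ∀ A : ℂ, A / (X * ((y + 1) * Y) * Z) =
      A * (x + 1) / (((x + 1) * X) * ((y + 1) * Y) * Z) := by
    intro A
    rw [div_eq_div_iff (by positivity) (by positivity)]
    ring
  have e2 : ∀ A : ℂ, A / (((x + 1) * X) * Y * Z) =
      A * (y + 1) / (((x + 1) * X) * ((y + 1) * Y) * Z) := by
    intro A
    rw [div_eq_div_iff (by positivity) (by positivity)]
    ring
  rw [e1, e2]
  ring

theorem wick_alg (a b c : Fin 3 → ℂ) (x y z : ℕ) :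
    (1 / 2) * (((x + 1 + z : ℕ) : ℂ) * dd a b * wick a b c x (y + 1) z
      + ((y + 1 + z : ℕ) : ℂ) * dd a c * wick a b c (x + 1) y z) = wick a b c (x + 1) (y + 1) z := by
  have hX : ((x.factorial : ℕ) : ℂ) ≠ 0 := by exact_mod_cast x.factorial_ne_zero
  have hx : ((x : ℂ) + 1) ≠ 0 := by exact_mod_cast Nat.succ_ne_zero x
  have hZ : ((z.factorial : ℕ) : ℂ) ≠ 0 := by exact_mod_cast z.factorial_ne_zero
  have hY : ((y.factorial : ℕ) : ℂ) ≠ 0 := by exact_mod_cast y.factorial_ne_zero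
  have hy : ((y : ℂ) + 1) ≠ 0 := by exact_mod_cast Nat.succ_ne_zero y
  have main := wick_alg_aux ((Real.pi : ℂ) ^ (3 / 2 : ℂ)) (dd a b / 2) (dd a c / 2)
    (x.factorial : ℂ) (y.factorial : ℂ) (z.factorial : ℂ) ((x + z).factorial : ℂ)
    ((y + z).factorial : ℂ) ((x + y + 1).factorial : ℂ) x y z ((dd a b / 2) ^ x)
    ((dd a c / 2) ^ y) ((dd b c / 2) ^ z) hX hY hZ hx hy
  have e5 : x + (y + 1) = x + y + 1 := by omega
  have e6 : x + 1 + y = x + y + 1 := by omega
  have e7 : x + 1 + z = (x + z) + 1 := by omega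
  have e8 : y + 1 + z = (y + z) + 1 := by omega
  have e4 : x + 1 + (y + 1) = (x + y + 1) + 1 := by omega
  have w1 : wick a b c x (y + 1) z = (Real.pi : ℂ) ^ (3 / 2 : ℂ) * (((x + y + 1).factorial : ℂ) *
      ((x + z).factorial : ℂ) * (((y : ℂ) + 1 + z) * ((y + z).factorial : ℂ))) /
      ((x.factorial : ℂ) * (((y : ℂ) + 1) * (y.factorial : ℂ)) * (z.factorial : ℂ)) *
      ((dd a b / 2) ^ x * ((dd a c / 2) ^ y * (dd a c / 2)) * (dd b c / 2) ^ z) := by
    unfold wick
    rw [e5, e8, Nat.factorial_succ (y + z), Nat.factorial_succ y, pow_succ]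
    push_cast
    ring
  have w2 : wick a b c (x + 1) y z = (Real.pi : ℂ) ^ (3 / 2 : ℂ) * (((x + y + 1).factorial : ℂ) *
      (((x : ℂ) + 1 + z) * ((x + z).factorial : ℂ)) * ((y + z).factorial : ℂ)) /
      ((((x : ℂ) + 1) * (x.factorial : ℂ)) * (y.factorial : ℂ) * (z.factorial : ℂ)) *
      (((dd a b / 2) ^ x * (dd a b / 2)) * (dd a c / 2) ^ y * (dd b c / 2) ^ z) := by
    unfold wick
    rw [e6, e7, Nat.factorial_succ (x + z), Nat.factorial_succ x, pow_succ]
    push_cast
    ring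
  have w3 : wick a b c (x + 1) (y + 1) z = (Real.pi : ℂ) ^ (3 / 2 : ℂ) *
      ((((x : ℂ) + y + 2) * ((x + y + 1).factorial : ℂ)) *
      (((x : ℂ) + 1 + z) * ((x + z).factorial : ℂ)) *
      (((y : ℂ) + 1 + z) * ((y + z).factorial : ℂ))) /
      ((((x : ℂ) + 1) * (x.factorial : ℂ)) * (((y : ℂ) + 1) * (y.factorial : ℂ)) *
        (z.factorial : ℂ)) *
      (((dd a b / 2) ^ x * (dd a b / 2)) * ((dd a c / 2) ^ y * (dd a c / 2)) *
        (dd b c / 2) ^ z) := by
    unfold wick
    rw [e4, e7, e8, Nat.factorial_succ (x + z), Nat.factorial_succ (y + z),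
      Nat.factorial_succ (x + y + 1), Nat.factorial_succ x, Nat.factorial_succ y, pow_succ,
      pow_succ]
    push_cast
    ring
  rw [w1, w2, w3, ← main]
  push_cast
  ring

theorem gi_eq_wick (a b c : Fin 3 → ℂ) (haa : dd a a = 0) (hbb : dd b b = 0) (hcc : dd c c = 0) :
    ∀ (n x y z : ℕ), x + y ≤ n → gi a b c (x + y) (x + z) (y + z) = wick a b c x y z := by
  intro n
  induction n with
  | zero =>
    intro x y z h
    obtain ⟨rfl, rfl⟩ : x = 0 ∧ y = 0 := by omega
    simpa using gi_eq_wick_two a b c hbb z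
  | succ n ih =>
    intro x y z h
    rcases Nat.eq_zero_or_pos (x + y) with h0 | h0
    · exact ih x y z (by omega)
    rcases Nat.eq_zero_or_pos x with rfl | hx
    · -- x = 0, y > 0
      obtain ⟨y, rfl⟩ : ∃ y', y = y' + 1 := ⟨y - 1, by omega⟩
      have e : (0 + (y + 1)) = y + 1 := by omega
      rw [e, gi_succ a b c haa]
      have t1 : ((0 + z : ℕ) : ℂ) * dd a b * gi a b c y (0 + z - 1) (y + 1 + z) = 0 := by
        rcases Nat.eq_zero_or_pos z with rfl | hz
        · simp only [add_zero, CharP.cast_eq_zero, zero_mul, zero_tsub]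
        · have : gi a b c y (0 + z - 1) (y + 1 + z) = 0 := by
            rw [gi_rot, gi_rot]
            exact gi_vanish c a b hcc _ _ _ _ le_rfl (by omega)
          rw [this]; simp
      rw [t1]
      have e2 : y + 1 + z - 1 = y + z := by (clear * -; omega)
      have t2 := ih 0 y z (by omega)
      rw [zero_add] at t2
      rw [e2, t2]
      unfold wick
      have h1 : ((y.factorial : ℕ) : ℂ) ≠ 0 := by exact_mod_cast y.factorial_ne_zero
      have h2 : ((y : ℂ) + 1) ≠ 0 := by exact_mod_cast Nat.succ_ne_zero y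
      have h3 : ((z.factorial : ℕ) : ℂ) ≠ 0 := by exact_mod_cast z.factorial_ne_zero
      have e3 : y + 1 + z = (y + z) + 1 := by omega
      rw [e3]
      simp only [Nat.factorial_succ, zero_add, pow_succ, Nat.factorial_zero, pow_zero]
      push_cast
      field_simp
    · obtain ⟨x, rfl⟩ : ∃ x', x = x' + 1 := ⟨x - 1, by omega⟩
      rcases Nat.eq_zero_or_pos y with rfl | hy
      · -- y = 0, x > 0
        have e : (x + 1 + 0) = x + 1 := by omega
        rw [e, gi_succ a b c haa]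
        have t2 : ((0 + z : ℕ) : ℂ) * dd a c * gi a b c x (x + 1 + z) (0 + z - 1) = 0 := by
          rcases Nat.eq_zero_or_pos z with rfl | hz
          · simp
          · have : gi a b c x (x + 1 + z) (0 + z - 1) = 0 := by
              rw [gi_rot]
              exact gi_vanish b c a hbb _ _ _ _ le_rfl (by omega)
            rw [this]; simp
        rw [t2]
        have e2 : x + 1 + z - 1 = x + z := by omega
        have t1 := ih x 0 z (by omega)
        rw [add_zero] at t1
        rw [e2, t1]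
        unfold wick
        have h1 : ((x.factorial : ℕ) : ℂ) ≠ 0 := by exact_mod_cast x.factorial_ne_zero
        have h2 : ((x : ℂ) + 1) ≠ 0 := by exact_mod_cast Nat.succ_ne_zero x
        have h3 : ((z.factorial : ℕ) : ℂ) ≠ 0 := by exact_mod_cast z.factorial_ne_zero
        have e3 : x + 1 + z = (x + z) + 1 := by (clear * -; omega)
        rw [e3]
        simp only [add_zero, zero_add, Nat.factorial_zero, pow_zero, Nat.factorial_succ, pow_succ]
        push_cast
        (clear * - h2 h3 h1; field_simp)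
      · obtain ⟨y, rfl⟩ : ∃ y', y = y' + 1 := ⟨y - 1, by omega⟩
        have e : (x + 1 + (y + 1)) = (x + 1 + y) + 1 := by omega
        rw [e, gi_succ a b c haa]
        have t1 := ih x (y + 1) z (by omega)
        have t2 := ih (x + 1) y z (by omega)
        have e1 : x + 1 + z - 1 = x + z := by omega
        have e2 : y + 1 + z - 1 = y + z := by (clear * -; omega)
        have e3 : x + 1 + y = x + (y + 1) := by omega
        rw [e1, e2, t2, e3, t1]
        exact wick_alg a b c x y z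

end Vale.Agent.P370.GC
end
end

section

section

/-!
Integrals of products of three isotropic linear forms on R^3 against an arbitrary radial weight.
-/

namespace Vale.Agent.P370.GC

open MeasureTheory Set Metric Module

theorem integral_pow_mul_exp_neg_sq (k : ℕ) :
    ∫ r in Ioi (0 : ℝ), r ^ (2 * k + 2) * Real.exp (-r ^ 2) =
      Real.sqrt Real.pi / 4 * (((2 * k + 1).factorial : ℕ) : ℝ) / (4 ^ k * (k.factorial : ℝ)) := by
  have h := integral_rpow_mul_exp_neg_rpow (p := 2) (q := (2 * k + 2 : ℕ)) (by norm_num)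
    (by have : (0 : ℝ) ≤ ((2 * k + 2 : ℕ) : ℝ) := Nat.cast_nonneg _
        linarith only [])
  have e : ∫ r in Ioi (0 : ℝ), r ^ (2 * k + 2) * Real.exp (-r ^ 2) =
      ∫ x in Ioi (0 : ℝ), x ^ (((2 * k + 2 : ℕ) : ℝ)) * Real.exp (-x ^ (2 : ℝ)) := by
    refine setIntegral_congr_fun measurableSet_Ioi fun x _ => ?_
    simp only [Real.rpow_natCast]
    norm_num
  rw [e, h]
  have h2 : ((((2 * k + 2 : ℕ) : ℝ)) + 1) / 2 = ((k : ℝ) + 1) + 1 / 2 := by
    push_cast
    ring
  rw [h2]
  have h3 := Real.Gamma_nat_add_half (k + 1)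
  push_cast at h3
  rw [h3]
  have h4 : 2 * (k + 1) - 1 = 2 * k + 1 := by (clear * -; omega)
  rw [h4]
  have h5 : (((2 * k + 1).doubleFactorial : ℕ) : ℝ) * (2 ^ k * (k.factorial : ℝ)) =
      ((2 * k + 1).factorial : ℝ) := by
    have := Nat.factorial_eq_mul_doubleFactorial (2 * k)
    rw [Nat.doubleFactorial_two_mul] at this
    exact_mod_cast this.symm
  rw [← h5]
  have hk : (k.factorial : ℝ) ≠ 0 := by exact_mod_cast k.factorial_ne_zero
  have h6 : (4 : ℝ) ^ k = 2 ^ k * 2 ^ k := by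
    rw [← mul_pow]
    norm_num
  rw [h6]
  field_simp
  ring

/-- the integral over the unit sphere of the product of three isotropic linear forms -/
noncomputable def sph (a b c : Fin 3 → ℂ) (x y z : ℕ) : ℂ :=
  4 * (Real.pi : ℂ) * (2 : ℂ) ^ (x + y + z) * (((x + y + z).factorial : ℕ) : ℂ) /
      (((2 * (x + y + z) + 1).factorial : ℕ) : ℂ) *
    ((((x + y).factorial * (x + z).factorial * (y + z).factorial : ℕ) : ℂ) /
      ((x.factorial * y.factorial * z.factorial : ℕ) : ℂ)) *
    (dd a b ^ x * dd a c ^ y * dd b c ^ z)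

theorem pi_cpow_three_half : (Real.pi : ℂ) ^ (3 / 2 : ℂ) = (Real.pi : ℂ) * (Real.sqrt Real.pi : ℂ) := by
  have h : Real.pi ^ (3 / 2 : ℝ) = Real.pi * Real.sqrt Real.pi := by
    rw [Real.sqrt_eq_rpow, show (3 / 2 : ℝ) = 1 + 1 / 2 by norm_num,
      Real.rpow_add Real.pi_pos, Real.rpow_one]
  have h2 : ((Real.pi ^ (3 / 2 : ℝ) : ℝ) : ℂ) = (Real.pi : ℂ) ^ (3 / 2 : ℂ) := by
    rw [Complex.ofReal_cpow Real.pi_pos.le]
    norm_num
  rw [← h2, h]
  push_cast
  rfl

theorem integral_sphere_mon (a b c : Fin 3 → ℂ) (haa : dd a a = 0) (hbb : dd b b = 0)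
    (hcc : dd c c = 0) (x y z : ℕ) :
    ∫ ω : sphere (0 : V3) 1, mon a b c (x + y) (x + z) (y + z) ω
      ∂(volume : Measure V3).toSphere = sph a b c x y z := by
  have h := integral_homog_mul_radial (volume : Measure V3) (mon a b c (x + y) (x + z) (y + z))
    (2 * (x + y + z)) (fun t _ v => by
      rw [mon_smul]
      congr 2
      ring) (fun r => ((Real.exp (-r ^ 2) : ℝ) : ℂ))
  have h1 : ∫ v : V3, mon a b c (x + y) (x + z) (y + z) v * ((Real.exp (-‖v‖ ^ 2) : ℝ) : ℂ) =
      wick a b c x y z := gi_eq_wick a b c haa hbb hcc (x + y) x y z le_rfl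
  rw [h1] at h
  have h2 : ∫ r in Ioi (0 : ℝ), (r : ℂ) ^ (2 * (x + y + z) + (finrank ℝ V3 - 1)) *
      ((Real.exp (-r ^ 2) : ℝ) : ℂ) = ((Real.sqrt Real.pi / 4 *
        (((2 * (x + y + z) + 1).factorial : ℕ) : ℝ) /
        (4 ^ (x + y + z) * ((x + y + z).factorial : ℝ)) : ℝ) : ℂ) := by
    rw [← integral_pow_mul_exp_neg_sq, ← integral_complex_ofReal]
    refine setIntegral_congr_fun measurableSet_Ioi fun r _ => ?_
    simp only [finrank_euclideanSpace, Fintype.card_fin]
    push_cast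
    rfl
  rw [h2] at h
  set k := x + y + z with hk
  have hkf : ((k.factorial : ℕ) : ℂ) ≠ 0 := by exact_mod_cast k.factorial_ne_zero
  have h2kf : (((2 * k + 1).factorial : ℕ) : ℂ) ≠ 0 := by
    exact_mod_cast (2 * k + 1).factorial_ne_zero
  have hsp : ((Real.sqrt Real.pi : ℝ) : ℂ) ≠ 0 := by
    exact_mod_cast (Real.sqrt_pos.2 Real.pi_pos).ne'
  have h4 : (4 : ℂ) ^ k = 2 ^ k * 2 ^ k := by
    rw [← mul_pow]
    norm_num
  have h2k : (2 : ℂ) ^ k ≠ 0 := pow_ne_zero _ two_ne_zero
  have hw : wick a b c x y z = (Real.pi : ℂ) * (Real.sqrt Real.pi : ℂ) *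
      ((((x + y).factorial * (x + z).factorial * (y + z).factorial : ℕ) : ℂ)
    / ((x.factorial * y.factorial * z.factorial : ℕ) : ℂ))
    * ((dd a b ^ x * dd a c ^ y * dd b c ^ z) / 2 ^ k) := by
    unfold wick
    rw [pi_cpow_three_half, hk, pow_add, pow_add, div_pow, div_pow, div_pow]
    ring
  rw [hw] at h
  unfold sph
  rw [← hk]
  generalize ((((x + y).factorial * (x + z).factorial * (y + z).factorial : ℕ) : ℂ)
    / ((x.factorial * y.factorial * z.factorial : ℕ) : ℂ)) = F at h ⊢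
  generalize dd a b ^ x * dd a c ^ y * dd b c ^ z = D at h ⊢
  push_cast at h
  rw [h4] at h
  generalize ∫ ω : sphere (0 : V3) 1, mon a b c (x + y) (x + z) (y + z) ω
      ∂(volume : Measure V3).toSphere = S at h ⊢
  field_simp at h
  field_simp
  linear_combination (-1 : ℂ) * h

theorem integral_mon_radial (a b c : Fin 3 → ℂ) (haa : dd a a = 0) (hbb : dd b b = 0)
    (hcc : dd c c = 0) (x y z : ℕ) (g : ℝ → ℂ) :
    ∫ v : V3, mon a b c (x + y) (x + z) (y + z) v * g ‖v‖ =
      sph a b c x y z * ∫ r in Ioi (0 : ℝ), (r : ℂ) ^ (2 * (x + y + z) + 2) * g r := by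
  have h := integral_homog_mul_radial (volume : Measure V3) (mon a b c (x + y) (x + z) (y + z))
    (2 * (x + y + z)) (fun t _ v => by
      rw [mon_smul]
      congr 2
      ring) g
  rw [h, integral_sphere_mon a b c haa hbb hcc]
  simp only [finrank_euclideanSpace, Fintype.card_fin]

end Vale.Agent.P370.GC
end
end

section

section

/-!
Great circle harmonics `Re (a(α)·x)^l` and their overlaps and three-fold integrals.
-/

namespace Vale.Agent.P370.GC

open MeasureTheory Set Metric Module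

/-- the isotropic vector of the great circle through the third axis at azimuth `α` -/
noncomputable def av (α : ℝ) : Fin 3 → ℂ :=
  ![Complex.I * (Real.cos α : ℂ), Complex.I * (Real.sin α : ℂ), 1]

theorem dd_av (α β : ℝ) : dd (av α) (av β) = ((1 - Real.cos (α - β) : ℝ) : ℂ) := by
  unfold dd av
  simp only [Fin.sum_univ_three, Matrix.cons_val_zero, Matrix.cons_val_one, Matrix.cons_val]
  rw [Real.cos_sub, Complex.ofReal_sub, Complex.ofReal_add, Complex.ofReal_mul,
    Complex.ofReal_mul, Complex.ofReal_one]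
  linear_combination ((Real.cos α : ℂ) * (Real.cos β : ℂ) + (Real.sin α : ℂ) * (Real.sin β : ℂ)) *
    Complex.I_sq

theorem dd_av_self (α : ℝ) : dd (av α) (av α) = 0 := by
  rw [dd_av]
  simp

theorem lf_av (α : ℝ) (x : V3) :
    lf (av α) x = ((x 2 : ℝ) : ℂ) + ((Real.cos α * x 0 + Real.sin α * x 1 : ℝ) : ℂ) * Complex.I := by
  rw [lf_apply]
  simp only [av, Fin.sum_univ_three, Matrix.cons_val_zero, Matrix.cons_val_one, Matrix.cons_val]
  push_cast
  ring

theorem conj_lf_av (α : ℝ) (x : V3) :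
    (starRingEnd ℂ) (lf (av α) x) = lf (av (α + Real.pi)) x := by
  rw [lf_av, lf_av, Real.cos_add_pi, Real.sin_add_pi]
  simp only [map_add, map_mul, Complex.conj_ofReal, Complex.conj_I]
  push_cast
  ring

/-- the great circle harmonic -/
noncomputable def fr (l : ℕ) (α : ℝ) (x : V3) : ℝ := ((lf (av α) x) ^ l).re

theorem fr_eq (l : ℕ) (α : ℝ) (x : V3) :
    (fr l α x : ℂ) = (lf (av α) x ^ l + lf (av (α + Real.pi)) x ^ l) / 2 := by
  unfold fr
  rw [Complex.re_eq_add_conj, map_pow, conj_lf_av]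

theorem fr_smul (l : ℕ) (α t : ℝ) (x : V3) : fr l α (t • x) = t ^ l * fr l α x := by
  unfold fr
  rw [map_smul, Complex.real_smul, mul_pow, ← Complex.ofReal_pow, Complex.re_ofReal_mul]

theorem normSq_lf_av (α : ℝ) (x : V3) :
    ‖lf (av α) x‖ ^ 2 = x 2 ^ 2 + (Real.cos α * x 0 + Real.sin α * x 1) ^ 2 := by
  rw [lf_av, ← Complex.normSq_eq_norm_sq, Complex.normSq_add_mul_I]

theorem integrable_monsph (a b c : Fin 3 → ℂ) (p q w : ℕ) :
    Integrable (fun ω : sphere (0 : V3) 1 => mon a b c p q w ω) (volume : Measure V3).toSphere :=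
  ((continuous_mon a b c p q w).comp continuous_subtype_val).integrable_of_hasCompactSupport
    (HasCompactSupport.of_compactSpace _)

theorem integral_add8 {X : Type*} [MeasurableSpace X] {μ : Measure X}
    {F1 F2 F3 F4 F5 F6 F7 F8 : X → ℂ} (h1 : Integrable F1 μ) (h2 : Integrable F2 μ)
    (h3 : Integrable F3 μ) (h4 : Integrable F4 μ) (h5 : Integrable F5 μ) (h6 : Integrable F6 μ)
    (h7 : Integrable F7 μ) (h8 : Integrable F8 μ) :
    ∫ x, F1 x + F2 x + F3 x + F4 x + F5 x + F6 x + F7 x + F8 x ∂μ =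
      ∫ x, F1 x ∂μ + ∫ x, F2 x ∂μ + ∫ x, F3 x ∂μ + ∫ x, F4 x ∂μ + ∫ x, F5 x ∂μ + ∫ x, F6 x ∂μ
        + ∫ x, F7 x ∂μ + ∫ x, F8 x ∂μ := by
  have g2 : Integrable (fun x => F1 x + F2 x) μ := h1.add h2
  have g3 : Integrable (fun x => F1 x + F2 x + F3 x) μ := g2.add h3
  have g4 : Integrable (fun x => F1 x + F2 x + F3 x + F4 x) μ := g3.add h4
  have g5 : Integrable (fun x => F1 x + F2 x + F3 x + F4 x + F5 x) μ := g4.add h5
  have g6 : Integrable (fun x => F1 x + F2 x + F3 x + F4 x + F5 x + F6 x) μ := g5.add h6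
  have g7 : Integrable (fun x => F1 x + F2 x + F3 x + F4 x + F5 x + F6 x + F7 x) μ := g6.add h7
  rw [integral_add g7 h8, integral_add g6 h7, integral_add g5 h6, integral_add g4 h5,
    integral_add g3 h4, integral_add g2 h3, integral_add h1 h2]

/-- the sphere constant in front of three-fold integrals -/
noncomputable def c3 (l y : ℕ) : ℝ :=
  4 * Real.pi * 2 ^ (l + y) * ((l + y).factorial : ℝ) / ((2 * (l + y) + 1).factorial : ℝ) *
    ((l.factorial : ℝ) ^ 2 * ((2 * y).factorial : ℝ) /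
      (((l - y).factorial : ℝ) * (y.factorial : ℝ) ^ 2))

theorem sph_av (l y : ℕ) (hy : y ≤ l) (α β γ : ℝ) :
    ∫ ω : sphere (0 : V3) 1, mon (av α) (av β) (av γ) l l (2 * y) ω
      ∂(volume : Measure V3).toSphere =
    ((c3 l y * ((1 - Real.cos (α - β)) ^ (l - y) * (1 - Real.cos (α - γ)) ^ y *
      (1 - Real.cos (β - γ)) ^ y) : ℝ) : ℂ) := by
  have h := integral_sphere_mon (av α) (av β) (av γ) (dd_av_self α) (dd_av_self β)
    (dd_av_self γ) (l - y) y y
  have e1 : l - y + y = l := by omega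
  have e2 : y + y = 2 * y := by omega
  rw [e1, e2] at h
  rw [h]
  unfold sph c3
  rw [dd_av, dd_av, dd_av, e1, e2]
  push_cast
  ring

/-- three-fold overlap integral of great circle harmonics -/
theorem integral_sphere_three (l y : ℕ) (hy : y ≤ l) (α β γ : ℝ) :
    ∫ ω : sphere (0 : V3) 1, fr l α ω * fr l β ω * fr (2 * y) γ ω
      ∂(volume : Measure V3).toSphere =
      c3 l y * (1 / 4) *
      ((1 - Real.cos (α - β)) ^ (l - y) * (1 - Real.cos (α - γ)) ^ y * (1 - Real.cos (β - γ)) ^ y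
      + (1 + Real.cos (α - β)) ^ (l - y) * (1 + Real.cos (α - γ)) ^ y * (1 - Real.cos (β - γ)) ^ y
      + (1 + Real.cos (α - β)) ^ (l - y) * (1 - Real.cos (α - γ)) ^ y * (1 + Real.cos (β - γ)) ^ y
      + (1 - Real.cos (α - β)) ^ (l - y) * (1 + Real.cos (α - γ)) ^ y *
        (1 + Real.cos (β - γ)) ^ y) := by
  apply Complex.ofReal_injective
  rw [← integral_complex_ofReal]
  have hI := fun a b c => integrable_monsph a b c l l (2 * y)
  have e : ∀ ω : sphere (0 : V3) 1, ((fr l α ω * fr l β ω * fr (2 * y) γ ω : ℝ) : ℂ) =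
      (1 / 8) * (mon (av α) (av β) (av γ) l l (2 * y) ω
      + mon (av (α + Real.pi)) (av β) (av γ) l l (2 * y) ω
      + mon (av α) (av (β + Real.pi)) (av γ) l l (2 * y) ω
      + mon (av (α + Real.pi)) (av (β + Real.pi)) (av γ) l l (2 * y) ω
      + mon (av α) (av β) (av (γ + Real.pi)) l l (2 * y) ω
      + mon (av (α + Real.pi)) (av β) (av (γ + Real.pi)) l l (2 * y) ω
      + mon (av α) (av (β + Real.pi)) (av (γ + Real.pi)) l l (2 * y) ω
      + mon (av (α + Real.pi)) (av (β + Real.pi)) (av (γ + Real.pi)) l l (2 * y) ω) := by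
    intro ω
    rw [Complex.ofReal_mul, Complex.ofReal_mul, fr_eq, fr_eq, fr_eq]
    unfold mon
    ring
  simp only [e]
  have h1 := hI (av α) (av β) (av γ)
  have h2 := hI (av (α + Real.pi)) (av β) (av γ)
  have h3 := hI (av α) (av (β + Real.pi)) (av γ)
  have h4 := hI (av (α + Real.pi)) (av (β + Real.pi)) (av γ)
  have h5 := hI (av α) (av β) (av (γ + Real.pi))
  have h6 := hI (av (α + Real.pi)) (av β) (av (γ + Real.pi))
  have h7 := hI (av α) (av (β + Real.pi)) (av (γ + Real.pi))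
  have h8 := hI (av (α + Real.pi)) (av (β + Real.pi)) (av (γ + Real.pi))
  rw [integral_const_mul, integral_add8 h1 h2 h3 h4 h5 h6 h7 h8,
    sph_av l y hy, sph_av l y hy, sph_av l y hy, sph_av l y hy, sph_av l y hy, sph_av l y hy,
    sph_av l y hy, sph_av l y hy]
  have c1 : ∀ s t : ℝ, Real.cos (s + Real.pi - t) = -Real.cos (s - t) := by
    intro s t
    rw [show s + Real.pi - t = (s - t) + Real.pi by ring, Real.cos_add_pi]
  have c2 : ∀ s t : ℝ, Real.cos (s - (t + Real.pi)) = -Real.cos (s - t) := by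
    intro s t
    rw [show s - (t + Real.pi) = (s - t) - Real.pi by ring, Real.cos_sub_pi]
  simp only [c1, c2, neg_neg, sub_neg_eq_add]
  push_cast
  ring

/-- the sphere constant in front of overlaps -/
noncomputable def c2 (l : ℕ) : ℝ :=
  2 * Real.pi * 4 ^ l * (l.factorial : ℝ) ^ 2 / ((2 * l + 1).factorial : ℝ)

theorem integral_sphere_two (l : ℕ) (α β : ℝ) :
    ∫ ω : sphere (0 : V3) 1, fr l α ω * fr l β ω ∂(volume : Measure V3).toSphere =
      c2 l * (((1 - Real.cos (α - β)) / 2) ^ l + ((1 + Real.cos (α - β)) / 2) ^ l) := by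
  have h := integral_sphere_three l 0 (Nat.zero_le l) α β 0
  have e : ∀ ω : sphere (0 : V3) 1, fr l α ω * fr l β ω * fr (2 * 0) 0 ω =
      fr l α ω * fr l β ω := by
    intro ω
    simp only [fr, mul_zero, pow_zero, Complex.one_re, mul_one]
  simp only [e] at h
  rw [h]
  unfold c3 c2
  simp only [Nat.sub_zero, pow_zero, mul_one, add_zero, Nat.factorial_zero, Nat.cast_one,
    one_pow, mul_zero, div_pow]
  have h1 : (l.factorial : ℝ) ≠ 0 := by exact_mod_cast l.factorial_ne_zero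
  have h4 : (4 : ℝ) ^ l = 2 ^ l * 2 ^ l := by
    rw [← mul_pow]
    norm_num
  rw [h4]
  field_simp
  ring

/-- overlap integral of great circle harmonics against a radial weight -/
theorem integral_two (l : ℕ) (α β : ℝ) (g : ℝ → ℝ) :
    ∫ x : V3, fr l α x * fr l β x * g ‖x‖ =
      c2 l * (((1 - Real.cos (α - β)) / 2) ^ l + ((1 + Real.cos (α - β)) / 2) ^ l) *
        ∫ r in Ioi (0 : ℝ), r ^ (2 * l + 2) * g r := by
  rw [← integral_sphere_two l α β]
  have h := integral_homog_mul_radial_real (volume : Measure V3)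
    (fun x : V3 => fr l α x * fr l β x) (2 * l)
    (fun t _ v => by
      simp only [fr_smul]
      ring) g
  simpa only [finrank_euclideanSpace, Fintype.card_fin] using h

end Vale.Agent.P370.GC
end
end

section

section

/-!
Great circle densities and their moments.
-/

namespace Vale.Agent.P370.GC

open MeasureTheory Set Metric Module

theorem integral_pow_mul_exp_neg_mul (k : ℕ) {κ : ℝ} (hκ : 0 < κ) :
    ∫ r in Ioi (0 : ℝ), r ^ k * Real.exp (-κ * r) = (k.factorial : ℝ) / κ ^ (k + 1) := by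
  have h := Real.integral_rpow_mul_exp_neg_mul_Ioi (a := (k : ℝ) + 1) (r := κ) (by positivity) hκ
  have e : ∫ r in Ioi (0 : ℝ), r ^ k * Real.exp (-κ * r) =
      ∫ t in Ioi (0 : ℝ), t ^ ((k : ℝ) + 1 - 1) * Real.exp (-(κ * t)) := by
    refine setIntegral_congr_fun measurableSet_Ioi fun x _ => ?_
    simp only [add_sub_cancel_right, Real.rpow_natCast, neg_mul]
  rw [e, h, Real.Gamma_nat_eq_factorial]
  have : ((k : ℝ) + 1) = ((k + 1 : ℕ) : ℝ) := by push_cast; ring
  rw [this, Real.rpow_natCast]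
  field_simp
  rw [← mul_pow, one_div_mul_cancel hκ.ne', one_pow]

/-- sphere integral of `|a·ω|^(2m)` -/
noncomputable def c1 (m : ℕ) : ℝ :=
  4 * Real.pi * 4 ^ m * (m.factorial : ℝ) ^ 2 / ((2 * m + 1).factorial : ℝ)

theorem norm_lf_av_smul (α : ℝ) (t : ℝ) (x : V3) :
    ‖lf (av α) (t • x)‖ = |t| * ‖lf (av α) x‖ := by
  rw [map_smul, norm_smul, Real.norm_eq_abs]

theorem norm_lf_av_le (α : ℝ) (x : V3) : ‖lf (av α) x‖ ≤ ‖x‖ := by
  refine le_of_sq_le_sq ?_ (norm_nonneg _)
  rw [normSq_lf_av, EuclideanSpace.norm_sq_eq, Fin.sum_univ_three]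
  simp only [Real.norm_eq_abs, sq_abs]
  nlinarith [sq_nonneg (Real.sin α * x 0 - Real.cos α * x 1), Real.sin_sq_add_cos_sq α]

theorem integral_sphere_norm_pow (m : ℕ) (α : ℝ) :
    ∫ ω : sphere (0 : V3) 1, ‖lf (av α) (ω : V3)‖ ^ (2 * m) ∂(volume : Measure V3).toSphere =
      c1 m := by
  apply Complex.ofReal_injective
  rw [← integral_complex_ofReal]
  have h := integral_sphere_mon (av α) (av (α + Real.pi)) (av α) (dd_av_self α)
    (dd_av_self _) (dd_av_self α) m 0 0
  have e : ∀ ω : sphere (0 : V3) 1, ((‖lf (av α) (ω : V3)‖ ^ (2 * m) : ℝ) : ℂ) =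
      mon (av α) (av (α + Real.pi)) (av α) (m + 0) (m + 0) (0 + 0) ω := by
    intro ω
    unfold mon
    rw [← conj_lf_av, add_zero, pow_zero, mul_one, ← mul_pow, Complex.mul_conj,
      Complex.normSq_eq_norm_sq, pow_mul]
    push_cast
    rfl
  simp only [e]
  rw [h]
  unfold sph c1
  rw [dd_av]
  have h1 : α - (α + Real.pi) = -Real.pi := by ring
  rw [h1, Real.cos_neg, Real.cos_pi]
  have hm : ((m.factorial : ℕ) : ℂ) ≠ 0 := by exact_mod_cast m.factorial_ne_zero
  have h4 : (4 : ℂ) ^ m = 2 ^ m * 2 ^ m := by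
    rw [← mul_pow]
    norm_num
  simp only [add_zero, pow_zero, mul_one, Nat.factorial_zero]
  push_cast
  rw [h4, show (1 : ℂ) - -1 = 2 by norm_num]
  field_simp

/-- moments of great circle densities -/
theorem integral_norm_pow (m j : ℕ) (α : ℝ) {κ : ℝ} (hκ : 0 < κ) :
    ∫ x : V3, ‖lf (av α) x‖ ^ (2 * m) * (‖x‖ ^ j * Real.exp (-κ * ‖x‖)) =
      c1 m * (((2 * m + j + 2).factorial : ℝ) / κ ^ (2 * m + j + 3)) := by
  have h := integral_homog_mul_radial_real (volume : Measure V3)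
    (fun x : V3 => ‖lf (av α) x‖ ^ (2 * m)) (2 * m)
    (fun t ht v => by
      simp only [norm_lf_av_smul, abs_of_pos ht]
      ring) (fun r => r ^ j * Real.exp (-κ * r))
  rw [h, integral_sphere_norm_pow]
  congr 1
  rw [← integral_pow_mul_exp_neg_mul (2 * m + j + 2) hκ]
  refine setIntegral_congr_fun measurableSet_Ioi fun x _ => ?_
  simp only [finrank_euclideanSpace, Fintype.card_fin]
  ring

theorem integrable_norm_pow (m j : ℕ) (α : ℝ) {κ : ℝ} (hκ : 0 < κ) :
    Integrable (fun x : V3 => ‖lf (av α) x‖ ^ (2 * m) * (‖x‖ ^ j * Real.exp (-κ * ‖x‖))) := by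
  have h := integrable_norm_pow_mul_exp_neg (2 * m + j) hκ
  refine h.mono' ?_ (.of_forall fun x => ?_)
  · exact Continuous.aestronglyMeasurable (by (clear * -; fun_prop))
  · rw [Real.norm_of_nonneg (by (clear * -; positivity)), pow_add, mul_assoc]
    gcongr
    exact norm_lf_av_le α x

/-- the great circle density (not normalised), `n = l + 1` -/
noncomputable def wd (l : ℕ) (α : ℝ) (x : V3) : ℝ :=
  ‖lf (av α) x‖ ^ (2 * l) * Real.exp (-(2 / ((l : ℝ) + 1)) * ‖x‖)

/-- total mass of the great circle density -/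
noncomputable def wm (l : ℕ) : ℝ :=
  Real.pi * (l.factorial : ℝ) ^ 2 * ((l : ℝ) + 1) ^ (2 * l + 4)

theorem wm_pos (l : ℕ) : 0 < wm l := by
  unfold wm
  have := Real.pi_pos
  have h1 : (0 : ℝ) < (l.factorial : ℝ) := by exact_mod_cast l.factorial_pos
  positivity

theorem wd_nonneg (l : ℕ) (α : ℝ) (x : V3) : 0 ≤ wd l α x := by
  unfold wd
  positivity

theorem continuous_wd (l : ℕ) (α : ℝ) : Continuous (wd l α) := by
  unfold wd
  (clear * -; fun_prop)

theorem integrable_wd_mul (l m j : ℕ) (α : ℝ) :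
    Integrable (fun x : V3 => wd l α x * (‖lf (av α) x‖ ^ (2 * m) * ‖x‖ ^ j)) := by
  have h := integrable_norm_pow (l + m) j α (κ := 2 / ((l : ℝ) + 1)) (by (clear * -; positivity))
  refine h.congr (.of_forall fun x => ?_)
  simp only [wd]
  ring

theorem integrable_wd (l : ℕ) (α : ℝ) : Integrable (wd l α) := by
  simpa only [mul_zero, pow_zero, mul_one] using integrable_wd_mul l 0 0 α

theorem integral_wd_mul (l m : ℕ) (α : ℝ) :
    ∫ x : V3, wd l α x * ‖lf (av α) x‖ ^ (2 * m) =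
      Real.pi * ((l + m).factorial : ℝ) ^ 2 * ((l : ℝ) + m + 1) *
        ((l : ℝ) + 1) ^ (2 * l + 2 * m + 3) := by
  have h := integral_norm_pow (l + m) 0 α (κ := 2 / ((l : ℝ) + 1)) (by positivity)
  have e : ∫ x : V3, wd l α x * ‖lf (av α) x‖ ^ (2 * m) =
      ∫ x : V3, ‖lf (av α) x‖ ^ (2 * (l + m)) * (‖x‖ ^ 0 * Real.exp (-(2 / ((l : ℝ) + 1)) * ‖x‖)) := by
    refine integral_congr_ae (.of_forall fun x => ?_)
    simp only [wd]
    ring
  rw [e, h]
  unfold c1
  have e2 : 2 * (l + m) + 0 + 2 = (2 * (l + m) + 1) + 1 := by ring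
  rw [e2, Nat.factorial_succ (2 * (l + m) + 1), Nat.cast_mul]
  have h2 : (((2 * (l + m) + 1).factorial : ℕ) : ℝ) ≠ 0 := by
    exact_mod_cast (2 * (l + m) + 1).factorial_ne_zero
  generalize (((2 * (l + m) + 1).factorial : ℕ) : ℝ) = F at h2 ⊢
  have e3 : 2 * (l + m) + 0 + 3 = 2 * (l + m) + 3 := by ring
  have e4 : 2 * l + 2 * m + 3 = 2 * (l + m) + 3 := by ring
  rw [e3, e4, div_pow]
  have h5 : (2 : ℝ) ^ (2 * (l + m) + 3) = 4 ^ (l + m) * 8 := by
    rw [pow_add, pow_mul]
    norm_num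
  rw [h5]
  push_cast
  field_simp
  ring

theorem integral_wd (l : ℕ) (α : ℝ) : ∫ x : V3, wd l α x = wm l := by
  have h := integral_wd_mul l 0 α
  simp only [mul_zero, pow_zero, mul_one, add_zero, Nat.cast_zero] at h
  rw [h]
  unfold wm
  ring

theorem integral_wd_mul_norm_sq (l : ℕ) (α : ℝ) :
    ∫ x : V3, wd l α x * ‖x‖ ^ 2 =
      wm l * (((l : ℝ) + 1) ^ 2 * ((l : ℝ) + 2) * (2 * (l : ℝ) + 3) / 2) := by
  have h := integral_norm_pow l 2 α (κ := 2 / ((l : ℝ) + 1)) (by positivity)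
  have e : ∫ x : V3, wd l α x * ‖x‖ ^ 2 =
      ∫ x : V3, ‖lf (av α) x‖ ^ (2 * l) * (‖x‖ ^ 2 * Real.exp (-(2 / ((l : ℝ) + 1)) * ‖x‖)) := by
    refine integral_congr_ae (.of_forall fun x => ?_)
    simp only [wd]
    ring
  rw [e, h]
  unfold c1 wm
  have e2 : 2 * l + 2 + 2 = ((2 * l + 1) + 1 + 1) + 1 := by ring
  rw [e2, Nat.factorial_succ (2 * l + 1 + 1 + 1), Nat.factorial_succ (2 * l + 1 + 1),
    Nat.factorial_succ (2 * l + 1), Nat.cast_mul, Nat.cast_mul, Nat.cast_mul]
  have h2 : (((2 * l + 1).factorial : ℕ) : ℝ) ≠ 0 := by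
    exact_mod_cast (2 * l + 1).factorial_ne_zero
  generalize (((2 * l + 1).factorial : ℕ) : ℝ) = F at h2 ⊢
  rw [div_pow]
  have h5 : (2 : ℝ) ^ (2 * l + 2 + 3) = 4 ^ l * 32 := by
    rw [show 2 * l + 2 + 3 = 2 * l + 5 by ring, pow_add, pow_mul]
    norm_num
  rw [h5]
  push_cast
  field_simp
  ring

end Vale.Agent.P370.GC
end
end

section

section

/-!
Chebyshev bounds for great circle densities.
-/

namespace Vale.Agent.P370.GC

open MeasureTheory Set Metric Module

/-- coordinate normal to the great circle -/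
noncomputable def nu (α : ℝ) (x : V3) : ℝ := -Real.sin α * x 0 + Real.cos α * x 1

/-- horizontal tangential coordinate of the great circle -/
noncomputable def ta (α : ℝ) (x : V3) : ℝ := Real.cos α * x 0 + Real.sin α * x 1

theorem normSq_lf_av' (α : ℝ) (x : V3) : ‖lf (av α) x‖ ^ 2 = x 2 ^ 2 + ta α x ^ 2 :=
  normSq_lf_av α x

theorem norm_sq_eq_add (α : ℝ) (x : V3) : ‖x‖ ^ 2 = ‖lf (av α) x‖ ^ 2 + nu α x ^ 2 := by
  rw [normSq_lf_av, EuclideanSpace.norm_sq_eq, Fin.sum_univ_three]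
  simp only [Real.norm_eq_abs, sq_abs, nu]
  linear_combination (-(x 0 ^ 2) - x 1 ^ 2) * Real.sin_sq_add_cos_sq α

theorem continuous_nu (α : ℝ) : Continuous (nu α) := by
  unfold nu
  fun_prop

theorem continuous_ta (α : ℝ) : Continuous (ta α) := by
  unfold ta
  fun_prop

theorem integral_wd_mul_s2 (l : ℕ) (α : ℝ) :
    ∫ x : V3, wd l α x * ‖lf (av α) x‖ ^ 2 =
      wm l * (((l : ℝ) + 1) ^ 3 * ((l : ℝ) + 2)) := by
  have h := integral_wd_mul l 1 α
  simp only [mul_one] at h
  rw [h]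
  unfold wm
  rw [Nat.factorial_succ]
  push_cast
  ring

theorem integral_wd_mul_s4 (l : ℕ) (α : ℝ) :
    ∫ x : V3, wd l α x * ‖lf (av α) x‖ ^ 4 =
      wm l * (((l : ℝ) + 1) ^ 5 * ((l : ℝ) + 2) ^ 2 * ((l : ℝ) + 3)) := by
  have h := integral_wd_mul l 2 α
  norm_num at h
  rw [h]
  unfold wm
  rw [show l + 2 = (l + 1) + 1 by ring, Nat.factorial_succ, Nat.factorial_succ]
  push_cast
  ring

theorem integral_wd_mul_nu2 (l : ℕ) (α : ℝ) :
    ∫ x : V3, wd l α x * nu α x ^ 2 =
      wm l * (((l : ℝ) + 1) ^ 2 * ((l : ℝ) + 2) / 2) := by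
  have i1 : Integrable (fun x : V3 => wd l α x * ‖x‖ ^ 2) := by
    simpa only [mul_zero, pow_zero, one_mul] using integrable_wd_mul l 0 2 α
  have i2 : Integrable (fun x : V3 => wd l α x * ‖lf (av α) x‖ ^ 2) := by
    simpa only [mul_one, pow_zero] using integrable_wd_mul l 1 0 α
  have e : ∀ x : V3, wd l α x * nu α x ^ 2 =
      wd l α x * ‖x‖ ^ 2 - wd l α x * ‖lf (av α) x‖ ^ 2 := by
    intro x
    rw [norm_sq_eq_add α x]
    ring
  simp only [e]
  rw [integral_sub i1 i2, integral_wd_mul_norm_sq, integral_wd_mul_s2]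
  ring

/-- general Chebyshev inequality against `wd` -/
theorem setIntegral_wd_le (l : ℕ) (α : ℝ) {S : Set V3} (hS : MeasurableSet S) {g : V3 → ℝ}
    (hg : Integrable (fun x => wd l α x * g x)) (hg0 : ∀ x, 0 ≤ g x) {c : ℝ} (hc : 0 < c)
    (h : ∀ x ∈ S, c ≤ g x) :
    ∫ x in S, wd l α x ≤ (∫ x, wd l α x * g x) / c := by
  rw [le_div_iff₀ hc, ← integral_mul_const]
  calc ∫ x in S, wd l α x * c ≤ ∫ x in S, wd l α x * g x := by
        refine setIntegral_mono_on ((integrable_wd l α).mul_const c).integrableOn hg.integrableOn hS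
          fun x hx => ?_
        exact mul_le_mul_of_nonneg_left (h x hx) (wd_nonneg l α x)
    _ ≤ ∫ x, wd l α x * g x := by
        refine setIntegral_le_integral hg (.of_forall fun x => ?_)
        exact mul_nonneg (wd_nonneg l α x) (hg0 x)

/-- mass close to the axis of the circle -/
theorem mass_small_s (l : ℕ) (hl : 1 ≤ l) (α : ℝ) :
    ∫ x in {x : V3 | ‖lf (av α) x‖ ≤ 2 * ((l : ℝ) + 1) ^ 2 / 3}, wd l α x ≤
      wm l * (15 / ((l : ℝ) + 1)) := by
  obtain ⟨n, hn⟩ : ∃ n : ℝ, n = (l : ℝ) + 1 := ⟨_, rfl⟩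
  have hn1 : 2 ≤ n := by rw [hn]; have : (1 : ℝ) ≤ l := by exact_mod_cast hl
                         linarith only [this]
  have hl2 : (l : ℝ) + 2 = n + 1 := by rw [hn]; ring
  have hl3 : (l : ℝ) + 3 = n + 2 := by rw [hn]; ring
  have i0 := integrable_wd l α
  have i2 : Integrable (fun x : V3 => wd l α x * ‖lf (av α) x‖ ^ 2) := by
    simpa only [mul_one, pow_zero] using integrable_wd_mul l 1 0 α
  have i4 : Integrable (fun x : V3 => wd l α x * ‖lf (av α) x‖ ^ 4) := by
    simpa only [Nat.reduceMul, pow_zero, mul_one] using integrable_wd_mul l 2 0 α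
  have hexp : ∀ x : V3, wd l α x * (‖lf (av α) x‖ ^ 2 - n ^ 3 * (n + 1)) ^ 2 =
      wd l α x * ‖lf (av α) x‖ ^ 4 - (2 * (n ^ 3 * (n + 1))) * (wd l α x * ‖lf (av α) x‖ ^ 2)
        + (n ^ 3 * (n + 1)) ^ 2 * wd l α x := by
    intro x
    ring
  have j1 : Integrable (fun x : V3 => wd l α x * ‖lf (av α) x‖ ^ 4 -
      (2 * (n ^ 3 * (n + 1))) * (wd l α x * ‖lf (av α) x‖ ^ 2)) := i4.sub (i2.const_mul _)
  have hint : Integrable (fun x : V3 => wd l α x *
      (‖lf (av α) x‖ ^ 2 - n ^ 3 * (n + 1)) ^ 2) := by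
    simp only [hexp]
    exact j1.add (i0.const_mul _)
  have hval : ∫ x : V3, wd l α x * (‖lf (av α) x‖ ^ 2 - n ^ 3 * (n + 1)) ^ 2 =
      wm l * (2 * n ^ 5 * (n + 1) ^ 2) := by
    simp only [hexp]
    rw [integral_add j1 (i0.const_mul _), integral_sub i4 (i2.const_mul _), integral_const_mul,
      integral_const_mul, integral_wd, integral_wd_mul_s2, integral_wd_mul_s4, hl2, hl3, ← hn]
    ring
  have hS : MeasurableSet {x : V3 | ‖lf (av α) x‖ ≤ 2 * ((l : ℝ) + 1) ^ 2 / 3} :=
    measurableSet_le (by (clear * -; fun_prop)) measurable_const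
  have hc : 0 < 25 * n ^ 8 / 81 := by positivity
  have h := setIntegral_wd_le l α hS hint (fun x => sq_nonneg _) hc (fun x hx => by
    have hx' : ‖lf (av α) x‖ ≤ 2 * n ^ 2 / 3 := by rw [hn]; exact hx
    have h1 : ‖lf (av α) x‖ ^ 2 ≤ 4 * n ^ 4 / 9 := by
      calc ‖lf (av α) x‖ ^ 2 ≤ (2 * n ^ 2 / 3) ^ 2 := by (clear * - hx'; gcongr)
        _ = 4 * n ^ 4 / 9 := by ring
    have h2 : 5 * n ^ 4 / 9 ≤ n ^ 3 * (n + 1) - ‖lf (av α) x‖ ^ 2 := by
      have : 0 ≤ n ^ 3 := by positivity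
      nlinarith only [h1, this]
    calc 25 * n ^ 8 / 81 = (5 * n ^ 4 / 9) ^ 2 := by ring
      _ ≤ (n ^ 3 * (n + 1) - ‖lf (av α) x‖ ^ 2) ^ 2 := by gcongr
      _ = (‖lf (av α) x‖ ^ 2 - n ^ 3 * (n + 1)) ^ 2 := by ring)
  refine h.trans ?_
  rw [hval, mul_div_assoc]
  refine mul_le_mul_of_nonneg_left ?_ (wm_pos l).le
  rw [← hn, div_le_div_iff₀ hc (by positivity)]
  have h5 : (n + 1) ^ 2 ≤ 9 / 4 * n ^ 2 := by nlinarith only [hn1]
  calc 2 * n ^ 5 * (n + 1) ^ 2 * n ≤ 2 * n ^ 5 * (9 / 4 * n ^ 2) * n := by (clear * - h5 hn1; gcongr)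
    _ = 9 / 2 * n ^ 8 := by ring
    _ ≤ 15 * (25 * n ^ 8 / 81) := by
      have : 0 ≤ n ^ 8 := by positivity
      linarith only [hc]

/-- mass far from the plane of the circle -/
theorem mass_large_nu (l : ℕ) (α : ℝ) {θ : ℝ} (hθ : 0 < θ) :
    ∫ x in {x : V3 | θ * ((l : ℝ) + 1) ^ 2 ≤ |nu α x|}, wd l α x ≤
      wm l * (1 / (θ ^ 2 * ((l : ℝ) + 1))) := by
  obtain ⟨n, hn⟩ : ∃ n : ℝ, n = (l : ℝ) + 1 := ⟨_, rfl⟩
  have hn1 : 1 ≤ n := by rw [hn]; have : (0 : ℝ) ≤ l := Nat.cast_nonneg l; linarith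
  have hl2 : (l : ℝ) + 2 = n + 1 := by rw [hn]; ring
  have i1 : Integrable (fun x : V3 => wd l α x * ‖x‖ ^ 2) := by
    simpa only [mul_zero, pow_zero, one_mul] using integrable_wd_mul l 0 2 α
  have i2 : Integrable (fun x : V3 => wd l α x * ‖lf (av α) x‖ ^ 2) := by
    simpa only [mul_one, pow_zero] using integrable_wd_mul l 1 0 α
  have e : ∀ x : V3, wd l α x * nu α x ^ 2 =
      wd l α x * ‖x‖ ^ 2 - wd l α x * ‖lf (av α) x‖ ^ 2 := by
    intro x
    rw [norm_sq_eq_add α x]
    ring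
  have hint : Integrable (fun x : V3 => wd l α x * nu α x ^ 2) := by
    simp only [e]
    exact i1.sub i2
  have hS : MeasurableSet {x : V3 | θ * ((l : ℝ) + 1) ^ 2 ≤ |nu α x|} :=
    measurableSet_le measurable_const ((continuous_nu α).measurable.abs)
  have hc : 0 < (θ * n ^ 2) ^ 2 := by positivity
  have h := setIntegral_wd_le l α hS hint (fun x => sq_nonneg _) hc (fun x hx => by
    have hx' : θ * n ^ 2 ≤ |nu α x| := by rw [hn]; exact hx
    rw [← sq_abs (nu α x)]
    gcongr)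
  refine h.trans ?_
  rw [integral_wd_mul_nu2, mul_div_assoc]
  refine mul_le_mul_of_nonneg_left ?_ (wm_pos l).le
  rw [hl2, ← hn, div_le_div_iff₀ hc (by positivity)]
  have h5 : n + 1 ≤ 2 * n := by linarith only [hn]
  calc n ^ 2 * (n + 1) / 2 * (θ ^ 2 * n) ≤ n ^ 2 * (2 * n) / 2 * (θ ^ 2 * n) := by gcongr
    _ = 1 * (θ * n ^ 2) ^ 2 := by ring

/-- mass far from the origin -/
theorem mass_large_norm (l : ℕ) (α : ℝ) {M : ℝ} (hM : 0 < M) :
    ∫ x in {x : V3 | M * ((l : ℝ) + 1) ^ 2 ≤ ‖x‖}, wd l α x ≤ wm l * (3 / M ^ 2) := by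
  obtain ⟨n, hn⟩ : ∃ n : ℝ, n = (l : ℝ) + 1 := ⟨_, rfl⟩
  have hn1 : 1 ≤ n := by rw [hn]; have : (0 : ℝ) ≤ l := Nat.cast_nonneg l; linarith
  have hl2 : (l : ℝ) + 2 = n + 1 := by rw [hn]; ring
  have hl3 : 2 * (l : ℝ) + 3 = 2 * n + 1 := by rw [hn]; ring
  have i1 : Integrable (fun x : V3 => wd l α x * ‖x‖ ^ 2) := by
    simpa only [mul_zero, pow_zero, one_mul] using integrable_wd_mul l 0 2 α
  have hS : MeasurableSet {x : V3 | M * ((l : ℝ) + 1) ^ 2 ≤ ‖x‖} :=
    measurableSet_le measurable_const measurable_norm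
  have hc : 0 < (M * n ^ 2) ^ 2 := by positivity
  have h := setIntegral_wd_le l α hS i1 (fun x => sq_nonneg _) hc (fun x hx => by
    have hx' : M * n ^ 2 ≤ ‖x‖ := by rw [hn]; exact hx
    (clear * - hM hn1 hx'; gcongr))
  refine h.trans ?_
  rw [integral_wd_mul_norm_sq, mul_div_assoc]
  refine mul_le_mul_of_nonneg_left ?_ (wm_pos l).le
  rw [hl2, hl3, ← hn, div_le_div_iff₀ hc (by positivity)]
  have h5 : n + 1 ≤ 2 * n := by linarith only [hn]
  have h6 : 2 * n + 1 ≤ 3 * n := by linarith only [hn]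
  calc n ^ 2 * (n + 1) * (2 * n + 1) / 2 * M ^ 2 ≤ n ^ 2 * (2 * n) * (3 * n) / 2 * M ^ 2 := by
        (clear * - h5 hn1 h6 hM; gcongr)
    _ = 3 * (M * n ^ 2) ^ 2 := by ring

end Vale.Agent.P370.GC
end
end

section

section

/-!
Translation between the notation of Base.lean and the notation of the GC files.
-/

namespace Vale.Agent.P370.Q

open MeasureTheory Finset ComplexConjugate

theorem cdot_eq_lf (v : C3) (x : R3) : cdot v x = GC.lf v x := by
  rw [GC.lf_apply]
  unfold cdot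
  exact Finset.sum_congr rfl fun k _ => mul_comm _ _

theorem av_eq (α : ℝ) : av α = GC.av α := rfl

theorem cc_eq (v w : C3) : cc v w = GC.dd v w := rfl

theorem two_nf (n : ℕ) (hn : 1 ≤ n) : 2 * nf n = GC.wm (n - 1) := by
  obtain ⟨l, rfl⟩ : ∃ l, n = l + 1 := ⟨n - 1, by omega⟩
  unfold nf GC.wm
  rw [Nat.add_sub_cancel]
  push_cast
  ring

theorem rho0_eq (n : ℕ) (hn : 1 ≤ n) (α : ℝ) (x : R3) :
    rho0 n α x = GC.wd (n - 1) α x / GC.wm (n - 1) := by
  obtain ⟨l, rfl⟩ : ∃ l, n = l + 1 := ⟨n - 1, by omega⟩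
  unfold rho0 GC.wd
  rw [two_nf _ (by omega), cdot_eq_lf, av_eq, Nat.add_sub_cancel]
  congr 3
  push_cast
  ring

theorem nuv_inner (α : ℝ) (x : R3) : inner ℝ (nuv α) x = GC.nu α x := by
  unfold GC.nu
  rw [EuclideanSpace.inner_eq_star_dotProduct]
  simp only [dotProduct, nuv, Pi.star_apply, star_trivial, Fin.sum_univ_three, Fin.isValue, Matrix.cons_val_zero, mul_neg, Matrix.cons_val_one, Matrix.cons_val, mul_zero, add_zero, neg_mul]
  ring

end Vale.Agent.P370.Q
end
end

section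

section

/-!
Overlaps of the site orbitals.
-/

namespace Vale.Agent.P370.Q

open MeasureTheory Finset ComplexConjugate

theorem fsite_eq (n : ℕ) (α : ℝ) (x : R3) :
    fsite n α x = GC.fr (n - 1) α x * Real.exp (-(‖x‖ / n)) := by
  unfold fsite GC.fr
  rw [cdot_eq_lf, av_eq]

theorem site_ov_aux (n : ℕ) (hn : 2 ≤ n) (α β : ℝ) :
    ov (fsite n α) (fsite n β) =
      nf n * (((1 + Real.cos (α - β)) / 2) ^ (n - 1) + ((1 - Real.cos (α - β)) / 2) ^ (n - 1)) := by
  obtain ⟨l, rfl⟩ : ∃ l, n = l + 1 := ⟨n - 1, by (clear * - hn; omega)⟩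
  have h := GC.integral_two l α β (fun r => Real.exp (-(2 / ((l : ℝ) + 1)) * r))
  rw [GC.integral_pow_mul_exp_neg_mul (2 * l + 2) (by (clear * -; positivity) : (0 : ℝ) < 2 / ((l : ℝ) + 1))]
    at h
  have e : ov (fsite (l + 1) α) (fsite (l + 1) β) =
      ∫ x : R3, GC.fr l α x * GC.fr l β x * Real.exp (-(2 / ((l : ℝ) + 1)) * ‖x‖) := by
    unfold ov
    refine integral_congr_ae (.of_forall fun x => ?_)
    simp only [fsite_eq, Nat.add_sub_cancel]
    have e2 : Real.exp (-(2 / ((l : ℝ) + 1)) * ‖x‖) =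
        Real.exp (-(‖x‖ / ((l + 1 : ℕ) : ℝ))) * Real.exp (-(‖x‖ / ((l + 1 : ℕ) : ℝ))) := by
      rw [← Real.exp_add]
      congr 1
      push_cast
      ring
    rw [e2]
    ring
  rw [e, h, Nat.add_sub_cancel]
  have e3 : GC.c2 l * (((2 * l + 2).factorial : ℝ) / (2 / ((l : ℝ) + 1)) ^ (2 * l + 2 + 1)) =
      nf (l + 1) := by
    have e1 : nf (l + 1) = Real.pi / 2 * ((l : ℝ) + 1) ^ (2 * l + 4) * (l.factorial : ℝ) ^ 2 := by
      unfold nf
      rw [Nat.add_sub_cancel]
      push_cast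
      ring
    have e2 : ((2 * l + 2).factorial : ℝ) = (2 * ((l : ℝ) + 1)) *
        ((2 * l + 1).factorial : ℝ) := by
      rw [show 2 * l + 2 = (2 * l + 1) + 1 by ring, Nat.factorial_succ, Nat.cast_mul]
      congr 1
      push_cast
      ring
    have e3 : (2 : ℝ) ^ (2 * l + 2 + 1) = 8 * 4 ^ l := by
      rw [pow_succ, pow_add, pow_mul]
      norm_num
      ring
    unfold GC.c2
    rw [e1, e2, div_pow, e3]
    have hF : (((2 * l + 1).factorial : ℕ) : ℝ) ≠ 0 := by
      exact_mod_cast (2 * l + 1).factorial_ne_zero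
    generalize (((2 * l + 1).factorial : ℕ) : ℝ) = F at hF ⊢
    have h4 : (4 : ℝ) ^ l ≠ 0 := by positivity
    field_simp
    ring
  rw [← e3]
  ring

theorem nf_pos' (n : ℕ) (hn : 1 ≤ n) : 0 < nf n := by
  have : (0 : ℝ) < n := by exact_mod_cast hn
  unfold nf
  positivity

theorem ov_fh (n : ℕ) (hn : 2 ≤ n) (α β : ℝ) :
    ov (fh n α) (fh n β) =
      ((1 + Real.cos (α - β)) / 2) ^ (n - 1) + ((1 - Real.cos (α - β)) / 2) ^ (n - 1) := by
  have h := site_ov_aux n hn α β
  have hnf := nf_pos' n (by omega)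
  have e : ov (fh n α) (fh n β) = ov (fsite n α) (fsite n β) / nf n := by
    unfold ov
    rw [← integral_div]
    refine integral_congr_ae (.of_forall fun x => ?_)
    simp only [fh]
    rw [div_mul_div_comm, Real.mul_self_sqrt hnf.le]
  rw [e, h, mul_comm, mul_div_assoc, div_self hnf.ne', mul_one]

theorem ov_fh_self (n : ℕ) (hn : 2 ≤ n) (α : ℝ) : ov (fh n α) (fh n α) = 1 := by
  rw [ov_fh n hn]
  simp only [sub_self, Real.cos_zero, add_self_div_two, one_pow, zero_div, add_eq_left, pow_eq_zero_iff', ne_eq, true_and]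
  omega

end Vale.Agent.P370.Q
end
end

section

section

/-!
Basic algebra of real qubit states (used by H2): inner product, Pauli operators, gates.
-/

namespace Vale.Agent.P370.H

open Finset

variable {n : ℕ}

/-! ### inner product -/

theorem ip_comm (v w : RSt n) : ip v w = ip w v := by
  unfold ip; exact sum_congr rfl fun x _ => mul_comm _ _

theorem ip_add_left (u v w : RSt n) : ip (u + v) w = ip u w + ip v w := by
  unfold ip; rw [← sum_add_distrib]; exact sum_congr rfl fun x _ => by simp only [Pi.add_apply, add_mul]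

theorem ip_add_right (u v w : RSt n) : ip w (u + v) = ip w u + ip w v := by
  rw [ip_comm, ip_add_left, ip_comm u, ip_comm v]

theorem ip_smul_left (c : ℝ) (v w : RSt n) : ip (c • v) w = c * ip v w := by
  unfold ip; rw [mul_sum]; exact sum_congr rfl fun x _ => by simp [mul_assoc]

theorem ip_smul_right (c : ℝ) (v w : RSt n) : ip v (c • w) = c * ip v w := by
  rw [ip_comm, ip_smul_left, ip_comm]

@[simp] theorem ip_zero_right (v : RSt n) : ip v 0 = 0 := by simp only [ip, Pi.zero_apply, mul_zero, sum_const_zero]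

/-! ### Pauli operators -/

theorem pau_add (P i : ℕ) (v w : RSt n) : pau P i (v + w) = pau P i v + pau P i w := by
  unfold pau
  split_ifs
  · rfl
  · funext x; simp
  · funext x; simp only [Pi.add_apply, mul_add, ite_mul, neg_mul, one_mul]
  · rfl

theorem pau_smul (P i : ℕ) (c : ℝ) (v : RSt n) : pau P i (c • v) = c • pau P i v := by
  unfold pau
  split_ifs
  · rfl
  · funext x; simp
  · funext x; simp only [Pi.smul_apply, smul_eq_mul]; ring
  · rfl

/-! ### gates -/

/-! ### projections -/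

end Vale.Agent.P370.H
end
end

section

section

/-!
The effective energy is the energy of the given Hamiltonian (H8).
-/

namespace Vale.Agent.P370.H

open Finset

variable {n : ℕ}

/-- coefficient of `Z` in the directions -/
noncomputable def glz (a : Fin 3) : ℝ := if a = 0 then 1 else -(1 / 2)

/-- coefficient of `X` in the directions -/
noncomputable def glx (a : Fin 3) : ℝ :=
  if a = 0 then 0 else if a = 1 then √3 / 2 else -(√3 / 2)

/-- the directions on real states -/
noncomputable def gls (a : Fin 3) (b : Fin n) (v : RSt n) : RSt n :=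
  glz a • pau 2 b v + glx a • pau 1 b v

theorem gl_pau2 (b : Fin n) (v : RSt n) (x : Fin n → Bool) :
    pau 2 (b : ℕ) v x = (if x b then -1 else 1) * v x := by
  simp [pau]

theorem gl_pau1 (b : Fin n) (v : RSt n) (x : Fin n → Bool) :
    pau 1 (b : ℕ) v x = v (Function.update x b (!x b)) := by
  simp only [pau, Fin.is_lt, ↓reduceDIte, one_ne_zero, ↓reduceIte, Fin.eta]

theorem gl_gls_apply (a : Fin 3) (b : Fin n) (v : RSt n) (x : Fin n → Bool) :
    gls a b v x = glz a * ((if x b then -1 else 1) * v x) +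
      glx a * v (Function.update x b (!x b)) := by
  have : gls a b v x = glz a * pau 2 (b : ℕ) v x + glx a * pau 1 (b : ℕ) v x := by
    simp only [gls, Pi.add_apply, Pi.smul_apply, smul_eq_mul]
  rw [this, gl_pau2, gl_pau1]

theorem gl_sgm_apply (a : Fin 3) (b : Fin n) (u : (Fin n → Bool) → ℂ) (x : Fin n → Bool) :
    sgm a b u x = (glz a : ℂ) * (((if x b then -1 else 1 : ℝ) : ℂ) * u x) +
      (glx a : ℂ) * u (Function.update x b (!x b)) := by
  unfold sgm glz glx
  split_ifs <;> push_cast <;> ring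

theorem gl_sgm_re (a : Fin 3) (b : Fin n) (u : (Fin n → Bool) → ℂ) :
    (fun x => (sgm a b u x).re) = gls a b (fun x => (u x).re) := by
  funext x
  rw [gl_sgm_apply, gl_gls_apply, Complex.add_re, Complex.re_ofReal_mul, Complex.re_ofReal_mul,
    Complex.re_ofReal_mul]

theorem gl_sgm_im (a : Fin 3) (b : Fin n) (u : (Fin n → Bool) → ℂ) :
    (fun x => (sgm a b u x).im) = gls a b (fun x => (u x).im) := by
  funext x
  rw [gl_sgm_apply, gl_gls_apply, Complex.add_im, Complex.im_ofReal_mul, Complex.im_ofReal_mul,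
    Complex.im_ofReal_mul]

theorem gl_re_sum (u w : (Fin n → Bool) → ℂ) :
    (∑ x, (starRingEnd ℂ) (u x) * w x).re =
      ip (fun x => (u x).re) (fun x => (w x).re) + ip (fun x => (u x).im) (fun x => (w x).im) := by
  rw [Complex.re_sum, ip, ip, ← Finset.sum_add_distrib]
  refine Finset.sum_congr rfl fun x _ => ?_
  rw [Complex.mul_re, Complex.conj_re, Complex.conj_im]
  ring

theorem gl_norm (u : (Fin n → Bool) → ℂ) :
    ∑ x, ‖u x‖ ^ 2 =
      ip (fun x => (u x).re) (fun x => (u x).re) + ip (fun x => (u x).im) (fun x => (u x).im) := by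
  rw [ip, ip, ← Finset.sum_add_distrib]
  refine Finset.sum_congr rfl fun x _ => ?_
  rw [Complex.sq_norm, Complex.normSq_apply]

theorem gl_A (a : Fin 3) (b : Fin n) (u : (Fin n → Bool) → ℂ) :
    (∑ x, (starRingEnd ℂ) (u x) * sgm a b u x).re =
      ip (fun x => (u x).re) (gls a b (fun x => (u x).re)) +
        ip (fun x => (u x).im) (gls a b (fun x => (u x).im)) := by
  rw [gl_re_sum, gl_sgm_re, gl_sgm_im]

theorem gl_B (a a' : Fin 3) (b b' : Fin n) (u : (Fin n → Bool) → ℂ) :
    (∑ x, (starRingEnd ℂ) (u x) * sgm a b (sgm a' b' u) x).re =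
      ip (fun x => (u x).re) (gls a b (gls a' b' (fun x => (u x).re))) +
        ip (fun x => (u x).im) (gls a b (gls a' b' (fun x => (u x).im))) := by
  rw [gl_re_sum, gl_sgm_re, gl_sgm_im, gl_sgm_re, gl_sgm_im]

/-! ### sums over the directions -/

theorem gl_sum_pvR (P : ℕ) : ∑ a : Fin 3, pvR P a = 0 := by
  rw [Fin.sum_univ_three]
  unfold pvR
  simp only [Fin.val_zero, Fin.val_one, Fin.val_two]
  by_cases h2 : P = 2
  · simp only [h2, ↓reduceIte, one_ne_zero, one_div, OfNat.ofNat_ne_zero]; (clear * -; norm_num)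
  · by_cases h1 : P = 1
    · simp only [h1, OfNat.one_ne_ofNat, ↓reduceIte, one_ne_zero, one_div, zero_add, OfNat.ofNat_ne_zero, OfNat.ofNat_ne_one, add_neg_cancel]
    · simp [h1, h2]

theorem gl_sum_gls (b : Fin n) (v : RSt n) : ∑ a : Fin 3, gls a b v = 0 := by
  rw [Fin.sum_univ_three]
  unfold gls glz glx
  simp only [if_true, Fin.isValue, one_ne_zero, if_false]
  simp only [show (2 : Fin 3) ≠ 0 from by decide, if_false, show (2 : Fin 3) ≠ 1 from by decide]
  module

theorem gl_pau_gls (P : ℕ) (hP : P = 1 ∨ P = 2) (b : Fin n) (v : RSt n) :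
    ∑ a : Fin 3, pvR P a • gls a b v = pau P (b : ℕ) v := by
  have h3 : √3 * √3 = 3 := Real.mul_self_sqrt (by norm_num)
  have h0 : √3 ≠ 0 := by positivity
  rw [Fin.sum_univ_three]
  unfold gls glz glx pvR
  simp only [Fin.isValue, Fin.val_zero, if_true, Fin.val_one, one_ne_zero, if_false, Fin.val_two]
  simp only [show (2 : ℕ) ≠ 0 from by decide, if_false, show (2 : ℕ) ≠ 1 from by decide, show (2 : Fin 3) ≠ 0 from by decide, show (2 : Fin 3) ≠ 1 from by decide]
  rcases hP with rfl | rfl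
  · simp only [show (1 : ℕ) ≠ 2 from by decide, if_false, if_true]
    have e : (1 / √3 * (√3 / 2) : ℝ) = 1 / 2 := by field_simp
    match_scalars
    · ring
    · field_simp
      ring
  · simp only [if_true]
    match_scalars <;> ring

/-! ### one list -/

theorem gl_pau_zero (i : ℕ) (v : RSt n) : pau 0 i v = v := by
  simp [pau]

theorem gl_pau_comm (P Q : ℕ) (b b' : Fin n) (h : b ≠ b') (v : RSt n) :
    pau P (b : ℕ) (pau Q (b' : ℕ) v) = pau Q (b' : ℕ) (pau P (b : ℕ) v) := by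
  have h' : b' ≠ b := fun e => h e.symm
  funext x
  simp only [pau, b.isLt, b'.isLt, dif_pos, Fin.eta]
  by_cases hP0 : P = 0
  · simp only [hP0, ↓reduceIte, ite_mul, neg_mul, one_mul]
  · by_cases hQ0 : Q = 0
    · simp only [hQ0, ↓reduceIte, ite_mul, neg_mul, one_mul]
    · by_cases hP1 : P = 1
      · by_cases hQ1 : Q = 1
        · simp only [hP1, one_ne_zero, hQ1, if_true, if_false]
          rw [Function.update_of_ne h', Function.update_of_ne h, Function.update_comm h]
        · simp only [hP1, one_ne_zero, hQ0, hQ1, if_false, if_true]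
          rw [Function.update_of_ne h']
      · by_cases hQ1 : Q = 1
        · simp only [hP1, hQ1, hP0, if_true, one_ne_zero, if_false]
          rw [Function.update_of_ne h]
        · simp only [hP1, hQ1, hP0, hQ0, if_false]
          ring

theorem gl_ip_sum_right {ι : Type*} (S : Finset ι) (f : ι → RSt n) (v : RSt n) :
    ip v (∑ i ∈ S, f i) = ∑ i ∈ S, ip v (f i) := by
  classical
  induction S using Finset.induction_on with
  | empty => simp
  | insert a S ha ih => rw [Finset.sum_insert ha, Finset.sum_insert ha, ip_add_right, ih]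

theorem gl_gls_sum {ι : Type*} (S : Finset ι) (f : ι → RSt n) (a : Fin 3) (b : Fin n) :
    gls a b (∑ i ∈ S, f i) = ∑ i ∈ S, gls a b (f i) := by
  classical
  have h0 : gls a b (0 : RSt n) = 0 := by
    funext x
    rw [gl_gls_apply]
    simp
  have hadd : ∀ v w : RSt n, gls a b (v + w) = gls a b v + gls a b w := by
    intro v w
    unfold gls
    rw [pau_add, pau_add]
    module
  induction S using Finset.induction_on with
  | empty => simp [h0]
  | insert a S ha ih => rw [Finset.sum_insert ha, Finset.sum_insert ha, hadd, ih]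

theorem gl_gls_smul (c : ℝ) (a : Fin 3) (b : Fin n) (v : RSt n) :
    gls a b (c • v) = c • gls a b v := by
  unfold gls
  rw [pau_smul, pau_smul]
  module

theorem gl_one (P : ℕ) (hP : P = 1 ∨ P = 2) (b : Fin n) (v w : RSt n) :
    ∑ a : Fin 3, pvR P a * ip v (gls a b w) = ip v (pau P (b : ℕ) w) := by
  rw [← gl_pau_gls P hP, gl_ip_sum_right]
  refine Finset.sum_congr rfl fun a _ => ?_
  rw [ip_smul_right]

theorem gl_two (P Q : ℕ) (hP : P = 1 ∨ P = 2) (hQ : Q = 1 ∨ Q = 2) (b b' : Fin n) (v : RSt n) :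
    ∑ a : Fin 3, ∑ a' : Fin 3, pvR P a * pvR Q a' * ip v (gls a b (gls a' b' v)) =
      ip v (pau P (b : ℕ) (pau Q (b' : ℕ) v)) := by
  rw [← gl_one P hP]
  refine Finset.sum_congr rfl fun a _ => ?_
  rw [← gl_pau_gls Q hQ, gl_gls_sum, gl_ip_sum_right, Finset.mul_sum]
  refine Finset.sum_congr rfl fun a' _ => ?_
  rw [gl_gls_smul, ip_smul_right]
  ring

/-- the coefficient of one term in `co2` -/
noncomputable def glc2 (t : Tm ℝ) (b b' a a' : ℕ) : ℝ :=
  if t.P = 0 ∨ t.Q = 0 then 0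
    else if t.i = b ∧ t.j = b' then t.c * (pvR t.P a * pvR t.Q a')
    else if t.i = b' ∧ t.j = b then t.c * (pvR t.P a' * pvR t.Q a) else 0

noncomputable def glc1 (t : Tm ℝ) (b a : ℕ) : ℝ :=
  if t.P ≠ 0 ∧ t.Q = 0 ∧ t.i = b then t.c * pvR t.P a else 0

theorem gl_co2_nil (b b' a a' : ℕ) : co2 pvR [] b b' a a' = 0 := by simp only [co2, List.map_nil, List.sum_nil]

theorem gl_co2_cons (t : Tm ℝ) (L : List (Tm ℝ)) (b b' a a' : ℕ) :
    co2 pvR (t :: L) b b' a a' = glc2 t b b' a a' + co2 pvR L b b' a a' := by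
  simp only [co2, glc2, List.map_cons, List.sum_cons]

theorem gl_co1_nil (b a : ℕ) : co1 pvR [] b a = 0 := by simp [co1]

theorem gl_co1_cons (t : Tm ℝ) (L : List (Tm ℝ)) (b a : ℕ) :
    co1 pvR (t :: L) b a = glc1 t b a + co1 pvR L b a := by
  simp only [co1, glc1, List.map_cons, List.sum_cons]

/-- the two-qubit part of the quadratic form -/
noncomputable def glt2 (t : Tm ℝ) (v : RSt n) : ℝ :=
  if t.P = 0 ∨ t.Q = 0 then 0 else t.c * ip v (pau t.P t.i (pau t.Q t.j v))

noncomputable def glt1 (t : Tm ℝ) (v : RSt n) : ℝ :=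
  if t.P ≠ 0 ∧ t.Q = 0 then t.c * ip v (pau t.P t.i v) else 0

theorem gl_sum_ite2 (K : ℝ) (i j : Fin n) :
    ∑ b : Fin n, ∑ b' : Fin n, (if (i : ℕ) = b ∧ (j : ℕ) = b' then K else 0) = K := by
  rw [Finset.sum_eq_single i, Finset.sum_eq_single j]
  · simp
  · intro b _ hb
    rw [if_neg]
    rintro ⟨_, h⟩
    exact hb (Fin.ext h.symm)
  · simp only [mem_univ, not_true_eq_false, and_self, ↓reduceIte, IsEmpty.forall_iff]
  · intro b _ hb
    refine Finset.sum_eq_zero fun b' _ => ?_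
    rw [if_neg]
    rintro ⟨h, _⟩
    exact hb (Fin.ext h.symm)
  · simp only [mem_univ, not_true_eq_false, true_and, IsEmpty.forall_iff]

theorem gl_t2 (t : Tm ℝ) (ht : t.Ok n) (v : RSt n) :
    ∑ b : Fin n, ∑ b' : Fin n, (if b = b' then 0 else
      ∑ a : Fin 3, ∑ a' : Fin 3, glc2 t b b' a a' * ip v (gls a b (gls a' b' v))) =
      2 * glt2 t v := by
  rcases ht with h | h | h
  · have e : ∀ b b' a a' : ℕ, glc2 t b b' a a' = 0 := fun b b' a a' => by
      unfold glc2
      rw [if_pos (Or.inl h.1)]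
    have e2 : glt2 t v = 0 := by
      unfold glt2
      rw [if_pos (Or.inl h.1)]
    simp only [e, zero_mul, sum_const_zero, ite_self, e2, mul_zero]
  · have e : ∀ b b' a a' : ℕ, glc2 t b b' a a' = 0 := fun b b' a a' => by
      unfold glc2
      rw [if_pos (Or.inr h.2.1)]
    have e2 : glt2 t v = 0 := by
      unfold glt2
      rw [if_pos (Or.inr h.2.1)]
    simp only [e, zero_mul, sum_const_zero, ite_self, e2, mul_zero]
  · obtain ⟨hP, hQ, hij, hj⟩ := h
    have hPQ : ¬ (t.P = 0 ∨ t.Q = 0) := by omega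
    have hi : t.i < n := by omega
    set I : Fin n := ⟨t.i, hi⟩ with hI
    set J : Fin n := ⟨t.j, hj⟩ with hJ
    set K : ℝ := t.c * ip v (pau t.P t.i (pau t.Q t.j v)) with hK
    have e2 : glt2 t v = K := by
      unfold glt2
      rw [if_neg hPQ]
    have key : ∀ b b' : Fin n, (if b = b' then (0 : ℝ) else
        ∑ a : Fin 3, ∑ a' : Fin 3, glc2 t b b' a a' * ip v (gls a b (gls a' b' v))) =
        (if (I : ℕ) = b ∧ (J : ℕ) = b' then K else 0) +
          (if (J : ℕ) = b ∧ (I : ℕ) = b' then K else 0) := by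
      intro b b'
      by_cases h1 : t.i = (b : ℕ) ∧ t.j = (b' : ℕ)
      · have hne : b ≠ b' := by
          intro e
          rw [e] at h1
          omega
        have h2 : ¬ (t.j = (b : ℕ) ∧ t.i = (b' : ℕ)) := by (clear * - hij hj hi h1; omega)
        rw [if_neg hne, if_pos h1, if_neg h2, add_zero]
        have : ∀ a a' : Fin 3, glc2 t b b' a a' * ip v (gls a b (gls a' b' v)) =
            t.c * (pvR t.P a * pvR t.Q a' * ip v (gls a b (gls a' b' v))) := by
          intro a a'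
          unfold glc2
          rw [if_neg hPQ, if_pos h1]
          ring
        simp only [this, ← Finset.mul_sum]
        rw [gl_two _ _ hP hQ, hK, ← h1.1, ← h1.2]
      · by_cases h2 : t.i = (b' : ℕ) ∧ t.j = (b : ℕ)
        · have hne : b ≠ b' := by
            intro e
            rw [e] at h2
            omega
          rw [if_neg hne, if_neg h1, if_pos h2.symm, zero_add]
          have : ∀ a a' : Fin 3, glc2 t b b' a a' * ip v (gls a b (gls a' b' v)) =
              t.c * (pvR t.Q a * pvR t.P a' * ip v (gls a b (gls a' b' v))) := by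
            intro a a'
            unfold glc2
            rw [if_neg hPQ, if_neg h1, if_pos h2]
            ring
          simp only [this, ← Finset.mul_sum]
          rw [gl_two _ _ hQ hP, hK, gl_pau_comm _ _ _ _ hne, ← h2.1, ← h2.2]
        · have h3 : ¬ (t.j = (b : ℕ) ∧ t.i = (b' : ℕ)) := fun h => h2 h.symm
          have : ∀ a a' : Fin 3, glc2 t b b' a a' = 0 := by
            intro a a'
            unfold glc2
            rw [if_neg hPQ, if_neg h1, if_neg h2]
          rw [if_neg h1, if_neg h3, add_zero]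
          simp [this]
    simp only [key, Finset.sum_add_distrib]
    rw [gl_sum_ite2 K I J, gl_sum_ite2 K J I, e2]
    ring

theorem gl_t1 (t : Tm ℝ) (ht : t.Ok n) (v : RSt n) :
    ∑ b : Fin n, ∑ a : Fin 3, glc1 t b a * ip v (gls a b v) = glt1 t v := by
  rcases ht with h | h | h
  · have e : ∀ b a : ℕ, glc1 t b a = 0 := fun b a => by
      unfold glc1
      rw [if_neg (by (clear * - h; tauto))]
    have e2 : glt1 t v = 0 := by
      unfold glt1
      rw [if_neg (by tauto)]
    simp only [e, zero_mul, sum_const_zero, e2]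
  · obtain ⟨hP, hQ, hi⟩ := h
    have hP0 : t.P ≠ 0 := by omega
    have e2 : glt1 t v = t.c * ip v (pau t.P t.i v) := by
      unfold glt1
      rw [if_pos ⟨hP0, hQ⟩]
    rw [e2, Finset.sum_eq_single (⟨t.i, hi⟩ : Fin n)]
    · have : ∀ a : Fin 3, glc1 t (⟨t.i, hi⟩ : Fin n) a * ip v (gls a ⟨t.i, hi⟩ v) =
          t.c * (pvR t.P a * ip v (gls a ⟨t.i, hi⟩ v)) := by
        intro a
        unfold glc1
        rw [if_pos ⟨hP0, hQ, rfl⟩]
        ring
      simp only [this, ← Finset.mul_sum]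
      rw [gl_one _ hP]
    · intro b _ hb
      refine Finset.sum_eq_zero fun a _ => ?_
      unfold glc1
      rw [if_neg, zero_mul]
      rintro ⟨_, _, h⟩
      exact hb (Fin.ext h.symm)
    · simp only [mem_univ, not_true_eq_false, IsEmpty.forall_iff]
  · have e : ∀ b a : ℕ, glc1 t b a = 0 := fun b a => by
      unfold glc1
      rw [if_neg (by rintro ⟨_, h1, _⟩; omega)]
    have e2 : glt1 t v = 0 := by
      unfold glt1
      rw [if_neg (by rintro ⟨_, h1⟩; omega)]
    simp only [e, zero_mul, sum_const_zero, e2]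

theorem gl_T2 (L : List (Tm ℝ)) (hok : ∀ t ∈ L, t.Ok n) (v : RSt n) :
    ∑ b : Fin n, ∑ b' : Fin n, (if b = b' then 0 else
      ∑ a : Fin 3, ∑ a' : Fin 3, co2 pvR L b b' a a' * ip v (gls a b (gls a' b' v))) =
      2 * (L.map fun t => glt2 t v).sum := by
  induction L with
  | nil => simp only [gl_co2_nil, zero_mul, sum_const_zero, ite_self, List.map_nil, List.sum_nil, mul_zero]
  | cons t L ih =>
    have hL := ih fun t' ht' => hok t' (List.mem_cons_of_mem _ ht')
    have ht := gl_t2 t (hok t List.mem_cons_self) v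
    rw [List.map_cons, List.sum_cons, mul_add, ← hL, ← ht, ← Finset.sum_add_distrib]
    refine Finset.sum_congr rfl fun b _ => ?_
    rw [← Finset.sum_add_distrib]
    refine Finset.sum_congr rfl fun b' _ => ?_
    split_ifs
    · simp
    · rw [← Finset.sum_add_distrib]
      refine Finset.sum_congr rfl fun a _ => ?_
      rw [← Finset.sum_add_distrib]
      refine Finset.sum_congr rfl fun a' _ => ?_
      rw [gl_co2_cons, add_mul]

theorem gl_T1 (L : List (Tm ℝ)) (hok : ∀ t ∈ L, t.Ok n) (v : RSt n) :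
    ∑ b : Fin n, ∑ a : Fin 3, co1 pvR L b a * ip v (gls a b v) =
      (L.map fun t => glt1 t v).sum := by
  induction L with
  | nil => simp only [gl_co1_nil, zero_mul, sum_const_zero, List.map_nil, List.sum_nil]
  | cons t L ih =>
    have hL := ih fun t' ht' => hok t' (List.mem_cons_of_mem _ ht')
    have ht := gl_t1 t (hok t List.mem_cons_self) v
    rw [List.map_cons, List.sum_cons, ← hL, ← ht, ← Finset.sum_add_distrib]
    refine Finset.sum_congr rfl fun b _ => ?_
    rw [← Finset.sum_add_distrib]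
    refine Finset.sum_congr rfl fun a _ => ?_
    rw [gl_co1_cons, add_mul]

theorem gl_T0 (L : List (Tm ℝ)) (hok : ∀ t ∈ L, t.Ok n) (v : RSt n) :
    tform L v = (L.map fun t => glt2 t v).sum + (L.map fun t => glt1 t v).sum +
      co0 L * ip v v := by
  induction L with
  | nil => simp [tform, co0]
  | cons t L ih =>
    have hL := ih fun t' ht' => hok t' (List.mem_cons_of_mem _ ht')
    have e0 : tform (t :: L) v = t.c * ip v (pau t.P t.i (pau t.Q t.j v)) + tform L v := by
      simp only [tform, List.map_cons, List.sum_cons]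
    have e1 : co0 (t :: L) = (if t.P = 0 then t.c else 0) + co0 L := by
      simp only [co0, List.map_cons, List.sum_cons]
    rw [e0, e1, hL, List.map_cons, List.sum_cons, List.map_cons, List.sum_cons]
    have key : t.c * ip v (pau t.P t.i (pau t.Q t.j v)) =
        glt2 t v + glt1 t v + (if t.P = 0 then t.c else 0) * ip v v := by
      rcases hok t List.mem_cons_self with h | h | h
      · unfold glt2 glt1
        rw [if_pos (Or.inl h.1), if_neg (by (clear * - ih h; tauto)), if_pos h.1, h.1, h.2, gl_pau_zero,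
          gl_pau_zero]
        ring
      · have h0 : t.P ≠ 0 := by omega
        unfold glt2 glt1
        rw [if_pos (Or.inr h.2.1), if_pos ⟨h0, h.2.1⟩, if_neg h0, h.2.1, gl_pau_zero]
        ring
      · have h0 : t.P ≠ 0 := by omega
        have h1 : t.Q ≠ 0 := by omega
        unfold glt2 glt1
        rw [if_neg (by (clear * - ih h h0 h1; tauto)), if_neg (by (clear * - ih h h1; tauto)), if_neg h0]
        ring
    rw [key]
    ring

/-! ### the constants -/

theorem gl_sum_co2 (L : List (Tm ℝ)) (b b' a : ℕ) :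
    ∑ a' : Fin 3, co2 pvR L b b' a a' = 0 := by
  induction L with
  | nil => simp [gl_co2_nil]
  | cons t L ih =>
    simp only [gl_co2_cons, Finset.sum_add_distrib, ih, add_zero]
    unfold glc2
    split_ifs
    · simp
    · rw [← Finset.mul_sum, ← Finset.mul_sum, gl_sum_pvR, mul_zero, mul_zero]
    · rw [← Finset.mul_sum, ← Finset.sum_mul, gl_sum_pvR, zero_mul, mul_zero]
    · simp

theorem gl_sum_co1 (L : List (Tm ℝ)) (b : ℕ) : ∑ a : Fin 3, co1 pvR L b a = 0 := by
  induction L with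
  | nil => simp [gl_co1_nil]
  | cons t L ih =>
    simp only [gl_co1_cons, Finset.sum_add_distrib, ih, add_zero]
    unfold glc1
    split_ifs
    · rw [← Finset.mul_sum, gl_sum_pvR, mul_zero]
    · simp

theorem gl_inner (c : Fin 3 → Fin 3 → ℝ) (A : Fin 3 → ℝ) (Bf : Fin 3 → Fin 3 → ℝ) (N s C : ℝ)
    (hA : ∑ a, A a = 0) (hB : ∑ a, ∑ a', Bf a a' = 0) (hc : ∀ a, ∑ a', c a a' = 0) :
    ∑ a, ∑ a', 1 / 2 * (1 - c a a' / C) * s ^ 3 *
      (1 / 96 * N + 1 / 24 * A a + 1 / 24 * Bf a a') =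
      3 / 64 * s ^ 3 * N - s ^ 3 / (48 * C) * ∑ a, ∑ a', c a a' * Bf a a' := by
  have h0 := hc 0
  have h1 := hc 1
  have h2 := hc 2
  simp only [Fin.sum_univ_three] at h0 h1 h2 hA hB ⊢
  have e : s ^ 3 / (48 * C) = s ^ 3 * C⁻¹ / 48 := by
    rw [div_eq_mul_inv, mul_inv]
    ring
  simp only [e, div_eq_mul_inv]
  generalize C⁻¹ = D
  linear_combination (s ^ 3 / 16) * hA + (s ^ 3 / 48) * hB -
    (s ^ 3 * D / 2) * ((1 / 96) * N * (h0 + h1 + h2) +
      (1 / 24) * (A 0 * h0 + A 1 * h1 + A 2 * h2))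

theorem gl_count (x : ℝ) :
    ∑ b : Fin n, ∑ b' : Fin n, (if b = b' then 0 else x) = n * (n - 1) * x := by
  have : ∀ b : Fin n, ∑ b' : Fin n, (if b = b' then 0 else x) = (n - 1) * x := by
    intro b
    have h1 : ∑ b' : Fin n, (if b = b' then 0 else x) =
        ∑ b' : Fin n, (x - (if b = b' then x else 0)) := by
      refine Finset.sum_congr rfl fun b' _ => ?_
      split_ifs <;> ring
    rw [h1, Finset.sum_sub_distrib, Finset.sum_ite_eq, if_pos (Finset.mem_univ _)]
    simp only [sum_const, card_univ, Fintype.card_fin, nsmul_eq_mul]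
    ring
  simp only [this]
  simp only [sum_const, card_univ, Fintype.card_fin, nsmul_eq_mul]
  ring

/-- the energy of a real state -/
theorem gl_real (L : List (Tm ℝ)) (hok : ∀ t ∈ L, t.Ok n) (C s : ℝ) (v : RSt n) :
    (∑ b : Fin n, ∑ b' : Fin n, if b = b' then 0 else
      (3 / 64 * s ^ 4 * ip v v +
      ∑ a : Fin 3, ∑ a' : Fin 3, tR C L b b' a a' * s ^ 3 *
        (1 / 96 * ip v v + 1 / 24 * ip v (gls a b v) +
          1 / 24 * ip v (gls a b (gls a' b' v))))) +
    ∑ b : Fin n, ∑ a : Fin 3, dR C s L b a * (1 / 4 * ip v v + 1 / 2 * ip v (gls a b v)) =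
    3 / 64 * (s ^ 4 + s ^ 3) * n * (n - 1) * ip v v -
      s ^ 3 / (24 * C) * (tform L v - co0 L * ip v v) := by
  have hA : ∀ b : Fin n, ∑ a : Fin 3, ip v (gls a b v) = 0 := by
    intro b
    rw [← gl_ip_sum_right, gl_sum_gls, ip_zero_right]
  have hB : ∀ b b' : Fin n, ∑ a : Fin 3, ∑ a' : Fin 3, ip v (gls a b (gls a' b' v)) = 0 := by
    intro b b'
    rw [Finset.sum_comm]
    refine Finset.sum_eq_zero fun a' _ => ?_
    rw [← gl_ip_sum_right, gl_sum_gls, ip_zero_right]
  have h1 : ∀ b b' : Fin n, (if b = b' then (0 : ℝ) else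
      (3 / 64 * s ^ 4 * ip v v +
      ∑ a : Fin 3, ∑ a' : Fin 3, tR C L b b' a a' * s ^ 3 *
        (1 / 96 * ip v v + 1 / 24 * ip v (gls a b v) +
          1 / 24 * ip v (gls a b (gls a' b' v))))) =
      (if b = b' then 0 else 3 / 64 * (s ^ 4 + s ^ 3) * ip v v) -
        s ^ 3 / (48 * C) * (if b = b' then 0 else
          ∑ a : Fin 3, ∑ a' : Fin 3, co2 pvR L b b' a a' * ip v (gls a b (gls a' b' v))) := by
    intro b b'
    by_cases h : b = b'
    · simp [h]
    · rw [if_neg h, if_neg h, if_neg h]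
      unfold tR
      rw [gl_inner (fun a a' => co2 pvR L b b' a a') (fun a => ip v (gls a b v))
        (fun a a' => ip v (gls a b (gls a' b' v))) (ip v v) s C (hA b) (hB b b')
        (fun a => gl_sum_co2 L b b' a)]
      ring
  have h2 : ∀ b : Fin n, ∑ a : Fin 3, dR C s L b a * (1 / 4 * ip v v + 1 / 2 * ip v (gls a b v)) =
      -(s ^ 3 / (24 * C)) * ∑ a : Fin 3, co1 pvR L b a * ip v (gls a b v) := by
    intro b
    have h3 := gl_sum_co1 L b
    rw [Finset.mul_sum]
    have h4 : ∑ a : Fin 3, dR C s L b a * (1 / 4 * ip v v + 1 / 2 * ip v (gls a b v)) =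
        ∑ a : Fin 3, (-(s ^ 3 / (24 * C)) * (co1 pvR L b a * ip v (gls a b v)) +
          (-(s ^ 3 / (12 * C)) * (1 / 4 * ip v v)) * co1 pvR L b a) := by
      refine Finset.sum_congr rfl fun a _ => ?_
      unfold dR
      have e1 : s ^ 3 / (24 * C) = s ^ 3 * C⁻¹ / 24 := by
        rw [div_eq_mul_inv, mul_inv]
        ring
      have e2 : s ^ 3 / (12 * C) = s ^ 3 * C⁻¹ / 12 := by
        rw [div_eq_mul_inv, mul_inv]
        ring
      rw [e1, e2]
      ring
    rw [h4, Finset.sum_add_distrib, ← Finset.mul_sum (a := (-(s ^ 3 / (12 * C)) *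
      (1 / 4 * ip v v))), h3, mul_zero, add_zero]
  simp only [h1, h2, Finset.sum_sub_distrib, ← Finset.mul_sum]
  rw [gl_count, gl_T2 L hok, gl_T1 L hok, gl_T0 L hok]
  have e1 : s ^ 3 / (24 * C) = s ^ 3 * C⁻¹ / 24 := by
    rw [div_eq_mul_inv, mul_inv]
    ring
  have e2 : s ^ 3 / (48 * C) = s ^ 3 * C⁻¹ / 48 := by
    rw [div_eq_mul_inv, mul_inv]
    ring
  rw [e1, e2]
  ring

theorem teff_eq (L : List (Tm ℝ)) (hok : ∀ t ∈ L, t.Ok n) (C s : ℝ) (hC : 0 < C)
    (u : (Fin n → Bool) → ℂ) :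
    teff s (tR C L) (dR C s L) u =
      -(3 / 2 * s ^ 10 * n + 3 / 64 * (s ^ 4 + s ^ 3) * n * (n - 1)) * (∑ x, ‖u x‖ ^ 2) +
      s ^ 3 / (24 * C) * (tform L (fun x => (u x).re) + tform L (fun x => (u x).im) -
        co0 L * ∑ x, ‖u x‖ ^ 2) := by
  have hr := gl_real L hok C s (fun x => (u x).re)
  have hi := gl_real L hok C s (fun x => (u x).im)
  unfold teff
  simp only [gl_A, gl_B, gl_norm, Fintype.card_fin]
  have h1 : (∑ b : Fin n, ∑ b' : Fin n, if b = b' then (0 : ℝ) else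
      (3 / 64 * s ^ 4 * (ip (fun x => (u x).re) (fun x => (u x).re) +
        ip (fun x => (u x).im) (fun x => (u x).im)) +
      ∑ a : Fin 3, ∑ a' : Fin 3, tR C L b b' a a' * s ^ 3 *
        (1 / 96 * (ip (fun x => (u x).re) (fun x => (u x).re) +
        ip (fun x => (u x).im) (fun x => (u x).im)) +
          1 / 24 * (ip (fun x => (u x).re) (gls a b (fun x => (u x).re)) +
            ip (fun x => (u x).im) (gls a b (fun x => (u x).im))) +
          1 / 24 * (ip (fun x => (u x).re) (gls a b (gls a' b' (fun x => (u x).re))) +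
            ip (fun x => (u x).im) (gls a b (gls a' b' (fun x => (u x).im))))))) =
      (∑ b : Fin n, ∑ b' : Fin n, if b = b' then (0 : ℝ) else
      (3 / 64 * s ^ 4 * ip (fun x => (u x).re) (fun x => (u x).re) +
      ∑ a : Fin 3, ∑ a' : Fin 3, tR C L b b' a a' * s ^ 3 *
        (1 / 96 * ip (fun x => (u x).re) (fun x => (u x).re) +
          1 / 24 * ip (fun x => (u x).re) (gls a b (fun x => (u x).re)) +
          1 / 24 * ip (fun x => (u x).re) (gls a b (gls a' b' (fun x => (u x).re)))))) +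
      (∑ b : Fin n, ∑ b' : Fin n, if b = b' then (0 : ℝ) else
      (3 / 64 * s ^ 4 * ip (fun x => (u x).im) (fun x => (u x).im) +
      ∑ a : Fin 3, ∑ a' : Fin 3, tR C L b b' a a' * s ^ 3 *
        (1 / 96 * ip (fun x => (u x).im) (fun x => (u x).im) +
          1 / 24 * ip (fun x => (u x).im) (gls a b (fun x => (u x).im)) +
          1 / 24 * ip (fun x => (u x).im) (gls a b (gls a' b' (fun x => (u x).im)))))) := by
    rw [← Finset.sum_add_distrib]
    refine Finset.sum_congr rfl fun b _ => ?_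
    rw [← Finset.sum_add_distrib]
    refine Finset.sum_congr rfl fun b' _ => ?_
    by_cases h : b = b'
    · simp [h]
    · rw [if_neg h, if_neg h, if_neg h]
      rw [add_add_add_comm, ← mul_add, ← Finset.sum_add_distrib]
      congr 1
      refine Finset.sum_congr rfl fun a _ => ?_
      rw [← Finset.sum_add_distrib]
      refine Finset.sum_congr rfl fun a' _ => ?_
      ring
  have h2 : (∑ b : Fin n, ∑ a : Fin 3, dR C s L b a *
      (1 / 4 * (ip (fun x => (u x).re) (fun x => (u x).re) +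
        ip (fun x => (u x).im) (fun x => (u x).im)) +
        1 / 2 * (ip (fun x => (u x).re) (gls a b (fun x => (u x).re)) +
            ip (fun x => (u x).im) (gls a b (fun x => (u x).im))))) =
      (∑ b : Fin n, ∑ a : Fin 3, dR C s L b a *
        (1 / 4 * ip (fun x => (u x).re) (fun x => (u x).re) +
          1 / 2 * ip (fun x => (u x).re) (gls a b (fun x => (u x).re)))) +
      (∑ b : Fin n, ∑ a : Fin 3, dR C s L b a *
        (1 / 4 * ip (fun x => (u x).im) (fun x => (u x).im) +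
          1 / 2 * ip (fun x => (u x).im) (gls a b (fun x => (u x).im)))) := by
    rw [← Finset.sum_add_distrib]
    refine Finset.sum_congr rfl fun b _ => ?_
    rw [← Finset.sum_add_distrib]
    refine Finset.sum_congr rfl fun a _ => ?_
    ring
  rw [h1, h2]
  linear_combination -hr - hi

/-! ### bounds -/

theorem gl_abs_pvR (P a : ℕ) : |pvR P a| ≤ 2 / 3 := by
  have h3 : √3 * √3 = 3 := Real.mul_self_sqrt (by norm_num)
  have h0 : 0 < √3 := by positivity
  have h1 : 3 / 2 ≤ √3 := by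
    rw [Real.le_sqrt' (by norm_num)]
    norm_num
  have h4 : |1 / √3| ≤ 2 / 3 := by
    rw [abs_of_pos (by positivity), div_le_div_iff₀ h0 (by norm_num)]
    linarith only [h1]
  unfold pvR
  split_ifs
  · rw [abs_of_pos (by norm_num)]
  · rw [abs_neg, abs_of_pos (by norm_num)]
    norm_num
  · rw [abs_zero]
    norm_num
  · exact h4
  · rw [abs_neg]
    exact h4
  · rw [abs_zero]
    norm_num

theorem gl_abs_pp (P a Q a' : ℕ) : |pvR P a * pvR Q a'| ≤ 1 := by
  rw [abs_mul]
  calc |pvR P a| * |pvR Q a'| ≤ (2 / 3) * (2 / 3) :=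
        mul_le_mul (gl_abs_pvR P a) (gl_abs_pvR Q a') (abs_nonneg _) (by norm_num)
    _ ≤ 1 := by norm_num

theorem gl_abs_co2 (L : List (Tm ℝ)) (b b' a a' : ℕ) : |co2 pvR L b b' a a'| ≤ tabs L := by
  induction L with
  | nil => simp only [gl_co2_nil, abs_zero, tabs, List.map_nil, List.sum_nil, Std.le_refl]
  | cons t L ih =>
    have e : tabs (t :: L) = |t.c| + tabs L := by simp only [tabs, List.map_cons, List.sum_cons]
    rw [gl_co2_cons, e]
    refine (abs_add_le _ _).trans (add_le_add ?_ ih)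
    unfold glc2
    split_ifs
    · rw [abs_zero]
      exact abs_nonneg _
    · rw [abs_mul]
      exact mul_le_of_le_one_right (abs_nonneg _) (gl_abs_pp _ _ _ _)
    · rw [abs_mul]
      exact mul_le_of_le_one_right (abs_nonneg _) (gl_abs_pp _ _ _ _)
    · rw [abs_zero]
      exact abs_nonneg _

theorem gl_abs_co1 (L : List (Tm ℝ)) (b a : ℕ) : |co1 pvR L b a| ≤ tabs L := by
  induction L with
  | nil => simp [gl_co1_nil, tabs]
  | cons t L ih =>
    have e : tabs (t :: L) = |t.c| + tabs L := by simp only [tabs, List.map_cons, List.sum_cons]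
    rw [gl_co1_cons, e]
    refine (abs_add_le _ _).trans (add_le_add ?_ ih)
    unfold glc1
    split_ifs
    · rw [abs_mul]
      exact mul_le_of_le_one_right (abs_nonneg _) ((gl_abs_pvR _ _).trans (by norm_num))
    · rw [abs_zero]
      exact abs_nonneg _

theorem tR_nonneg (L : List (Tm ℝ)) (hok : ∀ t ∈ L, t.Ok n) (C : ℝ) (hC : 0 < C)
    (hL : tabs L ≤ C) (b b' : Fin n) (a a' : Fin 3) : 0 ≤ tR C L b b' a a' := by
  have h := abs_le.1 ((gl_abs_co2 L b b' a a').trans hL)
  have h1 : co2 pvR L b b' a a' / C ≤ 1 := (div_le_one hC).2 h.2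
  unfold tR
  linarith only [h1]

theorem tR_le_one (L : List (Tm ℝ)) (hok : ∀ t ∈ L, t.Ok n) (C : ℝ) (hC : 0 < C)
    (hL : tabs L ≤ C) (b b' : Fin n) (a a' : Fin 3) : tR C L b b' a a' ≤ 1 := by
  have h := abs_le.1 ((gl_abs_co2 L b b' a a').trans hL)
  have h1 : -1 ≤ co2 pvR L b b' a a' / C := (le_div_iff₀ hC).2 (by linarith only [h])
  unfold tR
  linarith

theorem gl_co2_symm (L : List (Tm ℝ)) (hok : ∀ t ∈ L, t.Ok n) (b b' a a' : ℕ) :
    co2 pvR L b b' a a' = co2 pvR L b' b a' a := by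
  induction L with
  | nil => simp [gl_co2_nil]
  | cons t L ih =>
    rw [gl_co2_cons, gl_co2_cons, ih fun t' ht' => hok t' (List.mem_cons_of_mem _ ht')]
    congr 1
    have ht := hok t List.mem_cons_self
    unfold glc2
    by_cases h0 : t.P = 0 ∨ t.Q = 0
    · rw [if_pos h0, if_pos h0]
    · rw [if_neg h0, if_neg h0]
      have hij : t.i < t.j := by
        rcases ht with h | h | h
        · exact absurd (Or.inl h.1) h0
        · exact absurd (Or.inr h.2.1) h0
        · exact h.2.2.1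
      by_cases h1 : t.i = b ∧ t.j = b'
      · have h2 : ¬ (t.i = b' ∧ t.j = b) := by omega
        rw [if_pos h1, if_neg h2, if_pos h1]
      · by_cases h2 : t.i = b' ∧ t.j = b
        · rw [if_neg h1, if_pos h2, if_pos h2]
        · rw [if_neg h1, if_neg h2, if_neg h2, if_neg h1]

theorem tR_symm (L : List (Tm ℝ)) (hok : ∀ t ∈ L, t.Ok n) (C : ℝ) (b b' : Fin n)
    (a a' : Fin 3) : tR C L b b' a a' = tR C L b' b a' a := by
  unfold tR
  rw [gl_co2_symm L hok]

theorem abs_dR_le (L : List (Tm ℝ)) (hok : ∀ t ∈ L, t.Ok n) (C s : ℝ) (hC : 0 < C) (hs : 0 ≤ s)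
    (hL : tabs L ≤ C) (b : Fin n) (a : Fin 3) : |dR C s L b a| ≤ s ^ 3 := by
  have h := (gl_abs_co1 L b a).trans hL
  have hs3 : 0 ≤ s ^ 3 := by (clear * - hs; positivity)
  unfold dR
  rw [abs_mul, abs_neg, abs_of_nonneg (by positivity)]
  calc s ^ 3 / (12 * C) * |co1 pvR L b a| ≤ s ^ 3 / (12 * C) * C :=
        mul_le_mul_of_nonneg_left h (by positivity)
    _ = s ^ 3 / 12 := by (clear * - hC; field_simp)
    _ ≤ s ^ 3 := by linarith only [hs3]

end Vale.Agent.P370.H
end
end

section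

section

/-!
Half-filled Mott insulator, lower bound.
-/

namespace Vale.Agent.P370.Q

open MeasureTheory Finset ComplexConjugate

open Mott in
theorem mott_lower {K : ℕ} {h W t : Fin K → Fin K → ℝ}
    {v : Fin K → Fin K → Fin K → Fin K → ℝ} {ε0 w0 w1 u τ δ : ℝ}
    (H : MottHyp K h W t v ε0 w0 w1 u τ δ) (c : Tens K (Fin K × Fin 2)) (hc : IsAnti c) :
    (mottBase W ε0 - heisMax (mottJ W t w0) - 8 * K ^ 4 * (τ ^ 3 / u ^ 2 + δ)) * nsq c
      ≤ enT h v c := by
  have hu := H.u_pos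
  have hK : (2 : ℝ) ≤ K := by exact_mod_cast H.two_le
  have hτ : 0 ≤ τ := (abs_nonneg _).trans (H.t_le ⟨0, by have := H.two_le; omega⟩
    ⟨0, by have := H.two_le; omega⟩)
  set C := toFam c with hC
  have hCa : FAnti C := toFam_anti hc
  set a : ℝ := (K : ℝ) ^ 2 * τ with ha
  have ha0 : 0 ≤ a := by (clear * - hK hτ; positivity)
  have hau : a ≤ u / 2 := H.τ_le
  set t' : Fin K → Fin K → ℝ := fun i j => t i j / (w0 - W i j - a) with ht'
  set φ := C id with hφ
  have herr := enT_error H c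
  have hnsq : nsq c = ∑ ρ, spinNsq (C ρ) := nsq_split c
  -- energy decomposition
  have hsplit := en0_split H C
  have hqq : -(a * ∑ ρ, spinNsq (bq C ρ)) ≤ ∑ ρ, rp (bq C ρ) (hop t (bq C) ρ) :=
    (abs_le.1 (hop_bound H.t_le (bq C))).1
  -- completing the square
  have hpt : ∀ ρ, -rp (hop t' (bp C) ρ) (hop t (bp C) ρ) ≤
      (ws W ρ - ws W id - a) * spinNsq (bq C ρ) + 2 * rp (bq C ρ) (hop t (bp C) ρ) := by
    intro ρ
    have h1 := hop_res H (a := a) (by linarith only [hu, hau]) C ρ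
    rw [h1, rp_smul_right, rp_smul_right]
    change -((ws W ρ - ws W id - a) * rp (hop t' (bp C) ρ) (hop t' (bp C) ρ)) ≤
      (ws W ρ - ws W id - a) * spinNsq (bq C ρ) + 2 * ((ws W ρ - ws W id - a) *
        rp (bq C ρ) (hop t' (bp C) ρ))
    rw [rp_self]
    have h2 : 0 ≤ (ws W ρ - ws W id - a) * spinNsq (bq C ρ + hop t' (bp C) ρ) := by
      by_cases hρ : Function.Bijective ρ
      · have e1 : bq C ρ = 0 := if_pos hρ
        have e2 : hop t' (bp C) ρ = 0 :=
          hop_bp_bij t' (fun i => by simp only [ht', H.t_diag, zero_div]) C hρ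
        rw [e1, e2, add_zero, spinNsq_zero, mul_zero]
      · by_cases hz : (bq C + hop t' (bp C)) ρ = 0
        · have e1 : bq C ρ + hop t' (bp C) ρ = 0 := hz
          rw [e1, spinNsq_zero, mul_zero]
        · have hanti : FAnti (bq C + hop t' (bp C)) := by
            intro g ρ s
            rw [Pi.add_apply, Pi.add_apply, Pi.add_apply, Pi.add_apply, bq_anti hCa g,
              hop_anti t' (bp_anti hCa) g]
            ring
          have h3 := ws_gap H hanti hρ hz
          exact mul_nonneg (by (clear * - hu hau h3; linarith)) (spinNsq_nonneg _)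
    rw [spinNsq_add] at h2
    linarith only [h2]
  have hsum := sum_le_sum (s := univ) fun ρ (_ : ρ ∈ univ) => hpt ρ
  rw [sum_neg_distrib, second_order (t₁ := t') (t₂ := t)
    (fun i j => by simp only [ht', H.t_symm i j, H.W_symm i j]) H.t_symm
    (fun i => by simp only [ht', H.t_diag, zero_div]) hCa, sum_add_distrib] at hsum
  have hsub : ∑ ρ, (ws W ρ - ws W id - a) * spinNsq (bq C ρ) =
      ∑ ρ, (ws W ρ - ws W id) * spinNsq (bq C ρ) - a * ∑ ρ, spinNsq (bq C ρ) := by
    rw [mul_sum, ← sum_sub_distrib]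
    exact sum_congr rfl fun ρ _ => by ring
  rw [hsub, ← mul_sum] at hsum
  -- comparison with the Heisenberg form
  have hcmp : ∑ i, ∑ j, t' i j * t i j * sw φ i j ≤ heisE (mottJ W t w0) φ +
      4 * K ^ 4 * (τ ^ 3 / u ^ 2) * spinNsq φ := by
    have h1 : ∀ i j, t' i j * t i j * sw φ i j ≤ t i j ^ 2 / (w0 - W i j) * sw φ i j +
        4 * (K : ℝ) ^ 2 * (τ ^ 3 / u ^ 2) * spinNsq φ := by
      intro i j
      have hs := sw_bounds φ i j
      have hS := spinNsq_nonneg φ
      by_cases hij : i = j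
      · subst hij
        rw [H.t_diag]
        have : 0 ≤ 4 * (K : ℝ) ^ 2 * (τ ^ 3 / u ^ 2) * spinNsq φ := by (clear * - hK hτ hu hS; positivity)
        simpa only [mul_zero, zero_mul, ne_eq, OfNat.ofNat_ne_zero, not_false_eq_true, zero_pow, zero_div, zero_add,     ge_iff_le] using this
      · have hU := u_le H hij
        have htt : t i j ^ 2 ≤ τ ^ 2 := by
          rw [← sq_abs]
          exact pow_le_pow_left₀ (abs_nonneg _) (H.t_le i j) 2
        set U := w0 - W i j with hUd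
        have hUa : 0 < U - a := by linarith only [hu, hau, hU]
        have hU0 : 0 < U := by linarith only [hu, hU]
        have h2 : t' i j * t i j ≤ t i j ^ 2 / U + 2 * (K : ℝ) ^ 2 * (τ ^ 3 / u ^ 2) := by
          have e1 : t' i j * t i j = t i j ^ 2 / U + t i j ^ 2 * (a / (U * (U - a))) := by
            change t i j / (U - a) * t i j = _
            field_simp
            ring
          have e2 : a / (U * (U - a)) ≤ a / (u * (u / 2)) := by
            apply div_le_div_of_nonneg_left ha0 (by positivity)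
            exact mul_le_mul hU (by linarith only [hau, hU]) (by positivity) hU0.le
          have e3 : t i j ^ 2 * (a / (U * (U - a))) ≤ τ ^ 2 * (a / (u * (u / 2))) :=
            mul_le_mul htt e2 (by (clear * - hK hτ hU0 hUa; positivity)) (by (clear * -; positivity))
          have e4 : τ ^ 2 * (a / (u * (u / 2))) = 2 * (K : ℝ) ^ 2 * (τ ^ 3 / u ^ 2) := by
            rw [ha]
            (clear * - hu hK; field_simp)
          rw [e1]
          linarith only [e3, e4]
        calc t' i j * t i j * sw φ i j ≤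
            (t i j ^ 2 / U + 2 * (K : ℝ) ^ 2 * (τ ^ 3 / u ^ 2)) * sw φ i j :=
              mul_le_mul_of_nonneg_right h2 hs.1
          _ = t i j ^ 2 / U * sw φ i j + 2 * (K : ℝ) ^ 2 * (τ ^ 3 / u ^ 2) * sw φ i j := by ring
          _ ≤ _ := by
            have : 2 * (K : ℝ) ^ 2 * (τ ^ 3 / u ^ 2) * sw φ i j ≤
                2 * (K : ℝ) ^ 2 * (τ ^ 3 / u ^ 2) * (2 * spinNsq φ) :=
              mul_le_mul_of_nonneg_left hs.2 (by (clear * - hK hτ hu; positivity))
            linarith only [this]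
    refine (sum_le_sum fun i _ => sum_le_sum fun j _ => h1 i j).trans (le_of_eq ?_)
    simp only [sum_add_distrib, mottJ_form H.W_symm H.t_symm H.t_diag]
    simp only [sum_const, card_univ, Fintype.card_fin, nsmul_eq_mul, add_right_inj]
    ring
  have hJ : 0 ≤ heisMax (mottJ W t w0) := heisMax_nonneg fun i j hij => by
    have := u_le H hij.ne
    unfold mottJ
    exact div_nonneg (by (clear * -; positivity)) (by linarith only [hu, this])
  have hmax := heisE_le_max (mottJ W t w0) φ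
  have hB := sum_bp_sq hCa
  have hBC : ∑ ρ, spinNsq (bp C ρ) ≤ ∑ ρ, spinNsq (C ρ) := by
    refine sum_le_sum fun ρ _ => ?_
    unfold bp
    split_ifs
    · exact le_rfl
    · rw [spinNsq_zero]
      exact spinNsq_nonneg _
  have hnB : (0 : ℝ) ≤ nB K := Nat.cast_nonneg _
  have h7 : (nB K : ℝ) * ∑ i, ∑ j, t' i j * t i j * sw φ i j ≤
      (heisMax (mottJ W t w0) + 4 * K ^ 4 * (τ ^ 3 / u ^ 2)) * nsq c := by
    have h8 : ∑ i, ∑ j, t' i j * t i j * sw φ i j ≤
        (heisMax (mottJ W t w0) + 4 * K ^ 4 * (τ ^ 3 / u ^ 2)) * spinNsq φ := by linarith only [hcmp, hmax]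
    calc (nB K : ℝ) * ∑ i, ∑ j, t' i j * t i j * sw φ i j ≤
        nB K * ((heisMax (mottJ W t w0) + 4 * K ^ 4 * (τ ^ 3 / u ^ 2)) * spinNsq φ) :=
          mul_le_mul_of_nonneg_left h8 hnB
      _ = (heisMax (mottJ W t w0) + 4 * K ^ 4 * (τ ^ 3 / u ^ 2)) * ∑ ρ, spinNsq (bp C ρ) := by
          rw [hB]
          ring
      _ ≤ _ := by
          rw [hnsq]
          exact mul_le_mul_of_nonneg_left hBC (by (clear * - hJ hK hτ hu; positivity))
  have h9 := (abs_le.1 herr).1
  have h10 : 0 ≤ (K : ℝ) ^ 4 * (τ ^ 3 / u ^ 2) * nsq c := by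
    have := nsq_nonneg c
    (clear * - hK hτ hu this; positivity)
  have h11 : 0 ≤ (K : ℝ) ^ 4 * δ * nsq c := by
    have := nsq_nonneg c
    have := H.δ_nonneg
    (clear hc hu hτ C hC hCa a ha ha0 hau t' ht' φ hφ herr hnsq hsplit hqq hpt hsum hsub hcmp hJ hmax hB hBC hnB h7 h9 h10; positivity)
  rw [hsplit, ← hnsq] at h9
  linarith only [hqq, hsum, h7, h9, h10, h11]

end Vale.Agent.P370.Q
end
end

section

section

/-! The form inequality for compactly supported `C¹` functions, real and complex. -/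

namespace Vale.Agent.P370.Hyd

open MeasureTheory Filter Topology MvPolynomial

theorem dec_of_compactSupport {f : R3 → ℝ} (hf : Continuous f) (hc : HasCompactSupport f) :
    Dec f := by
  obtain ⟨B, hB⟩ := hc.exists_bound_of_continuous hf
  obtain ⟨R, hR⟩ := hc.isBounded.subset_closedBall (0 : R3)
  refine ⟨|B| * Real.exp (1 * |R|), 1, one_pos, fun x => ?_⟩
  by_cases hx : x ∈ tsupport f
  · have h1 : ‖x‖ ≤ |R| := by
      have := hR hx
      rw [mem_closedBall_zero_iff] at this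
      exact this.trans (le_abs_self R)
    have h2 : |f x| ≤ |B| := (hB x).trans (le_abs_self B)
    have h3 : 1 ≤ Real.exp (1 * |R|) * Real.exp (-1 * ‖x‖) := by
      rw [← Real.exp_add]
      exact Real.one_le_exp (by linarith)
    calc |f x| ≤ |B| * 1 := by rw [mul_one]; exact h2
      _ ≤ |B| * (Real.exp (1 * |R|) * Real.exp (-1 * ‖x‖)) :=
        mul_le_mul_of_nonneg_left h3 (abs_nonneg B)
      _ = _ := by ring
  · rw [image_eq_zero_of_notMem_tsupport hx, abs_zero]
    positivity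

theorem adm_of_contDiff {u : R3 → ℝ} (hu : ContDiff ℝ 1 u) (hc : HasCompactSupport u) :
    Adm u (fun i x => fderiv ℝ u x (ei i)) := by
  have hd : ∀ i, Continuous fun x => fderiv ℝ u x (ei i) := fun i =>
    (hu.continuous_fderiv one_ne_zero).clm_apply continuous_const
  refine ⟨hu.continuous, fun i x _ => ?_, fun i => (hd i).continuousOn,
    dec_of_compactSupport hu.continuous hc, fun i => dec_of_compactSupport (hd i) ?_⟩
  · have h1 : HasFDerivAt u (fderiv ℝ u x) (x + (0 : ℝ) • ei i) := by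
      rw [zero_smul, add_zero]
      exact (hu.differentiable one_ne_zero x).hasFDerivAt
    have h2 : HasDerivAt (fun t : ℝ => x + t • ei i) (ei i) 0 := by
      have := ((hasDerivAt_id (0 : ℝ)).smul_const (ei i)).const_add x
      exact this.congr_deriv (one_smul _ _)
    exact h1.comp_hasDerivAt (0 : ℝ) h2
  · exact (hc.fderiv (𝕜 := ℝ)).mono (fun x hx => by
      rw [Function.mem_support] at hx ⊢
      intro h
      exact hx (by rw [h]; rfl))

/-- a compactly supported `C¹` function as an admissible function -/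
noncomputable def ofC1 (u : R3 → ℝ) (hu : ContDiff ℝ 1 u) (hc : HasCompactSupport u) : AdmS :=
  ⟨(u, fun i x => fderiv ℝ u x (ei i)), adm_of_contDiff hu hc⟩

variable {p : (l : ℕ) → Fin (2 * l + 1) → Pl}

theorem hyd_lower_real (n : ℕ) {ι : Type*} [Fintype ι] [DecidableEq ι] (φ : ι → AdmS) (e : ι → ℝ)
    (hEig : ∀ a w, kinB (φ a) w - iprB (φ a) w = e a * ipB (φ a) w)
    (horth : ∀ a b, ipB (φ a) (φ b) = if a = b then 1 else 0)
    (he : ∀ a, e a < -(1 / (2 * ((n : ℝ) + 1) ^ 2)))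
    (hcard : Module.finrank ℝ (E n) ≤ Fintype.card ι) {u : R3 → ℝ} (hu : ContDiff ℝ 1 u)
    (hc : HasCompactSupport u) :
    ∑ a, (e a - eng n) * (∫ x, (φ a).1.1 x * u x) ^ 2 + eng n * ∫ x, u x ^ 2
      ≤ (1 / 2) * (∑ i, ∫ x, (fderiv ℝ u x (ei i)) ^ 2) - ∫ x, u x ^ 2 / ‖x‖ := by
  have h := hyd_lower n φ e hEig horth he hcard (ofC1 u hu hc)
  have e1 : ipB (ofC1 u hu hc) (ofC1 u hu hc) = ∫ x, u x ^ 2 := by
    refine integral_congr_ae (Eventually.of_forall fun x => ?_)
    exact (pow_two _).symm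
  have e2 : iprB (ofC1 u hu hc) (ofC1 u hu hc) = ∫ x, u x ^ 2 / ‖x‖ := by
    refine integral_congr_ae (Eventually.of_forall fun x => ?_)
    simp only
    rw [pow_two]
    rfl
  have e3 : kinB (ofC1 u hu hc) (ofC1 u hu hc)
      = (1 / 2) * (∑ i, ∫ x, (fderiv ℝ u x (ei i)) ^ 2) := by
    show kin (ofC1 u hu hc).1.2 (ofC1 u hu hc).1.2 = _
    unfold kin
    congr 1
    refine Finset.sum_congr rfl fun i _ => ?_
    refine integral_congr_ae (Eventually.of_forall fun x => ?_)
    exact (pow_two _).symm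
  rw [e1, e2, e3] at h
  exact h

/-- **The form inequality for complex `C¹_c` functions.** -/
theorem hyd_lower_complex (n : ℕ) {ι : Type*} [Fintype ι] [DecidableEq ι] (φ : ι → AdmS)
    (e : ι → ℝ) (hEig : ∀ a w, kinB (φ a) w - iprB (φ a) w = e a * ipB (φ a) w)
    (horth : ∀ a b, ipB (φ a) (φ b) = if a = b then 1 else 0)
    (he : ∀ a, e a < -(1 / (2 * ((n : ℝ) + 1) ^ 2)))
    (hcard : Module.finrank ℝ (E n) ≤ Fintype.card ι) {u : R3 → ℂ} (hu : ContDiff ℝ 1 u)
    (hc : HasCompactSupport u) :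
    ∑ a, (e a - eng n) * ‖∫ x, ((φ a).1.1 x : ℂ) * u x‖ ^ 2 + eng n * ∫ x, ‖u x‖ ^ 2
      ≤ (1 / 2) * (∑ i, ∫ x, ‖fderiv ℝ u x (ei i)‖ ^ 2) - ∫ x, ‖u x‖ ^ 2 / ‖x‖ := by
  obtain ⟨ur, hur⟩ : ∃ ur : R3 → ℝ, ur = fun x => (u x).re := ⟨_, rfl⟩
  obtain ⟨um, hum⟩ : ∃ um : R3 → ℝ, um = fun x => (u x).im := ⟨_, rfl⟩
  have hur1 : ContDiff ℝ 1 ur := by
    rw [hur]
    exact Complex.reCLM.contDiff.comp hu
  have hum1 : ContDiff ℝ 1 um := by
    rw [hum]
    exact Complex.imCLM.contDiff.comp hu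
  have hurc : HasCompactSupport ur := by
    rw [hur]
    exact hc.comp_left (g := fun z : ℂ => z.re) Complex.zero_re
  have humc : HasCompactSupport um := by
    rw [hum]
    exact hc.comp_left (g := fun z : ℂ => z.im) Complex.zero_im
  have h1 := hyd_lower_real n φ e hEig horth he hcard hur1 hurc
  have h2 := hyd_lower_real n φ e hEig horth he hcard hum1 humc
  have hsq : ∀ z : ℂ, ‖z‖ ^ 2 = z.re ^ 2 + z.im ^ 2 := fun z => by
    rw [Complex.sq_norm, Complex.normSq_apply]
    ring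
  have hc2 : Continuous fun x => ur x ^ 2 := hur1.continuous.pow 2
  have hc3 : Continuous fun x => um x ^ 2 := hum1.continuous.pow 2
  have ar := (ofC1 ur hur1 hurc).2
  have am := (ofC1 um hum1 humc).2
  have i1 : ∫ x, ‖u x‖ ^ 2 = (∫ x, ur x ^ 2) + ∫ x, um x ^ 2 := by
    rw [← integral_add]
    · refine integral_congr_ae (Eventually.of_forall fun x => ?_)
      simp only
      rw [hsq, hur, hum]
    · exact (ar.int_mul ar).congr (Eventually.of_forall fun x => (pow_two _).symm)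
    · exact (am.int_mul am).congr (Eventually.of_forall fun x => (pow_two _).symm)
  have i2 : ∫ x, ‖u x‖ ^ 2 / ‖x‖ = (∫ x, ur x ^ 2 / ‖x‖) + ∫ x, um x ^ 2 / ‖x‖ := by
    rw [← integral_add]
    · refine integral_congr_ae (Eventually.of_forall fun x => ?_)
      simp only
      rw [hsq, hur, hum, add_div]
    · refine (ar.int_mul_div ar).congr (Eventually.of_forall fun x => ?_)
      simp only
      rw [pow_two]
      rfl
    · refine (am.int_mul_div am).congr (Eventually.of_forall fun x => ?_)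
      simp only
      rw [pow_two]
      rfl
  have hfd : ∀ x, DifferentiableAt ℝ u x := fun x => hu.differentiable one_ne_zero x
  have hdr : ∀ x v, fderiv ℝ ur x v = (fderiv ℝ u x v).re := by
    intro x v
    have h3 : HasFDerivAt ur (Complex.reCLM.comp (fderiv ℝ u x)) x := by
      rw [hur]
      exact (Complex.reCLM.hasFDerivAt).comp x (hfd x).hasFDerivAt
    rw [h3.fderiv]
    rfl
  have hdm : ∀ x v, fderiv ℝ um x v = (fderiv ℝ u x v).im := by
    intro x v
    have h3 : HasFDerivAt um (Complex.imCLM.comp (fderiv ℝ u x)) x := by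
      rw [hum]
      exact (Complex.imCLM.hasFDerivAt).comp x (hfd x).hasFDerivAt
    rw [h3.fderiv]
    rfl
  have i3 : ∀ i : Fin 3, ∫ x, ‖fderiv ℝ u x (ei i)‖ ^ 2
      = (∫ x, (fderiv ℝ ur x (ei i)) ^ 2) + ∫ x, (fderiv ℝ um x (ei i)) ^ 2 := by
    intro i
    rw [← integral_add]
    · refine integral_congr_ae (Eventually.of_forall fun x => ?_)
      simp only
      rw [hsq, hdr, hdm]
    · exact (ar.int_dmul ar i).congr (Eventually.of_forall fun x => (pow_two _).symm)
    · exact (am.int_dmul am i).congr (Eventually.of_forall fun x => (pow_two _).symm)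
  have i4 : ∀ a, ‖∫ x, ((φ a).1.1 x : ℂ) * u x‖ ^ 2
      = (∫ x, (φ a).1.1 x * ur x) ^ 2 + (∫ x, (φ a).1.1 x * um x) ^ 2 := by
    intro a
    have hint : Integrable fun x => ((φ a).1.1 x : ℂ) * u x := by
      refine Continuous.integrable_of_hasCompactSupport ?_ ?_
      · exact (Complex.continuous_ofReal.comp (φ a).2.cont).mul hu.continuous
      · exact hc.mul_left
    rw [hsq]
    have e1 : (∫ x, ((φ a).1.1 x : ℂ) * u x).re = ∫ x, (φ a).1.1 x * ur x := by
      have h3 := integral_re hint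
      have h4 : (∫ x, ((φ a).1.1 x : ℂ) * u x).re
          = RCLike.re (∫ x, ((φ a).1.1 x : ℂ) * u x) := rfl
      rw [h4, ← h3]
      refine integral_congr_ae (Eventually.of_forall fun x => ?_)
      show (((φ a).1.1 x : ℂ) * u x).re = _
      rw [Complex.re_ofReal_mul, hur]
    have e2 : (∫ x, ((φ a).1.1 x : ℂ) * u x).im = ∫ x, (φ a).1.1 x * um x := by
      have h3 := integral_im hint
      have h4 : (∫ x, ((φ a).1.1 x : ℂ) * u x).im
          = RCLike.im (∫ x, ((φ a).1.1 x : ℂ) * u x) := rfl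
      rw [h4, ← h3]
      refine integral_congr_ae (Eventually.of_forall fun x => ?_)
      show (((φ a).1.1 x : ℂ) * u x).im = _
      rw [Complex.im_ofReal_mul, hum]
    rw [e1, e2]
  rw [i1, i2]
  simp only [i3, i4, Finset.sum_add_distrib, mul_add] at *
  linarith

end Vale.Agent.P370.Hyd
end
end

section

section

/-!
Calculus of the class `Nice`, exponential polynomials.
-/

namespace Vale.Agent.P370.Q

open MeasureTheory Finset ComplexConjugate Filter Topology Hyd

theorem dec_of_bound {f : R3 → ℝ} {C c : ℝ} (hc : 0 < c)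
    (h : ∀ x, x ≠ 0 → |f x| ≤ C * Real.exp (-(c * ‖x‖))) : Dec f := by
  refine ⟨max C |f 0|, c, hc, fun x => ?_⟩
  by_cases hx : x = 0
  · subst hx
    rw [norm_zero, mul_zero, Real.exp_zero, mul_one]
    exact le_max_right _ _
  · refine (h x hx).trans ?_
    rw [neg_mul]
    exact mul_le_mul_of_nonneg_right (le_max_left _ _) (Real.exp_pos _).le

theorem isOpen_ne_zero : IsOpen ({0}ᶜ : Set R3) := isOpen_compl_singleton

theorem Nice.contDiffAt {f : R3 → ℝ} (hf : Nice f) {x : R3} (hx : x ≠ 0) : ContDiffAt ℝ 1 f x :=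
  hf.smooth.contDiffAt (isOpen_ne_zero.mem_nhds hx)

theorem Nice.differentiableAt {f : R3 → ℝ} (hf : Nice f) {x : R3} (hx : x ≠ 0) :
    DifferentiableAt ℝ f x := (hf.contDiffAt hx).differentiableAt one_ne_zero

theorem Nice.dec {f : R3 → ℝ} (hf : Nice f) : Dec f := by
  obtain ⟨C, c, hc, h⟩ := hf.bound
  exact dec_of_bound hc fun x hx => (h x hx).1

theorem norm_ei (i : Fin 3) : ‖ei i‖ = 1 := by simp [ei]

theorem Nice.dec_pd {f : R3 → ℝ} (hf : Nice f) (k : Fin 3) : Dec (pd k f) := by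
  obtain ⟨C, c, hc, h⟩ := hf.bound
  refine dec_of_bound (C := C) hc fun x hx => ?_
  have h1 := (fderiv ℝ f x).le_opNorm (ei k)
  rw [norm_ei, mul_one] at h1
  exact h1.trans (h x hx).2

/-- directional derivatives off the origin -/
theorem hasDerivAt_line {f : R3 → ℝ} {x : R3} (h : DifferentiableAt ℝ f x) (v : R3) :
    HasDerivAt (fun t : ℝ => f (x + t • v)) (fderiv ℝ f x v) 0 := by
  have h1 : HasFDerivAt f (fderiv ℝ f x) (x + (0 : ℝ) • v) := by
    rw [zero_smul, add_zero]
    exact h.hasFDerivAt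
  have h2 : HasDerivAt (fun t : ℝ => x + t • v) v 0 := by
    have := ((hasDerivAt_id (0 : ℝ)).smul_const v).const_add x
    exact this.congr_deriv (one_smul _ _)
  exact h1.comp_hasDerivAt (0 : ℝ) h2

theorem Nice.adm {f : R3 → ℝ} (hf : Nice f) : Adm f (fun k x => pd k f x) := by
  refine ⟨hf.cont, fun i x hx => hasDerivAt_line (hf.differentiableAt hx) (ei i), fun i => ?_,
    hf.dec, hf.dec_pd⟩
  exact (hf.smooth.continuousOn_fderiv_of_isOpen isOpen_ne_zero le_rfl).clm_apply
    continuousOn_const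

theorem exp_combine {C c C' c' r : ℝ} (hr : 0 ≤ r) :
    C * Real.exp (-(c * r)) + C' * Real.exp (-(c' * r))
      ≤ (|C| + |C'|) * Real.exp (-(min c c' * r)) := by
  have h1 : C * Real.exp (-(c * r)) ≤ |C| * Real.exp (-(min c c' * r)) := by
    refine (mul_le_mul_of_nonneg_right (le_abs_self C) (Real.exp_pos _).le).trans ?_
    refine mul_le_mul_of_nonneg_left (Real.exp_le_exp.2 ?_) (abs_nonneg _)
    nlinarith [mul_le_mul_of_nonneg_right (min_le_left c c') hr]
  have h2 : C' * Real.exp (-(c' * r)) ≤ |C'| * Real.exp (-(min c c' * r)) := by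
    refine (mul_le_mul_of_nonneg_right (le_abs_self C') (Real.exp_pos _).le).trans ?_
    refine mul_le_mul_of_nonneg_left (Real.exp_le_exp.2 ?_) (abs_nonneg _)
    nlinarith [mul_le_mul_of_nonneg_right (min_le_right c c') hr]
  linarith

theorem nice_add {f g : R3 → ℝ} (hf : Nice f) (hg : Nice g) : Nice (fun x => f x + g x) := by
  obtain ⟨C, c, hc, h⟩ := hf.bound
  obtain ⟨C', c', hc', h'⟩ := hg.bound
  refine ⟨hf.cont.add hg.cont, hf.smooth.add hg.smooth, |C| + |C'|, min c c', lt_min hc hc',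
    fun x hx => ⟨?_, ?_⟩⟩
  · exact ((abs_add_le _ _).trans (add_le_add (h x hx).1 (h' x hx).1)).trans
      (exp_combine (norm_nonneg x))
  · have e : fderiv ℝ (fun x => f x + g x) x = fderiv ℝ f x + fderiv ℝ g x :=
      fderiv_fun_add (hf.differentiableAt hx) (hg.differentiableAt hx)
    rw [e]
    exact ((norm_add_le _ _).trans (add_le_add (h x hx).2 (h' x hx).2)).trans
      (exp_combine (norm_nonneg x))

theorem nice_smul {f : R3 → ℝ} (hf : Nice f) (c : ℝ) : Nice (fun x => c * f x) := by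
  obtain ⟨C, d, hd, h⟩ := hf.bound
  refine ⟨continuous_const.mul hf.cont, contDiffOn_const.mul hf.smooth, |c| * C, d, hd,
    fun x hx => ⟨?_, ?_⟩⟩
  · rw [abs_mul, mul_assoc]
    exact mul_le_mul_of_nonneg_left (h x hx).1 (abs_nonneg _)
  · have e : fderiv ℝ (fun x => c * f x) x = c • fderiv ℝ f x :=
      fderiv_const_mul (hf.differentiableAt hx) c
    rw [e, norm_smul, Real.norm_eq_abs, mul_assoc]
    exact mul_le_mul_of_nonneg_left (h x hx).2 (abs_nonneg _)

theorem nice_c1 {f : R3 → ℝ} (hf : ContDiff ℝ 1 f) (hc : HasCompactSupport f) : Nice f := by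
  obtain ⟨C, c, hc0, h⟩ := dec_of_compactSupport hf.continuous hc
  have hcn : HasCompactSupport fun x => ‖fderiv ℝ f x‖ :=
    ((hc.fderiv (𝕜 := ℝ)).comp_left (g := fun L : R3 →L[ℝ] ℝ => ‖L‖) norm_zero)
  obtain ⟨C', c', hc0', h'⟩ := dec_of_compactSupport
    (f := fun x => ‖fderiv ℝ f x‖) (hf.continuous_fderiv one_ne_zero).norm hcn
  refine ⟨hf.continuous, hf.contDiffOn, |C| + |C'|, min c c', lt_min hc0 hc0',
    fun x _ => ⟨?_, ?_⟩⟩
  · refine (h x).trans (le_trans ?_ (exp_combine (norm_nonneg x)))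
    rw [neg_mul]
    have h1 := h' x
    have : 0 ≤ C' * Real.exp (-(c' * ‖x‖)) := by
      rw [neg_mul] at h1
      exact (abs_nonneg _).trans h1
    linarith
  · have h1 := h' x
    rw [abs_norm, neg_mul] at h1
    refine h1.trans (le_trans ?_ (exp_combine (norm_nonneg x)))
    have h2 := h x
    have : 0 ≤ C * Real.exp (-(c * ‖x‖)) := by
      rw [neg_mul] at h2
      exact (abs_nonneg _).trans h2
    linarith

theorem nice_test {f : R3 → ℝ} (hf : ContDiff ℝ (⊤ : ℕ∞) f) (hc : HasCompactSupport f) :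
    Nice f := nice_c1 (hf.of_le (by exact_mod_cast le_top)) hc

theorem expPoly_eq (κ : ℝ) (P Q : Poly3) : expPoly κ P Q = xp κ P Q := by
  funext x
  unfold expPoly xp
  rw [neg_mul]
  rfl

theorem contDiff_ev {n : WithTop ℕ∞} (P : Poly3) : ContDiff ℝ n (ev P) := by
  induction P using MvPolynomial.induction_on with
  | C a =>
    have : ev (MvPolynomial.C a) = fun _ => a := by
      funext x
      exact ev_C a x
    rw [this]
    exact contDiff_const
  | add P Q hP hQ =>
    have : ev (P + Q) = fun x => ev P x + ev Q x := by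
      funext x
      exact ev_add P Q x
    rw [this]
    exact hP.add hQ
  | mul_X P j hP =>
    have : ev (P * MvPolynomial.X j) = fun x => ev P x * x j := by
      funext x
      rw [ev_mul, ev_X]
    rw [this]
    refine hP.mul ?_
    exact (EuclideanSpace.proj (𝕜 := ℝ) j).contDiff

theorem contDiffAt_xp {n : WithTop ℕ∞} (κ : ℝ) (P Q : Poly3) {x : R3} (hx : x ≠ 0) :
    ContDiffAt ℝ n (xp κ P Q) x := by
  have hn : ContDiffAt ℝ n (fun y : R3 => ‖y‖) x := contDiffAt_norm ℝ hx
  unfold xp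
  exact ((contDiff_ev P).contDiffAt.add (hn.mul (contDiff_ev Q).contDiffAt)).mul
    (contDiffAt_const.mul hn).exp

theorem fderiv_xp (κ : ℝ) (P Q : Poly3) {x : R3} (hx : x ≠ 0) (i : Fin 3) :
    fderiv ℝ (xp κ P Q) x (ei i) = xpd κ P Q i x :=
  (hasDerivAt_line ((contDiffAt_xp (n := 1) κ P Q hx).differentiableAt one_ne_zero) (ei i)).unique
    (hasDerivAt_xp κ P Q i x hx)

theorem norm_clm_le (L : R3 →L[ℝ] ℝ) : ‖L‖ ≤ ∑ i, |L (ei i)| := by
  refine L.opNorm_le_bound (Finset.sum_nonneg fun i _ => abs_nonneg _) fun v => ?_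
  have h1 : v = ∑ i, v i • ei i := by
    ext j
    rw [WithLp.ofLp_sum, Finset.sum_apply, Finset.sum_eq_single j]
    · rw [PiLp.smul_apply, ei_apply, if_pos rfl, smul_eq_mul, mul_one]
    · intro b _ hb
      rw [PiLp.smul_apply, ei_apply, if_neg hb.symm, smul_zero]
    · intro h
      exact absurd (Finset.mem_univ j) h
  have h2 : L v = ∑ i, v i * L (ei i) := by
    conv_lhs => rw [h1]
    rw [map_sum]
    simp
  rw [h2, Finset.sum_mul]
  refine (norm_sum_le _ _).trans (Finset.sum_le_sum fun i _ => ?_)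
  rw [Real.norm_eq_abs, abs_mul, mul_comm]
  refine mul_le_mul_of_nonneg_left ?_ (abs_nonneg _)
  have := EuclideanSpace.norm_eq v
  rw [this]
  refine Real.le_sqrt_of_sq_le ?_
  rw [sq_abs]
  have h3 := Finset.single_le_sum (f := fun i => ‖v i‖ ^ 2) (fun i _ => sq_nonneg _)
    (Finset.mem_univ i)
  simpa using h3

theorem nice_xp {κ : ℝ} (hκ : 0 < κ) (P Q : Poly3) : Nice (xp κ P Q) := by
  obtain ⟨C0, c0, hc0, h0⟩ := dec_xp hκ P Q
  obtain ⟨C1, c1, hc1, h1⟩ : Dec fun x => ∑ i, |xpd κ P Q i x| := by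
    have h3 : ∀ i, Dec fun x => |xpd κ P Q i x| := fun i => by
      obtain ⟨C, c, hc, h⟩ := dec_xpd hκ P Q i
      exact ⟨C, c, hc, fun x => by rw [abs_abs]; exact h x⟩
    simp only [Fin.sum_univ_three]
    exact ((h3 0).add (h3 1)).add (h3 2)
  refine ⟨continuous_xp κ P Q, fun x hx => (contDiffAt_xp κ P Q hx).contDiffWithinAt,
    |C0| + |C1|, min c0 c1, lt_min hc0 hc1, fun x hx => ⟨?_, ?_⟩⟩
  · have h2 := h0 x
    rw [neg_mul] at h2
    refine h2.trans (le_trans ?_ (exp_combine (norm_nonneg x)))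
    have h3 := h1 x
    have : 0 ≤ C1 * Real.exp (-(c1 * ‖x‖)) := by
      rw [neg_mul] at h3
      exact (abs_nonneg _).trans h3
    linarith
  · have h2 := h1 x
    rw [neg_mul, abs_of_nonneg (Finset.sum_nonneg fun i _ => abs_nonneg _)] at h2
    have h3 : ‖fderiv ℝ (xp κ P Q) x‖ ≤ ∑ i, |xpd κ P Q i x| := by
      refine (norm_clm_le _).trans (le_of_eq ?_)
      exact Finset.sum_congr rfl fun i _ => by rw [fderiv_xp κ P Q hx]
    refine (h3.trans h2).trans (le_trans ?_ (exp_combine (norm_nonneg x)))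
    have h4 := h0 x
    have : 0 ≤ C0 * Real.exp (-(c0 * ‖x‖)) := by
      rw [neg_mul] at h4
      exact (abs_nonneg _).trans h4
    linarith

theorem nice_expPoly {κ : ℝ} (hκ : 0 < κ) (P Q : Poly3) : Nice (expPoly κ P Q) := by
  rw [expPoly_eq]
  exact nice_xp hκ P Q

theorem nice_integrable_rinv {f g : R3 → ℝ} (hf : Nice f) (hg : Nice g) :
    Integrable (fun x => f x * g x / ‖x‖) ∧ Integrable (fun x => f x * g x) :=
  ⟨hf.adm.int_mul_div hg.adm, hf.adm.int_mul hg.adm⟩

theorem nice_integrable_dir {f g : R3 → ℝ} (hf : Nice f) (hg : Nice g) (k : Fin 3) :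
    Integrable (fun x => pd k f x * pd k g x) := hf.adm.int_dmul hg.adm k

theorem nice_dir_integrable {f g : R3 → ℝ} (hf : Nice f) (hg : Nice g) :
    Integrable (fun x => ∑ k, pd k f x * pd k g x) :=
  integrable_finsetSum _ fun k _ => nice_integrable_dir hf hg k

theorem dir_eq_sum {f g : R3 → ℝ} (hf : Nice f) (hg : Nice g) :
    dir f g = ∑ k, ∫ x, pd k f x * pd k g x := by
  unfold dir
  exact integral_finsetSum _ fun k _ => nice_integrable_dir hf hg k

/-- Nice functions in the form domain -/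
noncomputable def Nice.toS {f : R3 → ℝ} (hf : Nice f) : AdmS := ⟨(f, fun k x => pd k f x), hf.adm⟩

end Vale.Agent.P370.Q
end
end

section

section

/-! Eigenspaces of the polynomial operator, orthonormal families. -/

namespace Vale.Agent.P370.Hyd

open MeasureTheory MvPolynomial

/-! ### eigenspaces in `E n` -/

theorem mem_lt_iff {N : ℕ} (hN : 1 ≤ N) {P : Pl} : P ∈ lt N ↔ P.totalDegree + 1 ≤ N := by
  constructor
  · intro h
    have h1 : P.totalDegree < N := by
      unfold totalDegree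
      rw [Finset.sup_lt_iff (show (⊥ : ℕ) < N from hN)]
      intro d hd
      by_contra hcon
      have h2 : (d.sum fun _ e => e) = d.degree := rfl
      exact (mem_support_iff.1 hd) (h d (by omega))
    omega
  · intro h d hd
    by_contra hcon
    have h1 := le_totalDegree (mem_support_iff.2 hcon)
    have h2 : (d.sum fun _ e => e) = d.degree := rfl
    omega

/-- the eigenspace -/
noncomputable def Eig (n : ℕ) : Submodule ℝ (Pl × Pl) :=
  E n ⊓ LinearMap.ker (TL (1 / (n : ℝ)) - LinearMap.id)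

theorem mem_Eig {n : ℕ} {z : Pl × Pl} : z ∈ Eig n ↔ z ∈ E n ∧ TL (1 / (n : ℝ)) z = z := by
  unfold Eig
  rw [Submodule.mem_inf, LinearMap.mem_ker, LinearMap.sub_apply, LinearMap.id_apply, sub_eq_zero]

instance (n : ℕ) : FiniteDimensional ℝ (Eig n) :=
  Submodule.finiteDimensional_of_le (inf_le_left : Eig n ≤ E n)

/-- `T - 1` maps `E (n + 1)` into `E n` -/
noncomputable def shiftL (n : ℕ) : E (n + 1) →ₗ[ℝ] E n :=
  ((TL (1 / ((n + 1 : ℕ) : ℝ)) - LinearMap.id).domRestrict (E (n + 1))).codRestrict (E n)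
    (fun z => by
      rw [LinearMap.domRestrict_apply, LinearMap.sub_apply, LinearMap.id_apply]
      have h := TL_sub_mem (1 / ((n + 1 : ℕ) : ℝ)) z.2
      have h1 : 1 / ((n + 1 : ℕ) : ℝ) * ((n : ℝ) + 1) = 1 := by
        push_cast
        field_simp
      rwa [h1, one_smul] at h)

theorem shiftL_apply (n : ℕ) (z : E (n + 1)) :
    (shiftL n z : Pl × Pl) = TL (1 / ((n + 1 : ℕ) : ℝ)) z - z := rfl

theorem eq_zero_of_fixed {n m : ℕ} (hm : m ≤ n) {z : Pl × Pl} (hz : z ∈ E m)
    (h : TL (1 / ((n + 1 : ℕ) : ℝ)) z = z) : z = 0 := by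
  induction m with
  | zero => exact Prod.ext (lt_zero hz.1) (lt_zero hz.2)
  | succ m ih =>
    refine ih (by omega) ?_
    have h1 := TL_sub_mem (1 / ((n + 1 : ℕ) : ℝ)) hz
    rw [h] at h1
    have h2 : (1 - 1 / ((n + 1 : ℕ) : ℝ) * ((m : ℝ) + 1)) ≠ 0 := by
      have h3 : (m : ℝ) + 1 ≤ n := by exact_mod_cast hm
      have h4 : (0 : ℝ) < (n : ℝ) + 1 := by positivity
      have h5 : 1 / ((n + 1 : ℕ) : ℝ) * ((m : ℝ) + 1) < 1 := by
        push_cast
        rw [one_div, inv_mul_lt_iff₀ h4]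
        linarith
      linarith
    have h3 : (1 - 1 / ((n + 1 : ℕ) : ℝ) * ((m : ℝ) + 1))⁻¹ •
        (z - (1 / ((n + 1 : ℕ) : ℝ) * ((m : ℝ) + 1)) • z) ∈ E m := Submodule.smul_mem _ _ h1
    have h4 : z - (1 / ((n + 1 : ℕ) : ℝ) * ((m : ℝ) + 1)) • z
        = (1 - 1 / ((n + 1 : ℕ) : ℝ) * ((m : ℝ) + 1)) • z := by
      rw [sub_smul, one_smul]
    rwa [h4, smul_smul, inv_mul_cancel₀ h2, one_smul] at h3

theorem finrank_Eig (n : ℕ) : Module.finrank ℝ (Eig (n + 1)) = (n + 1) ^ 2 := by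
  have h1 := LinearMap.finrank_range_add_finrank_ker (shiftL n)
  have hE := finrank_E (n + 1)
  have hE' := finrank_E n
  rw [Finset.sum_range_succ, ← hE'] at hE
  have h2 : Module.finrank ℝ (LinearMap.range (shiftL n)) ≤ Module.finrank ℝ (E n) :=
    Submodule.finrank_le _
  have h3 : Module.finrank ℝ (E n) ≤ Module.finrank ℝ (LinearMap.range (shiftL n)) := by
    let f : E n →ₗ[ℝ] LinearMap.range (shiftL n) :=
      (shiftL n).rangeRestrict.comp (Submodule.inclusion (E_mono (Nat.le_succ n)))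
    refine LinearMap.finrank_le_finrank_of_injective (f := f) ?_
    rw [injective_iff_map_eq_zero]
    intro z hz
    have h4 : (shiftL n (Submodule.inclusion (E_mono (Nat.le_succ n)) z) : Pl × Pl) = 0 := by
      have := congrArg (fun w : LinearMap.range (shiftL n) => ((w : E n) : Pl × Pl)) hz
      exact this
    rw [shiftL_apply, sub_eq_zero] at h4
    exact Subtype.ext (eq_zero_of_fixed le_rfl z.2 h4)
  have h5 : Module.finrank ℝ (LinearMap.ker (shiftL n)) = Module.finrank ℝ (Eig (n + 1)) := by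
    have e : LinearMap.ker (shiftL n) = (Eig (n + 1)).comap (E (n + 1)).subtype := by
      ext z
      rw [LinearMap.mem_ker, Submodule.mem_comap, Submodule.subtype_apply, mem_Eig]
      constructor
      · intro h
        refine ⟨z.2, ?_⟩
        have := congrArg Subtype.val h
        rw [shiftL_apply] at this
        exact sub_eq_zero.1 this
      · rintro ⟨-, h⟩
        refine Subtype.ext ?_
        rw [shiftL_apply, h, sub_self]
        rfl
    rw [e]
    exact (Submodule.comapSubtypeEquivOfLe (inf_le_left : Eig (n + 1) ≤ E (n + 1))).finrank_eq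
  omega

/-! ### injectivity -/

/-- restriction of a polynomial to a line through the origin -/
noncomputable def lineP (v : R3) (P : Pl) : Polynomial ℝ :=
  aeval (fun i => Polynomial.C (v i) * Polynomial.X) P

theorem eval_lineP (v : R3) (P : Pl) (t : ℝ) : (lineP v P).eval t = ev P (t • v) := by
  unfold lineP ev
  rw [← Polynomial.coe_evalRingHom, aeval_def, hom_eval₂]
  simp only [Polynomial.coe_evalRingHom, Polynomial.eval_mul, Polynomial.eval_C, Polynomial.eval_X]
  rw [eval, eval₂_eq_eval_map]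
  simp only [PiLp.smul_apply, smul_eq_mul]
  have : ((Polynomial.evalRingHom t).comp (algebraMap ℝ (Polynomial ℝ))) = RingHom.id ℝ := by
    ext x
    simp
  rw [this, map_id]
  simp only [mul_comm]
  rfl

theorem pair_eq_zero {P Q : Pl} (h : ∀ x : R3, ev P x + ‖x‖ * ev Q x = 0) : P = 0 ∧ Q = 0 := by
  have key : ∀ v : R3, v ≠ 0 → ev Q v = 0 := by
    intro v hv
    have hv' : 0 < ‖v‖ := norm_pos_iff.2 hv
    have h1 : lineP v P + Polynomial.C ‖v‖ * Polynomial.X * lineP v Q = 0 := by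
      apply Polynomial.eq_zero_of_infinite_isRoot
      refine (Set.Ioi_infinite (0 : ℝ)).mono fun t ht => ?_
      have ht' : (0 : ℝ) < t := ht
      show Polynomial.IsRoot _ t
      rw [Polynomial.IsRoot, Polynomial.eval_add, Polynomial.eval_mul, Polynomial.eval_mul,
        Polynomial.eval_C, Polynomial.eval_X, eval_lineP, eval_lineP]
      have := h (t • v)
      rw [norm_smul, Real.norm_eq_abs, abs_of_pos ht'] at this
      rw [← this]
      ring
    have h2 := congrArg (fun R => Polynomial.eval (-1 : ℝ) R) h1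
    simp only [Polynomial.eval_add, Polynomial.eval_mul, Polynomial.eval_C, Polynomial.eval_X,
      eval_lineP, Polynomial.eval_zero] at h2
    have h3 := h ((-1 : ℝ) • v)
    rw [norm_smul, Real.norm_eq_abs, abs_neg, abs_one, one_mul] at h3
    have h4 : ev Q ((-1 : ℝ) • v) = 0 := by
      have : ‖v‖ * ev Q ((-1 : ℝ) • v) = 0 := by linarith
      rcases mul_eq_zero.1 this with h5 | h5
      · exact absurd h5 hv'.ne'
      · exact h5
    -- use the symmetric point
    have h6 : lineP (-v) P + Polynomial.C ‖v‖ * Polynomial.X * lineP (-v) Q = 0 := by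
      apply Polynomial.eq_zero_of_infinite_isRoot
      refine (Set.Ioi_infinite (0 : ℝ)).mono fun t ht => ?_
      have ht' : (0 : ℝ) < t := ht
      show Polynomial.IsRoot _ t
      rw [Polynomial.IsRoot, Polynomial.eval_add, Polynomial.eval_mul, Polynomial.eval_mul,
        Polynomial.eval_C, Polynomial.eval_X, eval_lineP, eval_lineP]
      have := h (t • (-v))
      rw [norm_smul, norm_neg, Real.norm_eq_abs, abs_of_pos ht'] at this
      rw [← this]
      ring
    have h7 := congrArg (fun R => Polynomial.eval (-1 : ℝ) R) h6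
    simp only [Polynomial.eval_add, Polynomial.eval_mul, Polynomial.eval_C, Polynomial.eval_X,
      eval_lineP, Polynomial.eval_zero] at h7
    have h8 := h v
    rw [neg_smul, one_smul, neg_neg] at h7
    have : ‖v‖ * ev Q v = 0 := by linarith
    rcases mul_eq_zero.1 this with h9 | h9
    · exact absurd h9 hv'.ne'
    · exact h9
  have hQ : Q = 0 := by
    have h1 : ∀ x : R3, ev (X 0 * Q) x = 0 := by
      intro x
      rw [ev_mul]
      by_cases hx : x = 0
      · rw [ev_X, hx]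
        simp
      · rw [key x hx, mul_zero]
    have h2 : (X 0 * Q : Pl) = 0 := by
      by_contra hcon
      obtain ⟨x, hx⟩ := ev_ne_zero hcon
      exact hx (h1 x)
    rcases mul_eq_zero.1 h2 with h3 | h3
    · exact absurd h3 (X_ne_zero 0)
    · exact h3
  refine ⟨?_, hQ⟩
  by_contra hcon
  obtain ⟨x, hx⟩ := ev_ne_zero hcon
  have := h x
  rw [hQ] at this
  simp only [ev, map_zero, mul_zero, add_zero] at this
  exact hx this

/-- pairs as admissible functions -/
noncomputable def toAdm {κ : ℝ} (hκ : 0 < κ) : Pl × Pl →ₗ[ℝ] AdmS where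
  toFun z := ⟨(xp κ z.1 z.2, xpd κ z.1 z.2), adm_xp hκ z.1 z.2⟩
  map_add' z z' := by
    refine Subtype.ext (Prod.ext ?_ ?_)
    · funext x
      show xp κ (z.1 + z'.1) (z.2 + z'.2) x = xp κ z.1 z.2 x + xp κ z'.1 z'.2 x
      simp only [xp, ev_add]
      ring
    · funext i x
      show xpd κ (z.1 + z'.1) (z.2 + z'.2) i x = xpd κ z.1 z.2 i x + xpd κ z'.1 z'.2 i x
      simp only [xpd, ev_add, map_add]
      ring
  map_smul' c z := by
    refine Subtype.ext (Prod.ext ?_ ?_)
    · funext x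
      show xp κ (c • z.1) (c • z.2) x = c * xp κ z.1 z.2 x
      simp only [xp, ev, smul_eval]
      ring
    · funext i x
      show xpd κ (c • z.1) (c • z.2) i x = c * xpd κ z.1 z.2 i x
      simp only [xpd, ev, smul_eval, Derivation.map_smul]
      ring

theorem toAdm_pos {κ : ℝ} (hκ : 0 < κ) {z : Pl × Pl} (hz : z ≠ 0) :
    0 < ipB (toAdm hκ z) (toAdm hκ z) := by
  have h1 : ∃ x : R3, (toAdm hκ z).1.1 x ≠ 0 := by
    by_contra hcon
    push Not at hcon
    apply hz
    have h2 := pair_eq_zero (P := z.1) (Q := z.2) fun x => by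
      have := hcon x
      show ev z.1 x + ‖x‖ * ev z.2 x = 0
      have h3 : (ev z.1 x + ‖x‖ * ev z.2 x) * Real.exp (-κ * ‖x‖) = 0 := this
      rcases mul_eq_zero.1 h3 with h4 | h4
      · exact h4
      · exact absurd h4 (Real.exp_ne_zero _)
    exact Prod.ext h2.1 h2.2
  obtain ⟨x, hx⟩ := h1
  exact ipB_pos hx

theorem toAdm_eigen {κ : ℝ} (hκ : 0 < κ) {z : Pl × Pl} (hz : TL κ z = z) (w : AdmS) :
    kinB (toAdm hκ z) w - iprB (toAdm hκ z) w = -(κ ^ 2 / 2) * ipB (toAdm hκ z) w := by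
  have h1 := green hκ z.1 z.2 w.2
  rw [TL_apply] at hz
  rw [show TP κ z.1 z.2 = z.1 from congrArg Prod.fst hz,
    show TQ κ z.1 z.2 = z.2 from congrArg Prod.snd hz] at h1
  show kin _ _ - ipr _ _ = -(κ ^ 2 / 2) * ip _ _
  have h5 : kin (toAdm hκ z).1.2 w.1.2 + κ ^ 2 / 2 * ip (toAdm hκ z).1.1 w.1.1
      = ipr (toAdm hκ z).1.1 w.1.1 := h1
  linarith

/-- extension of orthonormal families -/
theorem extend_orthonormal {V : Type*} [AddCommGroup V] [Module ℝ V]
    [FiniteDimensional ℝ V] (B : V →ₗ[ℝ] V →ₗ[ℝ] ℝ) (hs : ∀ v w, B v w = B w v)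
    (hp : ∀ v, v ≠ 0 → 0 < B v v) {K : ℕ} (f : Fin K → V)
    (hf : ∀ i j, B (f i) (f j) = if i = j then 1 else 0) :
    ∃ (r : ℕ) (g : Fin r → V), K + r = Module.finrank ℝ V ∧
      (∀ i j, B (g i) (g j) = if i = j then 1 else 0) ∧ ∀ i j, B (f i) (g j) = 0 := by
  let L : V →ₗ[ℝ] (Fin K → ℝ) := LinearMap.pi fun i => B (f i)
  have hL : Function.Surjective L := by
    intro c
    refine ⟨∑ i, c i • f i, ?_⟩
    funext j
    show B (f j) (∑ i, c i • f i) = c j
    rw [map_sum, Finset.sum_eq_single j]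
    · rw [map_smul, hf, if_pos rfl, smul_eq_mul, mul_one]
    · intro b _ hb
      rw [map_smul, hf, if_neg hb.symm, smul_zero]
    · intro h
      exact absurd (Finset.mem_univ j) h
  have h1 := LinearMap.finrank_range_add_finrank_ker L
  rw [LinearMap.range_eq_top.2 hL, finrank_top, Module.finrank_fintype_fun_eq_card,
    Fintype.card_fin] at h1
  obtain ⟨g, hg⟩ := exists_orthonormal_family
    ((B.domRestrict₁₂ (LinearMap.ker L) (LinearMap.ker L)) :
      LinearMap.ker L →ₗ[ℝ] LinearMap.ker L →ₗ[ℝ] ℝ)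
    (fun v w => hs _ _) (fun v hv => hp _ (fun h => hv (Subtype.ext h)))
    (N := Module.finrank ℝ (LinearMap.ker L)) le_rfl
  refine ⟨Module.finrank ℝ (LinearMap.ker L), fun i => (g i).1, h1, hg, fun i j => ?_⟩
  have h2 := (g j).2
  rw [LinearMap.mem_ker] at h2
  exact congrFun h2 i

/-- completeness of maximal orthonormal families -/
theorem orthonormal_complete {V : Type*} [AddCommGroup V] [Module ℝ V]
    [FiniteDimensional ℝ V] (B : V →ₗ[ℝ] V →ₗ[ℝ] ℝ) {ι : Type*} [Fintype ι] [DecidableEq ι]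
    (f : ι → V) (hf : ∀ i j, B (f i) (f j) = if i = j then 1 else 0)
    (hc : Fintype.card ι = Module.finrank ℝ V) {v : V} (hv : ∀ i, B (f i) v = 0) : v = 0 := by
  let L : V →ₗ[ℝ] (ι → ℝ) := LinearMap.pi fun i => B (f i)
  have hL : Function.Surjective L := by
    intro c
    refine ⟨∑ i, c i • f i, ?_⟩
    funext j
    show B (f j) (∑ i, c i • f i) = c j
    rw [map_sum, Finset.sum_eq_single j]
    · rw [map_smul, hf, if_pos rfl, smul_eq_mul, mul_one]
    · intro b _ hb
      rw [map_smul, hf, if_neg hb.symm, smul_zero]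
    · intro h
      exact absurd (Finset.mem_univ j) h
  have hfr : Module.finrank ℝ V = Module.finrank ℝ (ι → ℝ) := by
    rw [Module.finrank_fintype_fun_eq_card, hc]
  have hinj : Function.Injective L :=
    (LinearMap.injective_iff_surjective_of_finrank_eq_finrank hfr).2 hL
  apply hinj
  rw [map_zero]
  funext i
  exact hv i

end Vale.Agent.P370.Hyd
end
end

section

section

/-!
Dimension and basis of the hydrogenic shells.
-/

namespace Vale.Agent.P370.Q

open MeasureTheory Finset ComplexConjugate Hyd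

theorem pe_eq (P : Poly3) (x : R3) : pe P x = ev P x := rfl

theorem TP_eq (κ : ℝ) (P Q : Poly3) : TP κ P Q = Hyd.TP κ P Q := by
  unfold TP Hyd.TP
  rw [mul_assoc]
  rfl

theorem TQ_eq (κ : ℝ) (P Q : Poly3) : TQ κ P Q = Hyd.TQ κ P Q := by
  unfold TQ Hyd.TQ
  have h2 : (MvPolynomial.C 2 : Poly3) = 2 := by
    rw [show (2 : ℝ) = ((2 : ℕ) : ℝ) by norm_num, map_natCast]
    norm_num
  rw [h2]
  rfl

theorem isShell_iff {n : ℕ} (hn : 1 ≤ n) {φ : R3 → ℝ} :
    IsShell n φ ↔ ∃ z ∈ Eig n, φ = xp (1 / (n : ℝ)) z.1 z.2 := by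
  have hdeg : ∀ P Q : Poly3, DegLe n P Q ↔ (P, Q) ∈ E n := by
    intro P Q
    unfold DegLe E
    rw [Submodule.mem_prod, mem_lt_iff hn]
    simp only
    refine and_congr Iff.rfl ?_
    rcases Nat.eq_or_lt_of_le hn with h | h
    · constructor
      · rintro (h1 | h1)
        · rw [h1]
          exact Submodule.zero_mem _
        · omega
      · intro h1
        left
        rw [← h] at h1
        exact lt_zero h1
    · rw [mem_lt_iff (by omega)]
      constructor
      · rintro (h1 | h1)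
        · rw [h1, MvPolynomial.totalDegree_zero]
          omega
        · omega
      · intro h1
        right
        omega
  constructor
  · rintro ⟨P, Q, h1, h2, h3, h4⟩
    refine ⟨(P, Q), ?_, ?_⟩
    · rw [mem_Eig]
      refine ⟨(hdeg P Q).1 h1, ?_⟩
      rw [TL_apply]
      rw [TP_eq] at h2
      rw [TQ_eq] at h3
      exact Prod.ext h2 h3
    · rw [h4, expPoly_eq]
  · rintro ⟨z, hz, rfl⟩
    rw [mem_Eig, TL_apply] at hz
    refine ⟨z.1, z.2, (hdeg z.1 z.2).2 hz.1, ?_, ?_, ?_⟩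
    · rw [TP_eq]
      exact congrArg Prod.fst hz.2
    · rw [TQ_eq]
      exact congrArg Prod.snd hz.2
    · rw [expPoly_eq]

theorem inv_pos' {k : ℕ} (hk : 1 ≤ k) : (0 : ℝ) < 1 / (k : ℝ) := by
  have : (0 : ℝ) < k := by exact_mod_cast hk
  positivity

theorem IsShell.nice {n : ℕ} (hn : 1 ≤ n) {φ : R3 → ℝ} (hφ : IsShell n φ) : Nice φ := by
  obtain ⟨z, -, rfl⟩ := (isShell_iff hn).1 hφ
  exact nice_xp (inv_pos' hn) _ _

theorem dir_xp {κ : ℝ} (hκ : 0 < κ) (P Q : Poly3) {u : R3 → ℝ} (hu : Nice u) :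
    kin (xpd κ P Q) (fun k x => pd k u x) = (1 / 2) * dir (xp κ P Q) u := by
  rw [dir_eq_sum (nice_xp hκ P Q) hu]
  unfold kin
  congr 1
  refine Finset.sum_congr rfl fun k _ => integral_congr_ae ?_
  have hne : ∀ᵐ x : R3, x ≠ 0 := by
    rw [ae_iff]
    simp
  filter_upwards [hne] with x hx
  rw [← fderiv_xp κ P Q hx k]
  rfl

/-- eigenvalue equation of shell functions in form sense -/
theorem shell_form {n : ℕ} (hn : 1 ≤ n) {φ : R3 → ℝ} (hφ : IsShell n φ) {u : R3 → ℝ}
    (hu : Nice u) :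
    (1 / 2) * dir φ u - rinv φ u = -(1 / (2 * (n : ℝ) ^ 2)) * ov φ u := by
  obtain ⟨z, hz, rfl⟩ := (isShell_iff hn).1 hφ
  have h := toAdm_eigen (inv_pos' hn) (mem_Eig.1 hz).2 hu.toS
  have h1 : kinB (toAdm (inv_pos' hn) z) hu.toS = (1 / 2) * dir (xp (1 / (n : ℝ)) z.1 z.2) u :=
    dir_xp (inv_pos' hn) z.1 z.2 hu
  rw [h1] at h
  have h2 : -((1 / (n : ℝ)) ^ 2 / 2) = -(1 / (2 * (n : ℝ) ^ 2)) := by
    have : (0 : ℝ) < n := by exact_mod_cast hn
    field_simp
  rw [h2] at h
  exact h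

/-- the overlap form on an eigenspace -/
noncomputable def EigB {n : ℕ} (hn : 1 ≤ n) : Eig n →ₗ[ℝ] Eig n →ₗ[ℝ] ℝ :=
  ipB.compl₁₂ ((toAdm (inv_pos' hn)).comp (Eig n).subtype)
    ((toAdm (inv_pos' hn)).comp (Eig n).subtype)

theorem EigB_apply {n : ℕ} (hn : 1 ≤ n) (v w : Eig n) :
    EigB hn v w = ov (xp (1 / (n : ℝ)) v.1.1 v.1.2) (xp (1 / (n : ℝ)) w.1.1 w.1.2) := rfl

theorem EigB_pos {n : ℕ} (hn : 1 ≤ n) (v : Eig n) (hv : v ≠ 0) : 0 < EigB hn v v :=
  toAdm_pos (inv_pos' hn) fun h => hv (Subtype.ext h)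

theorem finrank_Eig' {n : ℕ} (hn : 1 ≤ n) : Module.finrank ℝ (Eig n) = n ^ 2 := by
  obtain ⟨m, rfl⟩ : ∃ m, n = m + 1 := ⟨n - 1, by omega⟩
  exact finrank_Eig m

/-- shell functions of different shells are orthogonal -/
theorem shell_ortho {k k' : ℕ} (hk : 1 ≤ k) (hk' : 1 ≤ k') (hne : k ≠ k') {φ ψ : R3 → ℝ}
    (hφ : IsShell k φ) (hψ : IsShell k' ψ) : ov φ ψ = 0 := by
  obtain ⟨z, hz, rfl⟩ := (isShell_iff hk).1 hφ
  obtain ⟨z', hz', rfl⟩ := (isShell_iff hk').1 hψ
  have h := orth_of_ne (toAdm_eigen (inv_pos' hk) (mem_Eig.1 hz).2)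
    (toAdm_eigen (inv_pos' hk') (mem_Eig.1 hz').2) (fun h => hne ?_)
  · exact h
  · have h1 : (0 : ℝ) < k := by exact_mod_cast hk
    have h2 : (0 : ℝ) < k' := by exact_mod_cast hk'
    have h3 : (1 / (k : ℝ)) ^ 2 = (1 / (k' : ℝ)) ^ 2 := by linarith
    have h4 : 1 / (k : ℝ) = 1 / (k' : ℝ) := by
      rwa [sq_eq_sq₀ (by positivity) (by positivity)] at h3
    have h5 : (k : ℝ) = k' := by
      rw [one_div, one_div, inv_inj] at h4
      exact h4
    exact_mod_cast h5

/-- bases of the shells below `n`, together with a prescribed orthonormal family in shell `n`,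
extended to a basis -/
theorem exists_shellBasis (n K : ℕ) (hn : 1 ≤ n) (g : Fin K → R3 → ℝ)
    (hg : ∀ i, IsShell n (g i)) (ho : ∀ i j, ov (g i) (g j) = if i = j then 1 else 0) :
    ∃ (C R : Type) (_ : Fintype C) (_ : Fintype R) (_ : DecidableEq C) (_ : DecidableEq R)
      (B : ShellBasis n (C ⊕ (Fin K ⊕ R))),
      (∀ i, B.χ (Sum.inr (Sum.inl i)) = g i) ∧ (∀ c, B.lev (Sum.inl c) < n) ∧
        (∀ o, B.lev (Sum.inr o) = n) := by
  have hz : ∀ i, ∃ z ∈ Eig n, g i = xp (1 / (n : ℝ)) z.1 z.2 := fun i =>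
    (isShell_iff hn).1 (hg i)
  choose z hz1 hz2 using hz
  obtain ⟨r, t, hr, ht, hft⟩ := extend_orthonormal (EigB hn) (fun v w => ipB_comm _ _)
    (EigB_pos hn) (fun i => (⟨z i, hz1 i⟩ : Eig n)) (fun i j => by
      rw [EigB_apply, ← ho i j, hz2 i, hz2 j])
  rw [finrank_Eig' hn] at hr
  have hlow : ∀ k : ℕ, ∃ f : Fin ((k + 1) ^ 2) → Eig (k + 1), ∀ i j,
      EigB (Nat.succ_pos k) (f i) (f j) = if i = j then 1 else 0 := fun k =>
    exists_orthonormal_family (EigB (Nat.succ_pos k)) (fun v w => ipB_comm _ _)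
      (EigB_pos (Nat.succ_pos k)) (finrank_Eig k).ge
  choose f hf using hlow
  let C : Type := (k : Fin (n - 1)) × Fin ((k.1 + 1) ^ 2)
  let R : Type := Fin r
  let χ : C ⊕ (Fin K ⊕ R) → R3 → ℝ := Sum.elim
    (fun c => xp (1 / ((c.1.1 + 1 : ℕ) : ℝ)) (f c.1.1 c.2).1.1 (f c.1.1 c.2).1.2)
    (Sum.elim g fun j => xp (1 / (n : ℝ)) (t j).1.1 (t j).1.2)
  let lev : C ⊕ (Fin K ⊕ R) → ℕ := Sum.elim (fun c => c.1.1 + 1) fun _ => n
  have hlev : ∀ a, 1 ≤ lev a := by
    rintro (c | o)
    · exact Nat.succ_pos _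
    · exact hn
  have hmem : ∀ a, IsShell (lev a) (χ a) := by
    rintro (c | (i | j))
    · exact (isShell_iff (Nat.succ_pos _)).2 ⟨_, (f c.1.1 c.2).2, rfl⟩
    · exact hg i
    · exact (isShell_iff hn).2 ⟨_, (t j).2, rfl⟩
  have hort : ∀ a b, ov (χ a) (χ b) = if a = b then 1 else 0 := by
    intro a b
    by_cases hl : lev a = lev b
    · rcases a with (⟨k, i⟩ | (i | j)) <;> rcases b with (⟨k', i'⟩ | (i' | j'))
      · have hk : k = k' := by
          refine Fin.ext ?_
          have : k.1 + 1 = k'.1 + 1 := hl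
          omega
        subst hk
        have h1 := hf k i i'
        rw [EigB_apply] at h1
        show ov (xp _ _ _) (xp _ _ _) = _
        rw [h1]
        by_cases hi : i = i'
        · subst hi
          rw [if_pos rfl, if_pos rfl]
        · rw [if_neg hi, if_neg]
          intro h
          apply hi
          have h2 := Sum.inl_injective h
          have h3 := (Sigma.mk.inj_iff.1 h2).2
          rwa [heq_eq_eq] at h3
      · exfalso
        have h1 : k.1 + 1 = n := hl
        have := k.2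
        omega
      · exfalso
        have h1 : k.1 + 1 = n := hl
        have := k.2
        omega
      · exfalso
        have h1 : n = k'.1 + 1 := hl
        have := k'.2
        omega
      · show ov (g i) (g i') = _
        rw [ho]
        by_cases hi : i = i'
        · subst hi
          rw [if_pos rfl, if_pos rfl]
        · rw [if_neg hi, if_neg]
          intro h
          apply hi
          simpa using h
      · have h1 := hft i j'
        rw [EigB_apply] at h1
        show ov (g i) (xp _ _ _) = _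
        rw [hz2 i, h1, if_neg]
        intro h
        simp at h
      · exfalso
        have h1 : n = k'.1 + 1 := hl
        have := k'.2
        omega
      · have h1 := hft i' j
        rw [EigB_apply] at h1
        show ov (xp _ _ _) (g i') = _
        have h2 : ∀ u v : R3 → ℝ, ov u v = ov v u := fun u v => by
          unfold ov
          simp only [mul_comm]
        rw [hz2 i', h2, h1, if_neg]
        intro h
        simp at h
      · have h1 := ht j j'
        rw [EigB_apply] at h1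
        show ov (xp _ _ _) (xp _ _ _) = _
        rw [h1]
        by_cases hi : j = j'
        · subst hi
          rw [if_pos rfl, if_pos rfl]
        · rw [if_neg hi, if_neg]
          intro h
          apply hi
          simpa using h
    · rw [shell_ortho (hlev a) (hlev b) hl (hmem a) (hmem b), if_neg]
      intro h
      exact hl (congrArg lev h)
  have hcard : ∀ k, 1 ≤ k → k ≤ n → (univ.filter (fun a => lev a = k)).card = k ^ 2 := by
    intro k hk1 hkn
    rw [Finset.card_filter, Fintype.sum_sum_type]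
    have e1 : ∑ a : C, (if lev (Sum.inl a) = k then 1 else 0)
        = if k < n then k ^ 2 else 0 := by
      rw [Fintype.sum_sigma]
      have e2 : ∀ i : Fin (n - 1), ∑ j : Fin ((i.1 + 1) ^ 2),
          (if lev (Sum.inl ⟨i, j⟩) = k then 1 else 0) = if i.1 + 1 = k then (i.1 + 1) ^ 2 else 0 := by
        intro i
        show ∑ j : Fin ((i.1 + 1) ^ 2), (if i.1 + 1 = k then 1 else 0) = _
        by_cases hi : i.1 + 1 = k
        · simp only [if_pos hi, Finset.sum_const, Finset.card_univ, Fintype.card_fin, smul_eq_mul,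
            mul_one]
        · simp only [if_neg hi, Finset.sum_const_zero]
      simp only [e2]
      by_cases hkn' : k < n
      · rw [if_pos hkn', Finset.sum_eq_single (⟨k - 1, by omega⟩ : Fin (n - 1))]
        · have : k - 1 + 1 = k := by omega
          rw [if_pos this, this]
        · intro b _ hb
          rw [if_neg]
          intro h
          apply hb
          refine Fin.ext ?_
          show b.1 = k - 1
          omega
        · intro h
          exact absurd (Finset.mem_univ _) h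
      · rw [if_neg hkn']
        refine Finset.sum_eq_zero fun i _ => ?_
        rw [if_neg]
        have := i.2
        omega
    have e3 : ∑ a : Fin K ⊕ R, (if lev (Sum.inr a) = k then 1 else 0)
        = if n = k then k ^ 2 else 0 := by
      show ∑ a : Fin K ⊕ R, (if n = k then 1 else 0) = _
      by_cases hi : n = k
      · simp only [if_pos hi, Finset.sum_const, Finset.card_univ, smul_eq_mul, mul_one]
        rw [Fintype.card_sum, Fintype.card_fin, Fintype.card_fin, hr, hi]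
      · simp only [if_neg hi, Finset.sum_const_zero]
    rw [e1, e3]
    rcases Nat.lt_or_eq_of_le hkn with h | h
    · rw [if_pos h, if_neg (by omega)]
      rfl
    · rw [if_neg (by omega), if_pos h.symm, zero_add]
  refine ⟨C, R, inferInstance, inferInstance, inferInstance, inferInstance,
    { χ := χ
      lev := lev
      lev_pos := hlev
      lev_le := ?_
      mem := hmem
      ortho := ?_
      card := ?_ }, fun i => rfl, ?_, fun o => rfl⟩
  · rintro (c | o)
    · have := c.1.2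
      show c.1.1 + 1 ≤ n
      omega
    · exact le_rfl
  · intro a b
    convert hort a b
  · intro k h1 h2
    convert hcard k h1 h2
  · intro c
    have := c.1.2
    show c.1.1 + 1 < n
    omega

/-- completeness of a shell basis in its shell -/
theorem shell_expand {n : ℕ} (hn : 1 ≤ n) {A : Type} [Fintype A] [DecidableEq A]
    (B : ShellBasis n A) {k : ℕ} (hk1 : 1 ≤ k) (hk : k ≤ n) {φ : R3 → ℝ} (hφ : IsShell k φ) :
    φ = fun x => ∑ a, (if B.lev a = k then ov (B.χ a) φ else 0) * B.χ a x := by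
  obtain ⟨w, hw, rfl⟩ := (isShell_iff hk1).1 hφ
  have hz : ∀ a : {a // B.lev a = k}, ∃ z ∈ Eig k, B.χ a.1 = xp (1 / (k : ℝ)) z.1 z.2 := by
    rintro ⟨a, ha⟩
    have := (isShell_iff (B.lev_pos a)).1 (B.mem a)
    rw [ha] at this
    exact this
  choose z hz1 hz2 using hz
  have horth : ∀ a b : {a // B.lev a = k},
      EigB hk1 ⟨z a, hz1 a⟩ ⟨z b, hz1 b⟩ = if a = b then 1 else 0 := by
    intro a b
    rw [EigB_apply]
    show ov (xp (1 / (k : ℝ)) (z a).1 (z a).2) (xp (1 / (k : ℝ)) (z b).1 (z b).2) = _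
    rw [← hz2 a, ← hz2 b, B.ortho]
    simp only [Subtype.ext_iff]
  let v : Eig k := ⟨w, hw⟩ - ∑ a : {a // B.lev a = k},
    (EigB hk1 ⟨z a, hz1 a⟩ ⟨w, hw⟩) • (⟨z a, hz1 a⟩ : Eig k)
  have hv : v = 0 := by
    refine orthonormal_complete (EigB hk1) (fun a : {a // B.lev a = k} => (⟨z a, hz1 a⟩ : Eig k))
      horth ?_ fun a => ?_
    · rw [finrank_Eig' hk1, Fintype.card_subtype]
      exact B.card k hk1 hk
    · show EigB hk1 ⟨z a, hz1 a⟩ (⟨w, hw⟩ - ∑ a : {a // B.lev a = k},
        (EigB hk1 ⟨z a, hz1 a⟩ ⟨w, hw⟩) • (⟨z a, hz1 a⟩ : Eig k)) = 0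
      rw [map_sub, map_sum, Finset.sum_eq_single a]
      · rw [map_smul, horth, if_pos rfl, smul_eq_mul, mul_one, sub_self]
      · intro b _ hb
        rw [map_smul, horth, if_neg hb.symm, smul_zero]
      · intro h
        exact absurd (Finset.mem_univ a) h
  have hw' : w = ∑ a : {a // B.lev a = k}, (EigB hk1 ⟨z a, hz1 a⟩ ⟨w, hw⟩) • z a := by
    have h1 := congrArg (Submodule.subtype (Eig k)) hv
    rw [map_sub, map_sum, map_zero, sub_eq_zero] at h1
    exact h1
  funext x
  have hx : ∀ y : Pl × Pl, xp (1 / (k : ℝ)) y.1 y.2 x = (toAdm (inv_pos' hk1) y).1.1 x :=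
    fun y => rfl
  let evx : Pl × Pl →ₗ[ℝ] ℝ :=
    { toFun := fun y => xp (1 / (k : ℝ)) y.1 y.2 x
      map_add' := fun y y' => by
        have := congrArg (fun u : AdmS => u.1.1 x) (map_add (toAdm (inv_pos' hk1)) y y')
        exact this
      map_smul' := fun c y => by
        have := congrArg (fun u : AdmS => u.1.1 x) (map_smul (toAdm (inv_pos' hk1)) c y)
        exact this }
  have h2 : evx w = ∑ a : {a // B.lev a = k}, (EigB hk1 ⟨z a, hz1 a⟩ ⟨w, hw⟩) * evx (z a) := by
    conv_lhs => rw [hw']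
    rw [map_sum]
    exact Finset.sum_congr rfl fun a _ => by rw [map_smul, smul_eq_mul]
  show evx w = _
  rw [h2]
  have h3 : ∀ a : {a // B.lev a = k}, (EigB hk1 ⟨z a, hz1 a⟩ ⟨w, hw⟩) * evx (z a)
      = (fun a : A => (if B.lev a = k then ov (B.χ a) (xp (1 / (k : ℝ)) w.1 w.2) else 0)
        * B.χ a x) a.1 := by
    intro a
    simp only
    rw [if_pos a.2, EigB_apply]
    show ov (xp (1 / (k : ℝ)) (z a).1 (z a).2) (xp (1 / (k : ℝ)) w.1 w.2) * _ = _
    rw [← hz2 a]
    congr 1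
    rw [hz2 a]
    rfl
  rw [Finset.sum_congr rfl fun a _ => h3 a]
  rw [← Finset.sum_subtype (univ.filter fun a => B.lev a = k) (fun a => by simp)
    (fun a : A => (if B.lev a = k then ov (B.χ a) (xp (1 / (k : ℝ)) w.1 w.2) else 0) * B.χ a x)]
  refine Finset.sum_subset (Finset.filter_subset _ _) fun a _ ha => ?_
  rw [if_neg, zero_mul]
  intro h
  exact ha (Finset.mem_filter.2 ⟨Finset.mem_univ a, h⟩)

end Vale.Agent.P370.Q
end
end

section

section

/-!
Core facts for `Bounds.lean`: Hardy's inequality and the ground state inequality for the class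
`Nice`.
-/

namespace Vale.Agent.P370.Q

open MeasureTheory Finset ComplexConjugate Filter Topology

theorem bd_hasDeriv {f : R3 → ℝ} (hf : Nice f) (k : Fin 3) {x : R3} (hx : x ≠ 0) :
    HasDerivAt (fun t : ℝ => f (x + t • Hyd.ei k)) (pd k f x) 0 := by
  have h1 : ContDiffAt ℝ 1 f x := hf.smooth.contDiffAt (isOpen_compl_singleton.mem_nhds hx)
  have h2 : HasFDerivAt f (fderiv ℝ f x) x := (h1.differentiableAt (by norm_num)).hasFDerivAt
  have h3 : HasDerivAt (fun t : ℝ => x + t • Hyd.ei k) (Hyd.ei k) 0 := by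
    simpa using ((hasDerivAt_id (0:ℝ)).smul_const (Hyd.ei k)).const_add x
  have h4 : HasFDerivAt f (fderiv ℝ f x) (x + (0:ℝ) • Hyd.ei k) := by simpa using h2
  exact h4.comp_hasDerivAt 0 h3

theorem bd_pd_cont {f : R3 → ℝ} (hf : Nice f) (k : Fin 3) : ContinuousOn (pd k f) {0}ᶜ := by
  have h := hf.smooth.continuousOn_fderiv_of_isOpen isOpen_compl_singleton (by norm_num)
  exact h.clm_apply continuousOn_const

theorem bd_bound {f : R3 → ℝ} (hf : Nice f) : ∃ C c : ℝ, 0 ≤ C ∧ 0 < c ∧ ∀ x, x ≠ 0 →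
    |f x| ≤ C * Real.exp (-c * ‖x‖) ∧ ∀ k, |pd k f x| ≤ C * Real.exp (-c * ‖x‖) := by
  obtain ⟨C, c, hc, h⟩ := hf.bound
  refine ⟨|C|, c, abs_nonneg _, hc, fun x hx => ?_⟩
  obtain ⟨h1, h2⟩ := h x hx
  have e : -(c * ‖x‖) = -c * ‖x‖ := by ring
  rw [e] at h1 h2
  have h3 : C * Real.exp (-c * ‖x‖) ≤ |C| * Real.exp (-c * ‖x‖) :=
    mul_le_mul_of_nonneg_right (le_abs_self C) (Real.exp_pos _).le
  refine ⟨h1.trans h3, fun k => ?_⟩
  refine le_trans ?_ (h2.trans h3)
  unfold pd
  rw [← Real.norm_eq_abs]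
  refine ((fderiv ℝ f x).le_opNorm _).trans ?_
  simp

theorem bd_ae_ne (y : R3) : ∀ᵐ x : R3, x ≠ y := by
  have h : volume ({y} : Set R3) = 0 := measure_singleton y
  exact compl_mem_ae_iff.2 h

theorem bd_integrable {G : R3 → ℝ} (hm : ContinuousOn G {0}ᶜ) {C c : ℝ} (hc : 0 < c)
    (h : ∀ x, x ≠ 0 → |G x| ≤ C * (1 + 1 / ‖x‖) * Real.exp (-c * ‖x‖)) : Integrable G := by
  have h1 : Integrable (fun x : R3 => C * Real.exp (-c * ‖x‖) +
      C * (Real.exp (-c * ‖x‖) / ‖x‖)) :=
    ((Hyd.integrable_exp hc).const_mul C).add ((Hyd.integrable_exp_div hc).const_mul C)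
  refine h1.mono' (measurable_of_continuousOn_compl_singleton 0 hm).aestronglyMeasurable ?_
  filter_upwards [bd_ae_ne 0] with x hx
  rw [Real.norm_eq_abs]
  refine (h x hx).trans (le_of_eq ?_)
  ring

theorem bd_exp_sq {c r : ℝ} (hc : 0 < c) (hr : 0 ≤ r) :
    Real.exp (-c * r) * Real.exp (-c * r) ≤ Real.exp (-c * r) := by
  have h : Real.exp (-c * r) ≤ 1 := Real.exp_le_one_iff.2 (by linarith only [mul_nonneg_of_nonpos_of_nonpos (le_of_lt (Mathlib.Tactic.Linarith.sub_neg_of_lt hc)) (Mathlib.Tactic.Linarith.sub_nonpos_of_le hr)])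
  exact mul_le_of_le_one_right (Real.exp_pos _).le h

/-- integration by parts against a vector field -/
theorem bd_div {f : R3 → ℝ} (hf : Nice f) (k : Fin 3) {F F' : R3 → ℝ}
    (hd : ∀ x, x ≠ 0 → HasDerivAt (fun t : ℝ => F (x + t • Hyd.ei k)) (F' x) 0)
    (hc : ContinuousOn F {0}ᶜ) (hc' : ContinuousOn F' {0}ᶜ) {B : ℝ}
    (hB : ∀ x, x ≠ 0 → |F x| ≤ B) (hB' : ∀ x, x ≠ 0 → |F' x| ≤ B * (1 + 1 / ‖x‖)) :
    Integrable (fun x => f x ^ 2 * F' x) ∧ Integrable (fun x => f x * pd k f x * F x) ∧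
    ∫ x, f x ^ 2 * F' x = -2 * ∫ x, f x * pd k f x * F x := by
  obtain ⟨C, c, hC, hc0, hb⟩ := bd_bound hf
  have hfc : ContinuousOn f {0}ᶜ := hf.cont.continuousOn
  have hpc := bd_pd_cont hf k
  have hone : ∀ x : R3, (1 : ℝ) ≤ 1 + 1 / ‖x‖ := fun x => by
    have : 0 ≤ 1 / ‖x‖ := by (clear * -; positivity)
    linarith
  have hf2 : ∀ x : R3, x ≠ 0 → f x ^ 2 ≤ C ^ 2 * Real.exp (-c * ‖x‖) := by
    intro x hx
    have h1 := (hb x hx).1
    calc f x ^ 2 = |f x| * |f x| := by rw [← sq, sq_abs]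
      _ ≤ (C * Real.exp (-c * ‖x‖)) * (C * Real.exp (-c * ‖x‖)) :=
        mul_le_mul h1 h1 (abs_nonneg _) (by (clear * - hC; positivity))
      _ = C ^ 2 * (Real.exp (-c * ‖x‖) * Real.exp (-c * ‖x‖)) := by ring
      _ ≤ C ^ 2 * Real.exp (-c * ‖x‖) :=
        mul_le_mul_of_nonneg_left (bd_exp_sq hc0 (norm_nonneg x)) (by (clear * -; positivity))
  have hfp : ∀ x : R3, x ≠ 0 → |f x * pd k f x| ≤ C ^ 2 * Real.exp (-c * ‖x‖) := by
    intro x hx
    have h1 := (hb x hx).1
    have h2 := (hb x hx).2 k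
    calc |f x * pd k f x| = |f x| * |pd k f x| := abs_mul _ _
      _ ≤ (C * Real.exp (-c * ‖x‖)) * (C * Real.exp (-c * ‖x‖)) :=
        mul_le_mul h1 h2 (abs_nonneg _) (by (clear * - hC; positivity))
      _ = C ^ 2 * (Real.exp (-c * ‖x‖) * Real.exp (-c * ‖x‖)) := by ring
      _ ≤ C ^ 2 * Real.exp (-c * ‖x‖) :=
        mul_le_mul_of_nonneg_left (bd_exp_sq hc0 (norm_nonneg x)) (by (clear * -; positivity))
  have hI1 : Integrable (fun x => f x ^ 2 * F' x) := by
    refine bd_integrable (C := C ^ 2 * B) (c := c) ((hfc.pow 2).mul hc') hc0 fun x hx => ?_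
    rw [abs_mul, abs_of_nonneg (sq_nonneg (f x))]
    calc f x ^ 2 * |F' x| ≤ (C ^ 2 * Real.exp (-c * ‖x‖)) * (B * (1 + 1 / ‖x‖)) :=
          mul_le_mul (hf2 x hx) (hB' x hx) (abs_nonneg _) (by (clear * -; positivity))
      _ = _ := by ring
  have hI2 : Integrable (fun x => f x * pd k f x * F x) := by
    refine bd_integrable (C := C ^ 2 * |B|) (c := c) ((hfc.mul hpc).mul hc) hc0 fun x hx => ?_
    rw [abs_mul]
    calc |f x * pd k f x| * |F x| ≤ (C ^ 2 * Real.exp (-c * ‖x‖)) * |B| :=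
          mul_le_mul (hfp x hx) ((hB x hx).trans (le_abs_self B)) (abs_nonneg _) (by (clear * -; positivity))
      _ = C ^ 2 * |B| * 1 * Real.exp (-c * ‖x‖) := by ring
      _ ≤ C ^ 2 * |B| * (1 + 1 / ‖x‖) * Real.exp (-c * ‖x‖) := by
          gcongr
          exact hone x
  have hG : Integrable (fun x => f x ^ 2 * F x) := by
    refine bd_integrable (C := C ^ 2 * |B|) (c := c) ((hfc.pow 2).mul hc) hc0 fun x hx => ?_
    rw [abs_mul, abs_of_nonneg (sq_nonneg (f x))]
    calc f x ^ 2 * |F x| ≤ (C ^ 2 * Real.exp (-c * ‖x‖)) * |B| :=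
          mul_le_mul (hf2 x hx) ((hB x hx).trans (le_abs_self B)) (abs_nonneg _) (by (clear * -; positivity))
      _ = C ^ 2 * |B| * 1 * Real.exp (-c * ‖x‖) := by ring
      _ ≤ C ^ 2 * |B| * (1 + 1 / ‖x‖) * Real.exp (-c * ‖x‖) := by
          gcongr
          exact hone x
  have h0 := Hyd.integral_dir_deriv k (fun x => f x ^ 2 * F x)
    (fun x => 2 * (f x * pd k f x * F x) + f x ^ 2 * F' x) hG
    ((hI2.const_mul 2).add hI1) (fun x hx => by
      have h1 := ((bd_hasDeriv hf k hx).pow 2).mul (hd x hx)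
      refine h1.congr_deriv ?_
      simp only [zero_smul, add_zero, Pi.pow_apply]
      push_cast
      ring)
    ((continuousOn_const.mul ((hfc.mul hpc).mul hc)).add ((hfc.pow 2).mul hc'))
  rw [integral_add (hI2.const_mul 2) hI1, integral_const_mul] at h0
  exact ⟨hI1, hI2, by linarith only [h0]⟩

/-- ground state inequality of hydrogen -/
theorem bd_ground {f : R3 → ℝ} (hf : Nice f) (κ : ℝ) :
    2 * κ * rinv f f ≤ dir f f + κ ^ 2 * ov f f := by
  have hcoord : ∀ k : Fin 3, Continuous (fun x : R3 => x k) := fun k => by fun_prop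
  have hnc : Continuous (fun x : R3 => ‖x‖) := continuous_norm
  have hn0 : ∀ x ∈ ({0}ᶜ : Set R3), ‖x‖ ≠ 0 := fun x hx => norm_ne_zero_iff.2 hx
  have hle : ∀ (k : Fin 3) (x : R3), |x k| ≤ ‖x‖ := fun k x => by
    rw [← Real.norm_eq_abs]
    exact PiLp.norm_apply_le x k
  have key : ∀ k : Fin 3, _ := fun k => bd_div hf k (F := fun x => x k / ‖x‖)
    (F' := fun x => 1 / ‖x‖ - x k ^ 2 / ‖x‖ ^ 3) (B := 2)
    (fun x hx => by
      have hx0 : ‖x‖ ≠ 0 := norm_ne_zero_iff.2 hx
      have h1 : HasDerivAt (fun t : ℝ => (x + t • Hyd.ei k) k) 1 0 := by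
        have e : (fun t : ℝ => (x + t • Hyd.ei k) k) = fun t : ℝ => x k + t := by
          funext t
          simp [Hyd.ei]
        rw [e]
        exact (hasDerivAt_id (0 : ℝ)).const_add (x k)
      have h2 := Hyd.hasDerivAt_norm k x hx
      have h3 := h1.div h2 (by simpa using hx0)
      refine h3.congr_deriv ?_
      simp only [zero_smul, add_zero]
      field_simp)
    ((hcoord k).continuousOn.div hnc.continuousOn hn0)
    ((continuousOn_const.div hnc.continuousOn hn0).sub
      (((hcoord k).pow 2).continuousOn.div (hnc.pow 3).continuousOn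
        (fun x hx => pow_ne_zero 3 (hn0 x hx))))
    (fun x hx => by
      have hx0 : 0 < ‖x‖ := norm_pos_iff.2 hx
      rw [abs_div, abs_norm, div_le_iff₀ hx0]
      have := hle k x
      linarith)
    (fun x hx => by
      have hx0 : 0 < ‖x‖ := norm_pos_iff.2 hx
      have h1 : x k ^ 2 ≤ ‖x‖ ^ 2 := by
        rw [← sq_abs]
        exact pow_le_pow_left₀ (abs_nonneg _) (hle k x) 2
      have h2 : x k ^ 2 / ‖x‖ ^ 3 ≤ 1 / ‖x‖ := by
        rw [div_le_div_iff₀ (by positivity) hx0]
        nlinarith only [h1, hx0]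
      have h3 : 0 ≤ x k ^ 2 / ‖x‖ ^ 3 := by positivity
      have h4 : 0 < 1 / ‖x‖ := by positivity
      rw [abs_of_nonneg (by linarith only [h2])]
      linarith only [h3, h4])
  -- expand the square
  have hnn : 0 ≤ ∫ x, ∑ k, (pd k f x + κ * (f x * (x k / ‖x‖))) ^ 2 :=
    integral_nonneg fun x => sum_nonneg fun k _ => sq_nonneg _
  have hff := (nice_integrable_rinv hf hf)
  have hI0 : Integrable (fun x => f x * f x) := hff.2
  have hcalc : ∫ x, ∑ k, (pd k f x + κ * (f x * (x k / ‖x‖))) ^ 2 =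
      dir f f + 2 * κ * (∑ k : Fin 3, ∫ x, f x * pd k f x * (x k / ‖x‖)) + κ ^ 2 * ov f f := by
    have e1 : ∀ᵐ x : R3, ∑ k, (pd k f x + κ * (f x * (x k / ‖x‖))) ^ 2 =
        (∑ k, pd k f x * pd k f x) + 2 * κ * (∑ k, f x * pd k f x * (x k / ‖x‖)) +
          κ ^ 2 * (f x * f x) := by
      filter_upwards [bd_ae_ne 0] with x hx
      have hx0 : ‖x‖ ≠ 0 := norm_ne_zero_iff.2 hx
      have hs : (x 0 / ‖x‖) ^ 2 + (x 1 / ‖x‖) ^ 2 + (x 2 / ‖x‖) ^ 2 = 1 := by
        have h1 : x 0 ^ 2 + x 1 ^ 2 + x 2 ^ 2 = ‖x‖ ^ 2 := by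
          rw [EuclideanSpace.norm_sq_eq, Fin.sum_univ_three]
          simp
        field_simp
        exact h1
      rw [Fin.sum_univ_three, Fin.sum_univ_three, Fin.sum_univ_three]
      linear_combination κ ^ 2 * f x ^ 2 * hs
    rw [integral_congr_ae e1]
    have hA : Integrable (fun x => ∑ k, pd k f x * pd k f x) := nice_dir_integrable hf hf
    have hB : Integrable (fun x => ∑ k : Fin 3, f x * pd k f x * (x k / ‖x‖)) :=
      integrable_finset_sum _ fun k _ => (key k).2.1
    have hAB : Integrable (fun x => (∑ k, pd k f x * pd k f x) +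
        2 * κ * ∑ k : Fin 3, f x * pd k f x * (x k / ‖x‖)) := hA.add (hB.const_mul (2 * κ))
    rw [integral_add hAB (hI0.const_mul (κ ^ 2)),
      integral_add hA (hB.const_mul (2 * κ)), integral_const_mul, integral_const_mul,
      integral_finset_sum _ fun k _ => (key k).2.1]
    rfl
  have hdivsum : ∑ k : Fin 3, ∫ x, f x ^ 2 * (1 / ‖x‖ - x k ^ 2 / ‖x‖ ^ 3) = 2 * rinv f f := by
    rw [← integral_finset_sum _ fun k _ => (key k).1]
    unfold rinv
    rw [← integral_const_mul]
    refine integral_congr_ae ?_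
    filter_upwards [bd_ae_ne 0] with x hx
    have hx0 : ‖x‖ ≠ 0 := norm_ne_zero_iff.2 hx
    have h1 : x 0 ^ 2 + x 1 ^ 2 + x 2 ^ 2 = ‖x‖ ^ 2 := by
      rw [EuclideanSpace.norm_sq_eq, Fin.sum_univ_three]
      simp
    rw [Fin.sum_univ_three]
    have h2 : x 0 ^ 2 / ‖x‖ ^ 3 + x 1 ^ 2 / ‖x‖ ^ 3 + x 2 ^ 2 / ‖x‖ ^ 3 = 1 / ‖x‖ := by
      field_simp
      linear_combination h1
    linear_combination (-(f x ^ 2)) * h2
  have hsum : ∑ k : Fin 3, ∫ x, f x * pd k f x * (x k / ‖x‖) = -rinv f f := by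
    have h1 : ∀ k : Fin 3, ∫ x, f x * pd k f x * (x k / ‖x‖) =
        -(1 / 2) * ∫ x, f x ^ 2 * (1 / ‖x‖ - x k ^ 2 / ‖x‖ ^ 3) := by
      intro k
      rw [(key k).2.2]
      ring
    rw [sum_congr rfl fun k _ => h1 k, ← mul_sum, hdivsum]
    ring
  rw [hcalc, hsum] at hnn
  linarith only [hnn]

/-- regularised Hardy inequality -/
theorem bd_hardy_reg {f : R3 → ℝ} (hf : Nice f) (y : R3) {δ : ℝ} (hδ : 0 < δ) :
    Integrable (fun x => f x ^ 2 * (‖x - y‖ ^ 2 / (‖x - y‖ ^ 2 + δ ^ 2) ^ 2)) ∧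
    ∫ x, f x ^ 2 * (‖x - y‖ ^ 2 / (‖x - y‖ ^ 2 + δ ^ 2) ^ 2) ≤ 4 * dir f f := by
  have hs : ∀ x : R3, 0 < ‖x - y‖ ^ 2 + δ ^ 2 := fun x => by positivity
  have hcoord : ∀ k : Fin 3, Continuous (fun x : R3 => (x - y) k) := fun k => by fun_prop
  have hsc : Continuous (fun x : R3 => ‖x - y‖ ^ 2 + δ ^ 2) := by fun_prop
  have hle : ∀ (k : Fin 3) (x : R3), |(x - y) k| ≤ ‖x - y‖ := fun k x => by
    rw [← Real.norm_eq_abs]
    exact PiLp.norm_apply_le (x - y) k
  have hle2 : ∀ (k : Fin 3) (x : R3), (x - y) k ^ 2 ≤ ‖x - y‖ ^ 2 := fun k x => by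
    rw [← sq_abs]
    exact pow_le_pow_left₀ (abs_nonneg _) (hle k x) 2
  have hsum3 : ∀ x : R3, (x - y) 0 ^ 2 + (x - y) 1 ^ 2 + (x - y) 2 ^ 2 = ‖x - y‖ ^ 2 := fun x => by
    rw [EuclideanSpace.norm_sq_eq, Fin.sum_univ_three]
    simp
  have key : ∀ k : Fin 3, _ := fun k => bd_div hf k
    (F := fun x => (x - y) k / (‖x - y‖ ^ 2 + δ ^ 2))
    (F' := fun x => 1 / (‖x - y‖ ^ 2 + δ ^ 2) -
      2 * (x - y) k ^ 2 / (‖x - y‖ ^ 2 + δ ^ 2) ^ 2) (B := 1 / δ + 3 / δ ^ 2)
    (fun x hx => by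
      have h1 : HasDerivAt (fun t : ℝ => (x + t • Hyd.ei k - y) k) 1 0 := by
        have e : (fun t : ℝ => (x + t • Hyd.ei k - y) k) = fun t : ℝ => (x - y) k + t := by
          funext t
          simp [Hyd.ei]
          ring
        rw [e]
        exact (hasDerivAt_id (0 : ℝ)).const_add _
      have h2 : HasDerivAt (fun t : ℝ => ‖x + t • Hyd.ei k - y‖ ^ 2 + δ ^ 2)
          (2 * (x - y) k) 0 := by
        have e : (fun t : ℝ => ‖x + t • Hyd.ei k - y‖ ^ 2 + δ ^ 2) =
            fun t : ℝ => ‖x - y‖ ^ 2 + 2 * t * (x - y) k + t ^ 2 + δ ^ 2 := by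
          funext t
          have := Hyd.norm_add_smul_sq k (x - y) t
          rw [← this]
          congr 3
          abel
        rw [e]
        have h3 : HasDerivAt (fun t : ℝ => 2 * t * (x - y) k) (2 * (x - y) k) 0 := by
          have := ((hasDerivAt_id (0 : ℝ)).const_mul 2).mul_const ((x - y) k)
          simpa using this
        have h4 : HasDerivAt (fun t : ℝ => t ^ 2) 0 0 := by
          have := hasDerivAt_pow 2 (0 : ℝ)
          simpa using this
        have := ((h3.const_add (‖x - y‖ ^ 2)).add h4).add_const (δ ^ 2)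
        simpa using this
      have h3 := h1.div h2 (by simpa using (hs x).ne')
      refine h3.congr_deriv ?_
      simp only [zero_smul, add_zero]
      have := (hs x).ne'
      field_simp)
    ((hcoord k).div hsc (fun x => (hs x).ne')).continuousOn
    (((continuous_const.div hsc (fun x => (hs x).ne')).sub
      ((continuous_const.mul ((hcoord k).pow 2)).div (hsc.pow 2)
        (fun x => pow_ne_zero 2 (hs x).ne'))).continuousOn)
    (fun x hx => by
      rw [abs_div, abs_of_pos (hs x)]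
      have h1 := hle k x
      have h2 : |(x - y) k| / (‖x - y‖ ^ 2 + δ ^ 2) ≤ 1 / δ := by
        rw [div_le_div_iff₀ (hs x) hδ]
        nlinarith only [hδ, h1, sq_nonneg (‖x - y‖ - δ)]
      have h3 : 0 ≤ 3 / δ ^ 2 := by positivity
      linarith only [h2, h3])
    (fun x hx => by
      have h1 : 1 / (‖x - y‖ ^ 2 + δ ^ 2) ≤ 1 / δ ^ 2 :=
        one_div_le_one_div_of_le (by positivity) (by linarith only [sq_nonneg ‖x - y‖])
      have h2 : 2 * (x - y) k ^ 2 / (‖x - y‖ ^ 2 + δ ^ 2) ^ 2 ≤ 2 / δ ^ 2 := by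
        rw [div_le_div_iff₀ (by (clear * - hδ; positivity)) (by positivity)]
        have := hle2 k x
        linarith only [mul_nonneg (sq_nonneg ‖x - y‖) (sq_nonneg ‖x - y‖), mul_nonneg (sq_nonneg ‖x - y‖) (sq_nonneg δ), mul_nonneg (sq_nonneg δ) (sq_nonneg δ), mul_le_mul_of_nonneg_right this (sq_nonneg δ)]
      have h3 : 0 ≤ 1 / (‖x - y‖ ^ 2 + δ ^ 2) := by positivity
      have h4 : 0 ≤ 2 * (x - y) k ^ 2 / (‖x - y‖ ^ 2 + δ ^ 2) ^ 2 := by (clear * - hδ; positivity)
      have h5 : |1 / (‖x - y‖ ^ 2 + δ ^ 2) - 2 * (x - y) k ^ 2 / (‖x - y‖ ^ 2 + δ ^ 2) ^ 2| ≤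
          3 / δ ^ 2 := by
        have e : 3 / δ ^ 2 = 1 / δ ^ 2 + 2 / δ ^ 2 := by ring
        rw [abs_le, e]
        constructor <;> [(have : 0 ≤ 1 / δ ^ 2 := by positivity); skip]
        · linarith only [h1, h2, h3]
        · have : 0 ≤ 2 / δ ^ 2 := by positivity
          linarith only [h1, h2, h4]
      have h6 : (1 : ℝ) ≤ 1 + 1 / ‖x‖ := by
        have : 0 ≤ 1 / ‖x‖ := by positivity
        linarith only [this]
      have h7 : 3 / δ ^ 2 ≤ 1 / δ + 3 / δ ^ 2 := by
        have : 0 ≤ 1 / δ := by positivity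
        linarith only [this]
      calc _ ≤ 3 / δ ^ 2 := h5
        _ ≤ (1 / δ + 3 / δ ^ 2) * 1 := by rw [mul_one]; exact h7
        _ ≤ (1 / δ + 3 / δ ^ 2) * (1 + 1 / ‖x‖) :=
          mul_le_mul_of_nonneg_left h6 (by positivity))
  have hff := (nice_integrable_rinv hf hf)
  have hI0 : Integrable (fun x => f x * f x) := hff.2
  -- integrability of bounded multiples of `f ^ 2`
  have hI1 : Integrable (fun x => f x ^ 2 * (‖x - y‖ ^ 2 / (‖x - y‖ ^ 2 + δ ^ 2) ^ 2)) := by
    refine (hI0.const_mul (1 / δ ^ 2)).mono' ?_ (Eventually.of_forall fun x => ?_)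
    · exact ((hf.cont.pow 2).mul ((by fun_prop : Continuous fun x : R3 => ‖x - y‖ ^ 2).div
        (hsc.pow 2) (fun x => pow_ne_zero 2 (hs x).ne'))).aestronglyMeasurable
    · rw [Real.norm_of_nonneg (by (clear * - hδ; positivity))]
      have h1 : ‖x - y‖ ^ 2 / (‖x - y‖ ^ 2 + δ ^ 2) ^ 2 ≤ 1 / δ ^ 2 := by
        rw [div_le_div_iff₀ (by positivity) (by positivity)]
        linarith only [mul_nonneg (sq_nonneg ‖x - y‖) (sq_nonneg ‖x - y‖), mul_nonneg (sq_nonneg ‖x - y‖) (sq_nonneg δ), mul_nonneg (sq_nonneg δ) (sq_nonneg δ)]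
      calc f x ^ 2 * (‖x - y‖ ^ 2 / (‖x - y‖ ^ 2 + δ ^ 2) ^ 2) ≤ f x ^ 2 * (1 / δ ^ 2) :=
            mul_le_mul_of_nonneg_left h1 (sq_nonneg _)
        _ = 1 / δ ^ 2 * (f x * f x) := by ring
  refine ⟨hI1, ?_⟩
  have hnn : 0 ≤ ∫ x, ∑ k, (pd k f x +
      1 / 2 * (f x * ((x - y) k / (‖x - y‖ ^ 2 + δ ^ 2)))) ^ 2 :=
    integral_nonneg fun x => sum_nonneg fun k _ => sq_nonneg _
  have hcalc : ∫ x, ∑ k, (pd k f x + 1 / 2 * (f x * ((x - y) k / (‖x - y‖ ^ 2 + δ ^ 2)))) ^ 2 =
      dir f f + (∑ k : Fin 3, ∫ x, f x * pd k f x * ((x - y) k / (‖x - y‖ ^ 2 + δ ^ 2))) +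
        1 / 4 * ∫ x, f x ^ 2 * (‖x - y‖ ^ 2 / (‖x - y‖ ^ 2 + δ ^ 2) ^ 2) := by
    have e1 : ∀ x : R3, ∑ k, (pd k f x +
        1 / 2 * (f x * ((x - y) k / (‖x - y‖ ^ 2 + δ ^ 2)))) ^ 2 =
        (∑ k, pd k f x * pd k f x) +
          (∑ k, f x * pd k f x * ((x - y) k / (‖x - y‖ ^ 2 + δ ^ 2))) +
          1 / 4 * (f x ^ 2 * (‖x - y‖ ^ 2 / (‖x - y‖ ^ 2 + δ ^ 2) ^ 2)) := by
      intro x
      rw [Fin.sum_univ_three, Fin.sum_univ_three, Fin.sum_univ_three, ← hsum3 x]
      have := (hs x).ne'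
      rw [← hsum3 x] at this
      field_simp
      ring
    rw [integral_congr_ae (Eventually.of_forall e1)]
    have hA : Integrable (fun x => ∑ k, pd k f x * pd k f x) := nice_dir_integrable hf hf
    have hB : Integrable (fun x => ∑ k : Fin 3,
        f x * pd k f x * ((x - y) k / (‖x - y‖ ^ 2 + δ ^ 2))) :=
      integrable_finset_sum _ fun k _ => (key k).2.1
    have hAB : Integrable (fun x => (∑ k, pd k f x * pd k f x) +
        ∑ k : Fin 3, f x * pd k f x * ((x - y) k / (‖x - y‖ ^ 2 + δ ^ 2))) := hA.add hB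
    rw [integral_add hAB (hI1.const_mul (1 / 4)), integral_add hA hB, integral_const_mul,
      integral_finset_sum _ fun k _ => (key k).2.1]
    rfl
  have hdivsum : ∫ x, f x ^ 2 * (‖x - y‖ ^ 2 / (‖x - y‖ ^ 2 + δ ^ 2) ^ 2) ≤
      ∑ k : Fin 3, ∫ x, f x ^ 2 * (1 / (‖x - y‖ ^ 2 + δ ^ 2) -
        2 * (x - y) k ^ 2 / (‖x - y‖ ^ 2 + δ ^ 2) ^ 2) := by
    rw [← integral_finset_sum _ fun k _ => (key k).1]
    refine integral_mono hI1 (integrable_finset_sum _ fun k _ => (key k).1) fun x => ?_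
    simp only
    rw [Fin.sum_univ_three]
    have h2 : 2 * (x - y) 0 ^ 2 / (‖x - y‖ ^ 2 + δ ^ 2) ^ 2 +
        2 * (x - y) 1 ^ 2 / (‖x - y‖ ^ 2 + δ ^ 2) ^ 2 +
        2 * (x - y) 2 ^ 2 / (‖x - y‖ ^ 2 + δ ^ 2) ^ 2 =
        2 * (‖x - y‖ ^ 2 / (‖x - y‖ ^ 2 + δ ^ 2) ^ 2) := by
      rw [← add_div, ← add_div, ← mul_add, ← mul_add, hsum3 x]
      ring
    have h3 : ‖x - y‖ ^ 2 / (‖x - y‖ ^ 2 + δ ^ 2) ^ 2 ≤ 1 / (‖x - y‖ ^ 2 + δ ^ 2) := by
      rw [div_le_div_iff₀ (by positivity) (hs x)]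
      linarith only [mul_nonneg (sq_nonneg ‖x - y‖) (sq_nonneg δ), mul_nonneg (sq_nonneg δ) (sq_nonneg δ)]
    have h4 : ‖x - y‖ ^ 2 / (‖x - y‖ ^ 2 + δ ^ 2) ^ 2 ≤
        3 * (1 / (‖x - y‖ ^ 2 + δ ^ 2)) - 2 * (‖x - y‖ ^ 2 / (‖x - y‖ ^ 2 + δ ^ 2) ^ 2) := by
      linarith only [h3]
    calc f x ^ 2 * (‖x - y‖ ^ 2 / (‖x - y‖ ^ 2 + δ ^ 2) ^ 2) ≤
        f x ^ 2 * (3 * (1 / (‖x - y‖ ^ 2 + δ ^ 2)) -
          2 * (‖x - y‖ ^ 2 / (‖x - y‖ ^ 2 + δ ^ 2) ^ 2)) :=
          mul_le_mul_of_nonneg_left h4 (sq_nonneg _)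
      _ = _ := by linear_combination (f x ^ 2) * h2
  have hsum : ∑ k : Fin 3, ∫ x, f x * pd k f x * ((x - y) k / (‖x - y‖ ^ 2 + δ ^ 2)) =
      -(1 / 2) * ∑ k : Fin 3, ∫ x, f x ^ 2 * (1 / (‖x - y‖ ^ 2 + δ ^ 2) -
        2 * (x - y) k ^ 2 / (‖x - y‖ ^ 2 + δ ^ 2) ^ 2) := by
    rw [mul_sum]
    refine sum_congr rfl fun k _ => ?_
    rw [(key k).2.2]
    ring
  rw [hcalc, hsum] at hnn
  linarith only [hnn, hdivsum]

end Vale.Agent.P370.Q
end
end

section

section

open MeasureTheory Filter Topology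

namespace Vale.Agent.P370

theorem proj_single {N : ℕ} (i : Fin N) (k : Fin 3) :
    (ContinuousLinearMap.proj (R := ℝ) (φ := fun _ : Fin N => R3) i)
      (Pi.single i (EuclideanSpace.single k 1)) = EuclideanSpace.single k 1 := by
  simp

theorem proj_sub_single {N : ℕ} (i j : Fin N) (hij : i ≠ j) (k : Fin 3) :
    (ContinuousLinearMap.proj (R := ℝ) (φ := fun _ : Fin N => R3) i
      - ContinuousLinearMap.proj (R := ℝ) (φ := fun _ : Fin N => R3) j)
      (Pi.single i (EuclideanSpace.single k 1)) = EuclideanSpace.single k 1 := by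
  simp [Pi.single_eq_of_ne (Ne.symm hij)]

theorem integrable_nuc {N : ℕ} (g : (Fin N → R3) → ℂ) (hg : ContDiff ℝ 1 g)
    (hc : HasCompactSupport g) (i : Fin N) (c : R3) :
    Integrable (fun x => ‖g x‖ ^ 2 / dist (x i) c) := by
  have := coulomb_integrable volume g hg hc
    (ContinuousLinearMap.proj (R := ℝ) (φ := fun _ : Fin N => R3) i)
    (fun k => Pi.single i (EuclideanSpace.single k 1)) (fun k => proj_single i k) c
  simpa only [dist_eq_norm, ContinuousLinearMap.proj_apply] using this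

theorem integrable_ee {N : ℕ} (g : (Fin N → R3) → ℂ) (hg : ContDiff ℝ 1 g)
    (hc : HasCompactSupport g) (i j : Fin N) (hij : i ≠ j) :
    Integrable (fun x => ‖g x‖ ^ 2 / dist (x i) (x j)) := by
  have := coulomb_integrable volume g hg hc
    (ContinuousLinearMap.proj (R := ℝ) (φ := fun _ : Fin N => R3) i
      - ContinuousLinearMap.proj (R := ℝ) (φ := fun _ : Fin N => R3) j)
    (fun k => Pi.single i (EuclideanSpace.single k 1)) (fun k => proj_sub_single i j hij k) 0
  simpa only [dist_eq_norm, sub_apply, ContinuousLinearMap.proj_apply, sub_zero] using this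

end Vale.Agent.P370
end
end

section

section

/-!
Scaling to heavy nucleus units.
-/

namespace Vale.Agent.P370.Q

open MeasureTheory Finset ComplexConjugate

/-- dilated wave function -/
noncomputable def dil {N : ℕ} (t : ℝ) (ψ : Wave N) : Wave N :=
  fun x s => ((Real.sqrt (t ^ (3 * N)) : ℝ) : ℂ) * ψ (t • x) s

theorem dil_finrank (N : ℕ) : Module.finrank ℝ (Fin N → R3) = 3 * N := by
  rw [Module.finrank_pi_fintype]
  simp only [finrank_euclideanSpace, Fintype.card_fin, sum_const, card_univ, smul_eq_mul, mul_comm]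

theorem dil_integral {N : ℕ} {t : ℝ} (ht : 0 < t) (f : (Fin N → R3) → ℝ) :
    ∫ x, t ^ (3 * N) * f (t • x) = ∫ x, f x := by
  rw [integral_const_mul, Measure.integral_comp_smul, dil_finrank, smul_eq_mul,
    abs_of_nonneg (by (clear * - ht; positivity)), ← mul_assoc, mul_inv_cancel₀ (by positivity), one_mul]

theorem dil_norm_sq {N : ℕ} {t : ℝ} (ht : 0 < t) (z : ℂ) :
    ‖((Real.sqrt (t ^ (3 * N)) : ℝ) : ℂ) * z‖ ^ 2 = t ^ (3 * N) * ‖z‖ ^ 2 := by
  rw [norm_mul, mul_pow, Complex.norm_real, Real.norm_eq_abs, sq_abs,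
    Real.sq_sqrt (by positivity)]

theorem normSq_dil {N : ℕ} {t : ℝ} (ht : 0 < t) (ψ : Wave N) :
    normSq (dil t ψ) = normSq ψ := by
  unfold normSq dil
  refine Finset.sum_congr rfl fun s _ => ?_
  simp only [dil_norm_sq ht]
  exact dil_integral ht (fun x => ‖ψ x s‖ ^ 2)

theorem isTestState_dil {N : ℕ} {t : ℝ} (ht : 0 < t) {ψ : Wave N} (h : IsTestState ψ) :
    IsTestState (dil t ψ) := by
  refine ⟨fun s => ?_, fun s => ?_, fun π x s => ?_⟩
  · exact contDiff_const.mul ((h.smooth s).comp (contDiff_const_smul t))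
  · have h1 : HasCompactSupport (fun x => ψ (t • x) s) :=
      (h.compactSupport s).comp_homeomorph (Homeomorph.smulOfNeZero t ht.ne')
    exact h1.mul_left
  · have h1 := h.antisymm π (t • x) s
    unfold dil
    have h2 : (t • fun i => x (π i)) = fun i => (t • x) (π i) := rfl
    rw [h2, h1]
    ring

theorem fderiv_dil {N : ℕ} {t : ℝ} {ψ : Wave N} (h : IsTestState ψ)
    (s : Fin N → Fin 2) (x v : Fin N → R3) :
    fderiv ℝ (fun y => dil t ψ y s) x v =
      ((Real.sqrt (t ^ (3 * N)) : ℝ) : ℂ) * (t * fderiv ℝ (fun y => ψ y s) (t • x) v) := by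
  have hd : DifferentiableAt ℝ (fun y => ψ y s) (t • x) :=
    (h.smooth s).differentiable (by simp) _
  have h1 : HasFDerivAt (fun y : Fin N → R3 => t • y)
      (t • ContinuousLinearMap.id ℝ (Fin N → R3)) x := by
    exact (hasFDerivAt_id x).const_smul t
  have h2 := (hd.hasFDerivAt.comp x h1).const_mul ((Real.sqrt (t ^ (3 * N)) : ℝ) : ℂ)
  have h3 : fderiv ℝ (fun y => dil t ψ y s) x = _ := h2.fderiv
  rw [h3]
  simp only [ContinuousLinearMap.comp_smulₛₗ, Real.ringHom_apply, ContinuousLinearMap.comp_id, smul_apply, Complex.real_smul, smul_eq_mul]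

theorem kinetic_dil {N : ℕ} {t : ℝ} (ht : 0 < t) {ψ : Wave N} (h : IsTestState ψ) :
    kinetic (dil t ψ) = t ^ 2 * kinetic ψ := by
  unfold kinetic
  simp only [fderiv_dil h, dil_norm_sq ht]
  have h1 : ∀ (s : Fin N → Fin 2) (i : Fin N) (k : Fin 3),
      ∫ x, t ^ (3 * N) * ‖(t : ℂ) * (fderiv ℝ (fun y => ψ y s) (t • x))
        (Pi.single i (EuclideanSpace.single k 1))‖ ^ 2 =
      t ^ 2 * ∫ x, ‖fderiv ℝ (fun y => ψ y s) x
        (Pi.single i (EuclideanSpace.single k 1))‖ ^ 2 := by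
    intro s i k
    rw [dil_integral ht (fun x => ‖(t : ℂ) * (fderiv ℝ (fun y => ψ y s) x)
        (Pi.single i (EuclideanSpace.single k 1))‖ ^ 2)]
    rw [← integral_const_mul]
    congr 1
    funext x
    rw [norm_mul, mul_pow, Complex.norm_real, Real.norm_eq_abs, sq_abs]
  simp only [h1, ← Finset.mul_sum]
  ring

theorem potential_dil {N m : ℕ} (T : ℕ) (w : Fin m → ℕ) (hT : ∑ b, w b < T)
    (y : Fin m → R3) (x : Fin N → R3) :
    coulombV (M := m + 1) (Fin.cons 0 (fun b => (1 / (T : ℝ)) • y b))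
        (Fin.cons (T - ∑ b, w b) w) x =
      (T : ℝ) ^ 2 * scaledV (1 / T) (fun b => (w b : ℝ)) y ((T : ℝ) • x) := by
  have hT0 : (0 : ℝ) < T := by
    have : 0 < T := lt_of_le_of_lt (Nat.zero_le _) hT
    exact_mod_cast this
  have hd : ∀ a b : R3, dist ((T : ℝ) • a) ((T : ℝ) • b) = T * dist a b := by
    intro a b
    rw [dist_smul₀, Real.norm_eq_abs, abs_of_pos hT0]
  have hd2 : ∀ (a b : R3), dist ((T : ℝ) • a) b = T * dist a ((1 / (T : ℝ)) • b) := by
    intro a b
    rw [← hd, smul_smul, mul_one_div_cancel hT0.ne', one_smul]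
  have hn : ∀ a : R3, ‖(T : ℝ) • a‖ = T * ‖a‖ := by
    intro a
    rw [norm_smul, Real.norm_eq_abs, abs_of_pos hT0]
  unfold coulombV scaledV
  have hc : (((T - ∑ b, w b : ℕ)) : ℝ) = T - ∑ b, (w b : ℝ) := by
    rw [Nat.cast_sub hT.le]
    push_cast
    rfl
  have e1 : ∀ i : Fin N, (∑ α : Fin (m + 1), ((Fin.cons (T - ∑ b, w b) w : Fin (m + 1) → ℕ) α : ℝ) /
      dist (x i) ((Fin.cons 0 (fun b => (1 / (T : ℝ)) • y b) : Fin (m + 1) → R3) α)) =
      (T - ∑ b, (w b : ℝ)) / ‖x i‖ + ∑ b, (w b : ℝ) / dist (x i) ((1 / (T : ℝ)) • y b) := by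
    intro i
    rw [Fin.sum_univ_succ]
    simp only [Fin.cons_zero, Fin.cons_succ, dist_zero_right, hc]
  simp only [e1, Pi.smul_apply, hd, hd2, hn]
  have e2 : ∀ i : Fin N, ∑ b, (w b : ℝ) * (1 / ((T : ℝ) * ‖x i‖) -
      1 / ((T : ℝ) * dist (x i) ((1 / (T : ℝ)) • y b))) =
      (1 / (T : ℝ)) * ((∑ b, (w b : ℝ)) / ‖x i‖ -
        ∑ b, (w b : ℝ) / dist (x i) ((1 / (T : ℝ)) • y b)) := by
    intro i
    rw [mul_sub, Finset.sum_div, Finset.mul_sum, Finset.mul_sum, ← Finset.sum_sub_distrib]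
    refine Finset.sum_congr rfl fun b _ => ?_
    rw [one_div, one_div, mul_inv, mul_inv, one_div]
    ring
  simp only [e2]
  have e3 : ∀ i : Fin N, ∀ j : Fin N, 1 / ((T : ℝ) * dist (x i) (x j)) =
      (1 / (T : ℝ)) * (1 / dist (x i) (x j)) := by
    intro i j
    rw [one_div, mul_inv, one_div, one_div]
  have e4 : ∀ i : Fin N, 1 / ((T : ℝ) * ‖x i‖) = (1 / (T : ℝ)) * (1 / ‖x i‖) := by
    intro i
    rw [one_div, mul_inv, one_div, one_div]
  simp only [e3, e4, ← Finset.mul_sum]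
  simp only [sub_div, sum_add_distrib, sum_sub_distrib]
  have e5 : ∑ i : Fin N, (T : ℝ) / ‖x i‖ = T * ∑ i : Fin N, 1 / ‖x i‖ := by
    rw [Finset.mul_sum]
    exact Finset.sum_congr rfl fun i _ => by ring
  rw [e5]
  field_simp
  ring

theorem energy_dil {N m : ℕ} (T : ℕ) (w : Fin m → ℕ) (hT : ∑ b, w b < T)
    (y : Fin m → R3) {ψ : Wave N} (h : IsTestState ψ) :
    energyForm (M := m + 1) (Fin.cons 0 (fun b => (1 / (T : ℝ)) • y b))
        (Fin.cons (T - ∑ b, w b) w) (dil (T : ℝ) ψ) =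
      (T : ℝ) ^ 2 * scaledE (1 / T) (fun b => (w b : ℝ)) y ψ := by
  have hT0 : (0 : ℝ) < T := by
    have : 0 < T := lt_of_le_of_lt (Nat.zero_le _) hT
    exact_mod_cast this
  rw [energyForm_eq _ _ (isTestState_dil hT0 h)]
  unfold energy scaledE
  rw [kinetic_dil hT0 h, mul_add, Finset.mul_sum]
  congr 1
  refine Finset.sum_congr rfl fun s _ => ?_
  rw [← integral_const_mul]
  rw [← dil_integral hT0 (fun x => (T : ℝ) ^ 2 *
    (scaledV (1 / T) (fun b => (w b : ℝ)) y x * ‖ψ x s‖ ^ 2))]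
  congr 1
  funext x
  rw [potential_dil T w hT]
  unfold dil
  rw [dil_norm_sq hT0]
  ring

theorem dil_dil {N : ℕ} {t : ℝ} (ht : 0 < t) (ψ : Wave N) :
    dil t (dil t⁻¹ ψ) = ψ := by
  funext x s
  unfold dil
  rw [smul_smul, inv_mul_cancel₀ ht.ne', one_smul, ← mul_assoc, ← Complex.ofReal_mul,
    ← Real.sqrt_mul (by positivity), ← mul_pow, mul_inv_cancel₀ ht.ne', one_pow, Real.sqrt_one,
    Complex.ofReal_one, one_mul]

/-- scaling: the ground energy of the molecule with a nucleus of charge `T - ∑ w b` at the origin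
and nuclei of charge `w b` at `y b / T` -/
theorem scaling_lower {N m : ℕ} (T : ℕ) (w : Fin m → ℕ) (hT : ∑ b, w b < T) (y : Fin m → R3)
    (L : ℝ)
    (hL : ∀ ψ : Wave N, IsTestState ψ → normSq ψ = 1 →
      L ≤ scaledE (1 / T) (fun b => (w b : ℝ)) y ψ) :
    (((T : ℝ) ^ 2 * L : ℝ) : EReal) ≤
      groundEnergy (M := m + 1) (Fin.cons 0 (fun b => (1 / (T : ℝ)) • y b))
        (Fin.cons (T - ∑ b, w b) w) N := by
  have hT0 : (0 : ℝ) < T := by
    have : 0 < T := lt_of_le_of_lt (Nat.zero_le _) hT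
    exact_mod_cast this
  unfold groundEnergy
  refine le_iInf fun φ => le_iInf fun hφ => le_iInf fun hm => ?_
  rw [EReal.coe_le_coe_iff]
  have hψ : IsTestState (dil (T : ℝ)⁻¹ φ) := isTestState_dil (inv_pos.2 hT0) hφ
  have h1 : normSq (dil (T : ℝ)⁻¹ φ) = 1 := by
    rw [normSq_dil (inv_pos.2 hT0), ← mass_eq, hm]
  have h2 := energy_dil T w hT y hψ
  rw [dil_dil hT0] at h2
  rw [h2]
  exact mul_le_mul_of_nonneg_left (hL _ hψ h1) (by (clear * - hT0; positivity))

theorem scaling_upper {N m : ℕ} (T : ℕ) (w : Fin m → ℕ) (hT : ∑ b, w b < T) (y : Fin m → R3)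
    (U : ℝ)
    (ψ : Wave N) (hψ : IsTestState ψ) (hψ1 : normSq ψ = 1)
    (hU : scaledE (1 / T) (fun b => (w b : ℝ)) y ψ ≤ U) :
    groundEnergy (M := m + 1) (Fin.cons 0 (fun b => (1 / (T : ℝ)) • y b))
        (Fin.cons (T - ∑ b, w b) w) N ≤
      (((T : ℝ) ^ 2 * U : ℝ) : EReal) := by
  have hT0 : (0 : ℝ) < T := by
    have : 0 < T := lt_of_le_of_lt (Nat.zero_le _) hT
    exact_mod_cast this
  unfold groundEnergy
  refine iInf_le_of_le (dil (T : ℝ) ψ) (iInf_le_of_le (isTestState_dil hT0 hψ)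
    (iInf_le_of_le ?_ ?_))
  · rw [mass_eq, normSq_dil hT0, hψ1]
  · rw [EReal.coe_le_coe_iff, energy_dil T w hT y hψ]
    exact mul_le_mul_of_nonneg_left hU (by (clear * - hT0; positivity))

end Vale.Agent.P370.Q
end
end

section

section

set_option exponentiation.threshold 10000

namespace Vale.Agent.P370.Chains

open Finset

/-! ### Alternating sums -/

variable {n B : ℕ} {A : Fin n → Fin (n ^ 2) → ℤ}

/-! ### cell-cell -/

/-! ### chain-chain -/

end Vale.Agent.P370.Chains
end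
end

section

section

open MeasureTheory Filter Topology

namespace Vale.Agent.P370

section
variable {N : ℕ} (φ : Fin N → R3 → ℝ)

/-- product state -/
noncomputable def prodState (x : Fin N → R3) : ℝ := ∏ i, φ i (x i)

theorem prodState_smooth (hsm : ∀ j, ContDiff ℝ (⊤ : ℕ∞) (φ j)) :
    ContDiff ℝ (⊤ : ℕ∞) (prodState φ) := by
  unfold prodState
  apply contDiff_prod
  intro i _
  exact (hsm i).comp (contDiff_apply ℝ R3 i)

theorem prodState_fderiv (hsm : ∀ j, ContDiff ℝ (⊤ : ℕ∞) (φ j)) (x : Fin N → R3) (i : Fin N)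
    (e : R3) :
    fderiv ℝ (prodState φ) x (Pi.single i e)
      = fderiv ℝ (φ i) (x i) e * ∏ j ∈ Finset.univ.erase i, φ j (x j) := by
  have hd : DifferentiableAt ℝ (prodState φ) x :=
    (prodState_smooth φ hsm).differentiable (by simp only [ne_eq, WithTop.coe_eq_zero, ENat.top_ne_zero, not_false_eq_true]) x
  rw [← hd.lineDeriv_eq_fderiv, lineDeriv]
  have h1 : (fun t : ℝ => prodState φ (x + t • (Pi.single i e : Fin N → R3)))
      = fun t => φ i (x i + t • e) * ∏ j ∈ Finset.univ.erase i, φ j (x j) := by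
    ext t
    unfold prodState
    rw [← Finset.mul_prod_erase Finset.univ _ (Finset.mem_univ i)]
    congr 1
    · simp only [Pi.add_apply, Pi.smul_apply, Pi.single_eq_same]
    · apply Finset.prod_congr rfl
      intro j hj
      have hj' := Finset.ne_of_mem_erase hj
      simp [Pi.single_eq_of_ne hj']
  rw [h1]
  have hdi : DifferentiableAt ℝ (φ i) (x i) := (hsm i).differentiable (by simp) _
  have h2 : HasDerivAt (fun t : ℝ => φ i (x i + t • e)) (fderiv ℝ (φ i) (x i) e) 0 := by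
    have := hdi.hasFDerivAt.hasLineDerivAt e
    exact this
  exact (h2.mul_const _).deriv

theorem prodState_compact (hcs : ∀ j, HasCompactSupport (φ j)) :
    HasCompactSupport (prodState φ) := by
  apply HasCompactSupport.intro (K := Set.pi Set.univ (fun i => tsupport (φ i)))
    (isCompact_univ_pi fun i => hcs i)
  intro x hx
  simp only [Set.mem_pi, Set.mem_univ, forall_const, not_forall] at hx
  obtain ⟨i, hi⟩ := hx
  exact Finset.prod_eq_zero (Finset.mem_univ i) (image_eq_zero_of_notMem_tsupport hi)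

end

end Vale.Agent.P370
end
end

section

section

/-!
Wave functions as functions on powers of `R3 × Fin 2`.
-/

namespace Vale.Agent.P370.NB

open MeasureTheory Function ComplexConjugate

section count

variable {α T : Type*} [MeasurableSpace α] [MeasurableSpace T] [Fintype T]
  [MeasurableSingletonClass T] (ν : Measure α) [SigmaFinite ν]
  {E : Type*} [NormedAddCommGroup E] [MeasurableSpace E] [BorelSpace E]
  [SecondCountableTopology E]

theorem integrable_prod_count {F : α × T → E} (hm : ∀ t, Measurable (fun x => F (x, t)))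
    (hF : ∀ t, Integrable (fun x => F (x, t)) ν) :
    Integrable F (ν.prod (Measure.count : Measure T)) := by
  have h : Measurable F := measurable_from_prod_countable_left hm
  rw [integrable_prod_iff' h.aestronglyMeasurable]
  exact ⟨Filter.Eventually.of_forall hF, Integrable.of_finite⟩

variable [NormedSpace ℝ E] [CompleteSpace E]

omit [MeasurableSpace E] [BorelSpace E] [SecondCountableTopology E] in
theorem integral_prod_count {F : α × T → E} (hF : Integrable F (ν.prod (Measure.count : Measure T))) :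
    ∫ p, F p ∂(ν.prod (Measure.count : Measure T)) = ∑ t, ∫ x, F (x, t) ∂ν := by
  rw [integral_prod_symm _ hF, integral_count]

end count

theorem pi_count (ι T : Type*) [Fintype ι] [Fintype T] [MeasurableSpace T]
    [MeasurableSingletonClass T] :
    (Measure.pi fun _ : ι => (Measure.count : Measure T)) = Measure.count := by
  apply Measure.ext_of_singleton
  intro a
  rw [Measure.pi_singleton]
  simp only [MeasurableSet.singleton, Measure.count_singleton', Finset.prod_const_one]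

abbrev YS : Type := R3 × Fin 2

noncomputable def μY : Measure YS := (volume : Measure R3).prod (Measure.count : Measure (Fin 2))

instance : SigmaFinite μY := by
  unfold μY
  infer_instance

section

variable {E : Type*} [NormedAddCommGroup E] [MeasurableSpace E] [BorelSpace E]
  [SecondCountableTopology E]

theorem integrable_Y {F : YS → E} (hm : ∀ σ, Measurable (fun x => F (x, σ)))
    (hF : ∀ σ, Integrable (fun x => F (x, σ))) : Integrable F μY :=
  integrable_prod_count volume hm hF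

/-- joining positions and spins -/
def jn {N : ℕ} (x : Fin N → R3) (s : Fin N → Fin 2) : Fin N → YS := fun i => (x i, s i)

noncomputable def jnE (N : ℕ) : (Fin N → YS) ≃ᵐ (Fin N → R3) × (Fin N → Fin 2) :=
  MeasurableEquiv.arrowProdEquivProdArrow R3 (Fin 2) (Fin N)

theorem mp_jnE (N : ℕ) : MeasurePreserving (jnE N) (pm (Fin N) μY)
    ((volume : Measure (Fin N → R3)).prod (Measure.count : Measure (Fin N → Fin 2))) := by
  have h := measurePreserving_arrowProdEquivProdArrow R3 (Fin 2) (Fin N)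
    (fun _ => (volume : Measure R3)) (fun _ => (Measure.count : Measure (Fin 2)))
  rw [pi_count] at h
  exact h

theorem integrable_pow {N : ℕ} {F : (Fin N → YS) → E}
    (hm : ∀ s, Measurable (fun x => F (jn x s)))
    (hF : ∀ s, Integrable (fun x => F (jn x s))) : Integrable F (pm (Fin N) μY) := by
  have h := integrable_prod_count (T := Fin N → Fin 2) (volume : Measure (Fin N → R3))
    (F := fun p => F ((jnE N).symm p)) hm hF
  have h2 := (mp_jnE N).integrable_comp_of_integrable h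
  simpa only [comp_def, MeasurableEquiv.symm_apply_apply] using h2

omit [MeasurableSpace E] [BorelSpace E] [SecondCountableTopology E] in
theorem integral_pow [NormedSpace ℝ E] [CompleteSpace E] {N : ℕ} {F : (Fin N → YS) → E}
    (hF : Integrable F (pm (Fin N) μY)) :
    ∫ w, F w ∂(pm (Fin N) μY) = ∑ s, ∫ x, F (jn x s) := by
  have h1 : ∫ p, F ((jnE N).symm p) ∂((volume : Measure (Fin N → R3)).prod
      (Measure.count : Measure (Fin N → Fin 2))) = ∫ w, F w ∂(pm (Fin N) μY) := by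
    rw [← (mp_jnE N).map_eq, integral_map_equiv]
    simp
  have h2 : Integrable (fun p => F ((jnE N).symm p)) ((volume : Measure (Fin N → R3)).prod
      (Measure.count : Measure (Fin N → Fin 2))) := by
    have := (mp_jnE N).symm.integrable_comp_of_integrable hF
    exact this
  rw [← h1, integral_prod_count _ h2]
  rfl

omit [MeasurableSpace E] [BorelSpace E] [SecondCountableTopology E] in
theorem integral_Y [NormedSpace ℝ E] [CompleteSpace E] {F : YS → E} (hF : Integrable F μY) :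
    ∫ y, F y ∂μY = ∑ σ, ∫ x, F (x, σ) :=
  integral_prod_count volume hF

end

end Vale.Agent.P370.NB
end
end

section

section

/-!
Matrix elements of linear combinations of products of orbitals.
-/

namespace Vale.Agent.P370.NB

open MeasureTheory Function ComplexConjugate Finset

variable {Y : Type*} [MeasurableSpace Y] {A : Type*} [Fintype A] [DecidableEq A] {N : ℕ}

/-- product of (slot dependent) orbitals -/
def pf (Θ : Fin N → A → Y → ℝ) (I : Fin N → A) (w : Fin N → Y) : ℝ := ∏ l, Θ l (I l) (w l)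

/-- linear combination of products -/
noncomputable def lc (Θ : Fin N → A → Y → ℝ) (c : (Fin N → A) → ℂ) (w : Fin N → Y) : ℂ :=
  ∑ I, c I * (pf Θ I w : ℂ)

omit [MeasurableSpace Y] [Fintype A] [DecidableEq A] in
theorem pf_mul (Θ : Fin N → A → Y → ℝ) (I J : Fin N → A) (w : Fin N → Y) :
    pf Θ I w * pf Θ J w = ∏ l, (Θ l (I l) (w l) * Θ l (J l) (w l)) :=
  Finset.prod_mul_distrib.symm

omit [MeasurableSpace Y] [DecidableEq A] in
theorem norm_lc_sq (Θ : Fin N → A → Y → ℝ) (c : (Fin N → A) → ℂ) (w : Fin N → Y) :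
    ‖lc Θ c w‖ ^ 2 = ∑ I, ∑ J, (conj (c I) * c J).re *
      ∏ l, (Θ l (I l) (w l) * Θ l (J l) (w l)) := by
  have h1 : ((‖lc Θ c w‖ ^ 2 : ℝ) : ℂ) = conj (lc Θ c w) * lc Θ c w := by
    rw [Complex.conj_mul']
    push_cast
    rfl
  have h2 : ‖lc Θ c w‖ ^ 2 = (conj (lc Θ c w) * lc Θ c w).re := by
    rw [← h1, Complex.ofReal_re]
  rw [h2]
  unfold lc
  rw [map_sum, Finset.sum_mul_sum, Complex.re_sum]
  refine Finset.sum_congr rfl fun I _ => ?_
  rw [Complex.re_sum]
  refine Finset.sum_congr rfl fun J _ => ?_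
  rw [← pf_mul, map_mul, Complex.conj_ofReal]
  have : conj (c I) * (pf Θ I w : ℂ) * (c J * (pf Θ J w : ℂ)) =
      ((pf Θ I w * pf Θ J w : ℝ) : ℂ) * (conj (c I) * c J) := by
    push_cast
    ring
  rw [this, Complex.re_ofReal_mul, mul_comm]

section sums

theorem sum_delta_one (F : (Fin N → A) → ℝ) (I : Fin N → A) (i : Fin N) :
    ∑ J, (∏ l ∈ univ.erase i, (if I l = J l then (1 : ℝ) else 0)) * F J =
      ∑ a, F (update I i a) := by
  have h1 : ∀ J : Fin N → A, (∏ l ∈ univ.erase i, (if I l = J l then (1 : ℝ) else 0)) * F J =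
      if (∀ l ∈ univ.erase i, I l = J l) then F J else 0 := by
    intro J
    split_ifs with h
    · rw [Finset.prod_eq_one fun l hl => if_pos (h l hl), one_mul]
    · push Not at h
      obtain ⟨l, hl, hne⟩ := h
      rw [Finset.prod_eq_zero hl (if_neg hne), zero_mul]
  simp only [h1]
  rw [← Finset.sum_filter]
  refine (Finset.sum_bij (fun a _ => update I i a) ?_ ?_ ?_ ?_).symm
  · intro a _
    simp only [mem_filter, mem_univ, true_and]
    intro l hl
    rw [update_of_ne (Finset.ne_of_mem_erase hl)]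
  · intro a _ b _ h
    have := congrFun h i
    simpa using this
  · intro J hJ
    simp only [Finset.mem_filter, Finset.mem_univ, true_and] at hJ
    refine ⟨J i, Finset.mem_univ _, ?_⟩
    funext l
    by_cases hl : l = i
    · subst hl
      rw [update_self]
    · rw [update_of_ne hl]
      exact hJ l (Finset.mem_erase.2 ⟨hl, Finset.mem_univ l⟩)
  · intro a _
    rfl

theorem sum_delta_two (F : (Fin N → A) → ℝ) (I : Fin N → A) {i j : Fin N} (hij : i ≠ j) :
    ∑ J, (∏ l ∈ (univ.erase i).erase j, (if I l = J l then (1 : ℝ) else 0)) * F J =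
      ∑ a, ∑ b, F (update (update I i a) j b) := by
  have h1 : ∀ J : Fin N → A,
      (∏ l ∈ (univ.erase i).erase j, (if I l = J l then (1 : ℝ) else 0)) * F J =
      if (∀ l ∈ (univ.erase i).erase j, I l = J l) then F J else 0 := by
    intro J
    split_ifs with h
    · rw [Finset.prod_eq_one fun l hl => if_pos (h l hl), one_mul]
    · push Not at h
      obtain ⟨l, hl, hne⟩ := h
      rw [Finset.prod_eq_zero hl (if_neg hne), zero_mul]
  simp only [h1]
  rw [← Finset.sum_filter, ← Finset.sum_product']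
  refine (Finset.sum_bij (fun p _ => update (update I i p.1) j p.2) ?_ ?_ ?_ ?_).symm
  · intro a _
    simp only [Finset.mem_filter, Finset.mem_univ, true_and]
    intro l hl
    rw [update_of_ne (Finset.ne_of_mem_erase hl),
      update_of_ne (Finset.ne_of_mem_erase (Finset.mem_of_mem_erase hl))]
  · intro a _ b _ h
    have h2 := congrFun h i
    have h3 := congrFun h j
    rw [update_of_ne hij, update_of_ne hij, update_self, update_self] at h2
    rw [update_self, update_self] at h3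
    exact Prod.ext h2 h3
  · intro J hJ
    simp only [Finset.mem_filter, Finset.mem_univ, true_and] at hJ
    refine ⟨(J i, J j), by simp only [univ_product_univ, mem_univ], ?_⟩
    funext l
    by_cases hl : l = j
    · subst hl
      rw [update_self]
    · rw [update_of_ne hl]
      by_cases hl' : l = i
      · subst hl'
        rw [update_self]
      · rw [update_of_ne hl']
        exact hJ l (Finset.mem_erase.2 ⟨hl, Finset.mem_erase.2 ⟨hl', Finset.mem_univ l⟩⟩)
  · intro a _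
    rfl

end sums

variable (μ : Measure Y) [SigmaFinite μ]

theorem integral_lc_zero {Θ : Fin N → A → Y → ℝ}
    (hΘ : ∀ l a b, Integrable (fun y => Θ l a y * Θ l b y) μ) (c : (Fin N → A) → ℂ) :
    Integrable (fun w => ‖lc Θ c w‖ ^ 2) (pm (Fin N) μ) ∧
    ∫ w, ‖lc Θ c w‖ ^ 2 ∂(pm (Fin N) μ) = ∑ I, ∑ J, (conj (c I) * c J).re *
      ∏ l, ∫ y, Θ l (I l) y * Θ l (J l) y ∂μ := by
  have hi : ∀ I J : Fin N → A, Integrable (fun w : Fin N → Y => (conj (c I) * c J).re *
      ∏ l, (Θ l (I l) (w l) * Θ l (J l) (w l))) (pm (Fin N) μ) := fun I J =>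
    (integrable_prod_fun μ (g := fun l y => Θ l (I l) y * Θ l (J l) y)
      fun l => hΘ l _ _).const_mul _
  simp only [norm_lc_sq]
  refine ⟨integrable_finsetSum _ fun I _ => integrable_finsetSum _ fun J _ => hi I J, ?_⟩
  rw [integral_finsetSum _ fun I _ => integrable_finsetSum _ fun J _ => hi I J]
  refine Finset.sum_congr rfl fun I _ => ?_
  rw [integral_finsetSum _ fun J _ => hi I J]
  refine Finset.sum_congr rfl fun J _ => ?_
  rw [integral_const_mul, integral_prod_fun μ (fun l y => Θ l (I l) y * Θ l (J l) y)]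

theorem integral_lc_one {θ : A → Y → ℝ}
    (hθ : ∀ a b, Integrable (fun y => θ a y * θ b y) μ) (c : (Fin N → A) → ℂ) (i : Fin N)
    {v : Y → ℝ} (hv : ∀ a b, Integrable (fun y => θ a y * θ b y * v y) μ) :
    Integrable (fun w => ‖lc (fun _ => θ) c w‖ ^ 2 * v (w i)) (pm (Fin N) μ) ∧
    ∫ w, ‖lc (fun _ => θ) c w‖ ^ 2 * v (w i) ∂(pm (Fin N) μ) =
      ∑ I, ∑ J, (conj (c I) * c J).re *
      ((∏ l ∈ univ.erase i, ∫ y, θ (I l) y * θ (J l) y ∂μ) *
        ∫ y, θ (I i) y * θ (J i) y * v y ∂μ) := by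
  have hi : ∀ I J : Fin N → A, Integrable (fun w : Fin N → Y => (conj (c I) * c J).re *
      ((∏ l, (θ (I l) (w l) * θ (J l) (w l))) * v (w i))) (pm (Fin N) μ) := fun I J =>
    (integrable_prod_one μ (g := fun l y => θ (I l) y * θ (J l) y)
      (fun l => hθ _ _) i (hv _ _)).const_mul _
  simp only [norm_lc_sq, sum_mul, mul_assoc] at hi ⊢
  refine ⟨integrable_finsetSum _ fun I _ => integrable_finsetSum _ fun J _ => hi I J, ?_⟩
  rw [integral_finsetSum _ fun I _ => integrable_finsetSum _ fun J _ => hi I J]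
  refine Finset.sum_congr rfl fun I _ => ?_
  rw [integral_finsetSum _ fun J _ => hi I J]
  refine Finset.sum_congr rfl fun J _ => ?_
  rw [integral_const_mul]
  congr 1
  have := integral_prod_one μ (fun l y => θ (I l) y * θ (J l) y) i v
  simp only [mul_assoc] at this
  exact this

theorem integral_lc_two {θ : A → Y → ℝ} (hm : ∀ a, Measurable (θ a))
    (hθ : ∀ a b, Integrable (fun y => θ a y * θ b y) μ) (c : (Fin N → A) → ℂ) {i j : Fin N}
    (hij : i ≠ j) {k : Y → Y → ℝ} (hkm : Measurable (fun p : Y × Y => k p.1 p.2))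
    (hk : ∀ p a q b, Integrable (fun y : Y × Y => (θ p y.1 * θ a y.1) * (θ q y.2 * θ b y.2) *
      k y.1 y.2) (μ.prod μ))
    {h : Y → ℝ} (hhm : Measurable h) (hh : Integrable h μ) (h1 : ∫ y, h y ∂μ = 1) :
    Integrable (fun w => ‖lc (fun _ => θ) c w‖ ^ 2 * k (w i) (w j)) (pm (Fin N) μ) ∧
    ∫ w, ‖lc (fun _ => θ) c w‖ ^ 2 * k (w i) (w j) ∂(pm (Fin N) μ) =
      ∑ I, ∑ J, (conj (c I) * c J).re *
      ((∏ l ∈ (univ.erase i).erase j, ∫ y, θ (I l) y * θ (J l) y ∂μ) *
        ∫ y, (∫ z, θ (I i) z * θ (J i) z * k z y ∂μ) * (θ (I j) y * θ (J j) y) ∂μ) := by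
  have hi : ∀ I J : Fin N → A, Integrable (fun w : Fin N → Y => (conj (c I) * c J).re *
      ((∏ l, (θ (I l) (w l) * θ (J l) (w l))) * k (w i) (w j))) (pm (Fin N) μ) := fun I J =>
    (integrable_prod_two μ (g := fun l y => θ (I l) y * θ (J l) y)
      (fun l => (hm _).mul (hm _)) (fun l => hθ _ _) hij hkm (hk _ _ _ _) hhm hh h1).const_mul _
  have e : ∀ w : Fin N → Y, ‖lc (fun _ => θ) c w‖ ^ 2 * k (w i) (w j) =
      ∑ I, ∑ J, (conj (c I) * c J).re *
      ((∏ l, (θ (I l) (w l) * θ (J l) (w l))) * k (w i) (w j)) := by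
    intro w
    rw [norm_lc_sq, Finset.sum_mul]
    refine Finset.sum_congr rfl fun I _ => ?_
    rw [Finset.sum_mul]
    exact Finset.sum_congr rfl fun J _ => mul_assoc _ _ _
  simp only [e]
  refine ⟨integrable_finsetSum _ fun I _ => integrable_finsetSum _ fun J _ => hi I J, ?_⟩
  rw [integral_finsetSum _ fun I _ => integrable_finsetSum _ fun J _ => hi I J]
  refine Finset.sum_congr rfl fun I _ => ?_
  rw [integral_finsetSum _ fun J _ => hi I J]
  refine Finset.sum_congr rfl fun J _ => ?_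
  rw [integral_const_mul]
  congr 1
  exact integral_prod_two μ (g := fun l y => θ (I l) y * θ (J l) y)
    (fun l => (hm _).mul (hm _)) (fun l => hθ _ _) hij hkm (hk _ _ _ _) hhm hh h1

end Vale.Agent.P370.NB
end
end

section

section

/-!
Shell orbitals with spin, test states as dominated antisymmetric functions.
-/

namespace Vale.Agent.P370.NB

open MeasureTheory Function ComplexConjugate Finset Vale.Agent.P370.Q

/-! ### orbitals -/

noncomputable def wsp (κ : ℝ) (hκ : 0 < κ) : WSp YS where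
  μ := μY
  sf := inferInstance
  E := fun y => Real.exp (-κ * ‖y.1‖)
  meas := by fun_prop
  nonneg := fun y => (Real.exp_pos _).le
  le_one := fun y => Real.exp_le_one_iff.2 (by nlinarith [norm_nonneg y.1])
  int := integrable_Y (fun σ => by fun_prop) fun σ => Hyd.integrable_exp hκ

/-- spin orbitals -/
def so {A : Type} (χ : A → R3 → ℝ) (p : A × Fin 2) (y : YS) : ℝ := if y.2 = p.2 then χ p.1 y.1 else 0

theorem so_measurable {A : Type} {χ : A → R3 → ℝ} (hχ : ∀ a, Continuous (χ a)) (p : A × Fin 2) :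
    Measurable (so χ p) := by
  apply measurable_from_prod_countable_left
  intro σ
  unfold so
  by_cases h : σ = p.2
  · simp only [h, if_true]
    exact (hχ _).measurable
  · simp only [h, if_false]
    exact measurable_const

/-- integrals of products of two spin orbitals with a spin independent function -/
theorem integral_so_so {A : Type} {χ : A → R3 → ℝ} (hχ : ∀ a, Continuous (χ a))
    (v : R3 → ℝ) (hv : Measurable v)
    (p q : A × Fin 2) (hi : Integrable (fun x => χ p.1 x * χ q.1 x * v x)) :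
    Integrable (fun y => so χ p y * so χ q y * v y.1) μY ∧
    ∫ y, so χ p y * so χ q y * v y.1 ∂μY =
      if p.2 = q.2 then ∫ x, χ p.1 x * χ q.1 x * v x else 0 := by
  have h0 : ∀ σ, (fun x => so χ p (x, σ) * so χ q (x, σ) * v x) =
      if σ = p.2 ∧ σ = q.2 then (fun x => χ p.1 x * χ q.1 x * v x) else fun _ => 0 := by
    intro σ
    split_ifs with h
    · funext x
      unfold so
      rw [if_pos h.1, if_pos h.2]
    · funext x
      unfold so
      by_cases h1 : σ = p.2
      · have h2 : ¬ σ = q.2 := fun h2 => h ⟨h1, h2⟩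
        rw [if_neg h2, mul_zero, zero_mul]
      · rw [if_neg h1, zero_mul, zero_mul]
  have hi' : Integrable (fun y => so χ p y * so χ q y * v y.1) μY := by
    refine integrable_Y (fun σ => ?_) fun σ => ?_
    · exact (((so_measurable hχ p).comp measurable_prodMk_right).mul
        ((so_measurable hχ q).comp measurable_prodMk_right)).mul hv
    · simp only [h0]
      split_ifs
      · exact hi
      · exact integrable_zero _ _ _
  refine ⟨hi', ?_⟩
  rw [integral_Y hi']
  simp only [h0]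
  by_cases h : p.2 = q.2
  · rw [if_pos h]
    rw [Finset.sum_eq_single p.2]
    · rw [if_pos ⟨rfl, h⟩]
    · intro σ _ hσ
      rw [if_neg fun h => hσ h.1]
      simp
    · simp only [mem_univ, not_true_eq_false, true_and, IsEmpty.forall_iff]
  · rw [if_neg h]
    refine Finset.sum_eq_zero fun σ _ => ?_
    rw [if_neg]
    · simp
    · rintro ⟨h1, h2⟩
      exact h (h1 ▸ h2)

section basis

variable {n : ℕ} {A : Type} [Fintype A] [DecidableEq A] (B : ShellBasis n A)

theorem SB_nice (a : A) : Nice (B.χ a) := (B.mem a).nice (B.lev_pos a)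

theorem SB_exists_kappa : ∃ κ : ℝ, 0 < κ ∧ ∀ a, ∃ C : ℝ, 0 ≤ C ∧ ∀ x,
    |B.χ a x| ≤ C * Real.exp (-κ * ‖x‖) := by
  have h : ∀ a, ∃ C c : ℝ, 0 ≤ C ∧ 0 < c ∧ ∀ x, |B.χ a x| ≤ C * Real.exp (-c * ‖x‖) :=
    fun a => (SB_nice B a).dec.nonneg
  choose C c hC hc h using h
  obtain ⟨κ, hκ, hle⟩ : ∃ κ : ℝ, 0 < κ ∧ ∀ a, κ ≤ c a := by
    rcases isEmpty_or_nonempty A with he | he
    · exact ⟨1, one_pos, fun a => (he.false a).elim⟩
    · refine ⟨Finset.univ.inf' Finset.univ_nonempty c, ?_, fun a =>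
        Finset.inf'_le _ (Finset.mem_univ a)⟩
      rw [Finset.lt_inf'_iff]
      exact fun a _ => hc a
  refine ⟨κ, hκ, fun a => ⟨C a, hC a, fun x => (h a x).trans ?_⟩⟩
  refine mul_le_mul_of_nonneg_left (Real.exp_le_exp.2 ?_) (hC a)
  nlinarith only [hle a, norm_nonneg x]

/-- the orthonormal family of spin orbitals -/
noncomputable def SBFam {κ : ℝ} (hκ : 0 < κ) (hB : ∀ a, ∃ C : ℝ, 0 ≤ C ∧ ∀ x,
    |B.χ a x| ≤ C * Real.exp (-κ * ‖x‖)) : Fam (wsp κ hκ) (A × Fin 2) where
  θ := so B.χ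
  orb p := by
    refine ⟨so_measurable (fun a => (SB_nice B a).cont) p, ?_⟩
    obtain ⟨C, hC, h⟩ := hB p.1
    refine ⟨C, hC, fun y => ?_⟩
    unfold so
    split_ifs
    · exact h _
    · rw [abs_zero]
      exact mul_nonneg hC (Real.exp_pos _).le
  ortho p q := by
    have h1 := (integral_so_so (fun a => (SB_nice B a).cont) (fun _ => 1) measurable_const p q
      (by simpa using (nice_integrable_rinv (SB_nice B p.1) (SB_nice B q.1)).2)).2
    simp only [mul_one] at h1
    have h2 : ∫ x, B.χ p.1 x * B.χ q.1 x = if p.1 = q.1 then 1 else 0 := B.ortho p.1 q.1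
    rw [h2] at h1
    refine h1.trans ?_
    by_cases h : p = q
    · subst h
      simp
    · rw [if_neg h]
      by_cases h3 : p.2 = q.2
      · rw [if_pos h3, if_neg]
        intro h4
        exact h (Prod.ext h4 h3)
      · rw [if_neg h3]

end basis

/-! ### test states -/

/-- wave function as a function on the power of `R3 × Fin 2` -/
def toY {N : ℕ} (ψ : Wave N) (w : Fin N → YS) : ℂ := ψ (fun i => (w i).1) (fun i => (w i).2)

theorem toY_jn {N : ℕ} (ψ : Wave N) (x : Fin N → R3) (s : Fin N → Fin 2) :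
    toY ψ (jn x s) = ψ x s := rfl

/-- functions on the power given by slices -/
def ofS {N : ℕ} {E : Type*} (F : (Fin N → R3) → (Fin N → Fin 2) → E) (w : Fin N → YS) : E :=
  F (fun i => (w i).1) (fun i => (w i).2)

theorem measurable_ofS {N : ℕ} {E : Type*} [MeasurableSpace E]
    {F : (Fin N → R3) → (Fin N → Fin 2) → E} (h : ∀ s, Measurable (fun x => F x s)) :
    Measurable (ofS F) := by
  have h1 : Measurable (fun p : (Fin N → R3) × (Fin N → Fin 2) => F p.1 p.2) :=
    measurable_from_prod_countable_left h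
  have h2 : Measurable (fun w : Fin N → YS =>
      ((fun i => (w i).1, fun i => (w i).2) : (Fin N → R3) × (Fin N → Fin 2))) := by
    refine Measurable.prodMk ?_ ?_
    · exact measurable_pi_iff.2 fun i => measurable_fst.comp (measurable_pi_apply i)
    · exact measurable_pi_iff.2 fun i => measurable_snd.comp (measurable_pi_apply i)
  exact h1.comp h2

theorem toY_anti {N : ℕ} {ψ : Wave N} (hψ : IsTestState ψ) : Anti (toY ψ) := by
  intro i j hij w
  have h := hψ.antisymm (Equiv.swap i j) (fun i => (w i).1) (fun i => (w i).2)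
  rw [Equiv.Perm.sign_swap hij] at h
  simp only [Units.val_neg, Units.val_one, Int.cast_neg, Int.cast_one, neg_mul, one_mul] at h
  exact h

theorem toY_dm {N : ℕ} {ψ : Wave N} (hψ : IsTestState ψ) {κ : ℝ} (hκ : 0 < κ) :
    Dm (wsp κ hκ) (toY ψ) := by
  refine ⟨measurable_ofS (F := ψ) fun s => (hψ.smooth s).continuous.measurable, ?_⟩
  have h : ∀ s, ∃ C : ℝ, 0 ≤ C ∧ ∀ x, ‖ψ x s‖ ≤ C * ∏ i, Real.exp (-κ * ‖x i‖) := by
    intro s
    have hc : Continuous (fun x : Fin N → R3 =>
        ((∏ i, Real.exp (κ * ‖x i‖) : ℝ) : ℂ) * ψ x s) := by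
      have h1 := (hψ.smooth s).continuous
      have h2 : Continuous (fun x : Fin N → R3 => ∏ i, Real.exp (κ * ‖x i‖)) :=
        continuous_finsetProd _ fun i _ => by fun_prop
      exact (Complex.continuous_ofReal.comp h2).mul h1
    have hs : HasCompactSupport (fun x : Fin N → R3 =>
        ((∏ i, Real.exp (κ * ‖x i‖) : ℝ) : ℂ) * ψ x s) := (hψ.compactSupport s).mul_left
    obtain ⟨C, hC⟩ := hc.bounded_above_of_compact_support hs
    refine ⟨max C 0, le_max_right _ _, fun x => ?_⟩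
    have h1 := (hC x).trans (le_max_left C 0)
    have hpos : 0 < ∏ i, Real.exp (κ * ‖x i‖) := Finset.prod_pos fun i _ => Real.exp_pos _
    rw [norm_mul, Complex.norm_real, Real.norm_eq_abs, abs_of_pos hpos] at h1
    have h2 : (∏ i, Real.exp (-κ * ‖x i‖)) * (∏ i, Real.exp (κ * ‖x i‖)) = 1 := by
      rw [← Finset.prod_mul_distrib]
      refine Finset.prod_eq_one fun i _ => ?_
      rw [← Real.exp_add]
      simp
    have hpos' : 0 ≤ ∏ i, Real.exp (-κ * ‖x i‖) := Finset.prod_nonneg fun i _ => (Real.exp_pos _).le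
    calc ‖ψ x s‖ = ((∏ i, Real.exp (-κ * ‖x i‖)) * (∏ i, Real.exp (κ * ‖x i‖))) * ‖ψ x s‖ := by
          rw [h2, one_mul]
      _ = (∏ i, Real.exp (-κ * ‖x i‖)) * ((∏ i, Real.exp (κ * ‖x i‖)) * ‖ψ x s‖) := by ring
      _ ≤ (∏ i, Real.exp (-κ * ‖x i‖)) * max C 0 := mul_le_mul_of_nonneg_left h1 hpos'
      _ = _ := mul_comm _ _
  choose C hC h using h
  refine ⟨∑ s, C s, Finset.sum_nonneg fun s _ => hC s, fun w => ?_⟩
  have h1 := h (fun i => (w i).2) (fun i => (w i).1)
  have h2 : C (fun i => (w i).2) ≤ ∑ s, C s :=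
    Finset.single_le_sum (f := C) (fun s _ => hC s) (Finset.mem_univ _)
  refine h1.trans ?_
  exact mul_le_mul_of_nonneg_right h2 (Finset.prod_nonneg fun i _ => (Real.exp_pos _).le)

theorem toY_norm_sq {N : ℕ} {ψ : Wave N} (hψ : IsTestState ψ) :
    ∫ w, ‖toY ψ w‖ ^ 2 ∂(pm (Fin N) μY) = normSq ψ := by
  have h := (toY_dm hψ one_pos).norm_sq_integrable
  exact integral_pow h

end Vale.Agent.P370.NB
end
end

section

section

/-!
Trial wave functions: linear combinations of products of spin orbitals.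
-/

namespace Vale.Agent.P370.NB.U

open MeasureTheory Function ComplexConjugate Finset Vale.Agent.P370.Q

variable {N : ℕ} {A : Type} [Fintype A] [DecidableEq A]

/-- trial wave function -/
noncomputable def tw (g : A → R3 → ℝ) (c : (Fin N → A × Fin 2) → ℂ) : Wave N :=
  fun x s => lc (fun _ => so g) c (jn x s)

/-- slices of spin orbitals -/
def sl (g : A → R3 → ℝ) (I : Fin N → A × Fin 2) (s : Fin N → Fin 2) (l : Fin N) : R3 → ℝ :=
  fun y => so g (I l) (y, s l)

omit [DecidableEq A] in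
theorem tw_apply (g : A → R3 → ℝ) (c : (Fin N → A × Fin 2) → ℂ) (x : Fin N → R3)
    (s : Fin N → Fin 2) : tw g c x s = ∑ I, c I * ((prodState (sl g I s) x : ℝ) : ℂ) := rfl

omit [Fintype A] [DecidableEq A] in
theorem sl_smooth {g : A → R3 → ℝ} (hg : ∀ a, ContDiff ℝ (⊤ : ℕ∞) (g a)) (I : Fin N → A × Fin 2)
    (s : Fin N → Fin 2) (l : Fin N) : ContDiff ℝ (⊤ : ℕ∞) (sl g I s l) := by
  unfold sl so
  by_cases h : s l = (I l).2
  · simp only [h, if_true]
    exact hg _
  · simp only [h, if_false]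
    exact contDiff_const

omit [Fintype A] [DecidableEq A] in
theorem sl_compact {g : A → R3 → ℝ} (hg : ∀ a, HasCompactSupport (g a)) (I : Fin N → A × Fin 2)
    (s : Fin N → Fin 2) (l : Fin N) : HasCompactSupport (sl g I s l) := by
  unfold sl so
  by_cases h : s l = (I l).2
  · simp only [h, if_true]
    exact hg _
  · simp only [h, if_false]
    exact HasCompactSupport.zero

omit [Fintype A] [DecidableEq A] in
theorem sl_fderiv {g : A → R3 → ℝ} (I : Fin N → A × Fin 2)
    (s : Fin N → Fin 2) (l : Fin N) (x e : R3) :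
    fderiv ℝ (sl g I s l) x e = so (fun a y => fderiv ℝ (g a) y e) (I l) (x, s l) := by
  unfold sl so
  by_cases h : s l = (I l).2
  · simp only [h, if_true]
  · simp only [h, if_false]
    simp only [fderiv_fun_const, Pi.zero_apply, zero_apply]

omit [DecidableEq A] in
theorem tw_smooth {g : A → R3 → ℝ} (hg : ∀ a, ContDiff ℝ (⊤ : ℕ∞) (g a))
    (c : (Fin N → A × Fin 2) → ℂ) (s : Fin N → Fin 2) :
    ContDiff ℝ (⊤ : ℕ∞) (fun x => tw g c x s) := by
  simp only [tw_apply]
  refine ContDiff.sum fun I _ => contDiff_const.mul ?_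
  exact Complex.ofRealCLM.contDiff.comp (prodState_smooth _ (sl_smooth hg I s))

omit [DecidableEq A] in
theorem tw_compact {g : A → R3 → ℝ} (hg : ∀ a, HasCompactSupport (g a))
    (c : (Fin N → A × Fin 2) → ℂ) (s : Fin N → Fin 2) :
    HasCompactSupport (fun x => tw g c x s) := by
  apply HasCompactSupport.intro
    (K := ⋃ I : Fin N → A × Fin 2, tsupport (prodState (sl g I s)))
    (isCompact_iUnion fun I => prodState_compact _ (sl_compact hg I s))
  intro x hx
  simp only [Set.mem_iUnion, not_exists] at hx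
  rw [tw_apply]
  refine Finset.sum_eq_zero fun I _ => ?_
  rw [image_eq_zero_of_notMem_tsupport (hx I)]
  simp

theorem tw_anti (g : A → R3 → ℝ) {c : Tens N (A × Fin 2)} (hc : IsAnti c)
    (π : Equiv.Perm (Fin N)) (x : Fin N → R3) (s : Fin N → Fin 2) :
    tw g c (fun i => x (π i)) (fun i => s (π i)) = ((Equiv.Perm.sign π : ℤ) : ℂ) * tw g c x s := by
  unfold tw lc
  rw [Finset.mul_sum, ← Equiv.sum_comp (π.symm.arrowCongr (Equiv.refl (A × Fin 2)))]
  refine Finset.sum_congr rfl fun I _ => ?_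
  have h1 : (π.symm.arrowCongr (Equiv.refl (A × Fin 2))) I = fun i => I (π i) := by
    funext i
    simp [Equiv.arrowCongr]
  rw [h1, hc]
  have h2 : pf (fun _ => so g) (fun i => I (π i)) (jn (fun i => x (π i)) fun i => s (π i)) =
      pf (fun _ => so g) I (jn x s) := by
    unfold pf jn
    exact Equiv.prod_comp π (fun l => so g (I l) (x l, s l))
  rw [h2]
  ring

theorem tw_test {g : A → R3 → ℝ} (hg : ∀ a, ContDiff ℝ (⊤ : ℕ∞) (g a))
    (hg' : ∀ a, HasCompactSupport (g a)) {c : Tens N (A × Fin 2)} (hc : IsAnti c) :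
    IsTestState (tw g c) :=
  ⟨tw_smooth hg c, tw_compact hg' c, tw_anti g hc⟩

/-- slot dependent orbitals: derivative in slot `i` -/
noncomputable def dΘ (g : A → R3 → ℝ) (e : R3) (i : Fin N) (l : Fin N) : A × Fin 2 → YS → ℝ :=
  if l = i then so (fun a y => fderiv ℝ (g a) y e) else so g

omit [DecidableEq A] in
theorem tw_fderiv {g : A → R3 → ℝ} (hg : ∀ a, ContDiff ℝ (⊤ : ℕ∞) (g a))
    (c : (Fin N → A × Fin 2) → ℂ) (s : Fin N → Fin 2) (x : Fin N → R3) (i : Fin N) (e : R3) :
    fderiv ℝ (fun y => tw g c y s) x (Pi.single i e) = lc (dΘ g e i) c (jn x s) := by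
  simp only [tw_apply]
  have hI : ∀ I : Fin N → A × Fin 2, HasFDerivAt
      (fun y => c I * ((prodState (sl g I s) y : ℝ) : ℂ))
      (c I • (Complex.ofRealCLM.comp (fderiv ℝ (prodState (sl g I s)) x))) x := by
    intro I
    have hd : DifferentiableAt ℝ (prodState (sl g I s)) x :=
      (prodState_smooth _ (sl_smooth hg I s)).differentiable (by simp) x
    exact ((Complex.ofRealCLM.hasFDerivAt).comp x hd.hasFDerivAt).const_mul (c I)
  have hs := HasFDerivAt.fun_sum (u := univ) fun I (_ : I ∈ (univ : Finset (Fin N → A × Fin 2))) =>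
    hI I
  rw [hs.fderiv, ContinuousLinearMap.sum_apply]
  unfold lc
  refine Finset.sum_congr rfl fun I _ => ?_
  rw [ContinuousLinearMap.smul_apply, ContinuousLinearMap.comp_apply, Complex.ofRealCLM_apply,
    prodState_fderiv _ (sl_smooth hg I s), sl_fderiv, smul_eq_mul]
  congr 2
  unfold pf
  rw [← Finset.mul_prod_erase univ _ (Finset.mem_univ i)]
  congr 1
  · simp only [dΘ, ↓reduceIte, jn]
  · refine Finset.prod_congr rfl fun l hl => ?_
    have : l ≠ i := Finset.ne_of_mem_erase hl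
    simp [dΘ, this, jn, sl]

end Vale.Agent.P370.NB.U
end
end

section

section

/-! Rotations acting on the eigenspaces. -/

namespace Vale.Agent.P370.Hyd

open MeasureTheory Filter Topology MvPolynomial

/-- matrix of a linear isometry -/
noncomputable def rmat (g : R3 ≃ₗᵢ[ℝ] R3) : Matrix (Fin 3) (Fin 3) ℝ := fun i j => g (ei j) i

theorem vec_sum (x : R3) : x = ∑ j, x j • ei j := by
  ext j
  rw [WithLp.ofLp_sum, Finset.sum_apply, Finset.sum_eq_single j]
  · rw [PiLp.smul_apply, ei_apply, if_pos rfl, smul_eq_mul, mul_one]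
  · intro b _ hb
    rw [PiLp.smul_apply, ei_apply, if_neg hb.symm, smul_zero]
  · intro h
    exact absurd (Finset.mem_univ j) h

theorem rmat_apply (g : R3 ≃ₗᵢ[ℝ] R3) (x : R3) (i : Fin 3) : g x i = ∑ j, rmat g i j * x j := by
  conv_lhs => rw [vec_sum x]
  rw [map_sum, WithLp.ofLp_sum, Finset.sum_apply]
  refine Finset.sum_congr rfl fun j _ => ?_
  rw [map_smul, PiLp.smul_apply, smul_eq_mul, mul_comm]
  rfl

theorem inner_eq (x y : R3) : inner ℝ x y = ∑ i, x i * y i := by
  rw [PiLp.inner_apply]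
  refine Finset.sum_congr rfl fun i _ => ?_
  simp [mul_comm]

theorem rmat_col (g : R3 ≃ₗᵢ[ℝ] R3) (j k : Fin 3) :
    ∑ i, rmat g i j * rmat g i k = if j = k then 1 else 0 := by
  have h := g.inner_map_map (ei j) (ei k)
  rw [inner_eq, inner_eq] at h
  have h2 : ∑ i, (ei j) i * (ei k) i = if j = k then (1 : ℝ) else 0 := by
    simp only [ei_apply]
    by_cases hjk : j = k
    · subst hjk
      simp
    · rw [if_neg hjk]
      refine Finset.sum_eq_zero fun i _ => ?_
      by_cases hi : i = j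
      · subst hi
        rw [if_neg hjk, mul_zero]
      · rw [if_neg hi, zero_mul]
  rw [h2] at h
  exact h

theorem rmat_row (g : R3 ≃ₗᵢ[ℝ] R3) (j k : Fin 3) :
    ∑ i, rmat g j i * rmat g k i = if j = k then 1 else 0 := by
  have h1 : (rmat g).transpose * rmat g = 1 := by
    ext j k
    rw [Matrix.mul_apply, Matrix.one_apply]
    simp only [Matrix.transpose_apply]
    exact rmat_col g j k
  have h2 : rmat g * (rmat g).transpose = 1 := mul_eq_one_comm.1 h1
  have h3 := congrFun (congrFun h2 j) k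
  rw [Matrix.mul_apply, Matrix.one_apply] at h3
  exact h3

/-- the linear forms -/
noncomputable def rlin (g : R3 ≃ₗᵢ[ℝ] R3) (i : Fin 3) : Pl := ∑ j, C (rmat g i j) * X j

/-- substitution -/
noncomputable def rsub (g : R3 ≃ₗᵢ[ℝ] R3) : Pl →ₐ[ℝ] Pl := aeval (rlin g)

theorem rsub_X (g : R3 ≃ₗᵢ[ℝ] R3) (i : Fin 3) : rsub g (X i) = rlin g i := by
  unfold rsub
  rw [aeval_X]

theorem rsub_C (g : R3 ≃ₗᵢ[ℝ] R3) (a : ℝ) : rsub g (C a) = C a := by
  unfold rsub
  rw [aeval_C]
  rfl

theorem ev_rsub (g : R3 ≃ₗᵢ[ℝ] R3) (P : Pl) (x : R3) : ev (rsub g P) x = ev P (g x) := by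
  induction P using MvPolynomial.induction_on with
  | C a => rw [rsub_C, ev_C, ev_C]
  | add P Q hP hQ => rw [map_add, ev_add, ev_add, hP, hQ]
  | mul_X P i hP =>
    rw [map_mul, ev_mul, ev_mul, hP, rsub_X, ev_X, rmat_apply]
    congr 1
    unfold rlin ev
    simp

theorem pderiv_rsub (g : R3 ≃ₗᵢ[ℝ] R3) (i : Fin 3) (P : Pl) :
    pderiv i (rsub g P) = ∑ k, C (rmat g k i) * rsub g (pderiv k P) := by
  induction P using MvPolynomial.induction_on with
  | C a =>
    rw [rsub_C]
    simp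
  | add P Q hP hQ =>
    rw [map_add, map_add, hP, hQ, ← Finset.sum_add_distrib]
    refine Finset.sum_congr rfl fun k _ => ?_
    rw [map_add, map_add, mul_add]
  | mul_X P j hP =>
    have h1 : pderiv i (rlin g j) = C (rmat g j i) := by
      unfold rlin
      rw [map_sum, Finset.sum_eq_single i]
      · rw [Derivation.leibniz, pderiv_X_self, pderiv_C]
        simp
      · intro b _ hb
        rw [Derivation.leibniz, pderiv_X_of_ne hb, pderiv_C]
        simp
      · intro h
        exact absurd (Finset.mem_univ i) h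
    rw [map_mul, Derivation.leibniz, hP, rsub_X, h1]
    have h2 : ∀ k, C (rmat g k i) * rsub g (pderiv k (P * X j))
        = rlin g j * (C (rmat g k i) * rsub g (pderiv k P))
          + (if k = j then rsub g P * C (rmat g j i) else 0) := by
      intro k
      rw [Derivation.leibniz, map_add, smul_eq_mul, smul_eq_mul, map_mul, map_mul, rsub_X]
      by_cases hk : k = j
      · subst hk
        rw [if_pos rfl, pderiv_X_self, map_one]
        ring
      · rw [if_neg hk, pderiv_X_of_ne (fun h => hk h.symm), map_zero]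
        ring
    rw [Finset.sum_congr rfl fun k _ => h2 k, Finset.sum_add_distrib, ← Finset.mul_sum,
      Finset.sum_ite_eq', if_pos (Finset.mem_univ j), smul_eq_mul, smul_eq_mul]
    ring

theorem lapP_rsub (g : R3 ≃ₗᵢ[ℝ] R3) (P : Pl) : lapP (rsub g P) = rsub g (lapP P) := by
  have h1 : ∀ i, pderiv i (pderiv i (rsub g P))
      = ∑ k, ∑ m, C (rmat g k i * rmat g m i) * rsub g (pderiv m (pderiv k P)) := by
    intro i
    rw [pderiv_rsub, map_sum]
    refine Finset.sum_congr rfl fun k _ => ?_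
    rw [Derivation.leibniz, pderiv_C, pderiv_rsub, smul_eq_mul, smul_zero, add_zero,
      Finset.mul_sum]
    refine Finset.sum_congr rfl fun m _ => ?_
    rw [C_mul, mul_assoc]
  unfold lapP
  rw [Finset.sum_congr rfl fun i _ => h1 i, Finset.sum_comm, map_sum]
  refine Finset.sum_congr rfl fun k _ => ?_
  rw [Finset.sum_comm]
  rw [Finset.sum_eq_single k]
  · rw [← Finset.sum_mul, ← map_sum, rmat_row, if_pos rfl, C_1, one_mul]
  · intro m _ hm
    rw [← Finset.sum_mul, ← map_sum, rmat_row, if_neg hm.symm, C_0, zero_mul]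
  · intro h
    exact absurd (Finset.mem_univ k) h

theorem eul_rsub (g : R3 ≃ₗᵢ[ℝ] R3) (P : Pl) : eul (rsub g P) = rsub g (eul P) := by
  unfold eul
  rw [map_sum]
  have h1 : ∀ i, X i * pderiv i (rsub g P)
      = ∑ k, (C (rmat g k i) * X i) * rsub g (pderiv k P) := by
    intro i
    rw [pderiv_rsub, Finset.mul_sum]
    exact Finset.sum_congr rfl fun k _ => by ring
  rw [Finset.sum_congr rfl fun i _ => h1 i, Finset.sum_comm]
  refine Finset.sum_congr rfl fun k _ => ?_
  rw [← Finset.sum_mul, map_mul, rsub_X]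
  rfl

theorem rsub_nsq (g : R3 ≃ₗᵢ[ℝ] R3) : rsub g nsq = nsq := by
  rw [← sub_eq_zero]
  by_contra hcon
  obtain ⟨x, hx⟩ := ev_ne_zero hcon
  apply hx
  have h1 : ev (rsub g nsq - nsq) x = ev (rsub g nsq) x - ev nsq x := by simp [ev]
  rw [h1, ev_rsub, ev_nsq, ev_nsq, g.norm_map, sub_self]

theorem rsub_mem_lt (g : R3 ≃ₗᵢ[ℝ] R3) {N : ℕ} {P : Pl} (hP : P ∈ lt N) : rsub g P ∈ lt N := by
  refine lt_induction (S := lt N) (rsub g).toLinearMap (fun d c hd => ?_) hP
  show rsub g (monomial d c) ∈ lt N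
  have h1 : (rsub g (monomial d c)).IsHomogeneous (1 * d.degree) :=
    (isHomogeneous_monomial (σ := Fin 3) c (n := d.degree) rfl).aeval (rlin g) fun i => by
      unfold rlin
      refine IsHomogeneous.sum _ _ _ fun j _ => ?_
      have := (isHomogeneous_C (Fin 3) (rmat g i j)).mul (isHomogeneous_X ℝ j)
      rwa [zero_add] at this
  refine isHomogeneous_mem_lt h1 ?_
  omega

/-- action on pairs -/
noncomputable def rpair (g : R3 ≃ₗᵢ[ℝ] R3) (z : Pl × Pl) : Pl × Pl := (rsub g z.1, rsub g z.2)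

theorem rpair_mem_Eig (g : R3 ≃ₗᵢ[ℝ] R3) {n : ℕ} {z : Pl × Pl} (hz : z ∈ Eig n) :
    rpair g z ∈ Eig n := by
  rw [mem_Eig] at hz ⊢
  obtain ⟨⟨h1, h2⟩, h3⟩ := hz
  refine ⟨⟨rsub_mem_lt g h1, rsub_mem_lt g h2⟩, ?_⟩
  rw [TL_apply] at h3 ⊢
  have e1 : TP (1 / (n : ℝ)) z.1 z.2 = z.1 := congrArg Prod.fst h3
  have e2 : TQ (1 / (n : ℝ)) z.1 z.2 = z.2 := congrArg Prod.snd h3
  refine Prod.ext ?_ ?_
  · show TP (1 / (n : ℝ)) (rsub g z.1) (rsub g z.2) = rsub g z.1
    conv_rhs => rw [← e1]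
    unfold TP
    rw [eul_rsub, eul_rsub, lapP_rsub]
    simp only [map_sub, map_mul, map_add, rsub_C, rsub_nsq]
  · show TQ (1 / (n : ℝ)) (rsub g z.1) (rsub g z.2) = rsub g z.2
    conv_rhs => rw [← e2]
    unfold TQ
    rw [eul_rsub, lapP_rsub]
    simp only [map_sub, map_mul, map_add, rsub_C]

theorem xp_rpair (g : R3 ≃ₗᵢ[ℝ] R3) (κ : ℝ) (z : Pl × Pl) (x : R3) :
    xp κ (rpair g z).1 (rpair g z).2 x = xp κ z.1 z.2 (g x) := by
  unfold xp rpair
  simp only
  rw [ev_rsub, ev_rsub, g.norm_map]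

end Vale.Agent.P370.Hyd
end
end

section

section

/-!
KC11: real numbers which are rational with numerator and denominator computable in polynomial time.
-/

namespace Vale.Agent.P370.KC

open Vale.Agent.Lib.PolyTime Finset

variable {A : Set Word} {α β : Type*} [Enc α] [Enc β]

/-- the values are rational, numerator and positive denominator are computable in polynomial
time -/
def PTQ (A : Set Word) {α : Type*} [Enc α] (f : α → ℝ) : Prop :=
  ∃ (p : α → ℤ) (q : α → ℕ), PT A p ∧ PT A q ∧ (∀ a, 0 < q a) ∧ ∀ a, f a = p a / q a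

theorem PTQ.congr {f g : α → ℝ} (hf : PTQ A f) (h : ∀ a, f a = g a) : PTQ A g := by
  obtain ⟨p, q, h1, h2, h3, h4⟩ := hf
  exact ⟨p, q, h1, h2, h3, fun a => by rw [← h, h4]⟩

theorem PTQ.comp {f : β → ℝ} (hf : PTQ A f) {g : α → β} (hg : PT A g) :
    PTQ A (fun a => f (g a)) := by
  obtain ⟨p, q, h1, h2, h3, h4⟩ := hf
  exact ⟨fun a => p (g a), fun a => q (g a), h1.comp hg, h2.comp hg, fun a => h3 _, fun a => h4 _⟩

theorem PTQ.ofInt {f : α → ℤ} (hf : PT A f) : PTQ A (fun a => (f a : ℝ)) :=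
  ⟨f, fun _ => 1, hf, PT.const 1, fun _ => one_pos, fun a => by simp⟩

theorem PTQ.ofNat {f : α → ℕ} (hf : PT A f) : PTQ A (fun a => (f a : ℝ)) :=
  (PTQ.ofInt (PT.natCast hf)).congr fun a => by simp

theorem PTQ.constZ (z : ℤ) : PTQ A (fun _ : α => (z : ℝ)) := PTQ.ofInt (PT.const z)

theorem PTQ.zero : PTQ A (fun _ : α => (0 : ℝ)) := (PTQ.constZ 0).congr fun _ => by simp

theorem PTQ.one : PTQ A (fun _ : α => (1 : ℝ)) := (PTQ.constZ 1).congr fun _ => by simp

theorem PTQ.add {f g : α → ℝ} (hf : PTQ A f) (hg : PTQ A g) : PTQ A (fun a => f a + g a) := by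
  obtain ⟨p, q, h1, h2, h3, h4⟩ := hf
  obtain ⟨p', q', h1', h2', h3', h4'⟩ := hg
  refine ⟨fun a => p a * (q' a : ℤ) + p' a * (q a : ℤ), fun a => q a * q' a,
    (h1.intMul (PT.natCast h2')).intAdd (h1'.intMul (PT.natCast h2)), h2.mul h2',
    fun a => Nat.mul_pos (h3 a) (h3' a), fun a => ?_⟩
  have e1 : (q a : ℝ) ≠ 0 := by exact_mod_cast (h3 a).ne'
  have e2 : (q' a : ℝ) ≠ 0 := by exact_mod_cast (h3' a).ne'
  simp only [h4, h4']
  push_cast
  field_simp

theorem PTQ.neg {f : α → ℝ} (hf : PTQ A f) : PTQ A (fun a => -f a) := by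
  obtain ⟨p, q, h1, h2, h3, h4⟩ := hf
  refine ⟨fun a => -p a, q, h1.intNeg, h2, h3, fun a => ?_⟩
  simp only [h4]
  push_cast
  ring

theorem PTQ.sub {f g : α → ℝ} (hf : PTQ A f) (hg : PTQ A g) : PTQ A (fun a => f a - g a) :=
  (hf.add hg.neg).congr fun a => by ring

theorem PTQ.mul {f g : α → ℝ} (hf : PTQ A f) (hg : PTQ A g) : PTQ A (fun a => f a * g a) := by
  obtain ⟨p, q, h1, h2, h3, h4⟩ := hf
  obtain ⟨p', q', h1', h2', h3', h4'⟩ := hg
  refine ⟨fun a => p a * p' a, fun a => q a * q' a, h1.intMul h1', h2.mul h2',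
    fun a => Nat.mul_pos (h3 a) (h3' a), fun a => ?_⟩
  simp only [h4, h4']
  push_cast
  rw [div_mul_div_comm]

theorem PTQ.inv {f : α → ℝ} (hf : PTQ A f) : PTQ A (fun a => (f a)⁻¹) := by
  obtain ⟨p, q, h1, h2, h3, h4⟩ := hf
  refine ⟨fun a => if p a = 0 then 0 else if p a < 0 then -(q a : ℤ) else (q a : ℤ),
    fun a => if p a = 0 then 1 else (p a).natAbs, ?_, ?_, fun a => ?_, fun a => ?_⟩
  · exact PT.ite (PT.intEq h1 (PT.const 0)) (PT.const 0)
      (PT.ite (PT.intLt h1 (PT.const 0)) (PT.natCast h2).intNeg (PT.natCast h2))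
  · exact PT.ite (PT.intEq h1 (PT.const 0)) (PT.const 1) h1.natAbs
  · by_cases h : p a = 0
    · simp [h]
    · simp only [if_neg h]
      omega
  · simp only [h4, inv_div]
    by_cases h : p a = 0
    · simp [h]
    · simp only [if_neg h]
      have e : ((p a).natAbs : ℝ) = |(p a : ℝ)| := by
        rw [Nat.cast_natAbs]
        push_cast
        rfl
      rw [e]
      by_cases h' : p a < 0
      · have h'' : (p a : ℝ) < 0 := by exact_mod_cast h'
        rw [if_pos h', abs_of_neg h'']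
        push_cast
        rw [neg_div_neg_eq]
      · have h'' : (0 : ℝ) ≤ (p a : ℝ) := by exact_mod_cast not_lt.1 h'
        rw [if_neg h', abs_of_nonneg h'']
        push_cast
        rfl

theorem PTQ.div {f g : α → ℝ} (hf : PTQ A f) (hg : PTQ A g) : PTQ A (fun a => f a / g a) :=
  (hf.mul hg.inv).congr fun _ => (div_eq_mul_inv _ _).symm

theorem ptIntPow {f : α → ℤ} {e : α → ℕ} (hf : PT A f) (he : PT A e) (heb : PBd e) :
    PT A (fun a => f a ^ e a) :=
  (PT.intProd (PT.replicate he heb hf)).congr fun _ => List.prod_replicate _ _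

theorem PTQ.pow {f : α → ℝ} {e : α → ℕ} (hf : PTQ A f) (he : PT A e) (heb : PBd e) :
    PTQ A (fun a => f a ^ e a) := by
  obtain ⟨p, q, h1, h2, h3, h4⟩ := hf
  refine ⟨fun a => p a ^ e a, fun a => q a ^ e a, ptIntPow h1 he heb, h2.pow he heb,
    fun a => Nat.pow_pos (h3 a), fun a => ?_⟩
  simp only [h4, div_pow]
  push_cast
  rfl

theorem PTQ.ite {p : α → Prop} [DecidablePred p] {f g : α → ℝ} (hp : PT A (fun a => decide (p a)))
    (hf : PTQ A f) (hg : PTQ A g) : PTQ A (fun a => if p a then f a else g a) := by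
  obtain ⟨u, q, h1, h2, h3, h4⟩ := hf
  obtain ⟨u', q', h1', h2', h3', h4'⟩ := hg
  refine ⟨fun a => if p a then u a else u' a, fun a => if p a then q a else q' a,
    PT.ite hp h1 h1', PT.ite hp h2 h2', fun a => ?_, fun a => ?_⟩
  · by_cases h : p a
    · simp only [if_pos h]
      exact h3 a
    · simp only [if_neg h]
      exact h3' a
  · by_cases h : p a
    · simp only [if_pos h]
      exact h4 a
    · simp only [if_neg h]
      exact h4' a

theorem ptq_list_prod {M : Type*} [CommMonoid M] (f : ℕ → M) (n : ℕ) :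
    ((List.range n).map f).prod = ∏ i ∈ range n, f i := by
  induction n with
  | zero => simp
  | succ n ih => rw [List.range_succ, List.map_append, List.prod_append, ih, prod_range_succ]; simp

theorem ptq_list_sum {M : Type*} [AddCommMonoid M] (f : ℕ → M) (n : ℕ) :
    ((List.range n).map f).sum = ∑ i ∈ range n, f i := by
  induction n with
  | zero => simp
  | succ n ih => rw [List.range_succ, List.map_append, List.sum_append, ih, sum_range_succ]; simp

theorem ptIntRangeProd {m : α → ℕ} {f : α → ℕ → ℤ} (hm : PT A m) (hmb : PBd m)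
    (hf : PT A (fun p : α × Un => f p.1 p.2.v)) : PT A (fun a => ∏ i ∈ range (m a), f a i) :=
  (PT.intProd (PT.rangeMap hm hmb hf)).congr fun _ => ptq_list_prod _ _

theorem ptNatRangeProd {m : α → ℕ} {f : α → ℕ → ℕ} (hm : PT A m) (hmb : PBd m)
    (hf : PT A (fun p : α × Un => f p.1 p.2.v)) : PT A (fun a => ∏ i ∈ range (m a), f a i) :=
  (PT.prod (PT.rangeMap hm hmb hf)).congr fun _ => ptq_list_prod _ _

theorem ptIntRangeSum {m : α → ℕ} {f : α → ℕ → ℤ} (hm : PT A m) (hmb : PBd m)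
    (hf : PT A (fun p : α × Un => f p.1 p.2.v)) : PT A (fun a => ∑ i ∈ range (m a), f a i) :=
  (PT.rangeSumInt hm hmb hf).congr fun _ => ptq_list_sum _ _

theorem PTQ.prod {m : α → ℕ} {f : α → ℕ → ℝ} (hm : PT A m) (hmb : PBd m)
    (hf : PTQ A (fun p : α × Un => f p.1 p.2.v)) :
    PTQ A (fun a => ∏ i ∈ range (m a), f a i) := by
  obtain ⟨p, q, h1, h2, h3, h4⟩ := hf
  refine ⟨fun a => ∏ i ∈ range (m a), p (a, ⟨i⟩), fun a => ∏ i ∈ range (m a), q (a, ⟨i⟩),
    ptIntRangeProd (f := fun a i => p (a, ⟨i⟩)) hm hmb h1,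
    ptNatRangeProd (f := fun a i => q (a, ⟨i⟩)) hm hmb h2,
    fun a => Finset.prod_pos fun i _ => h3 _, fun a => ?_⟩
  have e : ∀ i, f a i = p (a, ⟨i⟩) / q (a, ⟨i⟩) := fun i => h4 (a, ⟨i⟩)
  push_cast
  rw [← Finset.prod_div_distrib]
  exact Finset.prod_congr rfl fun i _ => e i

theorem PTQ.sum {m : α → ℕ} {f : α → ℕ → ℝ} (hm : PT A m) (hmb : PBd m)
    (hf : PTQ A (fun p : α × Un => f p.1 p.2.v)) :
    PTQ A (fun a => ∑ i ∈ range (m a), f a i) := by
  obtain ⟨p, q, h1, h2, h3, h4⟩ := hf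
  have hD : PT A (fun a => ∏ i ∈ range (m a), q (a, ⟨i⟩)) :=
    ptNatRangeProd (f := fun a i => q (a, ⟨i⟩)) hm hmb h2
  have hD0 : ∀ a, 0 < ∏ i ∈ range (m a), q (a, ⟨i⟩) := fun a => Finset.prod_pos fun i _ => h3 _
  have hDf : PT A (fun x : α × Un => ∏ i ∈ range (m x.1), q (x.1, ⟨i⟩)) := hD.comp PT.fst'
  refine ⟨fun a => ∑ i ∈ range (m a), p (a, ⟨i⟩) *
      (((∏ j ∈ range (m a), q (a, ⟨j⟩)) / q (a, ⟨i⟩) : ℕ) : ℤ),
    fun a => ∏ i ∈ range (m a), q (a, ⟨i⟩), ?_, hD, hD0, fun a => ?_⟩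
  · refine ptIntRangeSum (f := fun a i => p (a, ⟨i⟩) *
      (((∏ j ∈ range (m a), q (a, ⟨j⟩)) / q (a, ⟨i⟩) : ℕ) : ℤ)) hm hmb ?_
    exact PT.intMul h1 (PT.natCast (PT.div hDf h2))
  · have e : ∀ i, f a i = p (a, ⟨i⟩) / q (a, ⟨i⟩) := fun i => h4 (a, ⟨i⟩)
    have hDR : ((∏ i ∈ range (m a), q (a, ⟨i⟩) : ℕ) : ℝ) ≠ 0 := by
      exact_mod_cast (hD0 a).ne'
    rw [eq_div_iff hDR, Finset.sum_mul, Int.cast_sum]
    refine Finset.sum_congr rfl fun i hi => ?_
    have hdvd : q (a, ⟨i⟩) ∣ ∏ j ∈ range (m a), q (a, ⟨j⟩) :=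
      Finset.dvd_prod_of_mem (fun j => q (a, ⟨j⟩)) hi
    have hq : ((q (a, ⟨i⟩) : ℕ) : ℝ) ≠ 0 := by exact_mod_cast (h3 _).ne'
    rw [e, Int.cast_mul, Int.cast_natCast, Nat.cast_div hdvd hq]
    field_simp

theorem PTQ.factorial {f : α → ℕ} (hf : PT A f) (hfb : PBd f) :
    PTQ A (fun a => ((f a).factorial : ℝ)) :=
  PTQ.ofNat (PT.factorial hf hfb)

theorem PTQ.choose {f g : α → ℕ} (hf : PT A f) (hfb : PBd f) (hg : PT A g) (hgb : PBd g) :
    PTQ A (fun a => ((f a).choose (g a) : ℝ)) := by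
  refine PTQ.ofNat ?_
  have h1 : PT A (fun a => (f a).factorial / ((g a).factorial * (f a - g a).factorial)) :=
    PT.div (PT.factorial hf hfb) (PT.mul (PT.factorial hg hgb)
      (PT.factorial (hf.sub hg) (hfb.mono fun a => Nat.sub_le _ _)))
  refine (PT.ite (p := fun a => g a ≤ f a) (PT.le hg hf) h1 (PT.const 0)).congr fun a => ?_
  by_cases h : g a ≤ f a
  · rw [if_pos h, Nat.choose_eq_factorial_div_factorial h]
  · rw [if_neg h, Nat.choose_eq_zero_of_lt (not_le.1 h)]

theorem PTQ.floor {f : α → ℝ} (hf : PTQ A f) : PT A (fun a => ⌊f a⌋) := by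
  obtain ⟨p, q, h1, h2, h3, h4⟩ := hf
  refine (PT.intDiv h1 (PT.natCast h2)).congr fun a => ?_
  rw [h4, Int.floor_div_natCast, Int.floor_intCast]

end Vale.Agent.P370.KC
end
end

section

section

set_option linter.all false

/-!
Lower bound of the energy on legal clock states (H2): three levels
(one-qubit propagation, CZ propagation, input and output).
-/

namespace Vale.Agent.P370.H

open Finset

namespace HL

/-! ### norms -/

/-- eigenvalue of `Z_i` -/
def sg {n : ℕ} (i : ℕ) (x : Fin n → Bool) : ℝ :=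
  if h : i < n then (if x ⟨i, h⟩ then -1 else 1) else 1

lemma sg_or {n : ℕ} (i : ℕ) (x : Fin n → Bool) : sg i x = 1 ∨ sg i x = -1 := by
  unfold sg
  split_ifs <;> simp

lemma sg_mul {n : ℕ} (i : ℕ) (x : Fin n → Bool) : sg i x * sg i x = 1 := by
  rcases sg_or i x with h | h <;> rw [h] <;> norm_num

lemma pau2 {n : ℕ} (i : ℕ) (v : RSt n) (x : Fin n → Bool) : pau 2 i v x = sg i x * v x := by
  unfold pau sg
  by_cases h : i < n
  · simp only [h, ↓reduceDIte, OfNat.ofNat_ne_zero, ↓reduceIte, OfNat.ofNat_ne_one, ite_mul, neg_mul, one_mul]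
  · simp [h]

lemma nrm2_def {n : ℕ} (v : RSt n) : nrm2 v = ∑ x, v x * v x := rfl

lemma nrm2_nonneg {n : ℕ} (v : RSt n) : 0 ≤ nrm2 v :=
  Finset.sum_nonneg fun _ _ => mul_self_nonneg _

/-- norm -/
noncomputable def nm {n : ℕ} (v : RSt n) : ℝ := √(nrm2 v)

lemma nm_nonneg {n : ℕ} (v : RSt n) : 0 ≤ nm v := Real.sqrt_nonneg _

lemma nm_sq {n : ℕ} (v : RSt n) : nm v ^ 2 = nrm2 v := Real.sq_sqrt (nrm2_nonneg v)

lemma nm_eq {n : ℕ} (v : RSt n) : nm v = ‖(WithLp.toLp 2 v : EuclideanSpace ℝ (Fin n → Bool))‖ := by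
  rw [EuclideanSpace.norm_eq, nm, nrm2_def]
  congr 1
  apply Finset.sum_congr rfl
  intro x _
  simp [← pow_two]

lemma nm_add_le {n : ℕ} (v w : RSt n) : nm (v + w) ≤ nm v + nm w := by
  rw [nm_eq, nm_eq, nm_eq, WithLp.toLp_add]
  exact norm_add_le _ _

lemma nm_congr {n : ℕ} {v w : RSt n} (h : nrm2 v = nrm2 w) : nm v = nm w := by
  rw [nm, nm, h]

lemma nm_neg {n : ℕ} (v : RSt n) : nm (-v) = nm v := by
  apply nm_congr
  simp only [nrm2_def, Pi.neg_apply, mul_neg, neg_mul, neg_neg]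

lemma nm_sub_le {n : ℕ} (v w : RSt n) : nm (v - w) ≤ nm v + nm w := by
  rw [sub_eq_add_neg]
  exact (nm_add_le _ _).trans (by rw [nm_neg])

/-- Young -/
lemma nrm2_add_le {n : ℕ} (v w : RSt n) {η : ℝ} (h : 0 < η) :
    nrm2 (v + w) ≤ (1 + η) * nrm2 v + (1 + 1 / η) * nrm2 w := by
  rw [nrm2_def, nrm2_def, nrm2_def, Finset.mul_sum, Finset.mul_sum, ← Finset.sum_add_distrib]
  apply Finset.sum_le_sum
  intro x _
  simp only [Pi.add_apply]
  have h1 : 0 ≤ (η * v x - w x) ^ 2 / η := by (clear * - h; positivity)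
  have h2 : (η * v x - w x) ^ 2 / η = η * (v x * v x) - 2 * v x * w x + 1 / η * (w x * w x) := by
    field_simp
    ring
  linarith only [h1, h2]

lemma nrm2_add_le2 {n : ℕ} (v w : RSt n) : nrm2 (v + w) ≤ 2 * nrm2 v + 2 * nrm2 w := by
  have := nrm2_add_le v w (one_pos)
  norm_num at this
  linarith only [this]

/-- Young for the inner product -/
lemma ip_le {n : ℕ} (v w : RSt n) {ε : ℝ} (h : 0 < ε) :
    |ip v w| ≤ ε / 2 * nrm2 v + 1 / (2 * ε) * nrm2 w := by
  have key : ∀ s : ℝ, s * s = 1 → s * ip v w ≤ ε / 2 * nrm2 v + 1 / (2 * ε) * nrm2 w := by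
    intro s hs
    rw [nrm2_def, nrm2_def, ip, Finset.mul_sum, Finset.mul_sum, Finset.mul_sum,
      ← Finset.sum_add_distrib]
    apply Finset.sum_le_sum
    intro x _
    have h1 : 0 ≤ (ε * v x - s * w x) ^ 2 / (2 * ε) := by (clear * - h; positivity)
    have h2 : (ε * v x - s * w x) ^ 2 / (2 * ε) =
        ε / 2 * (v x * v x) - s * (v x * w x) + (s * s) * (1 / (2 * ε) * (w x * w x)) := by
      field_simp
      ring
    rw [hs, one_mul] at h2
    linarith only [h1, h2]
  rw [abs_le]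
  constructor
  · have := key (-1) (by norm_num)
    linarith only [this]
  · have := key 1 (by norm_num)
    linarith

/-! ### gates -/

lemma pau_add {n : ℕ} (P i : ℕ) (v w : RSt n) : pau P i (v + w) = pau P i v + pau P i w := by
  unfold pau
  split_ifs
  · rfl
  · rfl
  · funext x
    simp only [Pi.add_apply]
    ring
  · rfl

lemma refl_add {n : ℕ} (a q : ℕ) (v w : RSt n) : refl a q (v + w) = refl a q v + refl a q w := by
  unfold refl
  split_ifs
  · rfl
  · rw [pau_add, pau_add, smul_add, smul_add]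
    abel

lemma czg_add {n : ℕ} (f s : ℕ) (v w : RSt n) : czg f s (v + w) = czg f s v + czg f s w := by
  unfold czg
  rw [pau_add, pau_add, pau_add, ← smul_add]
  congr 1
  abel

lemma gfine_add {n : ℕ} (rs : List Rnd) (t : ℕ) (v w : RSt n) :
    gfine rs t (v + w) = gfine rs t v + gfine rs t w := by
  have ite' : ∀ {c : Prop} [Decidable c] {a b a' b' a'' b'' : RSt n}, a = a' + a'' →
      b = b' + b'' → (if c then a else b) = (if c then a' else b') + (if c then a'' else b'') := by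
    intro c _ a b a' b' a'' b'' h1 h2
    by_cases hc : c
    · rw [if_pos hc, if_pos hc, if_pos hc]; exact h1
    · rw [if_neg hc, if_neg hc, if_neg hc]; exact h2
  unfold gfine
  exact ite' (ite' (pau_add _ _ _ _) rfl) (ite' (ite' (pau_add _ _ _ _) rfl) (ite'
    (ite' (refl_add _ _ _ _) rfl) (ite' (ite' (pau_add _ _ _ _) rfl)
    (ite' (pau_add _ _ _ _) rfl))))

lemma nrm2_pau2 {n : ℕ} (i : ℕ) (v : RSt n) : nrm2 (pau 2 i v) = nrm2 v := by
  rw [nrm2_def, nrm2_def]
  apply Finset.sum_congr rfl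
  intro x _
  rw [pau2]
  have := sg_mul i x
  linear_combination (v x * v x) * this

lemma czg_apply {n : ℕ} (f s : ℕ) (v : RSt n) (x : Fin n → Bool) :
    czg f s v x = 1 / 2 * (1 + sg f x + sg s x - sg f x * sg s x) * v x := by
  unfold czg
  simp only [Pi.smul_apply, Pi.sub_apply, Pi.add_apply, pau2, smul_eq_mul]
  ring

lemma nrm2_czg {n : ℕ} (f s : ℕ) (v : RSt n) : nrm2 (czg f s v) = nrm2 v := by
  rw [nrm2_def, nrm2_def]
  apply Finset.sum_congr rfl
  intro x _
  rw [czg_apply]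
  rcases sg_or f x with h | h <;> rcases sg_or s x with h' | h' <;> rw [h, h'] <;> ring

/-- flipping a bit -/
def flip {n : ℕ} (i : Fin n) (x : Fin n → Bool) : Fin n → Bool := Function.update x i (!x i)

lemma flip_flip {n : ℕ} (i : Fin n) (x : Fin n → Bool) : flip i (flip i x) = x := by
  unfold flip
  simp

/-- flipping as a permutation -/
def flipE {n : ℕ} (i : Fin n) : (Fin n → Bool) ≃ (Fin n → Bool) :=
  ⟨flip i, flip i, flip_flip i, flip_flip i⟩

lemma nrm2_refl {n : ℕ} (a q : ℕ) (hq : q < n) (v : RSt n) : nrm2 (refl a q v) = nrm2 v := by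
  unfold refl
  split_ifs with ha
  · rfl
  set c := Real.cos (ang a)
  set s := Real.sin (ang a)
  have hcs : s ^ 2 + c ^ 2 = 1 := Real.sin_sq_add_cos_sq _
  have h1 : ∀ x, (c • pau 2 q v + s • pau 1 q v) x * (c • pau 2 q v + s • pau 1 q v) x =
      c ^ 2 * (v x * v x) + s ^ 2 * (v (flip ⟨q, hq⟩ x) * v (flip ⟨q, hq⟩ x)) +
        2 * c * s * (sg q x * v x * v (flip ⟨q, hq⟩ x)) := by
    intro x
    have h2 : pau 1 q v x = v (flip ⟨q, hq⟩ x) := by
      unfold pau flip
      simp only [hq, ↓reduceDIte, one_ne_zero, ↓reduceIte]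
    simp only [Pi.add_apply, Pi.smul_apply, smul_eq_mul, pau2, h2]
    have := sg_mul q x
    linear_combination (c ^ 2 * (v x * v x)) * this
  have h3 : ∑ x, v (flip ⟨q, hq⟩ x) * v (flip ⟨q, hq⟩ x) = ∑ x, v x * v x :=
    (flipE ⟨q, hq⟩).sum_comp (fun x => v x * v x)
  have h4 : ∑ x, sg q x * v x * v (flip ⟨q, hq⟩ x) = 0 := by
    have h5 : ∑ x, sg q x * v x * v (flip ⟨q, hq⟩ x) =
        ∑ x, sg q (flip ⟨q, hq⟩ x) * v (flip ⟨q, hq⟩ x) * v (flip ⟨q, hq⟩ (flip ⟨q, hq⟩ x)) :=
      ((flipE ⟨q, hq⟩).sum_comp (fun x => sg q x * v x * v (flip ⟨q, hq⟩ x))).symm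
    have h6 : ∀ x : Fin n → Bool, sg q (flip ⟨q, hq⟩ x) = - sg q x := by
      intro x
      unfold sg flip
      simp only [hq, dite_true, Function.update_self]
      cases x ⟨q, hq⟩ <;> simp
    have h7 : ∑ x, sg q x * v x * v (flip ⟨q, hq⟩ x) =
        - ∑ x, sg q x * v x * v (flip ⟨q, hq⟩ x) := by
      conv_lhs => rw [h5]
      rw [← Finset.sum_neg_distrib]
      apply Finset.sum_congr rfl
      intro x _
      rw [h6, flip_flip]
      ring
    linarith only [h7]
  rw [nrm2_def, Finset.sum_congr rfl (fun x _ => h1 x), Finset.sum_add_distrib,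
    Finset.sum_add_distrib, ← Finset.mul_sum, ← Finset.mul_sum, ← Finset.mul_sum, h3, h4,
    nrm2_def]
  linear_combination (∑ x, v x * v x) * hcs

lemma rget_ok {N : ℕ} {rs : List Rnd} (hok : ∀ r ∈ rs, r.Ok N) {l : ℕ} (hl : l < rs.length) :
    (rget rs l).Ok N := by
  unfold rget
  rw [List.getD_eq_getElem _ _ hl]
  exact hok _ (List.getElem_mem hl)

lemma nrm2_gfine {n : ℕ} (rs : List Rnd) (hok : ∀ r ∈ rs, r.Ok n) (t : ℕ) (v : RSt n) :
    nrm2 (gfine rs t v) = nrm2 v := by
  have ite' : ∀ {c : Prop} [Decidable c] {a b : RSt n}, (c → nrm2 a = nrm2 v) →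
      (¬ c → nrm2 b = nrm2 v) → nrm2 (if c then a else b) = nrm2 v := by
    intro c _ a b h1 h2
    by_cases hc : c
    · rw [if_pos hc]; exact h1 hc
    · rw [if_neg hc]; exact h2 hc
  unfold gfine
  exact ite' (fun _ => ite' (fun _ => nrm2_pau2 _ _) fun _ => rfl) fun _ =>
    ite' (fun _ => ite' (fun _ => nrm2_pau2 _ _) fun _ => rfl) fun _ =>
    ite' (fun _ => ite' (fun h => nrm2_refl _ _ (rget_ok hok h).1 _) fun _ => rfl) fun _ =>
    ite' (fun _ => ite' (fun _ => nrm2_pau2 _ _) fun _ => rfl) fun _ =>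
    ite' (fun _ => nrm2_pau2 _ _) fun _ => rfl

/-! ### the level two energy -/

lemma q2_ge {n : ℕ} (r : Rnd) (t : ℕ) (c : ℕ → RSt n) (h1 : c (t + 1) = pau 2 r.f (c t))
    (h2 : c (t + 2) = pau 2 r.s (c (t + 1))) (h3 : c (t - 2) = pau 2 r.s (c (t - 1)))
    (h4 : c (t - 3) = pau 2 r.f (c (t - 2))) :
    1 / 2 * nrm2 (c t - czg r.f r.s (c (t - 1))) ≤ q2 r t c := by
  unfold q2
  rw [h2, h4, h1, h3]
  generalize c t = X
  generalize c (t - 1) = Y
  simp only [nrm2_def, mul_sum, ← sum_add_distrib, ip, ← sum_sub_distrib]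
  apply Finset.sum_le_sum
  intro x _
  simp only [pau2, Pi.sub_apply, czg_apply]
  rcases sg_or r.f x with h | h <;> rcases sg_or r.s x with h' | h' <;> rw [h, h'] <;>
    linarith [sq_nonneg (X x - Y x), sq_nonneg (X x + Y x)]

lemma bil_diff {n : ℕ} (U : RSt n → RSt n) (hU : ∀ v w, U (v + w) = U v + U w)
    (hU2 : ∀ v, nrm2 (U v) = nrm2 v) (c1 c2 d1 d2 : RSt n) {ε C D : ℝ} (hε : 0 < ε)
    (hc1 : nrm2 c1 ≤ C) (hc2 : nrm2 c2 ≤ C) (hd1 : nrm2 d1 ≤ D) (hd2 : nrm2 d2 ≤ D) :
    |ip (c1 + d1) (U (c2 + d2)) - ip c1 (U c2)| ≤ ε * C + (1 / ε + 1) * D := by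
  have e : ip (c1 + d1) (U (c2 + d2)) - ip c1 (U c2) =
      ip c1 (U d2) + ip (U c2) d1 + ip d1 (U d2) := by
    rw [hU]
    simp only [ip, ← Finset.sum_add_distrib, ← Finset.sum_sub_distrib]
    apply Finset.sum_congr rfl
    intro x _
    simp only [Pi.add_apply]
    ring
  have a1 := ip_le c1 (U d2) hε
  have a2 := ip_le (U c2) d1 hε
  have a3 := ip_le d1 (U d2) (one_pos)
  rw [hU2] at a1 a2 a3
  rw [e]
  have b1 : |ip c1 (U d2) + ip (U c2) d1 + ip d1 (U d2)| ≤
      |ip c1 (U d2)| + |ip (U c2) d1| + |ip d1 (U d2)| := abs_add_three _ _ _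
  have e2 : (0:ℝ) < 1 / (2 * ε) := by positivity
  have f1 : ε / 2 * nrm2 c1 ≤ ε / 2 * C := by gcongr
  have f2 : ε / 2 * nrm2 c2 ≤ ε / 2 * C := by (clear * - hc2 hε; gcongr)
  have f3 : 1 / (2 * ε) * nrm2 d1 ≤ 1 / (2 * ε) * D := by gcongr
  have f4 : 1 / (2 * ε) * nrm2 d2 ≤ 1 / (2 * ε) * D := by (clear * - hd2 hε; gcongr)
  have f5 : (1 / ε + 1) * D = 1 / (2 * ε) * D + 1 / (2 * ε) * D + D := by
    field_simp
    ring
  rw [f5]
  linarith only [hd1, hd2, a1, a2, a3, b1, f1, f2, f3, f4]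

lemma q2_diff {n : ℕ} (r : Rnd) (t : ℕ) (c d : ℕ → RSt n) {ε C D : ℝ} (hε : 0 < ε)
    (hc0 : nrm2 (c t) ≤ C) (hc1 : nrm2 (c (t + 1)) ≤ C) (hc2 : nrm2 (c (t + 2)) ≤ C)
    (hc3 : nrm2 (c (t - 1)) ≤ C) (hc4 : nrm2 (c (t - 2)) ≤ C) (hc5 : nrm2 (c (t - 3)) ≤ C)
    (hd0 : nrm2 (d t) ≤ D) (hd1 : nrm2 (d (t + 1)) ≤ D) (hd2 : nrm2 (d (t + 2)) ≤ D)
    (hd3 : nrm2 (d (t - 1)) ≤ D) (hd4 : nrm2 (d (t - 2)) ≤ D) (hd5 : nrm2 (d (t - 3)) ≤ D) :
    q2 r t c - 8 * (ε * C + (1 / ε + 1) * D) ≤ q2 r t (fun k => c k + d k) := by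
  have I : ∀ v w : RSt n, id (v + w) = id v + id w := fun _ _ => rfl
  have I2 : ∀ v : RSt n, nrm2 (id v) = nrm2 v := fun _ => rfl
  have Z : ∀ i, ∀ v w : RSt n, pau 2 i (v + w) = pau 2 i v + pau 2 i w := fun i => pau_add 2 i
  have Z2 : ∀ i, ∀ v : RSt n, nrm2 (pau 2 i v) = nrm2 v := fun i => nrm2_pau2 i
  have t1 := abs_le.1 (bil_diff id I I2 (c t) (c t) (d t) (d t) hε hc0 hc0 hd0 hd0)
  have t2 := abs_le.1 (bil_diff id I I2 (c (t - 1)) (c (t - 1)) (d (t - 1)) (d (t - 1)) hε
    hc3 hc3 hd3 hd3)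
  have t3 := abs_le.1 (bil_diff id I I2 (c t) (c (t - 1)) (d t) (d (t - 1)) hε hc0 hc3 hd0 hd3)
  have t4 := abs_le.1 (bil_diff _ (Z r.f) (Z2 r.f) (c t) (c (t - 1)) (d t) (d (t - 1)) hε
    hc0 hc3 hd0 hd3)
  have t5 := abs_le.1 (bil_diff _ (Z r.s) (Z2 r.s) (c t) (c (t - 1)) (d t) (d (t - 1)) hε
    hc0 hc3 hd0 hd3)
  have t6 := abs_le.1 (bil_diff id I I2 (c (t + 1)) (c t) (d (t + 1)) (d t) hε hc1 hc0 hd1 hd0)
  have t7 := abs_le.1 (bil_diff id I I2 (c (t + 2)) (c (t + 1)) (d (t + 2)) (d (t + 1)) hε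
    hc2 hc1 hd2 hd1)
  have t8 := abs_le.1 (bil_diff id I I2 (c (t - 1)) (c (t - 2)) (d (t - 1)) (d (t - 2)) hε
    hc3 hc4 hd3 hd4)
  have t9 := abs_le.1 (bil_diff id I I2 (c (t - 2)) (c (t - 3)) (d (t - 2)) (d (t - 3)) hε
    hc4 hc5 hd4 hd5)
  have t10 := abs_le.1 (bil_diff id I I2 (c (t + 2)) (c t) (d (t + 2)) (d t) hε hc2 hc0 hd2 hd0)
  have t11 := abs_le.1 (bil_diff id I I2 (c (t - 1)) (c (t - 3)) (d (t - 1)) (d (t - 3)) hε
    hc3 hc5 hd3 hd5)
  simp only [id] at t1 t2 t3 t6 t7 t8 t9 t10 t11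
  unfold q2 nrm2
  generalize ε * C + (1 / ε + 1) * D = K at *
  linarith only [t1.1, t2.1, t3.2, t4.2, t5.2, t6.1, t7.1, t8.1, t9.1, t10.1, t11.1]

/-! ### chains and sums -/

lemma chain (x d : ℕ → ℝ) (hx : ∀ k, 0 ≤ x k) (h0 : x 0 = 0) (n : ℕ)
    (h : ∀ k < n, x (k + 1) ≤ x k + d k) :
    ∑ k ∈ range (n + 1), x k ^ 2 ≤ ((n:ℝ) + 1) * n * ∑ j ∈ range n, d j ^ 2 := by
  have h1 : ∀ k ≤ n, x k ≤ ∑ j ∈ range k, d j := by
    intro k
    induction k with
    | zero => intro _; simp [h0]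
    | succ k ih =>
      intro hk
      rw [Finset.sum_range_succ]
      have := h k (by (clear * - hk; omega))
      have := ih (by omega)
      (clear hx h0; linarith)
  have h2 : ∀ k ∈ range (n + 1), x k ^ 2 ≤ n * ∑ j ∈ range n, d j ^ 2 := by
    intro k hk
    rw [Finset.mem_range] at hk
    have a1 : x k ^ 2 ≤ (∑ j ∈ range k, d j) ^ 2 := by
      have := hx k
      have := h1 k (by omega)
      gcongr
    have a2 : (∑ j ∈ range k, d j) ^ 2 ≤ ((range k).card : ℝ) * ∑ j ∈ range k, d j ^ 2 :=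
      sq_sum_le_card_mul_sum_sq
    rw [Finset.card_range] at a2
    have a3 : ∑ j ∈ range k, d j ^ 2 ≤ ∑ j ∈ range n, d j ^ 2 := by
      apply Finset.sum_le_sum_of_subset_of_nonneg
      · intro j hj
        rw [Finset.mem_range] at hj ⊢
        omega
      · intro j _ _
        (clear * -; positivity)
    have a4 : (k:ℝ) ≤ n := by
      have : k ≤ n := by omega
      exact_mod_cast this
    have a5 : 0 ≤ ∑ j ∈ range k, d j ^ 2 := Finset.sum_nonneg fun _ _ => by (clear * -; (clear * -; positivity))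
    calc x k ^ 2 ≤ (k:ℝ) * ∑ j ∈ range k, d j ^ 2 := a1.trans a2
      _ ≤ n * ∑ j ∈ range n, d j ^ 2 := by (clear * - a4 a3; gcongr)
  calc ∑ k ∈ range (n + 1), x k ^ 2 ≤ ∑ k ∈ range (n + 1), n * ∑ j ∈ range n, d j ^ 2 :=
        Finset.sum_le_sum h2
    _ = _ := by
        rw [Finset.sum_const, Finset.card_range, nsmul_eq_mul]
        push_cast
        ring

lemma sum_blocks (f : ℕ → ℝ) (m : ℕ) :
    ∑ t ∈ range (6 * m), f t = ∑ l ∈ range m, ∑ p ∈ range 6, f (6 * l + p) := by
  induction m with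
  | zero => simp only [mul_zero, range_zero, sum_empty]
  | succ m ih =>
    rw [Finset.sum_range_succ, ← ih, show 6 * (m + 1) = 6 * m + 6 by ring, Finset.sum_range_add]

lemma sum_windows (f : ℕ → ℝ) (hf : ∀ t, 0 ≤ f t) (m : ℕ) :
    ∑ l ∈ range m, ∑ p ∈ range 6, f (6 * l + 3 + p) ≤ ∑ t ∈ range (6 * m + 3), f t := by
  induction m with
  | zero => simpa only [range_zero, sum_empty, mul_zero, zero_add] using Finset.sum_nonneg fun t _ => hf t
  | succ m ih =>
    rw [Finset.sum_range_succ, show 6 * (m + 1) + 3 = 6 * m + 3 + 6 by ring,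
      Finset.sum_range_add _ (6 * m + 3) 6]
    linarith only [ih]

lemma sum_fine (F : ℕ → ℝ) (M : ℕ) :
    ∑ t ∈ Icc 1 (tc M), (if t % 6 = 0 then 0 else F t) =
      ∑ l ∈ range (M + 1), ∑ p ∈ range 5, F (6 * l + p + 1) := by
  have h1 : ∑ t ∈ Icc 1 (tc M), (if t % 6 = 0 then 0 else F t) =
      ∑ t ∈ range (6 * (M + 1)), (if t % 6 = 0 then 0 else F t) := by
    have h2 : range (6 * (M + 1)) = insert 0 (Icc 1 (tc M)) := by
      ext t
      simp only [Finset.mem_range, Finset.mem_insert, Finset.mem_Icc, tc]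
      omega
    rw [h2, Finset.sum_insert (by simp only [mem_Icc, nonpos_iff_eq_zero, one_ne_zero, zero_le, and_true, not_false_eq_true])]
    simp only [Nat.zero_mod, ↓reduceIte, zero_add]
  rw [h1, sum_blocks]
  apply Finset.sum_congr rfl
  intro l _
  rw [Finset.sum_range_succ']
  have h3 : (6 * l + 0) % 6 = 0 := by omega
  rw [if_pos h3, add_zero]
  apply Finset.sum_congr rfl
  intro p hp
  rw [Finset.mem_range] at hp
  rw [if_neg (by omega)]
  rfl

/-! ### input and output -/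

lemma runR_add {n : ℕ} (rs : List Rnd) : ∀ v w : RSt n,
    runR rs (v + w) = runR rs v + runR rs w := by
  induction rs with
  | nil => intro v w; rfl
  | cons r rs ih =>
    intro v w
    have h : rndAct r (v + w) = rndAct r v + rndAct r w := by
      unfold rndAct
      rw [refl_add, czg_add]
    change runR rs (rndAct r (v + w)) = runR rs (rndAct r v) + runR rs (rndAct r w)
    rw [h, ih]

lemma nrm2_runR {n : ℕ} (rs : List Rnd) : (∀ r ∈ rs, r.Ok n) → ∀ v : RSt n,
    nrm2 (runR rs v) = nrm2 v := by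
  induction rs with
  | nil => intro _ v; rfl
  | cons r rs ih =>
    intro hok v
    change nrm2 (runR rs (rndAct r v)) = nrm2 v
    rw [ih (fun r' hr' => hok r' (List.mem_cons_of_mem _ hr'))]
    unfold rndAct
    rw [nrm2_czg, nrm2_refl _ _ (hok r List.mem_cons_self).1]

lemma zer_apply {n : ℕ} (i : ℕ) (v : RSt n) (x : Fin n → Bool) :
    zer i v x = 1 / 2 * (1 + sg i x) * v x := by
  unfold zer
  simp only [Pi.smul_apply, Pi.add_apply, pau2, smul_eq_mul]
  ring

lemma one_apply {n : ℕ} (i : ℕ) (v : RSt n) (x : Fin n → Bool) :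
    one i v x = 1 / 2 * (1 - sg i x) * v x := by
  unfold one
  simp only [Pi.smul_apply, Pi.sub_apply, pau2, smul_eq_mul]
  ring

lemma zer_add {n : ℕ} (i : ℕ) (v w : RSt n) : zer i (v + w) = zer i v + zer i w := by
  funext x
  simp only [Pi.add_apply, zer_apply]
  ring

lemma nrm2_zer_le {n : ℕ} (i : ℕ) (v : RSt n) : nrm2 (zer i v) ≤ nrm2 v := by
  rw [nrm2_def, nrm2_def]
  apply Finset.sum_le_sum
  intro x _
  rw [zer_apply]
  rcases sg_or i x with h | h <;> rw [h] <;> linarith only [mul_self_nonneg (v x)]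

lemma nm_zer_le {n : ℕ} (i : ℕ) (v : RSt n) : nm (zer i v) ≤ nm v :=
  Real.sqrt_le_sqrt (nrm2_zer_le i v)

open Classical in
/-- the part of the input satisfying the input conditions -/
noncomputable def good {n : ℕ} (m : ℕ) (w : RSt n) : RSt n := fun x =>
  if ∀ i, m ≤ i → i < n - 1 → sg i x = 1 then w x else 0

lemma good_valid {n : ℕ} (m : ℕ) (w : RSt n) : ValidIn m (good m w) := by
  intro i h1 h2
  funext x
  rw [one_apply]
  unfold good
  split_ifs with h
  · rw [h i h1 h2]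
    simp only [one_div, sub_self, mul_zero, zero_mul, Pi.zero_apply]
  · simp only [one_div, mul_zero, Pi.zero_apply]

lemma good_split {n : ℕ} (m : ℕ) (w : RSt n) :
    nrm2 w = nrm2 (good m w) + nrm2 (w - good m w) := by
  rw [nrm2_def, nrm2_def, nrm2_def, ← Finset.sum_add_distrib]
  apply Finset.sum_congr rfl
  intro x _
  simp only [Pi.sub_apply]
  unfold good
  split_ifs <;> ring

lemma bad_le {n : ℕ} (m : ℕ) (w : RSt n) :
    nrm2 (w - good m w) ≤ ∑ i ∈ Ico m (n - 1), nrm2 (one i w) := by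
  simp only [nrm2_def]
  rw [Finset.sum_comm]
  apply Finset.sum_le_sum
  intro x _
  simp only [Pi.sub_apply]
  unfold good
  split_ifs with h
  · rw [sub_self, mul_zero]
    exact Finset.sum_nonneg fun _ _ => mul_self_nonneg _
  · push Not at h
    obtain ⟨i, h1, h2, h3⟩ := h
    have h4 : sg i x = -1 := (sg_or i x).resolve_left h3
    rw [sub_zero]
    have h5 : w x * w x = one i w x * one i w x := by
      rw [one_apply, h4]
      ring
    rw [h5]
    exact Finset.single_le_sum (f := fun i => one i w x * one i w x)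
      (fun _ _ => mul_self_nonneg _) (Finset.mem_Ico.2 ⟨h1, h2⟩)

lemma io_bound {N : ℕ} (m : ℕ) (rs : List Rnd) (hok : ∀ r ∈ rs, r.Ok N)
    (hacc : ∀ φ : RSt N, ValidIn m φ → 2 / 3 * nrm2 φ ≤ nrm2 (zer 0 (runR rs φ)))
    (w e : RSt N) :
    49 / 75 * nrm2 w - 98 * nrm2 e ≤
      1000 * (∑ i ∈ Ico m (N - 1), nrm2 (one i w)) + nrm2 (zer 0 (runR rs w + e)) := by
  have h1 := hacc _ (good_valid m w)
  have h2 := good_split m w
  have h3 := bad_le m w
  set φ := good m w
  set χ := w - good m w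
  have h4 : nm (zer 0 (runR rs φ)) ≤ nm (zer 0 (runR rs w + e)) + (nm χ + nm e) := by
    have e1 : zer 0 (runR rs w + e) = zer 0 (runR rs φ) + zer 0 (runR rs χ + e) := by
      rw [← zer_add, ← add_assoc, ← runR_add]
      congr 3
      simp [φ, χ]
    have e2 : zer 0 (runR rs φ) = zer 0 (runR rs w + e) - zer 0 (runR rs χ + e) := by
      rw [e1, add_sub_cancel_right]
    have e3 : nm (zer 0 (runR rs χ + e)) ≤ nm χ + nm e :=
      (nm_zer_le _ _).trans ((nm_add_le _ _).trans (by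
        rw [nm_congr (nrm2_runR rs hok χ)]))
    calc nm (zer 0 (runR rs φ)) = nm (zer 0 (runR rs w + e) - zer 0 (runR rs χ + e)) := by
          rw [← e2]
      _ ≤ _ := (nm_sub_le _ _).trans (by linarith only [e3])
  have h5 := nm_sq (zer 0 (runR rs φ))
  have h6 := nm_sq (zer 0 (runR rs w + e))
  have h7 := nm_sq χ
  have h8 := nm_sq e
  have p1 := nm_nonneg (zer 0 (runR rs φ))
  have p2 := nm_nonneg (zer 0 (runR rs w + e))
  have p3 := nm_nonneg χ
  have p4 := nm_nonneg e
  rw [← h6, ← h8]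
  rw [← h7] at h2 h3
  rw [← h5] at h1
  have h9 : nm (zer 0 (runR rs φ)) ^ 2 ≤
      (nm (zer 0 (runR rs w + e)) + (nm χ + nm e)) ^ 2 := by (clear * - p1 h4; gcongr)
  have h10 : (nm (zer 0 (runR rs w + e)) + (nm χ + nm e)) ^ 2 ≤
      50 / 49 * nm (zer 0 (runR rs w + e)) ^ 2 + 50 * (nm χ + nm e) ^ 2 := by
    linarith only [sq_nonneg (nm (zer 0 (runR rs w + e)) - 49 * (nm χ + nm e))]
  have h11 : (nm χ + nm e) ^ 2 ≤ 2 * nm χ ^ 2 + 2 * nm e ^ 2 := by
    linarith only [sq_nonneg (nm χ - nm e)]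
  rw [h2]
  linarith only [h1, h3, h9, h10, h11, sq_nonneg (nm χ)]

/-! ### values of the gates -/

lemma gf10 {n : ℕ} (rs : List Rnd) (v : RSt n) : gfine rs 1 v = v := by
  simp only [gfine, Nat.one_mod, ↓reduceIte, Nat.reduceDiv, nonpos_iff_eq_zero, one_ne_zero]

lemma gf20 {n : ℕ} (rs : List Rnd) (v : RSt n) : gfine rs 2 v = v := by
  simp only [gfine, Nat.reduceMod, OfNat.ofNat_ne_one, ↓reduceIte, Nat.reduceDiv, nonpos_iff_eq_zero, one_ne_zero]

lemma gf1 {n : ℕ} (rs : List Rnd) (l : ℕ) (v : RSt n) :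
    gfine rs (6 * (l + 1) + 1) v = pau 2 (rget rs l).f v := by
  have h1 : (6 * (l + 1) + 1) % 6 = 1 := by omega
  have h2 : (6 * (l + 1) + 1) / 6 = l + 1 := by omega
  unfold gfine
  rw [if_pos h1, h2, if_pos (by omega), Nat.add_sub_cancel]

lemma gf2 {n : ℕ} (rs : List Rnd) (l : ℕ) (v : RSt n) :
    gfine rs (6 * (l + 1) + 2) v = pau 2 (rget rs l).s v := by
  have h1 : (6 * (l + 1) + 2) % 6 = 2 := by omega
  have h2 : (6 * (l + 1) + 2) / 6 = l + 1 := by omega
  unfold gfine
  rw [if_neg (by omega), if_pos h1, h2, if_pos (by omega), Nat.add_sub_cancel]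

lemma gf3 {n : ℕ} (rs : List Rnd) (l : ℕ) (v : RSt n) :
    gfine rs (6 * l + 3) v =
      if l < rs.length then refl (rget rs l).a (rget rs l).q v else v := by
  have h1 : (6 * l + 3) % 6 = 3 := by omega
  have h2 : (6 * l + 3) / 6 = l := by omega
  unfold gfine
  rw [if_neg (by (clear * - h1; omega)), if_neg (by omega), if_pos h1, h2]

lemma gf4 {n : ℕ} (rs : List Rnd) (l : ℕ) (v : RSt n) :
    gfine rs (6 * l + 4) v = if l < rs.length then pau 2 (rget rs l).f v else v := by
  have h1 : (6 * l + 4) % 6 = 4 := by omega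
  have h2 : (6 * l + 4) / 6 = l := by omega
  unfold gfine
  rw [if_neg (by omega), if_neg (by omega), if_neg (by (clear * - h1; omega)), if_pos h1, h2]

lemma gf5 {n : ℕ} (rs : List Rnd) (l : ℕ) (v : RSt n) :
    gfine rs (6 * l + 5) v = if l < rs.length then pau 2 (rget rs l).s v else v := by
  have h2 : (6 * l + 5) / 6 = l := by omega
  unfold gfine
  rw [if_neg (by omega), if_neg (by omega), if_neg (by (clear * - h2; omega)), if_neg (by omega), h2]

lemma pau2_pau2 {n : ℕ} (i : ℕ) (v : RSt n) : pau 2 i (pau 2 i v) = v := by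
  funext x
  rw [pau2, pau2, ← mul_assoc, sg_mul, one_mul]

lemma gfine_sub {n : ℕ} (rs : List Rnd) (t : ℕ) (v w : RSt n) :
    gfine rs t (v - w) = gfine rs t v - gfine rs t w := by
  have h := gfine_add rs t (v - w) w
  rw [sub_add_cancel] at h
  rw [h, add_sub_cancel_right]

lemma czg_sub {n : ℕ} (f s : ℕ) (v w : RSt n) : czg f s (v - w) = czg f s v - czg f s w := by
  have h := czg_add f s (v - w) w
  rw [sub_add_cancel] at h
  rw [h, add_sub_cancel_right]

/-! ### level one states and history states -/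

/-- level one state with the same values at the multiples of six -/
noncomputable def cs {n : ℕ} (rs : List Rnd) (a : ℕ → RSt n) : ℕ → RSt n
  | 0 => a 0
  | t + 1 => if (t + 1) % 6 = 0 then a (t + 1) else gfine rs (t + 1) (cs rs a t)

/-- history state -/
noncomputable def his {n : ℕ} (rs : List Rnd) (w : RSt n) : ℕ → RSt n
  | 0 => w
  | t + 1 => if (t + 1) % 6 = 0 then czg (rget rs (t / 6)).f (rget rs (t / 6)).s (his rs w t)
      else gfine rs (t + 1) (his rs w t)

lemma cs_six {n : ℕ} (rs : List Rnd) (a : ℕ → RSt n) (l : ℕ) : cs rs a (6 * l) = a (6 * l) := by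
  cases l with
  | zero => rfl
  | succ l =>
    rw [show 6 * (l + 1) = 6 * l + 5 + 1 by ring, cs, if_pos (by (clear * -; omega))]

lemma cs_step {n : ℕ} (rs : List Rnd) (a : ℕ → RSt n) (l p : ℕ) (hp : p < 5) :
    cs rs a (6 * l + p + 1) = gfine rs (6 * l + p + 1) (cs rs a (6 * l + p)) := by
  rw [cs, if_neg (by omega)]

lemma his_six {n : ℕ} (rs : List Rnd) (w : RSt n) (l : ℕ) :
    his rs w (6 * (l + 1)) = czg (rget rs l).f (rget rs l).s (his rs w (6 * l + 5)) := by
  rw [show 6 * (l + 1) = 6 * l + 5 + 1 by ring, his, if_pos (by (clear * -; omega)),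
    show (6 * l + 5) / 6 = l by omega]

lemma his_step {n : ℕ} (rs : List Rnd) (w : RSt n) (l p : ℕ) (hp : p < 5) :
    his rs w (6 * l + p + 1) = gfine rs (6 * l + p + 1) (his rs w (6 * l + p)) := by
  rw [his, if_neg (by (clear * - hp; omega))]

lemma nrm2_his {n : ℕ} (rs : List Rnd) (hok : ∀ r ∈ rs, r.Ok n) (w : RSt n) (t : ℕ) :
    nrm2 (his rs w t) = nrm2 w := by
  induction t with
  | zero => rfl
  | succ t ih =>
    rw [his]
    split_ifs
    · rw [nrm2_czg, ih]
    · rw [nrm2_gfine rs hok, ih]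

lemma his_two {n : ℕ} (rs : List Rnd) (w : RSt n) (l : ℕ) (hl : l ≤ rs.length) :
    his rs w (6 * l + 2) = runR (rs.take l) w := by
  induction l with
  | zero =>
    have h1 : his rs w 1 = gfine rs 1 (his rs w 0) := his_step rs w 0 0 (by norm_num)
    have h2 : his rs w 2 = gfine rs 2 (his rs w 1) := his_step rs w 0 1 (by norm_num)
    simp only [mul_zero, zero_add, List.take_zero]
    rw [h2, h1, gf10, gf20]
    rfl
  | succ l ih =>
    have hl' : l < rs.length := by omega
    have h3 : his rs w (6 * l + 3) = refl (rget rs l).a (rget rs l).q (his rs w (6 * l + 2)) := by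
      rw [his_step rs w l 2 (by norm_num)]
      exact (gf3 rs l _).trans (if_pos hl')
    have h4 : his rs w (6 * l + 4) = pau 2 (rget rs l).f (his rs w (6 * l + 3)) := by
      rw [his_step rs w l 3 (by norm_num)]
      exact (gf4 rs l _).trans (if_pos hl')
    have h5 : his rs w (6 * l + 5) = pau 2 (rget rs l).s (his rs w (6 * l + 4)) := by
      rw [his_step rs w l 4 (by norm_num)]
      exact (gf5 rs l _).trans (if_pos hl')
    have h7 : his rs w (6 * (l + 1) + 1) = pau 2 (rget rs l).f (his rs w (6 * (l + 1))) := by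
      rw [his_step rs w (l + 1) 0 (by norm_num)]
      exact gf1 rs l _
    have h8 : his rs w (6 * (l + 1) + 2) = pau 2 (rget rs l).s (his rs w (6 * (l + 1) + 1)) := by
      rw [his_step rs w (l + 1) 1 (by norm_num)]
      exact gf2 rs l _
    have h9 : rs.take (l + 1) = rs.take l ++ [rget rs l] := by
      rw [List.take_succ_eq_append_getElem hl', rget, List.getD_eq_getElem _ _ hl']
    have h10 : runR (rs.take l ++ [rget rs l]) w = rndAct (rget rs l) (runR (rs.take l) w) := by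
      unfold runR
      rw [List.foldl_append]
      rfl
    rw [h8, h7, his_six, h5, h4, h3, ih (by (clear * - hl; omega)), h9, h10]
    unfold rndAct
    generalize refl (rget rs l).a (rget rs l).q (runR (rs.take l) w) = v
    funext x
    simp only [pau2, czg_apply]
    rcases sg_or (rget rs l).f x with h | h <;> rcases sg_or (rget rs l).s x with h' | h' <;>
      rw [h, h'] <;> ring

lemma his_last {n : ℕ} (rs : List Rnd) (w : RSt n) :
    his rs w (tc rs.length) = runR rs w := by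
  have h3 : his rs w (6 * rs.length + 3) = his rs w (6 * rs.length + 2) := by
    rw [his_step rs w rs.length 2 (by norm_num)]
    exact (gf3 rs _ _).trans (if_neg (lt_irrefl _))
  have h4 : his rs w (6 * rs.length + 4) = his rs w (6 * rs.length + 3) := by
    rw [his_step rs w rs.length 3 (by norm_num)]
    exact (gf4 rs _ _).trans (if_neg (lt_irrefl _))
  have h5 : his rs w (6 * rs.length + 5) = his rs w (6 * rs.length + 4) := by
    rw [his_step rs w rs.length 4 (by norm_num)]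
    exact (gf5 rs _ _).trans (if_neg (lt_irrefl _))
  rw [tc, h5, h4, h3, his_two rs w rs.length le_rfl, List.take_length]

/-! ### the three levels -/

lemma level_one {n : ℕ} (rs : List Rnd) (hok : ∀ r ∈ rs, r.Ok n) (a : ℕ → RSt n) :
    tot rs.length (fun t => a t - cs rs a t) ≤
      60 * (∑ t ∈ Icc 1 (tc rs.length), if t % 6 = 0 then 0
        else 1 / 2 * nrm2 (a t - gfine rs t (a (t - 1)))) := by
  rw [sum_fine]
  unfold tot
  rw [show tc rs.length + 1 = 6 * (rs.length + 1) by unfold tc; ring, sum_blocks, Finset.mul_sum]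
  apply Finset.sum_le_sum
  intro l _
  have h := chain (fun p => nm (a (6 * l + p) - cs rs a (6 * l + p)))
    (fun p => nm (a (6 * l + p + 1) - gfine rs (6 * l + p + 1) (a (6 * l + p))))
    (fun _ => nm_nonneg _) (by simp [cs_six, nm, nrm2_def]) 5 (by
      intro p hp
      change nm (a (6 * l + p + 1) - cs rs a (6 * l + p + 1)) ≤ _
      rw [cs_step rs a l p hp]
      have e : a (6 * l + p + 1) - gfine rs (6 * l + p + 1) (cs rs a (6 * l + p)) =
          gfine rs (6 * l + p + 1) (a (6 * l + p) - cs rs a (6 * l + p)) +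
          (a (6 * l + p + 1) - gfine rs (6 * l + p + 1) (a (6 * l + p))) := by
        rw [gfine_sub]
        abel
      rw [e]
      refine (nm_add_le _ _).trans ?_
      rw [nm_congr (nrm2_gfine rs hok _ _)])
  simp only [nm_sq] at h
  refine h.trans (le_of_eq ?_)
  rw [Finset.mul_sum, Finset.mul_sum]
  apply Finset.sum_congr rfl
  intro p _
  rw [Nat.add_sub_cancel]
  push_cast
  ring

/-- defect of the transition `CZ` -/
noncomputable def dd {n : ℕ} (rs : List Rnd) (a : ℕ → RSt n) (l : ℕ) : ℝ :=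
  nm (a (6 * (l + 1)) - czg (rget rs l).f (rget rs l).s (cs rs a (6 * l + 5)))

lemma level_two {n : ℕ} (rs : List Rnd) (a : ℕ → RSt n) :
    1 / 2 * ∑ l ∈ range rs.length, dd rs a l ^ 2 ≤
      ∑ l ∈ range rs.length, q2 (rget rs l) (6 * (l + 1)) (cs rs a) := by
  rw [Finset.mul_sum]
  apply Finset.sum_le_sum
  intro l hl
  rw [Finset.mem_range] at hl
  have h1 : cs rs a (6 * (l + 1) + 1) = pau 2 (rget rs l).f (cs rs a (6 * (l + 1))) := by
    rw [cs_step rs a (l + 1) 0 (by norm_num)]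
    exact gf1 rs l _
  have h2 : cs rs a (6 * (l + 1) + 2) = pau 2 (rget rs l).s (cs rs a (6 * (l + 1) + 1)) := by
    rw [cs_step rs a (l + 1) 1 (by norm_num)]
    exact gf2 rs l _
  have h4 : cs rs a (6 * l + 4) = pau 2 (rget rs l).f (cs rs a (6 * l + 3)) := by
    rw [cs_step rs a l 3 (by norm_num)]
    exact (gf4 rs l _).trans (if_pos hl)
  have h5 : cs rs a (6 * l + 5) = pau 2 (rget rs l).s (cs rs a (6 * l + 4)) := by
    rw [cs_step rs a l 4 (by (clear * -; norm_num))]
    exact (gf5 rs l _).trans (if_pos hl)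
  have h3 : cs rs a (6 * (l + 1) - 2) = pau 2 (rget rs l).s (cs rs a (6 * (l + 1) - 1)) := by
    rw [show 6 * (l + 1) - 2 = 6 * l + 4 by omega, show 6 * (l + 1) - 1 = 6 * l + 5 by omega, h5,
      pau2_pau2]
  have h6 : cs rs a (6 * (l + 1) - 3) = pau 2 (rget rs l).f (cs rs a (6 * (l + 1) - 2)) := by
    rw [show 6 * (l + 1) - 3 = 6 * l + 3 by omega, show 6 * (l + 1) - 2 = 6 * l + 4 by omega, h4,
      pau2_pau2]
  have h := q2_ge (rget rs l) (6 * (l + 1)) (cs rs a) h1 h2 h3 h6
  rw [show 6 * (l + 1) - 1 = 6 * l + 5 by omega, cs_six] at h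
  unfold dd
  rw [nm_sq]
  exact h

lemma cs_his {n : ℕ} (rs : List Rnd) (hok : ∀ r ∈ rs, r.Ok n) (a : ℕ → RSt n) (l p : ℕ)
    (hp : p ≤ 5) : nrm2 (cs rs a (6 * l + p) - his rs (a 0) (6 * l + p)) =
      nrm2 (a (6 * l) - his rs (a 0) (6 * l)) := by
  induction p with
  | zero => rw [add_zero, cs_six]
  | succ p ih =>
    rw [← add_assoc, cs_step rs a l p (by omega), his_step rs (a 0) l p (by omega), ← gfine_sub,
      nrm2_gfine rs hok, ih (by omega)]

lemma path {n : ℕ} (rs : List Rnd) (hok : ∀ r ∈ rs, r.Ok n) (a : ℕ → RSt n) :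
    tot rs.length (fun t => cs rs a t - his rs (a 0) t) ≤
      6 * (((rs.length : ℝ) + 1) * rs.length) * ∑ l ∈ range rs.length, dd rs a l ^ 2 := by
  unfold tot
  rw [show tc rs.length + 1 = 6 * (rs.length + 1) by unfold tc; ring, sum_blocks]
  have h := chain (fun l => nm (a (6 * l) - his rs (a 0) (6 * l))) (dd rs a)
    (fun _ => nm_nonneg _) (by simp [his, nm, nrm2_def]) rs.length (by
      intro l _
      rw [his_six]
      have e : a (6 * (l + 1)) - czg (rget rs l).f (rget rs l).s (his rs (a 0) (6 * l + 5)) =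
          czg (rget rs l).f (rget rs l).s (cs rs a (6 * l + 5) - his rs (a 0) (6 * l + 5)) +
          (a (6 * (l + 1)) - czg (rget rs l).f (rget rs l).s (cs rs a (6 * l + 5))) := by
        rw [czg_sub]
        abel
      rw [e]
      refine (nm_add_le _ _).trans ?_
      rw [nm_congr (nrm2_czg _ _ _), nm_congr (cs_his rs hok a l 5 le_rfl)]
      exact le_rfl)
  simp only [nm_sq] at h
  have e : ∑ l ∈ range (rs.length + 1), ∑ p ∈ range 6,
      nrm2 (cs rs a (6 * l + p) - his rs (a 0) (6 * l + p)) =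
      6 * ∑ l ∈ range (rs.length + 1), nrm2 (a (6 * l) - his rs (a 0) (6 * l)) := by
    rw [Finset.mul_sum]
    apply Finset.sum_congr rfl
    intro l _
    rw [Finset.sum_congr rfl (fun p hp => cs_his rs hok a l p
      (by rw [Finset.mem_range] at hp; omega)), Finset.sum_const, Finset.card_range]
    simp
  rw [e]
  linarith only [h]

lemma q2_total {n : ℕ} (rs : List Rnd) (c d : ℕ → RSt n) {ε : ℝ} (hε : 0 < ε) :
    (∑ l ∈ range rs.length, q2 (rget rs l) (6 * (l + 1)) c) -
      8 * (ε * tot rs.length c + (1 / ε + 1) * tot rs.length d) ≤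
    ∑ l ∈ range rs.length, q2 (rget rs l) (6 * (l + 1)) (fun k => c k + d k) := by
  have W : ∀ f : ℕ → RSt n, ∑ l ∈ range rs.length, ∑ p ∈ range 6, nrm2 (f (6 * l + 3 + p)) ≤
      tot rs.length f := by
    intro f
    refine (sum_windows (fun t => nrm2 (f t)) (fun _ => nrm2_nonneg _) rs.length).trans ?_
    unfold tot
    apply Finset.sum_le_sum_of_subset_of_nonneg
    · intro t ht
      rw [Finset.mem_range] at ht ⊢
      unfold tc
      omega
    · intro _ _ _
      exact nrm2_nonneg _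
  have S : ∀ f : ℕ → RSt n, ∀ l p, p < 6 →
      nrm2 (f (6 * l + 3 + p)) ≤ ∑ p ∈ range 6, nrm2 (f (6 * l + 3 + p)) := fun f l p hp =>
    Finset.single_le_sum (f := fun p => nrm2 (f (6 * l + 3 + p))) (fun _ _ => nrm2_nonneg _)
      (Finset.mem_range.2 hp)
  have P : ∀ l ∈ range rs.length, q2 (rget rs l) (6 * (l + 1)) c -
      8 * (ε * (∑ p ∈ range 6, nrm2 (c (6 * l + 3 + p))) +
        (1 / ε + 1) * ∑ p ∈ range 6, nrm2 (d (6 * l + 3 + p))) ≤
      q2 (rget rs l) (6 * (l + 1)) (fun k => c k + d k) := by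
    intro l _
    exact q2_diff (rget rs l) (6 * (l + 1)) c d hε
      (S c l 3 (by norm_num)) (S c l 4 (by norm_num)) (S c l 5 (by norm_num))
      (S c l 2 (by norm_num)) (S c l 1 (by norm_num)) (S c l 0 (by norm_num))
      (S d l 3 (by norm_num)) (S d l 4 (by norm_num)) (S d l 5 (by norm_num))
      (S d l 2 (by norm_num)) (S d l 1 (by norm_num)) (S d l 0 (by norm_num))
  have Q := Finset.sum_le_sum P
  rw [Finset.sum_sub_distrib, ← Finset.mul_sum, Finset.sum_add_distrib, ← Finset.mul_sum,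
    ← Finset.mul_sum] at Q
  have w1 := W c
  have w2 := W d
  have p1 : 0 < 1 / ε := by (clear * - hε; positivity)
  have u1 : ε * (∑ l ∈ range rs.length, ∑ p ∈ range 6, nrm2 (c (6 * l + 3 + p))) ≤
      ε * tot rs.length c := by gcongr
  have u2 : (1 / ε + 1) * (∑ l ∈ range rs.length, ∑ p ∈ range 6, nrm2 (d (6 * l + 3 + p))) ≤
      (1 / ε + 1) * tot rs.length d := by (clear * - w2 hε; gcongr)
  linarith

/-! ### assembly -/

lemma numbers (M r J1 J2 S Q2a Q2c E Dl C B W Ep IO T : ℝ) (hM : 0 ≤ M) (hr : 1000 ≤ r)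
    (hrM : M + 1 ≤ r) (hJ1 : J1 = r ^ 24) (hJ2 : J2 = r ^ 8) (hW : 0 ≤ W) (hE : 0 ≤ E)
    (hDl : 0 ≤ Dl) (hB : 0 ≤ B)
    (h1 : Dl ≤ 60 * S) (h2 : 1 / 2 * E ≤ Q2c)
    (h3 : Q2c - 8 * (1 / r ^ 12 * C + (1 / (1 / r ^ 12) + 1) * Dl) ≤ Q2a)
    (h4 : B ≤ 6 * ((M + 1) * M) * E) (h5 : Ep ≤ 2 * Dl + 2 * B)
    (h6 : C ≤ 2 * (6 * (M + 1) * W) + 2 * B) (h7 : 49 / 75 * W - 98 * Ep ≤ IO)
    (h8 : T ≤ (1 + 1 / 100) * (6 * (M + 1) * W) + (1 + 1 / (1 / 100)) * Ep) (hEp : 0 ≤ Ep) :
    (2 / 3 - 1 / 24) / (6 * (M + 1)) * T ≤ J1 * S + J2 * Q2a + IO := by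
  have r0 : 0 < r := by linarith only [hr]
  have r1 : 1 ≤ r := by linarith only [hr]
  have hM1 : 0 < M + 1 := by linarith only [hM]
  -- left side
  have L : (2 / 3 - 1 / 24) / (6 * (M + 1)) * T ≤ 101 / 160 * W + 11 * Ep := by
    have a1 : (2 / 3 - 1 / 24) / (6 * (M + 1)) * T ≤ (2 / 3 - 1 / 24) / (6 * (M + 1)) *
        ((1 + 1 / 100) * (6 * (M + 1) * W) + (1 + 1 / (1 / 100)) * Ep) := by
      apply mul_le_mul_of_nonneg_left h8
      (clear * - hM; (clear * - hM; positivity))
    have a2 : (2 / 3 - 1 / 24) / (6 * (M + 1)) *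
        ((1 + 1 / 100) * (6 * (M + 1) * W) + (1 + 1 / (1 / 100)) * Ep) =
        101 / 160 * W + (505 / 8) * (Ep / (6 * (M + 1))) := by
      field_simp
      ring
    have a3 : Ep / (6 * (M + 1)) ≤ Ep / 6 := by
      apply div_le_div_of_nonneg_left hEp (by norm_num)
      linarith only [hM]
    linarith only [hEp, a1, a2, a3]
  -- right side
  have q0 : r ^ 8 * (1 / r ^ 12) = 1 / r ^ 4 := by
    field_simp
  have q1 : 1 / r ^ 4 ≤ 1 / 10 ^ 12 := by
    apply one_div_le_one_div_of_le (by (clear * -; norm_num))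
    calc (10:ℝ) ^ 12 = 1000 ^ 4 := by norm_num
      _ ≤ r ^ 4 := by (clear * - hr; gcongr)
  have q2 : 1 / r ^ 4 * (M + 1) ≤ 1 / 10 ^ 9 := by
    calc 1 / r ^ 4 * (M + 1) ≤ 1 / r ^ 4 * r := by gcongr
      _ = 1 / r ^ 3 := by (clear * - hr; field_simp)
      _ ≤ 1 / 10 ^ 9 := by
        apply one_div_le_one_div_of_le (by norm_num)
        calc (10:ℝ) ^ 9 = 1000 ^ 3 := by norm_num
          _ ≤ r ^ 3 := by (clear * - hr; gcongr)
  have R1 : r ^ 8 * (1 / r ^ 12 * C) ≤ 12 / 10 ^ 9 * W + 2 / 10 ^ 12 * B := by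
    calc r ^ 8 * (1 / r ^ 12 * C) = 1 / r ^ 4 * C := by rw [← mul_assoc, q0]
      _ ≤ 1 / r ^ 4 * (2 * (6 * (M + 1) * W) + 2 * B) := by gcongr
      _ = 12 * (1 / r ^ 4 * (M + 1)) * W + 2 * (1 / r ^ 4) * B := by ring
      _ ≤ 12 * (1 / 10 ^ 9) * W + 2 * (1 / 10 ^ 12) * B := by (clear * - q2 hW q1 hB; gcongr)
      _ = _ := by ring
  have R2 : r ^ 8 * ((1 / (1 / r ^ 12) + 1) * Dl) ≤ 2 * r ^ 20 * Dl := by
    have b1 : 1 / (1 / r ^ 12) = r ^ 12 := by rw [one_div_one_div]
    have b2 : (1:ℝ) ≤ r ^ 12 := one_le_pow₀ r1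
    have b3 : r ^ 8 * ((r ^ 12 + 1) * Dl) ≤ r ^ 8 * ((r ^ 12 + r ^ 12) * Dl) := by (clear * - b2 hDl hr; gcongr)
    rw [b1]
    calc r ^ 8 * ((r ^ 12 + 1) * Dl) ≤ r ^ 8 * ((r ^ 12 + r ^ 12) * Dl) := b3
      _ = 2 * r ^ 20 * Dl := by ring
  have R3 : r ^ 8 * Q2a ≥ r ^ 8 * (1 / 2 * E) - 8 * (r ^ 8 * (1 / r ^ 12 * C)) -
      8 * (r ^ 8 * ((1 / (1 / r ^ 12) + 1) * Dl)) := by
    have b0 : 1 / 2 * E - 8 * (1 / r ^ 12 * C + (1 / (1 / r ^ 12) + 1) * Dl) ≤ Q2a := by
      linarith only [h2, h3]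
    have b1 : r ^ 8 * (1 / 2 * E - 8 * (1 / r ^ 12 * C + (1 / (1 / r ^ 12) + 1) * Dl)) ≤
        r ^ 8 * Q2a := by (clear * - b0 hr; gcongr)
    linarith only [b1]
  have R4 : B ≤ 6 * r ^ 2 * E := by
    refine h4.trans ?_
    have : (M + 1) * M ≤ r ^ 2 := by
      rw [pow_two]
      exact mul_le_mul hrM (by linarith only [hrM]) hM r0.le
    have b1 : (M + 1) * M * E ≤ r ^ 2 * E := by (clear * - this hE; gcongr)
    linarith only [b1]
  have R5 : 10 ^ 6 * (r ^ 2 * E) ≤ r ^ 8 * E := by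
    have b1 : (10:ℝ) ^ 6 ≤ r ^ 6 := by
      calc (10:ℝ) ^ 6 = 10 ^ 6 * 1 ^ 6 := by norm_num
        _ ≤ 1000 ^ 6 := by norm_num
        _ ≤ r ^ 6 := by gcongr
    have b2 : (10:ℝ) ^ 6 * (r ^ 2 * E) ≤ r ^ 6 * (r ^ 2 * E) := by (clear * - b1 hr hE; gcongr)
    calc (10:ℝ) ^ 6 * (r ^ 2 * E) ≤ r ^ 6 * (r ^ 2 * E) := b2
      _ = r ^ 8 * E := by ring
  have R6 : 10 ^ 12 * (r ^ 20 * Dl) ≤ r ^ 24 * Dl := by
    have b1 : (10:ℝ) ^ 12 ≤ r ^ 4 := by
      calc (10:ℝ) ^ 12 = 1000 ^ 4 := by norm_num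
        _ ≤ r ^ 4 := by (clear * - hr; gcongr)
    have b2 : (10:ℝ) ^ 12 * (r ^ 20 * Dl) ≤ r ^ 4 * (r ^ 20 * Dl) := by (clear * - b1 hr hDl; gcongr)
    calc (10:ℝ) ^ 12 * (r ^ 20 * Dl) ≤ r ^ 4 * (r ^ 20 * Dl) := b2
      _ = r ^ 24 * Dl := by ring
  have R7 : Dl ≤ r ^ 20 * Dl := by
    have b1 : (1:ℝ) ≤ r ^ 20 := one_le_pow₀ r1
    have b2 : 1 * Dl ≤ r ^ 20 * Dl := by gcongr
    linarith only [b2]
  have R8 : r ^ 24 * Dl ≤ 60 * (r ^ 24 * S) := by
    have b1 : r ^ 24 * Dl ≤ r ^ 24 * (60 * S) := by (clear * - h1 hr; gcongr)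
    linarith only [b1]
  have R9 : 0 ≤ r ^ 2 * E := by (clear * - hr hE; positivity)
  rw [hJ1, hJ2]
  linarith only [hW, hDl, hB, h5, h7, L, R1, R2, R3, R4, R5, R6, R7, R8]

end HL

theorem hist_lower (N m : ℕ) (hN : 1 ≤ N) (rs : List Rnd) (hok : ∀ r ∈ rs, r.Ok N)
    (hacc : ∀ φ : RSt N, ValidIn m φ → 2 / 3 * nrm2 φ ≤ nrm2 (zer 0 (runR rs φ)))
    (a : ℕ → RSt N) :
    (2 / 3 - 1 / 24) / (6 * ((rs.length : ℝ) + 1)) * tot rs.length a ≤
      e1 ((rr N rs.length : ℝ) ^ 24) ((rr N rs.length : ℝ) ^ 8) 1000 m rs a := by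
  have r1 : (1000:ℝ) ≤ (rr N rs.length : ℝ) := by
    have : 1000 ≤ rr N rs.length := by unfold rr; omega
    exact_mod_cast this
  have r2 : (rs.length : ℝ) + 1 ≤ (rr N rs.length : ℝ) := by
    have : rs.length + 1 ≤ rr N rs.length := by unfold rr; omega
    exact_mod_cast this
  have tn : ∀ f : ℕ → RSt N, 0 ≤ tot rs.length f := fun f =>
    Finset.sum_nonneg fun _ _ => HL.nrm2_nonneg _
  have t2 : ∀ f g : ℕ → RSt N, tot rs.length (fun t => f t + g t) ≤
      2 * tot rs.length f + 2 * tot rs.length g := by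
    intro f g
    unfold tot
    rw [Finset.mul_sum, Finset.mul_sum, ← Finset.sum_add_distrib]
    exact Finset.sum_le_sum fun _ _ => HL.nrm2_add_le2 _ _
  have hh : tot rs.length (HL.his rs (a 0)) = 6 * ((rs.length : ℝ) + 1) * nrm2 (a 0) := by
    unfold tot
    rw [Finset.sum_congr rfl (fun t _ => HL.nrm2_his rs hok (a 0) t), Finset.sum_const,
      Finset.card_range, nsmul_eq_mul, tc]
    push_cast
    ring
  have h3 := HL.q2_total rs (HL.cs rs a) (fun t => a t - HL.cs rs a t)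
    (ε := 1 / (rr N rs.length : ℝ) ^ 12) (by (clear * - r1; positivity))
  simp only [add_sub_cancel] at h3
  have h5 : tot rs.length (fun t => a t - HL.his rs (a 0) t) ≤
      2 * tot rs.length (fun t => a t - HL.cs rs a t) +
      2 * tot rs.length (fun t => HL.cs rs a t - HL.his rs (a 0) t) := by
    have := t2 (fun t => a t - HL.cs rs a t) (fun t => HL.cs rs a t - HL.his rs (a 0) t)
    simpa only [sub_add_sub_cancel] using this
  have h6 : tot rs.length (HL.cs rs a) ≤ 2 * (6 * ((rs.length : ℝ) + 1) * nrm2 (a 0)) +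
      2 * tot rs.length (fun t => HL.cs rs a t - HL.his rs (a 0) t) := by
    have := t2 (HL.his rs (a 0)) (fun t => HL.cs rs a t - HL.his rs (a 0) t)
    rw [hh] at this
    simpa only [add_sub_cancel] using this
  have h7 : 49 / 75 * nrm2 (a 0) - 98 * tot rs.length (fun t => a t - HL.his rs (a 0) t) ≤
      1000 * (∑ i ∈ Ico m (N - 1), nrm2 (one i (a 0))) + nrm2 (zer 0 (a (tc rs.length))) := by
    have b1 := HL.io_bound m rs hok hacc (a 0)
      (a (tc rs.length) - HL.his rs (a 0) (tc rs.length))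
    rw [← HL.his_last rs (a 0), add_sub_cancel] at b1
    have b2 : nrm2 (a (tc rs.length) - HL.his rs (a 0) (tc rs.length)) ≤
        tot rs.length (fun t => a t - HL.his rs (a 0) t) :=
      Finset.single_le_sum (f := fun t => nrm2 (a t - HL.his rs (a 0) t))
        (fun _ _ => HL.nrm2_nonneg _) (Finset.mem_range.2 (Nat.lt_succ_self _))
    linarith only [b1, b2]
  have h8 : tot rs.length a ≤ (1 + 1 / 100) * (6 * ((rs.length : ℝ) + 1) * nrm2 (a 0)) +
      (1 + 1 / (1 / 100)) * tot rs.length (fun t => a t - HL.his rs (a 0) t) := by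
    rw [← hh]
    unfold tot
    rw [Finset.mul_sum, Finset.mul_sum, ← Finset.sum_add_distrib]
    apply Finset.sum_le_sum
    intro t _
    have := HL.nrm2_add_le (HL.his rs (a 0) t) (a t - HL.his rs (a 0) t)
      (η := 1 / 100) (by (clear * -; norm_num))
    rwa [add_sub_cancel] at this
  have key := HL.numbers (rs.length : ℝ) (rr N rs.length : ℝ) _ _ _ _ _
    (∑ l ∈ range rs.length, HL.dd rs a l ^ 2) _ _ _ (nrm2 (a 0)) _ _ _ (Nat.cast_nonneg _) r1 r2
    rfl rfl (HL.nrm2_nonneg _) (Finset.sum_nonneg fun _ _ => sq_nonneg _) (tn _) (tn _)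
    (HL.level_one rs hok a) (HL.level_two rs a) h3 (HL.path rs hok a) h5 h6 h7 h8 (tn _)
  refine key.trans (le_of_eq ?_)
  unfold e1
  ring

end Vale.Agent.P370.H
end
end

section

section

/-!
The one-body inequality for hydrogen.
-/

namespace Vale.Agent.P370.Q

open MeasureTheory Finset ComplexConjugate Hyd

theorem ShellBasis.card_ge {n : ℕ} {A : Type} [Fintype A] [DecidableEq A] (B : ShellBasis n A) :
    Module.finrank ℝ (E n) ≤ Fintype.card A := by
  rw [finrank_E]
  have h1 : (univ : Finset A).card = ∑ k ∈ range n, (univ.filter (fun a => B.lev a = k + 1)).card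
      := by
    rw [Finset.card_eq_sum_card_fiberwise (f := fun a => B.lev a - 1) (t := range n)]
    · refine Finset.sum_congr rfl fun k _ => ?_
      congr 1
      ext a
      have := B.lev_pos a
      simp only [Finset.mem_filter, Finset.mem_univ, true_and]
      omega
    · intro a _
      have h1 := B.lev_pos a
      have h2 := B.lev_le a
      simp only [Finset.coe_range, Set.mem_Iio]
      omega
  rw [← Finset.card_univ, h1]
  refine Finset.sum_le_sum fun k hk => ?_
  rw [B.card (k + 1) (by omega) (by have := Finset.mem_range.1 hk; omega)]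

theorem lev_lt {n k : ℕ} (hk : 1 ≤ k) (hkn : k ≤ n) :
    -((1 / (k : ℝ)) ^ 2 / 2) < -(1 / (2 * ((n : ℝ) + 1) ^ 2)) := by
  have h1 : (0 : ℝ) < k := by exact_mod_cast hk
  have h2 : (k : ℝ) ≤ n := by exact_mod_cast hkn
  have h3 : -((1 / (k : ℝ)) ^ 2 / 2) = -(1 / (2 * (k : ℝ) ^ 2)) := by
    field_simp
  rw [h3]
  refine neg_lt_neg (one_div_lt_one_div_of_lt (by (clear * - hk; positivity)) ?_)
  nlinarith only [h2]

theorem coef_eq {n k : ℕ} (hk : 1 ≤ k) :
    (1 / (2 * ((n : ℝ) + 1) ^ 2) - 1 / (2 * (k : ℝ) ^ 2))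
      = (-((1 / (k : ℝ)) ^ 2 / 2) - -(1 / (2 * ((n : ℝ) + 1) ^ 2))) := by
  have h1 : (0 : ℝ) < k := by exact_mod_cast hk
  field_simp
  ring

/-- The one-body inequality for hydrogen. -/
theorem hydrogen_ineq {n : ℕ} (hn : 1 ≤ n) {A : Type} [Fintype A] [DecidableEq A]
    (B : ShellBasis n A)
    (u : R3 → ℂ) (hu : ContDiff ℝ (⊤ : ℕ∞) u) (hc : HasCompactSupport u) :
    -(1 / (2 * ((n : ℝ) + 1) ^ 2)) * (∫ x, ‖u x‖ ^ 2) +
        ∑ a, (1 / (2 * ((n : ℝ) + 1) ^ 2) - 1 / (2 * (B.lev a : ℝ) ^ 2)) *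
          ‖∫ x, (B.χ a x : ℂ) * u x‖ ^ 2
      ≤ (1 / 2) * (∫ x, ∑ k, ‖fderiv ℝ u x (EuclideanSpace.single k 1)‖ ^ 2) -
        ∫ x, ‖u x‖ ^ 2 / ‖x‖ := by
  have hz : ∀ a, ∃ z ∈ Eig (B.lev a), B.χ a = xp (1 / (B.lev a : ℝ)) z.1 z.2 := fun a =>
    (isShell_iff (B.lev_pos a)).1 (B.mem a)
  choose z hz1 hz2 using hz
  have hu1 : ContDiff ℝ 1 u := hu.of_le (by exact_mod_cast le_top)
  have h := hyd_lower_complex n (ι := A) (fun a => toAdm (inv_pos' (B.lev_pos a)) (z a))
    (fun a => -((1 / (B.lev a : ℝ)) ^ 2 / 2))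
    (fun a w => toAdm_eigen _ (mem_Eig.1 (hz1 a)).2 w)
    (fun a b => by
      rw [← B.ortho a b]
      show ip _ _ = ov _ _
      rw [hz2 a, hz2 b]
      rfl)
    (fun a => lev_lt (B.lev_pos a) (B.lev_le a)) B.card_ge hu1 hc
  have e1 : (∫ x, ∑ k, ‖fderiv ℝ u x (EuclideanSpace.single k 1)‖ ^ 2)
      = ∑ i, ∫ x, ‖fderiv ℝ u x (ei i)‖ ^ 2 := by
    rw [integral_finsetSum]
    · rfl
    · intro i _
      have hd : Continuous fun x => fderiv ℝ u x (EuclideanSpace.single i 1) :=
        (hu1.continuous_fderiv one_ne_zero).clm_apply continuous_const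
      refine Continuous.integrable_of_hasCompactSupport (hd.norm.pow 2) ?_
      refine (hc.fderiv (𝕜 := ℝ)).mono fun x hx => ?_
      rw [Function.mem_support] at hx ⊢
      intro h0
      exact hx (by rw [h0]; simp)
  rw [e1]
  refine le_trans (le_of_eq ?_) h
  unfold eng
  rw [add_comm]
  congr 1
  refine Finset.sum_congr rfl fun a _ => ?_
  rw [coef_eq (B.lev_pos a), hz2 a]
  rfl

end Vale.Agent.P370.Q
end
end

section

section

/-!
Slices of test states and the one-body inequality in each slot.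
-/

namespace Vale.Agent.P370.NB

open MeasureTheory Function ComplexConjugate Finset Vale.Agent.P370.Q

variable {N : ℕ}

theorem fst_update (w : Fin N → YS) (i : Fin N) (y : YS) :
    (fun l => (update w i y l).1) = update (fun l => (w l).1) i y.1 := by
  funext l
  by_cases h : l = i
  · subst h
    simp
  · simp only [update_of_ne h]

theorem snd_update (w : Fin N → YS) (i : Fin N) (y : YS) :
    (fun l => (update w i y l).2) = update (fun l => (w l).2) i y.2 := by
  funext l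
  by_cases h : l = i
  · subst h
    simp only [update_self]
  · simp only [update_of_ne h]

theorem ofS_update {E : Type*} (F : (Fin N → R3) → (Fin N → Fin 2) → E) (w : Fin N → YS)
    (i : Fin N) (y : YS) : ofS F (update w i y) =
      F (update (fun l => (w l).1) i y.1) (update (fun l => (w l).2) i y.2) := by
  unfold ofS
  rw [fst_update, snd_update]

/-- slice of a wave function -/
def sl (ψ : Wave N) (x : Fin N → R3) (s : Fin N → Fin 2) (i : Fin N) (z : R3) : ℂ :=
  ψ (update x i z) s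

theorem contDiff_update' (x : Fin N → R3) (i : Fin N) :
    ContDiff ℝ (⊤ : ℕ∞) (fun z : R3 => update x i z) := by
  rw [contDiff_pi]
  intro j
  by_cases h : j = i
  · subst h
    simp only [update_self]
    exact contDiff_id
  · simp only [update_of_ne h]
    exact contDiff_const

theorem sl_smooth {ψ : Wave N} (hψ : IsTestState ψ) (x : Fin N → R3) (s : Fin N → Fin 2)
    (i : Fin N) : ContDiff ℝ (⊤ : ℕ∞) (sl ψ x s i) :=
  (hψ.smooth s).comp (contDiff_update' x i)

theorem sl_compact {ψ : Wave N} (hψ : IsTestState ψ) (x : Fin N → R3) (s : Fin N → Fin 2)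
    (i : Fin N) : HasCompactSupport (sl ψ x s i) := by
  have hK := hψ.compactSupport s
  have hK' : IsCompact ((fun y : Fin N → R3 => y i) '' tsupport (fun y => ψ y s)) :=
    hK.isCompact.image (continuous_apply i)
  refine HasCompactSupport.intro hK' fun z hz => ?_
  by_contra h
  apply hz
  refine ⟨update x i z, ?_, by simp⟩
  apply subset_tsupport
  exact h

theorem sl_fderiv {ψ : Wave N} (hψ : IsTestState ψ) (x : Fin N → R3) (s : Fin N → Fin 2)
    (i : Fin N) (z v : R3) :
    fderiv ℝ (sl ψ x s i) z v = fderiv ℝ (fun y => ψ y s) (update x i z) (Pi.single i v) := by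
  have h1 : HasFDerivAt (fun y => ψ y s) (fderiv ℝ (fun y => ψ y s) (update x i z))
      (update x i z) := ((hψ.smooth s).differentiable (by simp) _).hasFDerivAt
  have h2 : HasFDerivAt (update x i) (ContinuousLinearMap.pi
      (Pi.single i (ContinuousLinearMap.id ℝ R3))) z := hasFDerivAt_update x z
  have h3 := h1.comp z h2
  have h4 : fderiv ℝ (sl ψ x s i) z = _ := h3.fderiv
  rw [h4, ContinuousLinearMap.comp_apply]
  congr 1
  funext j
  rw [ContinuousLinearMap.coe_pi']
  by_cases h : j = i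
  · subst h
    simp only [Pi.single_eq_same, ContinuousLinearMap.id_apply]
  · simp [Pi.single_eq_of_ne h]

/-- kinetic density of electron `i` -/
noncomputable def kd (ψ : Wave N) (i : Fin N) (x : Fin N → R3) (s : Fin N → Fin 2) : ℝ :=
  ∑ k : Fin 3, ‖fderiv ℝ (fun y => ψ y s) x (Pi.single i (EuclideanSpace.single k 1))‖ ^ 2

/-- one-electron energy density -/
noncomputable def hd (ψ : Wave N) (i : Fin N) (x : Fin N → R3) (s : Fin N → Fin 2) : ℝ :=
  (1 / 2) * kd ψ i x s - ‖ψ x s‖ ^ 2 / ‖x i‖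

theorem kd_continuous {ψ : Wave N} (hψ : IsTestState ψ) (i : Fin N) (s : Fin N → Fin 2) :
    Continuous (fun x => kd ψ i x s) := by
  unfold kd
  refine continuous_finsetSum _ fun k _ => ?_
  have h : Continuous (fderiv ℝ (fun y => ψ y s)) := (hψ.smooth s).continuous_fderiv (by simp)
  exact ((h.clm_apply continuous_const).norm).pow 2

theorem kd_integrable {ψ : Wave N} (hψ : IsTestState ψ) (i : Fin N) (s : Fin N → Fin 2) :
    Integrable (fun x => kd ψ i x s) := by
  refine (kd_continuous hψ i s).integrable_of_hasCompactSupport ?_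
  have h := (hψ.compactSupport s).fderiv (𝕜 := ℝ)
  refine h.mono fun x hx => ?_
  rw [Function.mem_support] at hx ⊢
  intro h0
  apply hx
  unfold kd
  rw [h0]
  simp

theorem hd_integrable {ψ : Wave N} (hψ : IsTestState ψ) (i : Fin N) (s : Fin N → Fin 2) :
    Integrable (fun x => hd ψ i x s) := by
  refine ((kd_integrable hψ i s).const_mul _).sub ?_
  have h := integrable_nuc (fun x => ψ x s) ((hψ.smooth s).of_le (by exact_mod_cast le_top))
    (hψ.compactSupport s) i 0
  simpa only [dist_zero_right] using h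

theorem hd_measurable {ψ : Wave N} (hψ : IsTestState ψ) (i : Fin N) (s : Fin N → Fin 2) :
    Measurable (fun x => hd ψ i x s) := by
  have h1 := (kd_continuous hψ i s).measurable
  have h2 := (hψ.smooth s).continuous.measurable
  have h3 : Measurable (fun x : Fin N → R3 => ‖x i‖) := (measurable_pi_apply i).norm
  exact (h1.const_mul _).sub ((h2.norm.pow_const 2).div h3)

theorem ofS_hd_integrable {ψ : Wave N} (hψ : IsTestState ψ) (i : Fin N) :
    Integrable (ofS (hd ψ i)) (pm (Fin N) μY) :=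
  integrable_pow (F := ofS (hd ψ i)) (fun s => hd_measurable hψ i s) fun s => hd_integrable hψ i s

theorem integral_ofS {F : (Fin N → R3) → (Fin N → Fin 2) → ℝ}
    (h : Integrable (ofS F) (pm (Fin N) μY)) :
    ∫ w, ofS F w ∂(pm (Fin N) μY) = ∑ s, ∫ x, F x s := integral_pow h

/-- slices of the energy density are integrable -/
theorem hd_slice_integrable {ψ : Wave N} (hψ : IsTestState ψ) (i : Fin N) (x : Fin N → R3)
    (s : Fin N → Fin 2) :
    Integrable (fun z => ∑ k : Fin 3, ‖fderiv ℝ (sl ψ x s i) z (EuclideanSpace.single k 1)‖ ^ 2) ∧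
    Integrable (fun z => ‖sl ψ x s i z‖ ^ 2 / ‖z‖) ∧
    Integrable (fun z => ‖sl ψ x s i z‖ ^ 2) := by
  have hs := sl_smooth hψ x s i
  have hc := sl_compact hψ x s i
  refine ⟨?_, ?_, ?_⟩
  · refine Continuous.integrable_of_hasCompactSupport ?_ ?_
    · refine continuous_finsetSum _ fun k _ => ?_
      have h : Continuous (fderiv ℝ (sl ψ x s i)) := hs.continuous_fderiv (by simp)
      exact ((h.clm_apply continuous_const).norm).pow 2
    · refine (hc.fderiv (𝕜 := ℝ)).mono fun z hz => ?_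
      rw [Function.mem_support] at hz ⊢
      intro h0
      apply hz
      rw [h0]
      simp only [zero_apply, norm_zero, ne_eq, OfNat.ofNat_ne_zero, not_false_eq_true, zero_pow, sum_const_zero]
  · have h := coulomb_integrable (volume : Measure R3) (sl ψ x s i)
      (hs.of_le (by exact_mod_cast le_top)) hc (ContinuousLinearMap.id ℝ R3)
      (fun k => EuclideanSpace.single k 1) (fun k => rfl) 0
    simpa only [ContinuousLinearMap.id_apply, sub_zero] using h
  · refine Continuous.integrable_of_hasCompactSupport (hs.continuous.norm.pow 2) ?_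
    refine hc.mono fun z hz => ?_
    rw [Function.mem_support] at hz ⊢
    intro h0
    apply hz
    rw [h0]
    simp

theorem ofS_hd_update {ψ : Wave N} (hψ : IsTestState ψ) (i : Fin N) (w : Fin N → YS) (y : YS) :
    ofS (hd ψ i) (update w i y) =
      (1 / 2) * (∑ k : Fin 3, ‖fderiv ℝ (sl ψ (fun l => (w l).1) (update (fun l => (w l).2) i y.2) i)
        y.1 (EuclideanSpace.single k 1)‖ ^ 2) -
      ‖sl ψ (fun l => (w l).1) (update (fun l => (w l).2) i y.2) i y.1‖ ^ 2 / ‖y.1‖ := by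
  rw [ofS_update]
  unfold hd kd
  simp only [sl_fderiv hψ, update_self]
  rfl

theorem toY_update (ψ : Wave N) (i : Fin N) (w : Fin N → YS) (y : YS) :
    toY ψ (update w i y) = sl ψ (fun l => (w l).1) (update (fun l => (w l).2) i y.2) i y.1 := by
  have := ofS_update ψ w i y
  exact this

/-- integral of a slice of the energy density -/
theorem integral_hd_slice {ψ : Wave N} (hψ : IsTestState ψ) (i : Fin N) (w : Fin N → YS) :
    ∫ y, ofS (hd ψ i) (update w i y) ∂μY =
      ∑ τ, ((1 / 2) * (∫ z, ∑ k : Fin 3,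
        ‖fderiv ℝ (sl ψ (fun l => (w l).1) (update (fun l => (w l).2) i τ) i) z
          (EuclideanSpace.single k 1)‖ ^ 2) -
        ∫ z, ‖sl ψ (fun l => (w l).1) (update (fun l => (w l).2) i τ) i z‖ ^ 2 / ‖z‖) := by
  have h1 : ∀ τ : Fin 2, Integrable (fun z => ofS (hd ψ i) (update w i (z, τ))) := by
    intro τ
    simp only [ofS_hd_update hψ]
    obtain ⟨h1, h2, -⟩ := hd_slice_integrable hψ i (fun l => (w l).1)
      (update (fun l => (w l).2) i τ)
    exact (h1.const_mul _).sub h2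
  have hm : Measurable (ofS (hd ψ i)) := measurable_ofS fun s => hd_measurable hψ i s
  have h2 : Integrable (fun y => ofS (hd ψ i) (update w i y)) μY := by
    refine integrable_Y (fun τ => ?_) h1
    exact (hm.comp (measurable_update w)).comp measurable_prodMk_right
  rw [integral_Y h2]
  refine Finset.sum_congr rfl fun τ _ => ?_
  simp only [ofS_hd_update hψ]
  obtain ⟨h1, h2, -⟩ := hd_slice_integrable hψ i (fun l => (w l).1)
    (update (fun l => (w l).2) i τ)
  rw [integral_sub (h1.const_mul _) h2, integral_const_mul]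

/-- integral of a slice of the density -/
theorem integral_sq_slice {ψ : Wave N} (hψ : IsTestState ψ) (i : Fin N) (w : Fin N → YS) :
    Integrable (fun y => ‖toY ψ (update w i y)‖ ^ 2) μY ∧
    ∫ y, ‖toY ψ (update w i y)‖ ^ 2 ∂μY =
      ∑ τ, ∫ z, ‖sl ψ (fun l => (w l).1) (update (fun l => (w l).2) i τ) i z‖ ^ 2 := by
  have h2 : Integrable (fun y => ‖toY ψ (update w i y)‖ ^ 2) μY := by
    refine integrable_Y (fun τ => ?_) fun τ => ?_
    · exact ((((toY_dm hψ one_pos).1.comp (measurable_update w)).comp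
        measurable_prodMk_right).norm).pow_const 2
    · simp only [toY_update]
      exact (hd_slice_integrable hψ i (fun l => (w l).1) (update (fun l => (w l).2) i τ)).2.2
  refine ⟨h2, ?_⟩
  rw [integral_Y h2]
  refine Finset.sum_congr rfl fun τ _ => ?_
  simp only [toY_update]

end Vale.Agent.P370.NB
end
end
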