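import Vale.Agent.P370.Bd3.B1

set_option linter.all false

section

section

/-!
From the Hamiltonian to the energy on legal clock states (H4).
-/

namespace Vale.Agent.P370.H

open Finset

/-- the state `∑_t a_t ⊗ |1^t 0^(Tc - t)⟩` -/
noncomputable def lift (N Tc : ℕ) (a : ℕ → RSt N) : RSt (N + Tc) := fun x =>
  ∑ t ∈ range (Tc + 1), if ∀ j : Fin Tc, x (Fin.natAdd N j) = decide ((j : ℕ) < t) then
    a t (fun i => x (Fin.castAdd Tc i)) else 0

/-! ### linear algebra -/

section lin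

variable {n : ℕ}

theorem clk_ip_comm (v w : RSt n) : ip v w = ip w v := by
  unfold ip
  exact Finset.sum_congr rfl fun x _ => mul_comm _ _

theorem clk_ip_add_right (u v w : RSt n) : ip u (v + w) = ip u v + ip u w := by
  unfold ip
  rw [← Finset.sum_add_distrib]
  exact Finset.sum_congr rfl fun x _ => mul_add _ _ _

theorem clk_ip_add_left (u v w : RSt n) : ip (u + v) w = ip u w + ip v w := by
  rw [clk_ip_comm, clk_ip_add_right, clk_ip_comm w u, clk_ip_comm w v]

theorem clk_ip_smul_right (c : ℝ) (v w : RSt n) : ip v (c • w) = c * ip v w := by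
  unfold ip
  rw [Finset.mul_sum]
  refine Finset.sum_congr rfl fun x _ => ?_
  simp only [Pi.smul_apply, smul_eq_mul]
  ring

theorem clk_ip_smul_left (c : ℝ) (v w : RSt n) : ip (c • v) w = c * ip v w := by
  rw [clk_ip_comm, clk_ip_smul_right, clk_ip_comm]

theorem clk_ip_neg_right (v w : RSt n) : ip v (-w) = -ip v w := by
  have := clk_ip_smul_right (-1) v w
  simpa only [neg_smul, one_smul, neg_mul, one_mul] using this

theorem clk_ip_sub_right (u v w : RSt n) : ip u (v - w) = ip u v - ip u w := by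
  rw [sub_eq_add_neg, clk_ip_add_right, clk_ip_neg_right, sub_eq_add_neg]

theorem clk_ip_sub_left (u v w : RSt n) : ip (u - v) w = ip u w - ip v w := by
  rw [clk_ip_comm, clk_ip_sub_right, clk_ip_comm w u, clk_ip_comm w v]

theorem clk_ip_zero_right (v : RSt n) : ip v 0 = 0 := by
  unfold ip; simp only [Pi.zero_apply, mul_zero, sum_const_zero]

theorem clk_ip_zero_left (v : RSt n) : ip 0 v = 0 := by
  unfold ip; simp only [Pi.zero_apply, zero_mul, sum_const_zero]

theorem clk_ip_sum_left {ι : Type} (s : Finset ι) (f : ι → RSt n) (w : RSt n) :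
    ip (∑ i ∈ s, f i) w = ∑ i ∈ s, ip (f i) w := by
  classical
  induction s using Finset.induction_on with
  | empty => simp only [sum_empty, clk_ip_zero_left]
  | insert i s hi ih => rw [Finset.sum_insert hi, Finset.sum_insert hi, clk_ip_add_left, ih]

theorem clk_nrm2_nonneg (v : RSt n) : 0 ≤ nrm2 v := by
  unfold nrm2 ip
  exact Finset.sum_nonneg fun x _ => mul_self_nonneg _

theorem clk_nrm2_sub (v w : RSt n) : nrm2 (v - w) = nrm2 v + nrm2 w - 2 * ip v w := by
  unfold nrm2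
  rw [clk_ip_sub_left, clk_ip_sub_right, clk_ip_sub_right, clk_ip_comm w v]
  ring

theorem clk_nrm2_add (v w : RSt n) : nrm2 (v + w) = nrm2 v + nrm2 w + 2 * ip v w := by
  unfold nrm2
  rw [clk_ip_add_left, clk_ip_add_right, clk_ip_add_right, clk_ip_comm w v]
  ring

theorem clk_nrm2_smul (c : ℝ) (v : RSt n) : nrm2 (c • v) = c ^ 2 * nrm2 v := by
  unfold nrm2
  rw [clk_ip_smul_left, clk_ip_smul_right]
  ring

theorem clk_ip_sq_le (v w : RSt n) : ip v w ^ 2 ≤ nrm2 v * nrm2 w := by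
  unfold nrm2 ip
  have := Finset.sum_mul_sq_le_sq_mul_sq Finset.univ v w
  simpa only [sq, ge_iff_le] using this

/-! ### Pauli operators -/

theorem clk_pau_zero (i : ℕ) (v : RSt n) : pau 0 i v = v := by
  unfold pau
  by_cases h : i < n
  · rw [dif_pos h, if_pos rfl]
  · rw [dif_neg h]

theorem clk_pau_one {i : ℕ} (h : i < n) (v : RSt n) :
    pau 1 i v = fun x => v (Function.update x ⟨i, h⟩ (!x ⟨i, h⟩)) := by
  unfold pau
  rw [dif_pos h, if_neg one_ne_zero, if_pos rfl]

theorem clk_pau_two {i : ℕ} (h : i < n) (v : RSt n) :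
    pau 2 i v = fun x => (if x ⟨i, h⟩ then -1 else 1) * v x := by
  unfold pau
  rw [dif_pos h, if_neg two_ne_zero, if_neg (by norm_num)]

/-- flipping one bit -/
def clkFlip {m : ℕ} (i : Fin m) (x : Fin m → Bool) : Fin m → Bool :=
  Function.update x i (!x i)

theorem clkFlip_flip {m : ℕ} (i : Fin m) (x : Fin m → Bool) : clkFlip i (clkFlip i x) = x := by
  unfold clkFlip
  simp

/-- flipping one bit, as an equivalence -/
def clkFlipE {m : ℕ} (i : Fin m) : (Fin m → Bool) ≃ (Fin m → Bool) where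
  toFun := clkFlip i
  invFun := clkFlip i
  left_inv := clkFlip_flip i
  right_inv := clkFlip_flip i

theorem clk_pau_self (P i : ℕ) (v w : RSt n) : ip (pau P i v) w = ip v (pau P i w) := by
  unfold pau
  split_ifs with h h0 h1
  · rfl
  · unfold ip
    rw [← (clkFlipE (⟨i, h⟩ : Fin n)).sum_comp]
    refine Finset.sum_congr rfl fun x _ => ?_
    have e : clkFlipE (⟨i, h⟩ : Fin n) x = clkFlip ⟨i, h⟩ x := rfl
    have e2 : Function.update (clkFlip ⟨i, h⟩ x) ⟨i, h⟩ (!clkFlip ⟨i, h⟩ x ⟨i, h⟩) = x :=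
      clkFlip_flip _ _
    simp only [e, e2]
    rfl
  · unfold ip
    refine Finset.sum_congr rfl fun x _ => ?_
    ring
  · rfl

theorem clk_pau_pau (P i : ℕ) (v : RSt n) : pau P i (pau P i v) = v := by
  unfold pau
  split_ifs with h h0 h1
  · rfl
  · funext x
    have e2 : Function.update (clkFlip ⟨i, h⟩ x) ⟨i, h⟩ (!clkFlip ⟨i, h⟩ x ⟨i, h⟩) = x :=
      clkFlip_flip _ _
    exact congrArg v e2
  · funext x
    rcases Bool.eq_false_or_eq_true (x ⟨i, h⟩) with hx | hx <;> simp [hx]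
  · rfl

theorem clk_nrm2_pau (P i : ℕ) (v : RSt n) : nrm2 (pau P i v) = nrm2 v := by
  unfold nrm2
  rw [clk_pau_self, clk_pau_pau]

theorem clk_pau_add (P i : ℕ) (v w : RSt n) : pau P i (v + w) = pau P i v + pau P i w := by
  unfold pau
  split_ifs with h h0 h1
  · rfl
  · rfl
  · funext x
    simp only [Pi.add_apply]
    ring
  · rfl

theorem clk_ip_two_one (i : ℕ) (v : RSt n) (h : i < n) : ip (pau 2 i v) (pau 1 i v) = 0 := by
  have e : ip (pau 2 i v) (pau 1 i v) = -ip (pau 2 i v) (pau 1 i v) := by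
    conv_lhs => unfold ip
    rw [← (clkFlipE (⟨i, h⟩ : Fin n)).sum_comp]
    unfold ip
    rw [← Finset.sum_neg_distrib]
    refine Finset.sum_congr rfl fun x _ => ?_
    have e : clkFlipE (⟨i, h⟩ : Fin n) x = clkFlip ⟨i, h⟩ x := rfl
    have e2 : Function.update (clkFlip ⟨i, h⟩ x) ⟨i, h⟩ (!clkFlip ⟨i, h⟩ x ⟨i, h⟩) = x :=
      clkFlip_flip _ _
    rw [clk_pau_one h, clk_pau_two h, e]
    simp only [e2]
    have e3 : clkFlip (⟨i, h⟩ : Fin n) x ⟨i, h⟩ = !x ⟨i, h⟩ := by
      unfold clkFlip; simp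
    rw [e3]
    have e4 : clkFlip (⟨i, h⟩ : Fin n) x = Function.update x ⟨i, h⟩ (!x ⟨i, h⟩) := rfl
    rw [e4]
    cases x ⟨i, h⟩ <;> simp <;> ring
  linarith only [e]

theorem clk_nrm2_refl (a i : ℕ) (v : RSt n) (h : i < n) : nrm2 (refl a i v) = nrm2 v := by
  unfold refl
  split_ifs
  · rfl
  · rw [clk_nrm2_add, clk_nrm2_smul, clk_nrm2_smul, clk_ip_smul_left, clk_ip_smul_right,
      clk_nrm2_pau, clk_nrm2_pau, clk_ip_two_one i v h]
    have := Real.cos_sq_add_sin_sq (ang a)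
    calc _ = (Real.cos (ang a) ^ 2 + Real.sin (ang a) ^ 2) * nrm2 v := by ring
      _ = nrm2 v := by rw [this, one_mul]

end lin

/-! ### slices at a clock string -/

section slices

variable {N Tc : ℕ}

/-- legal clock string -/
def clkL (Tc t : ℕ) : Fin Tc → Bool := fun j => decide ((j : ℕ) < t)

/-- slice of a state at a clock string -/
def clkR (w : RSt (N + Tc)) (c : Fin Tc → Bool) : RSt N := fun y => w (Fin.append y c)

theorem clk_ip_slice (v w : RSt (N + Tc)) : ip v w = ∑ c, ip (clkR v c) (clkR w c) := by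
  unfold ip
  rw [← (Fin.appendEquiv N Tc).sum_comp, Fintype.sum_prod_type_right]
  rfl

theorem clk_update_append_left (y : Fin N → Bool) (c : Fin Tc → Bool) (i : Fin N) (b : Bool) :
    Function.update (Fin.append y c) (Fin.castAdd Tc i) b = Fin.append (Function.update y i b) c := by
  funext k
  refine Fin.addCases (fun l => ?_) (fun r => ?_) k
  · rw [Fin.append_left]
    by_cases h : l = i
    · subst h; simp
    · rw [Function.update_of_ne h, Function.update_of_ne, Fin.append_left]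
      intro h2
      exact h (Fin.castAdd_injective _ _ h2)
  · rw [Fin.append_right, Function.update_of_ne, Fin.append_right]
    intro h2
    have := congrArg Fin.val h2
    simp at this
    omega

theorem clk_update_append_right (y : Fin N → Bool) (c : Fin Tc → Bool) (i : Fin Tc) (b : Bool) :
    Function.update (Fin.append y c) (Fin.natAdd N i) b = Fin.append y (Function.update c i b) := by
  funext k
  refine Fin.addCases (fun l => ?_) (fun r => ?_) k
  · rw [Fin.append_left, Function.update_of_ne, Fin.append_left]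
    intro h2
    have := congrArg Fin.val h2
    simp at this
    omega
  · rw [Fin.append_right]
    by_cases h : r = i
    · subst h; simp
    · rw [Function.update_of_ne h, Function.update_of_ne, Fin.append_right]
      intro h2
      exact h (Fin.natAdd_injective _ _ h2)

theorem clkR_data (P : ℕ) {i : ℕ} (hi : i < N) (w : RSt (N + Tc)) (c : Fin Tc → Bool) :
    clkR (pau P i w) c = pau P i (clkR w c) := by
  have hi2 : i < N + Tc := by omega
  have e : (⟨i, hi2⟩ : Fin (N + Tc)) = Fin.castAdd Tc ⟨i, hi⟩ := rfl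
  unfold pau
  rw [dif_pos hi, dif_pos hi2]
  split_ifs with h0 h1
  · rfl
  · funext y
    unfold clkR
    simp only [e, Fin.append_left, clk_update_append_left]
  · funext y
    unfold clkR
    simp only [e, Fin.append_left]

theorem clkR_two (j : Fin Tc) (w : RSt (N + Tc)) (c : Fin Tc → Bool) :
    clkR (pau 2 (N + j) w) c = (if c j then -1 else 1 : ℝ) • clkR w c := by
  have hi2 : N + (j : ℕ) < N + Tc := by omega
  have e : (⟨N + j, hi2⟩ : Fin (N + Tc)) = Fin.natAdd N j := rfl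
  rw [clk_pau_two hi2]
  funext y
  unfold clkR
  simp only [e, Fin.append_right, Pi.smul_apply, smul_eq_mul]

theorem clkR_one (j : Fin Tc) (w : RSt (N + Tc)) (c : Fin Tc → Bool) :
    clkR (pau 1 (N + j) w) c = clkR w (clkFlip j c) := by
  have hi2 : N + (j : ℕ) < N + Tc := by omega
  have e : (⟨N + j, hi2⟩ : Fin (N + Tc)) = Fin.natAdd N j := rfl
  rw [clk_pau_one hi2]
  funext y
  unfold clkR clkFlip
  simp only [e, Fin.append_right, clk_update_append_right]

theorem clkL_inj {t s : ℕ} (ht : t ≤ Tc) (hs : s ≤ Tc) (h : clkL Tc t = clkL Tc s) : t = s := by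
  by_contra hne
  rcases lt_or_gt_of_ne hne with hlt | hlt
  · have := congrFun h ⟨t, by omega⟩
    simp only [clkL, lt_self_iff_false, decide_false, false_eq_decide_iff, not_lt] at this
    omega
  · have := congrFun h ⟨s, by omega⟩
    simp only [clkL, lt_self_iff_false, decide_false, decide_eq_false_iff_not, not_lt] at this
    omega

theorem clkR_lift (a : ℕ → RSt N) (c : Fin Tc → Bool) :
    clkR (lift N Tc a) c = ∑ t ∈ range (Tc + 1), if c = clkL Tc t then a t else 0 := by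
  funext y
  unfold clkR lift
  rw [Finset.sum_apply]
  refine Finset.sum_congr rfl fun t _ => ?_
  simp only [Fin.append_right, Fin.append_left]
  by_cases h : c = clkL Tc t
  · have h3 : ∀ j : Fin Tc, c j = decide ((j : ℕ) < t) := fun j => congrFun h j
    rw [if_pos h, if_pos h3]
  · have h3 : ¬ ∀ j : Fin Tc, c j = decide ((j : ℕ) < t) := fun h2 => h (funext h2)
    rw [if_neg h, if_neg h3]
    rfl

theorem clkR_lift_leg (a : ℕ → RSt N) {t : ℕ} (ht : t ≤ Tc) :
    clkR (lift N Tc a) (clkL Tc t) = a t := by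
  rw [clkR_lift, Finset.sum_eq_single t]
  · rw [if_pos rfl]
  · intro s hs hne
    rw [if_neg]
    intro h
    exact hne (clkL_inj ht (by rw [Finset.mem_range] at hs; omega) h).symm
  · intro h
    exact absurd (Finset.mem_range.mpr (by omega)) h

theorem clkR_lift_ill (a : ℕ → RSt N) {c : Fin Tc → Bool} (h : ∀ t ≤ Tc, c ≠ clkL Tc t) :
    clkR (lift N Tc a) c = 0 := by
  rw [clkR_lift]
  refine Finset.sum_eq_zero fun t ht => ?_
  rw [if_neg (h t (by rw [Finset.mem_range] at ht; omega))]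

theorem clk_ip_lift (a : ℕ → RSt N) (w : RSt (N + Tc)) :
    ip (lift N Tc a) w = ∑ t ∈ range (Tc + 1), ip (a t) (clkR w (clkL Tc t)) := by
  rw [clk_ip_slice]
  have h1 : ∀ c, ip (clkR (lift N Tc a) c) (clkR w c) =
      ∑ t ∈ range (Tc + 1), if c = clkL Tc t then ip (a t) (clkR w c) else 0 := by
    intro c
    rw [clkR_lift, clk_ip_sum_left]
    refine Finset.sum_congr rfl fun t _ => ?_
    split_ifs
    · rfl
    · exact clk_ip_zero_left _
  simp only [h1]
  rw [Finset.sum_comm]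
  refine Finset.sum_congr rfl fun t _ => ?_
  rw [Finset.sum_ite_eq' Finset.univ (clkL Tc t)]
  simp

/-! ### clock operators on lifted states -/

/-- flipping the bit `j` of a legal string -/
theorem clkR_lift_flip (a : ℕ → RSt N) (j : Fin Tc) {t : ℕ} (ht : t ≤ Tc) :
    clkR (lift N Tc a) (clkFlip j (clkL Tc t)) =
      if t = j then a (j + 1) else if t = j + 1 then a j else 0 := by
  have hj := j.2
  split_ifs with h1 h2
  · have : clkFlip j (clkL Tc t) = clkL Tc (j + 1) := by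
      funext i
      unfold clkFlip
      by_cases hij : i = j
      · subst hij; subst h1; simp only [clkL, lt_self_iff_false, decide_false, Bool.not_false, Function.update_self, lt_add_iff_pos_right, Order.lt_one_iff, decide_true]
      · rw [Function.update_of_ne hij]
        have : (i : ℕ) ≠ j := fun h => hij (Fin.ext h)
        subst h1
        simp only [clkL, decide_eq_decide]
        omega
    rw [this, clkR_lift_leg a (by omega)]
  · have : clkFlip j (clkL Tc t) = clkL Tc j := by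
      funext i
      unfold clkFlip
      by_cases hij : i = j
      · subst hij; subst h2; simp only [clkL, lt_add_iff_pos_right, Order.lt_one_iff, decide_true, Bool.not_true, Function.update_self, lt_self_iff_false, decide_false]
      · rw [Function.update_of_ne hij]
        have : (i : ℕ) ≠ j := fun h => hij (Fin.ext h)
        subst h2
        simp only [clkL, decide_eq_decide]
        omega
    rw [this, clkR_lift_leg a (by omega)]
  · apply clkR_lift_ill
    intro s hs h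
    rcases lt_or_ge t j with hlt | hge
    · have e1 := congrFun h j
      have e2 := congrFun h ⟨t, by omega⟩
      unfold clkFlip at e1 e2
      rw [Function.update_self] at e1
      rw [Function.update_of_ne (fun h => by have := congrArg Fin.val h; simp at this; omega)] at e2
      simp only [clkL, lt_irrefl, decide_false] at e1 e2
      have e3 : ¬ (j : ℕ) < t := by omega
      simp only [e3, decide_false, Bool.not_false] at e1
      have e4 : (j : ℕ) < s := by simpa using e1.symm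
      have e5 : ¬ t < s := by simpa only [not_lt, decide_eq_false_iff_not] using e2.symm
      omega
    · have e1 := congrFun h j
      have e2 := congrFun h ⟨j + 1, by (clear * - ht hj h1 h2 hge; omega)⟩
      unfold clkFlip at e1 e2
      rw [Function.update_self] at e1
      rw [Function.update_of_ne (fun h => by have := congrArg Fin.val h; simp at this)] at e2
      simp only [clkL] at e1 e2
      have e3 : (j : ℕ) < t := by omega
      simp only [e3, decide_true, Bool.not_true] at e1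
      have e4 : ¬ (j : ℕ) < s := by simpa only [not_lt, decide_eq_false_iff_not] using e1.symm
      have e5 : (j : ℕ) + 1 < t := by omega
      simp only [e5, decide_true] at e2
      have e6 : (j : ℕ) + 1 < s := by simpa only [decide_eq_true_eq] using e2.symm
      omega

/-- flipping the bits `j`, `j + 1` of a legal string -/
theorem clkR_lift_flip2 (a : ℕ → RSt N) {j : ℕ} (hj : j + 1 < Tc) {t : ℕ} (ht : t ≤ Tc) :
    clkR (lift N Tc a) (clkFlip ⟨j + 1, hj⟩ (clkFlip ⟨j, by omega⟩ (clkL Tc t))) =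
      if t = j then a (j + 2) else if t = j + 2 then a j else 0 := by
  have key : ∀ i : Fin Tc, clkFlip ⟨j + 1, hj⟩ (clkFlip ⟨j, by omega⟩ (clkL Tc t)) i =
      if (i : ℕ) = j + 1 then !decide (j + 1 < t) else if (i : ℕ) = j then !decide (j < t)
        else decide ((i : ℕ) < t) := by
    intro i
    unfold clkFlip
    by_cases h1 : (i : ℕ) = j + 1
    · have : i = ⟨j + 1, hj⟩ := Fin.ext h1
      rw [this, Function.update_self, Function.update_of_ne (by simp [Fin.ext_iff])]
      simp [clkL]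
    · rw [Function.update_of_ne (fun h => h1 (by rw [h])), if_neg h1]
      by_cases h2 : (i : ℕ) = j
      · have : i = ⟨j, by omega⟩ := Fin.ext h2
        rw [this, Function.update_self]
        simp [clkL]
      · rw [Function.update_of_ne (fun h => h2 (by rw [h])), if_neg h2]
        rfl
  split_ifs with h1 h2
  · have : clkFlip ⟨j + 1, hj⟩ (clkFlip ⟨j, by omega⟩ (clkL Tc t)) = clkL Tc (j + 2) := by
      funext i
      rw [key]
      subst h1
      unfold clkL
      split_ifs with h3 h4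
      · rw [h3]; simp
      · rw [h4]; simp only [lt_self_iff_false, decide_false, Bool.not_false, lt_add_iff_pos_right, Order.lt_two_iff, zero_le, decide_true]
      · rw [decide_eq_decide]; omega
    rw [this, clkR_lift_leg a (by omega)]
  · have : clkFlip ⟨j + 1, hj⟩ (clkFlip ⟨j, by omega⟩ (clkL Tc t)) = clkL Tc j := by
      funext i
      rw [key]
      subst h2
      unfold clkL
      split_ifs with h3 h4
      · rw [h3]; simp
      · rw [h4]; simp
      · rw [decide_eq_decide]; (clear * - h3 h4; omega)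
    rw [this, clkR_lift_leg a (by (clear * - ht h2; omega))]
  · apply clkR_lift_ill
    intro s hs h
    have f : ∀ i : ℕ, ∀ hi : i < Tc, (if i = j + 1 then !decide (j + 1 < t) else
        if i = j then !decide (j < t) else decide (i < t)) = decide (i < s) := by
      intro i hi
      have := congrFun h ⟨i, hi⟩
      rw [key] at this
      exact this
    have f0 := f j (by omega)
    have f1 := f (j + 1) hj
    rw [if_neg (by omega), if_pos rfl] at f0
    rw [if_pos rfl] at f1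
    rcases lt_trichotomy t j with hlt | heq | hgt
    · have f2 := f t (by omega)
      rw [if_neg (by omega), if_neg (by omega)] at f2
      have e3 : ¬ j < t := by omega
      simp only [e3, decide_false, Bool.not_false, lt_irrefl] at f0 f2
      have e4 : j < s := by simpa only [decide_eq_true_eq] using f0.symm
      have e5 : ¬ t < s := by simpa only [not_lt, decide_eq_false_iff_not] using f2.symm
      omega
    · exact h1 heq
    · have e3 : j < t := hgt
      simp only [e3, decide_true, Bool.not_true] at f0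
      have e4 : ¬ j < s := by simpa only [not_lt, decide_eq_false_iff_not] using f0.symm
      by_cases h5 : j + 1 < t
      · have f2 := f (j + 2) (by omega)
        rw [if_neg (by omega), if_neg (by omega)] at f2
        have e5 : j + 2 < t := by omega
        simp only [e5, decide_true] at f2
        have e6 : j + 2 < s := by simpa only [decide_eq_true_eq] using f2.symm
        omega
      · simp only [h5, decide_false, Bool.not_false] at f1
        have e6 : j + 1 < s := by simpa only [decide_eq_true_eq] using f1.symm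
        (clear * - hgt e4 h5 e6; omega)

end slices

/-! ### quadratic forms of lists of terms -/

section forms

variable {n : ℕ}

/-- bilinear form of a list of terms -/
def clkB (L : List (Tm ℝ)) (v w : RSt n) : ℝ :=
  (L.map fun t => t.c * ip v (pau t.P t.i (pau t.Q t.j w))).sum

theorem clk_tform_nil (v : RSt n) : tform [] v = 0 := rfl

theorem clk_tform_cons (t : Tm ℝ) (L : List (Tm ℝ)) (v : RSt n) :
    tform (t :: L) v = t.c * ip v (pau t.P t.i (pau t.Q t.j v)) + tform L v := by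
  unfold tform
  rw [List.map_cons, List.sum_cons]

theorem clk_tform_append (L₁ L₂ : List (Tm ℝ)) (v : RSt n) :
    tform (L₁ ++ L₂) v = tform L₁ v + tform L₂ v := by
  unfold tform
  rw [List.map_append, List.sum_append]

theorem clk_tform_flatMap (k : ℕ) (f : ℕ → List (Tm ℝ)) (v : RSt n) :
    tform ((List.range k).flatMap f) v = ∑ t ∈ range k, tform (f t) v := by
  induction k with
  | zero => rfl
  | succ k ih =>
    rw [List.range_succ, List.flatMap_append, clk_tform_append, ih, Finset.sum_range_succ]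
    simp

end forms

section evals

variable {N Tc : ℕ}

theorem clk_ev_one (a : ℕ → RSt N) :
    ip (lift N Tc a) (lift N Tc a) = ∑ t ∈ range (Tc + 1), nrm2 (a t) := by
  rw [clk_ip_lift]
  refine Finset.sum_congr rfl fun t ht => ?_
  rw [clkR_lift_leg a (by rw [Finset.mem_range] at ht; omega)]
  rfl

theorem clk_ev_data (a : ℕ → RSt N) (P : ℕ) {q : ℕ} (hq : q < N) :
    ip (lift N Tc a) (pau P q (lift N Tc a)) =
      ∑ t ∈ range (Tc + 1), ip (a t) (pau P q (a t)) := by
  rw [clk_ip_lift]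
  refine Finset.sum_congr rfl fun t ht => ?_
  rw [clkR_data P hq, clkR_lift_leg a (by rw [Finset.mem_range] at ht; omega)]

theorem clk_ev_z (a : ℕ → RSt N) {j : ℕ} (hj : j < Tc) :
    ip (lift N Tc a) (pau 2 (N + j) (lift N Tc a)) =
      ∑ t ∈ range (Tc + 1), (if j < t then -1 else 1 : ℝ) * nrm2 (a t) := by
  rw [clk_ip_lift]
  refine Finset.sum_congr rfl fun t ht => ?_
  have := clkR_two (⟨j, hj⟩ : Fin Tc) (lift N Tc a) (clkL Tc t)
  simp only at this
  rw [this, clkR_lift_leg a (by rw [Finset.mem_range] at ht; omega), clk_ip_smul_right]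
  simp only [clkL, decide_eq_true_eq, ite_mul, neg_mul, one_mul, nrm2]

theorem clk_ev_dz (a : ℕ → RSt N) (P : ℕ) {q : ℕ} (hq : q < N) {j : ℕ} (hj : j < Tc) :
    ip (lift N Tc a) (pau P q (pau 2 (N + j) (lift N Tc a))) =
      ∑ t ∈ range (Tc + 1), (if j < t then -1 else 1 : ℝ) * ip (a t) (pau P q (a t)) := by
  rw [clk_ip_lift]
  refine Finset.sum_congr rfl fun t ht => ?_
  have := clkR_two (⟨j, hj⟩ : Fin Tc) (lift N Tc a) (clkL Tc t)
  simp only at this
  rw [clkR_data P hq, this, clkR_lift_leg a (by rw [Finset.mem_range] at ht; omega),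
    ← clk_pau_self, clk_ip_smul_right, clk_pau_self]
  simp [clkL]

theorem clk_ev_zz (a : ℕ → RSt N) {j k : ℕ} (hj : j < Tc) (hk : k < Tc) :
    ip (lift N Tc a) (pau 2 (N + j) (pau 2 (N + k) (lift N Tc a))) =
      ∑ t ∈ range (Tc + 1), (if j < t then -1 else 1 : ℝ) * (if k < t then -1 else 1 : ℝ) *
        nrm2 (a t) := by
  rw [clk_ip_lift]
  refine Finset.sum_congr rfl fun t ht => ?_
  have h1 := clkR_two (⟨k, hk⟩ : Fin Tc) (lift N Tc a) (clkL Tc t)
  have h2 := clkR_two (⟨j, hj⟩ : Fin Tc) (pau 2 (N + k) (lift N Tc a)) (clkL Tc t)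
  simp only at h1 h2
  rw [h2, h1, clkR_lift_leg a (by rw [Finset.mem_range] at ht; omega), clk_ip_smul_right,
    clk_ip_smul_right]
  simp only [clkL, decide_eq_true_eq, ite_mul, neg_mul, one_mul, mul_ite, mul_neg, mul_one, nrm2]

theorem clk_sum_two {f : ℕ → ℝ} {j k : ℕ} (hjk : j ≠ k) {m : ℕ} (hj : j < m) (hk : k < m)
    (hf : ∀ t, t ≠ j → t ≠ k → f t = 0) : ∑ t ∈ range m, f t = f j + f k := by
  rw [← Finset.sum_pair (f := f) hjk]
  symm
  apply Finset.sum_subset
  · intro t ht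
    rw [Finset.mem_insert, Finset.mem_singleton] at ht
    rw [Finset.mem_range]
    rcases ht with h | h <;> omega
  · intro t _ ht
    rw [Finset.mem_insert, Finset.mem_singleton, not_or] at ht
    exact hf t ht.1 ht.2

theorem clk_ev_dx (a : ℕ → RSt N) (P : ℕ) {q : ℕ} (hq : q < N) {j : ℕ} (hj : j < Tc) :
    ip (lift N Tc a) (pau P q (pau 1 (N + j) (lift N Tc a))) =
      2 * ip (a (j + 1)) (pau P q (a j)) := by
  rw [clk_ip_lift]
  have h1 : ∀ t ∈ range (Tc + 1),
      ip (a t) (clkR (pau P q (pau 1 (N + j) (lift N Tc a))) (clkL Tc t)) =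
      ip (a t) (pau P q (if t = j then a (j + 1) else if t = j + 1 then a j else 0)) := by
    intro t ht
    have := clkR_one (⟨j, hj⟩ : Fin Tc) (lift N Tc a) (clkL Tc t)
    simp only at this
    rw [clkR_data P hq, this, clkR_lift_flip a _ (by rw [Finset.mem_range] at ht; omega)]
  rw [Finset.sum_congr rfl h1, clk_sum_two (j := j) (k := j + 1) (by omega) (by omega) (by omega)]
  · rw [if_pos rfl, if_neg (by omega), if_pos rfl, ← clk_pau_self, clk_ip_comm]
    ring
  · intro t h1 h2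
    rw [if_neg h1, if_neg h2, ← clk_pau_self, clk_ip_zero_right]

theorem clk_ev_x (a : ℕ → RSt N) {j : ℕ} (hj : j < Tc) :
    ip (lift N Tc a) (pau 1 (N + j) (lift N Tc a)) = 2 * ip (a (j + 1)) (a j) := by
  rw [clk_ip_lift]
  have h1 : ∀ t ∈ range (Tc + 1), ip (a t) (clkR (pau 1 (N + j) (lift N Tc a)) (clkL Tc t)) =
      ip (a t) (if t = j then a (j + 1) else if t = j + 1 then a j else 0) := by
    intro t ht
    have := clkR_one (⟨j, hj⟩ : Fin Tc) (lift N Tc a) (clkL Tc t)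
    simp only at this
    rw [this, clkR_lift_flip a _ (by rw [Finset.mem_range] at ht; omega)]
  rw [Finset.sum_congr rfl h1, clk_sum_two (j := j) (k := j + 1) (by omega) (by omega) (by omega)]
  · rw [if_pos rfl, if_neg (by omega), if_pos rfl, clk_ip_comm]
    ring
  · intro t h1 h2
    rw [if_neg h1, if_neg h2, clk_ip_zero_right]

theorem clk_ev_xx (a : ℕ → RSt N) {j : ℕ} (hj : j + 1 < Tc) :
    ip (lift N Tc a) (pau 1 (N + j) (pau 1 (N + (j + 1)) (lift N Tc a))) =
      2 * ip (a (j + 2)) (a j) := by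
  rw [clk_ip_lift]
  have h1 : ∀ t ∈ range (Tc + 1),
      ip (a t) (clkR (pau 1 (N + j) (pau 1 (N + (j + 1)) (lift N Tc a))) (clkL Tc t)) =
      ip (a t) (if t = j then a (j + 2) else if t = j + 2 then a j else 0) := by
    intro t ht
    have h1 := clkR_one (⟨j, by omega⟩ : Fin Tc) (pau 1 (N + (j + 1)) (lift N Tc a)) (clkL Tc t)
    have h2 := clkR_one (⟨j + 1, hj⟩ : Fin Tc) (lift N Tc a)
      (clkFlip (⟨j, by omega⟩ : Fin Tc) (clkL Tc t))
    simp only at h1 h2
    rw [h1, h2, clkR_lift_flip2 a hj (by rw [Finset.mem_range] at ht; omega)]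
  rw [Finset.sum_congr rfl h1, clk_sum_two (j := j) (k := j + 2) (by omega) (by omega) (by omega)]
  · rw [if_pos rfl, if_neg (by omega), if_pos rfl, clk_ip_comm]
    ring
  · intro t h1 h2
    rw [if_neg h1, if_neg h2, clk_ip_zero_right]

end evals

theorem nrm2_lift (N M : ℕ) (a : ℕ → RSt N) : nrm2 (lift N (tc M) a) = tot M a :=
  clk_ev_one a

/-! ### the groups of terms -/

section groups

variable {N : ℕ}

theorem clk_projT (Tc : ℕ) (hTc : 1 < Tc) (a : ℕ → RSt N) (c : ℝ) {t : ℕ} (ht : t ≤ Tc) :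
    tform (projT N Tc c t) (lift N Tc a) = 2 * c * nrm2 (a t) := by
  have key : ∀ f : ℕ → ℝ, (∀ s ≤ Tc, s ≠ t → f s = 0) → f t = 2 * c →
      ∑ s ∈ range (Tc + 1), f s * nrm2 (a s) = 2 * c * nrm2 (a t) := by
    intro f hf h1
    rw [Finset.sum_eq_single t, h1]
    · intro s hs hne
      rw [hf s (by rw [Finset.mem_range] at hs; (clear * - hs; omega)) hne, zero_mul]
    · intro h
      exact absurd (Finset.mem_range.mpr (by omega)) h
  unfold projT
  split_ifs with h0 h1
  · have e : ck N 1 = N + 0 := rfl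
    rw [clk_tform_cons, clk_tform_cons, clk_tform_nil]
    simp only [clk_pau_zero]
    rw [e, clk_ev_z a (by omega : 0 < Tc), clk_ev_one, Finset.mul_sum, Finset.mul_sum, add_zero,
      ← Finset.sum_add_distrib, ← key (fun s => c + c * (if 0 < s then -1 else 1))]
    · refine Finset.sum_congr rfl fun s _ => ?_
      ring
    · intro s _ hne
      rw [if_pos (by (clear * - h0 hne; omega))]
      ring
    · rw [if_neg (by omega)]
      ring
  · have e : ck N Tc = N + (Tc - 1) := by unfold ck; omega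
    rw [clk_tform_cons, clk_tform_cons, clk_tform_nil]
    simp only [clk_pau_zero]
    rw [e, clk_ev_z a (by omega : Tc - 1 < Tc), clk_ev_one, Finset.mul_sum, Finset.mul_sum,
      add_zero, ← Finset.sum_add_distrib,
      ← key (fun s => c + -c * (if Tc - 1 < s then -1 else 1))]
    · refine Finset.sum_congr rfl fun s _ => ?_
      ring
    · intro s hs hne
      rw [if_neg (by omega)]
      ring
    · rw [if_pos (by omega)]
      ring
  · have e : ck N (t + 1) = N + t := rfl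
    have e2 : ck N t = N + (t - 1) := by unfold ck; omega
    rw [clk_tform_cons, clk_tform_cons, clk_tform_nil]
    simp only [clk_pau_zero]
    rw [e, e2, clk_ev_z a (by omega : t - 1 < Tc), clk_ev_z a (by (clear * - hTc ht h1 e e2; omega) : t < Tc),
      Finset.mul_sum, Finset.mul_sum, add_zero, ← Finset.sum_add_distrib,
      ← key (fun s => c * (if t < s then -1 else 1) + -c * (if t - 1 < s then -1 else 1))]
    · refine Finset.sum_congr rfl fun s _ => ?_
      ring
    · intro s hs hne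
      rcases lt_or_gt_of_ne hne with h | h
      · rw [if_neg (by omega), if_neg (by (clear * - e e2 hne h; (clear * - hne h; omega)))]
        ring
      · rw [if_pos (by omega), if_pos (by (clear * - e e2 hne h; (clear * - hne h; omega)))]
        ring
    · rw [if_neg (by omega), if_pos (by omega)]
      ring

theorem clk_hClock (Tc : ℕ) (J : ℝ) (a : ℕ → RSt N) :
    tform (hClock N Tc J) (lift N Tc a) = 0 := by
  unfold hClock
  rw [clk_tform_flatMap]
  refine Finset.sum_eq_zero fun t ht => ?_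
  rw [Finset.mem_range] at ht
  have e : ck N (t + 1) = N + t := rfl
  have e2 : ck N (t + 2) = N + (t + 1) := rfl
  rw [clk_tform_cons, clk_tform_cons, clk_tform_cons, clk_tform_cons, clk_tform_nil]
  simp only [clk_pau_zero, e, e2]
  rw [clk_ev_zz a (by (clear * - ht e e2; omega) : t < Tc) (by omega : t + 1 < Tc), clk_ev_z a (by omega : t < Tc),
    clk_ev_z a (by omega : t + 1 < Tc), clk_ev_one, Finset.mul_sum, Finset.mul_sum,
    Finset.mul_sum, Finset.mul_sum, add_zero, ← Finset.sum_add_distrib, ← Finset.sum_add_distrib,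
    ← Finset.sum_add_distrib]
  refine Finset.sum_eq_zero fun s _ => ?_
  by_cases h : t < s
  · rw [if_pos h]
    ring
  · rw [if_neg h, if_neg (by (clear * - e e2 h; omega))]
    ring

theorem clk_rget {rs : List Rnd} (hN : 1 ≤ N) (hok : ∀ r ∈ rs, r.Ok N) (l : ℕ) :
    (rget rs l).q < N ∧ (rget rs l).f < N ∧ (rget rs l).s < N := by
  unfold rget
  by_cases h : l < rs.length
  · rw [List.getD_eq_getElem _ _ h]
    have := hok _ (List.getElem_mem h)
    exact ⟨this.1, this.2.1, this.2.2.1⟩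
  · rw [List.getD_eq_default _ _ (by omega)]
    exact ⟨hN, hN, hN⟩

theorem clk_nrm2_gfine {rs : List Rnd} (hN : 1 ≤ N) (hok : ∀ r ∈ rs, r.Ok N) (t : ℕ)
    (v : RSt N) : nrm2 (gfine rs t v) = nrm2 v := by
  have ite' : ∀ {c : Prop} [Decidable c] {a b : RSt N}, nrm2 a = nrm2 v →
      nrm2 b = nrm2 v → nrm2 (if c then a else b) = nrm2 v := by
    intro c _ a b h1 h2
    by_cases hc : c
    · rw [if_pos hc]; exact h1
    · rw [if_neg hc]; exact h2
  unfold gfine
  exact ite' (ite' (clk_nrm2_pau _ _ _) rfl) (ite' (ite' (clk_nrm2_pau _ _ _) rfl)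
    (ite' (ite' (clk_nrm2_refl _ _ _ (clk_rget hN hok _).1) rfl)
    (ite' (ite' (clk_nrm2_pau _ _ _) rfl) (ite' (clk_nrm2_pau _ _ _) rfl))))

theorem clk_fineG (rs : List Rnd) (t : ℕ) (b v : RSt N) :
    ((fineG rs (1 : ℝ) trR t).map fun g => g.1 * ip b (pau g.2.1 g.2.2 v)).sum =
      ip b (gfine rs t v) := by
  unfold fineG gfine refl
  by_cases h1 : t % 6 = 1
  · rw [if_pos h1, if_pos h1]
    split_ifs <;> simp [clk_pau_zero]
  rw [if_neg h1, if_neg h1]
  by_cases h2 : t % 6 = 2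
  · rw [if_pos h2, if_pos h2]
    split_ifs <;> simp [clk_pau_zero]
  rw [if_neg h2, if_neg h2]
  by_cases h3 : t % 6 = 3
  · rw [if_pos h3, if_pos h3]
    by_cases h4 : t / 6 < rs.length
    · by_cases h5 : (rget rs (t / 6)).a = 0
      · simp [h4, h5, clk_pau_zero]
      · simp [h4, h5, trR, clk_ip_add_right, clk_ip_smul_right]
    · simp [h4, clk_pau_zero]
  rw [if_neg h3, if_neg h3]
  by_cases h4 : t % 6 = 4
  · rw [if_pos h4, if_pos h4]
    split_ifs <;> simp [clk_pau_zero]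
  rw [if_neg h4, if_neg h4]
  split_ifs <;> simp [clk_pau_zero]

theorem clk_fineG_lt {rs : List Rnd} (hN : 1 ≤ N) (hok : ∀ r ∈ rs, r.Ok N) (t : ℕ) :
    ∀ g ∈ fineG rs (1 : ℝ) trR t, g.2.2 < N ∧ (g.2.1 = 0 ∨ g.2.1 = 1 ∨ g.2.1 = 2) := by
  have ite' : ∀ {c : Prop} [Decidable c] {a b : List (ℝ × ℕ × ℕ)},
      (∀ g ∈ a, g.2.2 < N ∧ (g.2.1 = 0 ∨ g.2.1 = 1 ∨ g.2.1 = 2)) →
      (∀ g ∈ b, g.2.2 < N ∧ (g.2.1 = 0 ∨ g.2.1 = 1 ∨ g.2.1 = 2)) →
      ∀ g ∈ (if c then a else b), g.2.2 < N ∧ (g.2.1 = 0 ∨ g.2.1 = 1 ∨ g.2.1 = 2) := by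
    intro c _ a b h1 h2
    by_cases hc : c
    · rw [if_pos hc]; exact h1
    · rw [if_neg hc]; exact h2
  have one : ∀ x : ℝ × ℕ × ℕ, (x.2.2 < N ∧ (x.2.1 = 0 ∨ x.2.1 = 1 ∨ x.2.1 = 2)) →
      ∀ g ∈ [x], g.2.2 < N ∧ (g.2.1 = 0 ∨ g.2.1 = 1 ∨ g.2.1 = 2) := by
    intro x hx g hg
    rw [List.mem_singleton.1 hg]; exact hx
  have z0 : ∀ g ∈ [((1 : ℝ), 0, 0)], g.2.2 < N ∧ (g.2.1 = 0 ∨ g.2.1 = 1 ∨ g.2.1 = 2) :=
    one _ ⟨hN, Or.inl rfl⟩
  unfold fineG
  refine ite' (ite' (one _ ⟨(clk_rget hN hok _).2.1, Or.inr (Or.inr rfl)⟩) z0) (ite'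
    (ite' (one _ ⟨(clk_rget hN hok _).2.2, Or.inr (Or.inr rfl)⟩) z0) (ite' (ite' ?_ z0)
    (ite' (ite' (one _ ⟨(clk_rget hN hok _).2.1, Or.inr (Or.inr rfl)⟩) z0)
    (ite' (one _ ⟨(clk_rget hN hok _).2.2, Or.inr (Or.inr rfl)⟩) z0))))
  intro g hg
  rcases List.mem_cons.1 hg with rfl | hg
  · exact ⟨(clk_rget hN hok _).1, Or.inr (Or.inr rfl)⟩
  · rw [List.mem_singleton.1 hg]
    exact ⟨(clk_rget hN hok _).1, Or.inr (Or.inl rfl)⟩

theorem clk_fine_map (Tc : ℕ) (a : ℕ → RSt N) (J : ℝ) {t : ℕ} (ht : t < Tc)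
    (G : List (ℝ × ℕ × ℕ)) (hG : ∀ g ∈ G, g.2.2 < N) :
    tform (G.map fun g => if g.2.1 = 0 then (⟨-(4 * J * g.1), 1, ck N (t + 1), 0, 0⟩ : Tm ℝ)
        else ⟨-(4 * J * g.1), g.2.1, g.2.2, 1, ck N (t + 1)⟩) (lift N Tc a) =
      -(8 * J) * (G.map fun g => g.1 * ip (a (t + 1)) (pau g.2.1 g.2.2 (a t))).sum := by
  induction G with
  | nil => simp [clk_tform_nil]
  | cons g G ih =>
    rw [List.map_cons, clk_tform_cons, List.map_cons, List.sum_cons,
      ih (fun g hg => hG g (List.mem_cons_of_mem _ hg))]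
    have e : ck N (t + 1) = N + t := rfl
    have hq : g.2.2 < N := hG g List.mem_cons_self
    split_ifs with h0
    · simp only [clk_pau_zero, e, h0]
      rw [clk_ev_x a ht]
      ring
    · simp only [e]
      rw [clk_ev_dx a _ hq ht]
      ring

theorem clk_hFine (hN : 1 ≤ N) (rs : List Rnd) (hok : ∀ r ∈ rs, r.Ok N) (J : ℝ)
    (a : ℕ → RSt N) :
    tform (hFine N rs 1 trR J) (lift N (tc rs.length) a) =
      8 * (J * (∑ t ∈ Icc 1 (tc rs.length), if t % 6 = 0 then 0
        else 1 / 2 * nrm2 (a t - gfine rs t (a (t - 1))))) := by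
  have hI : ∑ t ∈ Icc 1 (tc rs.length), (if t % 6 = 0 then (0 : ℝ)
        else 1 / 2 * nrm2 (a t - gfine rs t (a (t - 1)))) =
      ∑ t ∈ range (tc rs.length), if (t + 1) % 6 = 0 then (0 : ℝ)
        else 1 / 2 * nrm2 (a (t + 1) - gfine rs (t + 1) (a t)) := by
    rw [← Finset.Ico_succ_right_eq_Icc, Finset.sum_Ico_eq_sum_range]
    have : Order.succ (tc rs.length) - 1 = tc rs.length := by
      rw [Nat.succ_eq_succ]; rfl
    rw [this]
    refine Finset.sum_congr rfl fun t _ => ?_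
    rw [add_comm 1 t, Nat.add_sub_cancel]
  rw [hI]
  unfold hFine
  rw [clk_tform_flatMap, Finset.mul_sum, Finset.mul_sum]
  refine Finset.sum_congr rfl fun t ht => ?_
  rw [Finset.mem_range] at ht
  by_cases h6 : (t + 1) % 6 = 0
  · rw [if_pos h6, if_pos h6, clk_tform_nil]
    ring
  · have htc : 1 < tc rs.length := by unfold tc; (clear * -; omega)
    rw [if_neg h6, if_neg h6, clk_tform_append, clk_tform_append,
      clk_projT _ htc a _ (by omega : t + 1 ≤ tc rs.length),
      clk_projT _ htc a _ (by omega : t ≤ tc rs.length),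
      clk_fine_map _ a J ht _ (fun g hg => (clk_fineG_lt hN hok _ g hg).1), clk_fineG,
      clk_nrm2_sub, clk_nrm2_gfine hN hok]
    ring

theorem clk_hIn (Tc m : ℕ) (hTc : 1 < Tc) (J : ℝ) (a : ℕ → RSt N) :
    tform (hIn N m J) (lift N Tc a) = 8 * (J * (∑ i ∈ Ico m (N - 1), nrm2 (one i (a 0)))) := by
  unfold hIn
  rw [clk_tform_flatMap, Finset.sum_Ico_eq_sum_range, Finset.mul_sum, Finset.mul_sum]
  refine Finset.sum_congr rfl fun i hi => ?_
  rw [Finset.mem_range] at hi
  have hq : m + i < N := by omega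
  have e : ck N 1 = N + 0 := rfl
  rw [clk_tform_cons, clk_tform_cons, clk_tform_cons, clk_tform_cons, clk_tform_nil]
  simp only [clk_pau_zero, e]
  rw [clk_ev_dz a 2 hq (by omega : 0 < Tc), clk_ev_z a (by omega : 0 < Tc), clk_ev_data a 2 hq,
    clk_ev_one, Finset.mul_sum, Finset.mul_sum, Finset.mul_sum, Finset.mul_sum, add_zero,
    ← Finset.sum_add_distrib, ← Finset.sum_add_distrib, ← Finset.sum_add_distrib,
    Finset.sum_eq_single 0]
  · rw [if_neg (by omega)]
    unfold one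
    rw [clk_nrm2_smul, clk_nrm2_sub, clk_nrm2_pau]
    ring
  · intro s _ hs
    rw [if_pos (by omega)]
    ring
  · intro h
    exact absurd (Finset.mem_range.mpr (by omega)) h

theorem clk_hOut (Tc : ℕ) (hN : 1 ≤ N) (hTc : 1 < Tc) (w : ℝ) (a : ℕ → RSt N) :
    tform (hOut N Tc w) (lift N Tc a) = 8 * (w * nrm2 (zer 0 (a Tc))) := by
  unfold hOut
  have hq : 0 < N := hN
  have e : ck N Tc = N + (Tc - 1) := by unfold ck; omega
  rw [clk_tform_cons, clk_tform_cons, clk_tform_cons, clk_tform_cons, clk_tform_nil]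
  simp only [clk_pau_zero, e]
  rw [clk_ev_dz a 2 hq (by omega : Tc - 1 < Tc), clk_ev_z a (by omega : Tc - 1 < Tc),
    clk_ev_data a 2 hq, clk_ev_one, Finset.mul_sum, Finset.mul_sum, Finset.mul_sum,
    Finset.mul_sum, add_zero, ← Finset.sum_add_distrib, ← Finset.sum_add_distrib,
    ← Finset.sum_add_distrib, Finset.sum_eq_single Tc]
  · rw [if_pos (by omega)]
    unfold zer
    rw [clk_nrm2_smul, clk_nrm2_add, clk_nrm2_pau]
    ring
  · intro s hs hne
    rw [Finset.mem_range] at hs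
    rw [if_neg (by omega)]
    ring
  · intro h
    exact absurd (Finset.mem_range.mpr (by omega)) h

theorem clk_hCz (hN : 1 ≤ N) (rs : List Rnd) (hok : ∀ r ∈ rs, r.Ok N) (J : ℝ)
    (a : ℕ → RSt N) :
    tform (hCz N rs J) (lift N (tc rs.length) a) =
      8 * (J * (∑ l ∈ range rs.length, q2 (rget rs l) (6 * (l + 1)) a)) := by
  unfold hCz
  rw [clk_tform_flatMap, Finset.mul_sum, Finset.mul_sum]
  refine Finset.sum_congr rfl fun l hl => ?_
  rw [Finset.mem_range] at hl
  obtain ⟨-, hf, hs⟩ := clk_rget hN hok l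
  have htc : 1 < tc rs.length := by unfold tc; (clear * -; omega)
  have e0 : ck N (6 * (l + 1)) = N + (6 * l + 5) := by unfold ck; omega
  have e1 : ck N (6 * (l + 1) + 1) = N + (6 * l + 6) := by unfold ck; (clear * - e0; omega)
  have e2 : ck N (6 * (l + 1) + 2) = N + (6 * l + 6 + 1) := by unfold ck; (clear * - e0 e1; omega)
  have e3 : ck N (6 * (l + 1) - 1) = N + (6 * l + 3 + 1) := by unfold ck; (clear * - hN e0 e1 e2; omega)
  have e4 : ck N (6 * (l + 1) - 2) = N + (6 * l + 3) := by unfold ck; omega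
  have h0 : 6 * l + 5 < tc rs.length := by unfold tc; (clear * - hl; omega)
  have h1 : 6 * l + 6 < tc rs.length := by unfold tc; omega
  have h2 : 6 * l + 6 + 1 < tc rs.length := by unfold tc; omega
  have h3 : 6 * l + 3 + 1 < tc rs.length := by unfold tc; (clear * - hl; omega)
  have h4 : 6 * l + 3 < tc rs.length := by unfold tc; (clear * - hl; omega)
  simp only [clk_tform_append, clk_tform_cons, clk_tform_nil, clk_pau_zero, e0, e1, e2, e3, e4]
  rw [clk_projT _ htc a _ (by unfold tc; (clear * - hl; omega) : 6 * (l + 1) ≤ tc rs.length),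
    clk_projT _ htc a _ (by unfold tc; (clear * - hl; omega) : 6 * (l + 1) - 1 ≤ tc rs.length),
    clk_ev_x a h0, clk_ev_dx a 2 hf h0, clk_ev_dx a 2 hs h0, clk_ev_x a h1, clk_ev_x a h2,
    clk_ev_xx a h2, clk_ev_x a h3, clk_ev_x a h4, clk_ev_xx a h3]
  unfold q2
  have f0 : 6 * (l + 1) = 6 * l + 6 := by ring
  have f1 : 6 * (l + 1) - 1 = 6 * l + 5 := by omega
  have f2 : 6 * (l + 1) - 2 = 6 * l + 4 := by omega
  have f3 : 6 * (l + 1) - 3 = 6 * l + 3 := by omega
  rw [f1, f2, f3, f0]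
  ring

end groups

/-- the energy of a legal state -/
theorem tform_lift (N m : ℕ) (hN : 1 ≤ N) (rs : List Rnd) (hok : ∀ r ∈ rs, r.Ok N)
    (a : ℕ → RSt N) :
    tform (ham N m rs 1 trR) (lift N (tc rs.length) a) =
      8 * e1 ((rr N rs.length : ℝ) ^ 24) ((rr N rs.length : ℝ) ^ 8) 1000 m rs a := by
  have htc : 1 < tc rs.length := by unfold tc; omega
  unfold ham e1
  rw [clk_tform_append, clk_tform_append, clk_tform_append, clk_tform_append, clk_hClock,
    clk_hFine hN rs hok, clk_hCz hN rs hok, clk_hIn _ m htc, clk_hOut _ hN htc]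
  ring

/-! ### admissibility of the terms, sum of the coefficients -/

theorem clk_ok0 {n : ℕ} (c : ℝ) (i j : ℕ) : Tm.Ok n (⟨c, 0, i, 0, j⟩ : Tm ℝ) :=
  Or.inl ⟨rfl, rfl⟩

theorem clk_ok1 {n : ℕ} (c : ℝ) {P i : ℕ} (j : ℕ) (hP : P = 1 ∨ P = 2) (hi : i < n) :
    Tm.Ok n (⟨c, P, i, 0, j⟩ : Tm ℝ) :=
  Or.inr (Or.inl ⟨hP, rfl, hi⟩)

theorem clk_ok2 {n : ℕ} (c : ℝ) {P i Q j : ℕ} (hP : P = 1 ∨ P = 2) (hQ : Q = 1 ∨ Q = 2)
    (hij : i < j) (hj : j < n) : Tm.Ok n (⟨c, P, i, Q, j⟩ : Tm ℝ) :=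
  Or.inr (Or.inr ⟨hP, hQ, hij, hj⟩)

theorem clk_forall_flat {p : Tm ℝ → Prop} (k : ℕ) (f : ℕ → List (Tm ℝ))
    (h : ∀ i < k, ∀ t ∈ f i, p t) : ∀ t ∈ (List.range k).flatMap f, p t := by
  intro t ht
  rw [List.mem_flatMap] at ht
  obtain ⟨i, hi, hit⟩ := ht
  exact h i (List.mem_range.mp hi) t hit

theorem clk_ok_projT (N Tc : ℕ) (c : ℝ) {t : ℕ} (ht : t ≤ Tc) (h1 : 1 < Tc) :
    ∀ x ∈ projT N Tc c t, x.Ok (N + Tc) := by
  unfold projT
  split_ifs with h0 h2
  · simp only [List.forall_mem_cons]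
    exact ⟨clk_ok0 _ _ _, clk_ok1 _ _ (Or.inr rfl) (by unfold ck; omega), by simp⟩
  · simp only [List.forall_mem_cons]
    exact ⟨clk_ok0 _ _ _, clk_ok1 _ _ (Or.inr rfl) (by unfold ck; omega), by simp⟩
  · simp only [List.forall_mem_cons]
    exact ⟨clk_ok1 _ _ (Or.inr rfl) (by unfold ck; omega),
      clk_ok1 _ _ (Or.inr rfl) (by unfold ck; omega), by simp⟩

theorem ham_ok (N m : ℕ) (hN : 1 ≤ N) (rs : List Rnd) (hok : ∀ r ∈ rs, r.Ok N) :
    ∀ t ∈ ham N m rs 1 trR, t.Ok (N + tc rs.length) := by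
  have htc : 1 < tc rs.length := by unfold tc; omega
  unfold ham
  simp only [List.forall_mem_append]
  refine ⟨⟨⟨⟨?_, ?_⟩, ?_⟩, ?_⟩, ?_⟩
  · unfold hClock
    refine clk_forall_flat _ _ fun t ht => ?_
    simp only [List.forall_mem_cons]
    exact ⟨clk_ok0 _ _ _, clk_ok1 _ _ (Or.inr rfl) (by unfold ck; omega),
      clk_ok1 _ _ (Or.inr rfl) (by unfold ck; omega),
      clk_ok2 _ (Or.inr rfl) (Or.inr rfl) (by unfold ck; omega) (by unfold ck; (clear * - hN htc ht; omega)), by simp⟩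
  · unfold hFine
    refine clk_forall_flat _ _ fun t ht => ?_
    split_ifs with h6
    · simp only [List.not_mem_nil, IsEmpty.forall_iff, implies_true]
    · simp only [List.forall_mem_append]
      refine ⟨⟨clk_ok_projT _ _ _ (by omega) htc, clk_ok_projT _ _ _ (by omega) htc⟩, ?_⟩
      intro x hx
      rw [List.mem_map] at hx
      obtain ⟨g, hg, rfl⟩ := hx
      have h1 := clk_fineG_lt hN hok _ g hg
      split_ifs with h0
      · exact clk_ok1 _ _ (Or.inl rfl) (by unfold ck; omega)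
      · exact clk_ok2 _ (by omega) (Or.inl rfl) (by unfold ck; (clear * - h1; omega)) (by unfold ck; omega)
  · unfold hCz
    refine clk_forall_flat _ _ fun l hl => ?_
    obtain ⟨-, hf, hs⟩ := clk_rget hN hok l
    have h5 : 6 * (l + 1) + 2 ≤ tc rs.length := by unfold tc; (clear * - hl; omega)
    simp only [List.forall_mem_append, List.forall_mem_cons]
    refine ⟨⟨⟨⟨clk_ok1 _ _ (Or.inl rfl) ?_, clk_ok2 _ (Or.inr rfl) (Or.inl rfl) ?_ ?_,
      clk_ok2 _ (Or.inr rfl) (Or.inl rfl) ?_ ?_, by simp⟩,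
      clk_ok_projT _ _ _ (by omega) htc⟩, clk_ok_projT _ _ _ (by (clear * - h5; omega)) htc⟩,
      clk_ok1 _ _ (Or.inl rfl) ?_, clk_ok1 _ _ (Or.inl rfl) ?_,
      clk_ok2 _ (Or.inl rfl) (Or.inl rfl) ?_ ?_, clk_ok1 _ _ (Or.inl rfl) ?_,
      clk_ok1 _ _ (Or.inl rfl) ?_, clk_ok2 _ (Or.inl rfl) (Or.inl rfl) ?_ ?_, by simp⟩ <;>
      (unfold ck; omega)
  · unfold hIn
    refine clk_forall_flat _ _ fun i hi => ?_
    simp only [List.forall_mem_cons]
    exact ⟨clk_ok0 _ _ _, clk_ok1 _ _ (Or.inr rfl) (by omega),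
      clk_ok1 _ _ (Or.inr rfl) (by unfold ck; omega),
      clk_ok2 _ (Or.inr rfl) (Or.inr rfl) (by unfold ck; omega) (by unfold ck; omega), by simp⟩
  · unfold hOut
    simp only [List.forall_mem_cons]
    exact ⟨clk_ok0 _ _ _, clk_ok1 _ _ (Or.inr rfl) (by omega),
      clk_ok1 _ _ (Or.inr rfl) (by unfold ck; omega),
      clk_ok2 _ (Or.inr rfl) (Or.inr rfl) (by unfold ck; omega) (by unfold ck; omega), by simp⟩

theorem clk_tabs_nil : tabs [] = 0 := rfl

theorem clk_tabs_cons (t : Tm ℝ) (L : List (Tm ℝ)) : tabs (t :: L) = |t.c| + tabs L := by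
  unfold tabs
  rw [List.map_cons, List.sum_cons]

theorem clk_tabs_append (L₁ L₂ : List (Tm ℝ)) : tabs (L₁ ++ L₂) = tabs L₁ + tabs L₂ := by
  unfold tabs
  rw [List.map_append, List.sum_append]

theorem clk_tabs_flat (k : ℕ) (f : ℕ → List (Tm ℝ)) (C : ℝ) (h : ∀ i < k, tabs (f i) ≤ C) :
    tabs ((List.range k).flatMap f) ≤ k * C := by
  induction k with
  | zero => simp only [List.range_zero, List.flatMap_nil, clk_tabs_nil, CharP.cast_eq_zero, zero_mul, Std.le_refl]
  | succ k ih =>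
    rw [List.range_succ, List.flatMap_append, clk_tabs_append]
    have h1 := ih fun i hi => h i (by omega)
    have h2 := h k (by omega)
    push_cast
    simp only [List.flatMap_cons, List.flatMap_nil, List.append_nil]
    (clear * - h1 h2; linarith)

theorem clk_tabs_projT (N Tc : ℕ) (c : ℝ) (t : ℕ) : tabs (projT N Tc c t) = 2 * |c| := by
  unfold projT
  split_ifs <;> simp only [clk_tabs_cons, abs_neg, clk_tabs_nil] <;> ring

theorem clk_tabs_fineG (rs : List Rnd) (t : ℕ) :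
    ((fineG rs (1 : ℝ) trR t).map fun g => |g.1|).sum ≤ 2 := by
  have h1 : |Real.cos (ang (rget rs (t / 6)).a)| + |Real.sin (ang (rget rs (t / 6)).a)| ≤ 2 := by
    have := Real.abs_cos_le_one (ang (rget rs (t / 6)).a)
    have := Real.abs_sin_le_one (ang (rget rs (t / 6)).a)
    linarith
  unfold fineG
  split_ifs <;> simp [trR]
  exact h1

theorem clk_tabs_map (N t : ℕ) {J : ℝ} (hJ : 0 ≤ J) (G : List (ℝ × ℕ × ℕ)) :
    tabs (G.map fun g => if g.2.1 = 0 then (⟨-(4 * J * g.1), 1, ck N (t + 1), 0, 0⟩ : Tm ℝ)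
        else ⟨-(4 * J * g.1), g.2.1, g.2.2, 1, ck N (t + 1)⟩) =
      4 * J * (G.map fun g => |g.1|).sum := by
  induction G with
  | nil => simp only [List.map_nil, clk_tabs_nil, List.sum_nil, mul_zero]
  | cons g G ih =>
    rw [List.map_cons, clk_tabs_cons, List.map_cons, List.sum_cons, ih]
    have : |4 * J * g.1| = 4 * J * |g.1| := by
      rw [abs_mul, abs_of_nonneg (by (clear * - hJ; positivity))]
    split_ifs
    · simp only [abs_neg, this]
      ring
    · simp only [abs_neg, this]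
      ring

/-- the Hamiltonian without the clock term -/
noncomputable def clkH (N m : ℕ) (rs : List Rnd) : List (Tm ℝ) :=
  hFine N rs 1 trR ((rr N rs.length : ℝ) ^ 24) ++ hCz N rs ((rr N rs.length : ℝ) ^ 8 * 1) ++
    hIn N m (1000 * 1) ++ hOut N (tc rs.length) 1

theorem clk_ham_eq (N m : ℕ) (rs : List Rnd) :
    ham N m rs 1 trR =
      hClock N (tc rs.length) ((rr N rs.length : ℝ) ^ 64 * 1) ++ clkH N m rs := by
  unfold ham clkH
  simp only [List.append_assoc]

theorem clk_rr_ge (N M : ℕ) : (1000 : ℝ) ≤ rr N M ∧ (N : ℝ) ≤ rr N M ∧ (M : ℝ) + 1 ≤ rr N M := by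
  unfold rr
  push_cast
  have h1 : (0 : ℝ) ≤ N := N.cast_nonneg
  have h2 : (0 : ℝ) ≤ M := M.cast_nonneg
  exact ⟨by linarith, by linarith only [], by linarith only []⟩

theorem clk_tabs_H (N m : ℕ) (rs : List Rnd) :
    tabs (clkH N m rs) ≤ (rr N rs.length : ℝ) ^ 27 := by
  obtain ⟨hr, hrN, hrM⟩ := clk_rr_ge N rs.length
  set r : ℝ := ((rr N rs.length : ℕ) : ℝ) with hrdef
  have hr1 : (1 : ℝ) ≤ r := by linarith only [hr]
  have h24 : (0 : ℝ) ≤ r ^ 24 := by (clear * - hr; positivity)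
  have hF : tabs (hFine N rs 1 trR (r ^ 24)) ≤ (tc rs.length : ℕ) * (16 * r ^ 24) := by
    unfold hFine
    apply clk_tabs_flat
    intro t _
    split_ifs with h6
    · rw [clk_tabs_nil]; (clear * - hr; positivity)
    · rw [clk_tabs_append, clk_tabs_append, clk_tabs_projT, clk_tabs_projT,
        clk_tabs_map _ _ h24, mul_one, abs_of_nonneg (by (clear * - hr; positivity) : (0 : ℝ) ≤ 2 * r ^ 24)]
      have := clk_tabs_fineG rs (t + 1)
      nlinarith only [h24, this]
  have hC : tabs (hCz N rs (r ^ 8 * 1)) ≤ (rs.length : ℕ) * (40 * r ^ 8) := by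
    unfold hCz
    apply clk_tabs_flat
    intro l _
    have h8 : (0 : ℝ) ≤ r ^ 8 := by positivity
    simp only [clk_tabs_append, clk_tabs_cons, clk_tabs_nil, clk_tabs_projT, abs_neg, abs_mul,
      mul_one, abs_of_nonneg h8]
    norm_num
    linarith only []
  have hI : tabs (hIn N m (1000 * 1)) ≤ ((N - 1 - m : ℕ) : ℝ) * 8000 := by
    unfold hIn
    apply clk_tabs_flat
    intro i _
    simp only [clk_tabs_cons, clk_tabs_nil, abs_neg]
    norm_num
  have hO : tabs (hOut N (tc rs.length) (1 : ℝ)) ≤ 8 := by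
    unfold hOut
    simp only [clk_tabs_cons, clk_tabs_nil, abs_neg]
    norm_num
  have hN2 : ((N - 1 - m : ℕ) : ℝ) ≤ r := by
    have : (N - 1 - m : ℕ) ≤ N := by omega
    have : ((N - 1 - m : ℕ) : ℝ) ≤ N := by exact_mod_cast this
    linarith only [hrN, this]
  have htc : ((tc rs.length : ℕ) : ℝ) ≤ 6 * r := by
    unfold tc
    push_cast
    linarith only [hrM]
  have p8 : r ^ 8 ≤ r ^ 24 := pow_le_pow_right₀ hr1 (by norm_num)
  have p1 : r ≤ r ^ 25 := by
    calc r = r ^ 1 := (pow_one r).symm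
      _ ≤ r ^ 25 := pow_le_pow_right₀ hr1 (by norm_num)
  have p0 : 1 ≤ r ^ 25 := one_le_pow₀ hr1
  have e25 : r * r ^ 24 = r ^ 25 := by ring
  have hM : ((rs.length : ℕ) : ℝ) ≤ r := by linarith only [hrM]
  unfold clkH
  rw [clk_tabs_append, clk_tabs_append, clk_tabs_append]
  have hF2 : (tc rs.length : ℕ) * (16 * r ^ 24) ≤ 96 * r ^ 25 := by
    calc (tc rs.length : ℕ) * (16 * r ^ 24) ≤ (6 * r) * (16 * r ^ 24) :=
          mul_le_mul_of_nonneg_right htc (by (clear * - hr; positivity))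
      _ = 96 * r ^ 25 := by ring
  have hC2 : ((rs.length : ℕ) : ℝ) * (40 * r ^ 8) ≤ 40 * r ^ 25 := by
    calc ((rs.length : ℕ) : ℝ) * (40 * r ^ 8) ≤ r * (40 * r ^ 24) :=
          mul_le_mul hM (by linarith only [p8]) (by positivity) (by linarith only [hr])
      _ = 40 * r ^ 25 := by ring
  have hI2 : ((N - 1 - m : ℕ) : ℝ) * 8000 ≤ 8000 * r ^ 25 := by linarith only [hN2, p1]
  have e27 : r ^ 27 = r ^ 2 * r ^ 25 := by ring
  have h2 : (1000000 : ℝ) ≤ r ^ 2 := by nlinarith only [hr]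
  have h3 : 1000000 * r ^ 25 ≤ r ^ 27 := by
    rw [e27]
    exact mul_le_mul_of_nonneg_right h2 (by (clear * - hr; positivity))
  linarith only [hr, hF, hC, hI, hO, hN2, p1, hF2, hC2, h3]

/-- crude bound of the coefficients -/
theorem ham_abs (N m : ℕ) (rs : List Rnd) :
    tabs (ham N m rs 1 trR) ≤ (rr N rs.length : ℝ) ^ 66 := by
  have hH := clk_tabs_H N m rs
  rw [clk_ham_eq, clk_tabs_append]
  obtain ⟨hr, hrN, hrM⟩ := clk_rr_ge N rs.length
  set r : ℝ := ((rr N rs.length : ℕ) : ℝ) with hrdef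
  have hr1 : (1 : ℝ) ≤ r := by linarith only [hr]
  have hC : tabs (hClock N (tc rs.length) (r ^ 64 * 1)) ≤
      ((tc rs.length - 1 : ℕ) : ℝ) * (8 * r ^ 64) := by
    unfold hClock
    apply clk_tabs_flat
    intro t _
    have h64 : (0 : ℝ) ≤ r ^ 64 := by (clear * - hr; positivity)
    simp only [clk_tabs_cons, clk_tabs_nil, abs_neg, abs_mul, mul_one, abs_of_nonneg h64]
    norm_num
    linarith only []
  have htc : ((tc rs.length - 1 : ℕ) : ℝ) ≤ 6 * r := by
    have : (tc rs.length - 1 : ℕ) = 6 * rs.length + 4 := by unfold tc; (clear * -; omega)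
    rw [this]
    push_cast
    linarith only [hrM]
  have h1 : ((tc rs.length - 1 : ℕ) : ℝ) * (8 * r ^ 64) ≤ 48 * r ^ 65 := by
    calc _ ≤ (6 * r) * (8 * r ^ 64) := mul_le_mul_of_nonneg_right htc (by (clear * - hr; positivity))
      _ = 48 * r ^ 65 := by ring
  have h2 : r ^ 27 ≤ r ^ 65 := pow_le_pow_right₀ hr1 (by norm_num)
  have h3 : r ^ 66 = r * r ^ 65 := by ring
  have h4 : 1000 * r ^ 65 ≤ r ^ 66 := by
    rw [h3]
    exact mul_le_mul_of_nonneg_right hr (by (clear * - hr; positivity))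
  have h5 : 0 ≤ r ^ 65 := by positivity
  linarith only [hH, hC, h1, h2, h4, h5]

/-! ### lower bound for all states -/

section bilin

variable {n : ℕ}

theorem clk_tform_eq (L : List (Tm ℝ)) (v : RSt n) : tform L v = clkB L v v := rfl

theorem clkB_cons (t : Tm ℝ) (L : List (Tm ℝ)) (v w : RSt n) :
    clkB (t :: L) v w = t.c * ip v (pau t.P t.i (pau t.Q t.j w)) + clkB L v w := by
  unfold clkB
  rw [List.map_cons, List.sum_cons]

theorem clkB_add_left (L : List (Tm ℝ)) (u v w : RSt n) :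
    clkB L (u + v) w = clkB L u w + clkB L v w := by
  induction L with
  | nil => simp only [clkB, List.map_nil, List.sum_nil, add_zero]
  | cons t L ih =>
    rw [clkB_cons, clkB_cons, clkB_cons, ih, clk_ip_add_left]
    ring

theorem clkB_add_right (L : List (Tm ℝ)) (u v w : RSt n) :
    clkB L u (v + w) = clkB L u v + clkB L u w := by
  induction L with
  | nil => simp [clkB]
  | cons t L ih =>
    rw [clkB_cons, clkB_cons, clkB_cons, ih, clk_pau_add, clk_pau_add, clk_ip_add_right]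
    ring

theorem clkB_abs (L : List (Tm ℝ)) (v w : RSt n) :
    |clkB L v w| ≤ tabs L * (√(nrm2 v) * √(nrm2 w)) := by
  induction L with
  | nil => simp [clkB, clk_tabs_nil]
  | cons t L ih =>
    rw [clkB_cons, clk_tabs_cons, add_mul]
    refine (abs_add_le _ _).trans (add_le_add ?_ ih)
    rw [abs_mul]
    refine mul_le_mul_of_nonneg_left ?_ (abs_nonneg _)
    rw [← Real.sqrt_mul (clk_nrm2_nonneg v)]
    apply Real.abs_le_sqrt
    have := clk_ip_sq_le v (pau t.P t.i (pau t.Q t.j w))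
    rwa [clk_nrm2_pau, clk_nrm2_pau] at this

end bilin

section lower

variable {N Tc : ℕ}

/-- an illegal string contains a `0` followed by a `1` -/
theorem clk_illegal {c : Fin Tc → Bool} (h : ∀ t ≤ Tc, c ≠ clkL Tc t) :
    ∃ t, ∃ ht : t + 1 < Tc, c ⟨t, by omega⟩ = false ∧ c ⟨t + 1, ht⟩ = true := by
  by_contra hcon
  have hcon2 : ∀ t, ∀ ht : t + 1 < Tc, c ⟨t, by omega⟩ = false → c ⟨t + 1, ht⟩ = false := by
    intro t ht h1
    by_contra h2
    exact hcon ⟨t, ht, h1, by simpa using h2⟩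
  by_cases hf : ∃ j, ∃ hj : j < Tc, c ⟨j, hj⟩ = false
  · classical
    obtain ⟨ht, hct⟩ := Nat.find_spec hf
    refine h (Nat.find hf) ht.le (funext fun i => ?_)
    rcases lt_or_ge (i : ℕ) (Nat.find hf) with hi | hi
    · have h1 := Nat.find_min hf hi
      have h2 : c i = true := by
        by_contra h3
        exact h1 ⟨i.2, by simpa using h3⟩
      rw [h2]
      unfold clkL
      rw [decide_eq_true hi]
    · have h1 : ∀ k, Nat.find hf ≤ k → ∀ hk : k < Tc, c ⟨k, hk⟩ = false := by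
        intro k hk
        induction k, hk using Nat.le_induction with
        | base => intro _; exact hct
        | succ k hk ih => intro hk1; exact hcon2 k hk1 (ih (by omega))
      have h2 : c i = false := h1 i hi i.2
      rw [h2]
      unfold clkL
      rw [decide_eq_false (by omega)]
  · refine h Tc le_rfl (funext fun i => ?_)
    have h2 : c i = true := by
      by_contra h3
      exact hf ⟨i, i.2, by simpa using h3⟩
    rw [h2]
    unfold clkL
    rw [decide_eq_true i.2]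

/-- sign of a clock bit -/
noncomputable def clkZ (c : Fin Tc → Bool) (t : ℕ) : ℝ :=
  if h : t < Tc then (if c ⟨t, h⟩ then -1 else 1) else 1

theorem clkZ_le (c : Fin Tc → Bool) (t : ℕ) : -1 ≤ clkZ c t ∧ clkZ c t ≤ 1 := by
  unfold clkZ
  split_ifs <;> norm_num

theorem clk_gen_z (v w : RSt (N + Tc)) {j : ℕ} (hj : j < Tc) :
    ip v (pau 2 (N + j) w) = ∑ c, clkZ c j * ip (clkR v c) (clkR w c) := by
  rw [clk_ip_slice]
  refine Finset.sum_congr rfl fun c _ => ?_
  have h1 := clkR_two (⟨j, hj⟩ : Fin Tc) w c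
  simp only at h1
  rw [h1, clk_ip_smul_right]
  unfold clkZ
  rw [dif_pos hj]

theorem clk_gen_zz (v w : RSt (N + Tc)) {j k : ℕ} (hj : j < Tc) (hk : k < Tc) :
    ip v (pau 2 (N + j) (pau 2 (N + k) w)) =
      ∑ c, clkZ c j * clkZ c k * ip (clkR v c) (clkR w c) := by
  rw [clk_gen_z v _ hj]
  refine Finset.sum_congr rfl fun c _ => ?_
  have h1 := clkR_two (⟨k, hk⟩ : Fin Tc) w c
  simp only at h1
  rw [h1, clk_ip_smul_right, mul_assoc]
  unfold clkZ
  rw [dif_pos hk]

/-- clock energy of a general state -/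
theorem clk_hClock_gen (J : ℝ) (v : RSt (N + Tc)) :
    tform (hClock N Tc J) v = ∑ c : Fin Tc → Bool, (∑ t ∈ range (Tc - 1),
      2 * J * ((1 + clkZ c t) * (1 - clkZ c (t + 1)))) * nrm2 (clkR v c) := by
  unfold hClock
  rw [clk_tform_flatMap]
  simp only [Finset.sum_mul]
  rw [Finset.sum_comm]
  refine Finset.sum_congr rfl fun t ht => ?_
  rw [Finset.mem_range] at ht
  have e : ck N (t + 1) = N + t := rfl
  have e2 : ck N (t + 2) = N + (t + 1) := rfl
  rw [clk_tform_cons, clk_tform_cons, clk_tform_cons, clk_tform_cons, clk_tform_nil]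
  simp only [clk_pau_zero, e, e2]
  rw [clk_gen_zz v v (by omega : t < Tc) (by omega : t + 1 < Tc),
    clk_gen_z v v (by omega : t < Tc), clk_gen_z v v (by omega : t + 1 < Tc), clk_ip_slice v v,
    Finset.mul_sum, Finset.mul_sum, Finset.mul_sum, Finset.mul_sum, add_zero,
    ← Finset.sum_add_distrib, ← Finset.sum_add_distrib, ← Finset.sum_add_distrib]
  refine Finset.sum_congr rfl fun c _ => ?_
  unfold nrm2
  ring

theorem clk_hClock_lower {J : ℝ} (hJ : 0 ≤ J) (v : RSt (N + Tc)) :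
    8 * J * nrm2 (v - lift N Tc fun t => clkR v (clkL Tc t)) ≤ tform (hClock N Tc J) v := by
  have hpos : ∀ (c : Fin Tc → Bool) (t : ℕ),
      0 ≤ 2 * J * ((1 + clkZ c t) * (1 - clkZ c (t + 1))) := by
    intro c t
    have h1 := (clkZ_le c t).1
    have h2 := (clkZ_le c (t + 1)).2
    exact mul_nonneg (by (clear * - hJ; positivity)) (mul_nonneg (by linarith) (by linarith only [h2]))
  rw [clk_hClock_gen]
  have e : nrm2 (v - lift N Tc fun t => clkR v (clkL Tc t)) =
      ∑ c, nrm2 (clkR (v - lift N Tc fun t => clkR v (clkL Tc t)) c) := clk_ip_slice _ _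
  rw [e, Finset.mul_sum]
  refine Finset.sum_le_sum fun c _ => ?_
  have hsub : clkR (v - lift N Tc fun t => clkR v (clkL Tc t)) c =
      clkR v c - clkR (lift N Tc fun t => clkR v (clkL Tc t)) c := rfl
  rw [hsub]
  by_cases hc : ∀ t ≤ Tc, c ≠ clkL Tc t
  · rw [clkR_lift_ill _ hc, sub_zero]
    refine mul_le_mul_of_nonneg_right ?_ (clk_nrm2_nonneg _)
    obtain ⟨t, ht, h1, h2⟩ := clk_illegal hc
    have h3 : 2 * J * ((1 + clkZ c t) * (1 - clkZ c (t + 1))) = 8 * J := by
      unfold clkZ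
      rw [dif_pos (by omega : t < Tc), dif_pos ht, h1, h2]
      norm_num
      ring
    rw [← h3]
    exact Finset.single_le_sum (f := fun t => 2 * J * ((1 + clkZ c t) * (1 - clkZ c (t + 1))))
      (fun s _ => hpos c s) (Finset.mem_range.mpr (by omega))
  · push Not at hc
    obtain ⟨t, ht, rfl⟩ := hc
    rw [clkR_lift_leg _ ht, sub_self]
    have : nrm2 (0 : RSt N) = 0 := clk_ip_zero_right _
    rw [this, mul_zero]
    exact mul_nonneg (Finset.sum_nonneg fun s _ => hpos _ s) (clk_nrm2_nonneg _)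

theorem clk_orth (v : RSt (N + Tc)) :
    ip (lift N Tc fun t => clkR v (clkL Tc t)) (v - lift N Tc fun t => clkR v (clkL Tc t)) = 0 := by
  rw [clk_ip_lift]
  refine Finset.sum_eq_zero fun t ht => ?_
  have hsub : clkR (v - lift N Tc fun t => clkR v (clkL Tc t)) (clkL Tc t) =
      clkR v (clkL Tc t) - clkR (lift N Tc fun t => clkR v (clkL Tc t)) (clkL Tc t) := rfl
  rw [hsub, clkR_lift_leg _ (by rw [Finset.mem_range] at ht; omega), sub_self, clk_ip_zero_right]

end lower

theorem clk_quad {J C K δ lam x y BLL BLD BDL BDD T : ℝ} (hδ0 : 0 < δ)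
    (hK : K = 8 * J - C - 8 * lam + δ) (hδK : C ^ 2 ≤ δ * K) (hT : 8 * J * y ^ 2 ≤ T)
    (hLL : 8 * lam * x ^ 2 ≤ BLL) (hLD : -(C * (x * y)) ≤ BLD) (hDL : -(C * (x * y)) ≤ BDL)
    (hDD : -(C * y ^ 2) ≤ BDD) :
    (8 * lam - δ) * (x ^ 2 + y ^ 2) ≤ T + (BLL + BLD + (BDL + BDD)) := by
  have hquad : 0 ≤ δ * x ^ 2 - 2 * C * (x * y) + K * y ^ 2 := by
    have h3 : 0 ≤ δ * (δ * x ^ 2 - 2 * C * (x * y) + K * y ^ 2) := by
      have e : δ * (δ * x ^ 2 - 2 * C * (x * y) + K * y ^ 2) =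
          (δ * x - C * y) ^ 2 + (δ * K - C ^ 2) * y ^ 2 := by ring
      rw [e]
      exact add_nonneg (sq_nonneg _) (mul_nonneg (by linarith only [hδK]) (sq_nonneg _))
    exact nonneg_of_mul_nonneg_right h3 hδ0
  have efin : (8 * lam - δ) * (x ^ 2 + y ^ 2) =
      8 * J * y ^ 2 + (8 * lam * x ^ 2 + -(C * (x * y)) + (-(C * (x * y)) + -(C * y ^ 2))) -
        (δ * x ^ 2 - 2 * C * (x * y) + K * y ^ 2) := by
    rw [hK]
    ring
  rw [efin]
  linarith only [hT, hLL, hLD, hDL, hDD, hquad]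

theorem clk_num {r lam δ M : ℝ} (hr : 1000 ≤ r) (hM : M + 1 ≤ r) (hM0 : 0 < M + 1)
    (h1 : lam ≤ 1) (hδ : δ = 1 / (18 * (M + 1))) :
    (r ^ 27) ^ 2 ≤ δ * (8 * r ^ 64 - r ^ 27 - 8 * lam + δ) := by
  have hr1 : (1 : ℝ) ≤ r := by linarith only [hr]
  have hδ0 : 0 < δ := by rw [hδ]; (clear * - hM0; positivity)
  have hδr : 1 ≤ δ * (18 * r) := by
    rw [hδ, div_mul_eq_mul_div, one_mul, le_div_iff₀ (by positivity)]
    linarith only [hM]
  have p27 : r ^ 27 ≤ r ^ 64 := pow_le_pow_right₀ hr1 (by norm_num)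
  have p1 : r ≤ r ^ 9 := by
    calc r = r ^ 1 := (pow_one r).symm
      _ ≤ r ^ 9 := pow_le_pow_right₀ hr1 (by norm_num)
  have p9 : r ^ 9 ≤ r ^ 64 := pow_le_pow_right₀ hr1 (by norm_num)
  have hKge : r ^ 64 ≤ 8 * r ^ 64 - r ^ 27 - 8 * lam + δ := by linarith only [hr, h1, hδ0, p27, p1, p9]
  have p55 : 18 * r * r ^ 54 ≤ r ^ 64 := by
    have e : r ^ 64 = r ^ 9 * (r * r ^ 54) := by ring
    have e9 : (18 : ℝ) ≤ r ^ 9 := by linarith only [hr, p1]
    calc 18 * r * r ^ 54 = 18 * (r * r ^ 54) := by ring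
      _ ≤ r ^ 9 * (r * r ^ 54) := mul_le_mul_of_nonneg_right e9 (by positivity)
      _ = r ^ 64 := e.symm
  have e : (r ^ 27) ^ 2 = r ^ 54 := by ring
  rw [e]
  calc r ^ 54 = 1 * r ^ 54 := (one_mul _).symm
    _ ≤ δ * (18 * r) * r ^ 54 := mul_le_mul_of_nonneg_right hδr (by positivity)
    _ = δ * (18 * r * r ^ 54) := by ring
    _ ≤ δ * r ^ 64 := mul_le_mul_of_nonneg_left p55 hδ0.le
    _ ≤ _ := mul_le_mul_of_nonneg_left hKge hδ0.le

theorem clock_lower (N m : ℕ) (hN : 1 ≤ N) (rs : List Rnd) (hok : ∀ r ∈ rs, r.Ok N) (lam : ℝ)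
    (h0 : 0 ≤ lam) (h1 : lam ≤ 1)
    (h : ∀ a : ℕ → RSt N, lam * tot rs.length a ≤
      e1 ((rr N rs.length : ℝ) ^ 24) ((rr N rs.length : ℝ) ^ 8) 1000 m rs a)
    (v : RSt (N + tc rs.length)) :
    (8 * lam - 1 / (18 * ((rs.length : ℝ) + 1))) * nrm2 v ≤ tform (ham N m rs 1 trR) v := by
  obtain ⟨hr, hrN, hrM⟩ := clk_rr_ge N rs.length
  have hC := clk_tabs_H N m rs
  have hM0 : (0 : ℝ) < (rs.length : ℝ) + 1 := by (clear * -; positivity)
  have hnum := clk_num hr hrM hM0 h1 rfl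
  have hδ0 : 0 < 1 / (18 * ((rs.length : ℝ) + 1)) := by (clear * -; positivity)
  have hr0 : (0 : ℝ) ≤ (rr N rs.length : ℝ) ^ 64 := by (clear * - hr; positivity)
  have hClk := clk_hClock_lower (by rw [mul_one]; exact hr0 :
    (0 : ℝ) ≤ (rr N rs.length : ℝ) ^ 64 * 1) v
  have horth := clk_orth v
  have hLL : 8 * lam * nrm2 (lift N (tc rs.length) fun t => clkR v (clkL (tc rs.length) t)) ≤
      clkB (clkH N m rs) (lift N (tc rs.length) fun t => clkR v (clkL (tc rs.length) t))
        (lift N (tc rs.length) fun t => clkR v (clkL (tc rs.length) t)) := by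
    have e1' := tform_lift N m hN rs hok fun t => clkR v (clkL (tc rs.length) t)
    rw [clk_ham_eq, clk_tform_append, clk_hClock, zero_add] at e1'
    rw [← clk_tform_eq, e1', nrm2_lift]
    have := h fun t => clkR v (clkL (tc rs.length) t)
    linarith only [this]
  rw [clk_ham_eq, clk_tform_append]
  generalize lift N (tc rs.length) (fun t => clkR v (clkL (tc rs.length) t)) = L at *
  obtain ⟨D, hD⟩ : ∃ D, D = v - L := ⟨_, rfl⟩
  have hv : v = L + D := by rw [hD]; abel
  rw [← hD] at hClk horth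
  have hnv : nrm2 v = nrm2 L + nrm2 D := by
    rw [hv, clk_nrm2_add, horth]
    ring
  have hexp : tform (clkH N m rs) v = clkB (clkH N m rs) L L + clkB (clkH N m rs) L D +
      (clkB (clkH N m rs) D L + clkB (clkH N m rs) D D) := by
    rw [clk_tform_eq, hv, clkB_add_left, clkB_add_right, clkB_add_right]
  have hLD := (abs_le.mp (clkB_abs (clkH N m rs) L D)).1
  have hDL := (abs_le.mp (clkB_abs (clkH N m rs) D L)).1
  have hDD := (abs_le.mp (clkB_abs (clkH N m rs) D D)).1
  rw [hexp, hnv]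
  generalize tform (hClock N (tc rs.length) ((rr N rs.length : ℝ) ^ 64 * 1)) v = T at *
  generalize clkB (clkH N m rs) L L = BLL at *
  generalize clkB (clkH N m rs) L D = BLD at *
  generalize clkB (clkH N m rs) D L = BDL at *
  generalize clkB (clkH N m rs) D D = BDD at *
  generalize tabs (clkH N m rs) = tb at *
  have hx2 : nrm2 L = √(nrm2 L) ^ 2 := (Real.sq_sqrt (clk_nrm2_nonneg L)).symm
  have hy2 : nrm2 D = √(nrm2 D) ^ 2 := (Real.sq_sqrt (clk_nrm2_nonneg D)).symm
  have hx0 : 0 ≤ √(nrm2 L) := Real.sqrt_nonneg _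
  have hy0 : 0 ≤ √(nrm2 D) := Real.sqrt_nonneg _
  rw [hx2] at hLL
  rw [hy2] at hClk
  rw [hx2, hy2]
  generalize √(nrm2 L) = x at *
  generalize √(nrm2 D) = y at *
  generalize (rr N rs.length : ℝ) ^ 64 = J at *
  generalize (rr N rs.length : ℝ) ^ 27 = C at *
  rw [mul_one] at hClk
  refine clk_quad hδ0 rfl hnum hClk hLL ?_ ?_ ?_
  · have := mul_le_mul_of_nonneg_right hC (mul_nonneg hx0 hy0)
    linarith only [hLD, this]
  · have := mul_le_mul_of_nonneg_right hC (mul_nonneg hx0 hy0)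
    have e : y * x = x * y := mul_comm _ _
    rw [e] at hDL
    linarith only [hDL, this]
  · have := mul_le_mul_of_nonneg_right hC (mul_nonneg hy0 hy0)
    have e : y * y = y ^ 2 := (sq y).symm
    rw [e] at this hDD
    linarith only [hDD, this]

end Vale.Agent.P370.H
end
end

section

section

/-!
The queries of the Turing reduction. First the reference energy is found by binary search, then
for every distance `d` the coupling parameter which produces the coupling `pJ` is found by a scan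
over a grid, then the question is asked.
-/

namespace Vale.Agent.P370.Q.Alg

/-- logarithm of the number of sites -/
def kk (w : List Bool) : ℕ := max 10 (Nat.size w.length)

/-- grid of coupling parameters -/
def grid (k : ℕ) : ℕ → ℕ
  | 0 => 1
  | j + 1 => grid k j + grid k j / aK k ^ 6 + 1

/-- `T pJ` -/
def aJ1 (k : ℕ) : ℕ := 2 ^ (2000 * an k ^ 3 - 4352 * k)

/-- weights of the source problem as a function on the sites -/
def mW (w : List Bool) (i j : ℕ) : ℕ := if i < j ∧ j < hK w then hM w i j else 0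

/-- parameters of the final query -/
def sfin (k : ℕ) (x : ℕ → ℕ) (w : List Bool) : List ℕ :=
  (List.range (aK k * aK k)).map fun t =>
    Nat.sqrt (x (t % aK k - t / aK k) ^ 2 * mW w (t / aK k) (t % aK k) / aK k)

/-- offset of the final threshold -/
def offs (k : ℕ) (w : List Bool) : ℤ :=
  (2 * ((mSum w : ℤ) + hA w) - 1) * 2 ^ (2000 * an k ^ 3 - 4353 * k - 2)

end Vale.Agent.P370.Q.Alg
end
end

section

section

/-!
Sphere averages: polar coordinates, rotation invariance, zonal functions.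
-/

namespace Vale.Agent.P370.Q

open MeasureTheory Finset ComplexConjugate

theorem norm_sp (θ φ : ℝ) : ‖sp θ φ‖ = 1 := by
  exact sph1_norm_sp θ φ

/-- polar coordinates -/
theorem polar_sph {E : Type} [NormedAddCommGroup E] [NormedSpace ℝ E] [CompleteSpace E]
    (F : R3 → E) (hF : Integrable F) :
    ∫ x, F x = ∫ r in Set.Ioi (0 : ℝ), (4 * Real.pi * r ^ 2) • sph (fun u => F (r • u)) := by
  rw [sph1_integral F hF]
  refine integral_congr_ae (Filter.Eventually.of_forall fun r => ?_)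
  change (∫ θ in Set.Ioo 0 Real.pi, ∫ φ in Set.Ioo (-Real.pi) Real.pi,
    (r ^ 2 * Real.sin θ) • F (r • sp θ φ)) =
      (4 * Real.pi * r ^ 2) • sph (fun u => F (r • u))
  have h1 : 4 * Real.pi * r ^ 2 * (1 / (4 * Real.pi)) = r ^ 2 := by
    have := Real.pi_ne_zero
    field_simp
  rw [sph1_sph, smul_smul, h1, ← integral_smul]
  refine integral_congr_ae (Filter.Eventually.of_forall fun θ => ?_)
  change (∫ φ in Set.Ioo (-Real.pi) Real.pi, (r ^ 2 * Real.sin θ) • F (r • sp θ φ)) =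
    r ^ 2 • ∫ φ in Set.Ioo (-Real.pi) Real.pi, Real.sin θ • F (r • sp θ φ)
  rw [← integral_smul]
  refine integral_congr_ae (Filter.Eventually.of_forall fun φ => ?_)
  exact mul_smul _ _ _

/-- rotation invariance of the sphere average -/
theorem sph_rot {E : Type} [NormedAddCommGroup E] [NormedSpace ℝ E] [CompleteSpace E]
    (g : R3 ≃ₗᵢ[ℝ] R3) (f : R3 → E) (hf : ContinuousOn f (Metric.sphere 0 1)) :
    sph (fun u => f (g u)) = sph f := by
  have hg : ContinuousOn (fun u => f (g u)) (Metric.sphere 0 1) := by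
    refine hf.comp g.continuous.continuousOn fun u hu => ?_
    rw [mem_sphere_zero_iff_norm] at hu ⊢
    rw [g.norm_map, hu]
  rw [sph_eq_toSphere f hf, sph_eq_toSphere _ hg]
  congr 1
  have hm : Measurable (sph1G g) := (sph1_continuous_G g).measurable
  have h1 := (sph1_integrable f hf).aestronglyMeasurable
  have h2 := integral_map (μ := (volume : Measure R3).toSphere) hm.aemeasurable
    (f := fun ω : Metric.sphere (0 : R3) 1 => f ω) (by rw [sph1_map_G]; exact h1)
  rw [sph1_map_G] at h2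
  exact h2.symm

theorem sph_const {E : Type} [NormedAddCommGroup E] [NormedSpace ℝ E] [CompleteSpace E] (c : E) :
    sph (fun _ => c) = c := by
  unfold sph
  have h1 : ∀ θ : ℝ, (∫ _ in (0 : ℝ)..(2 * Real.pi), Real.sin θ • c) =
      Real.sin θ • ((2 * Real.pi) • c) := by
    intro θ
    rw [intervalIntegral.integral_const, sub_zero, smul_comm]
  simp only [h1]
  rw [intervalIntegral.integral_smul_const, integral_sin, smul_smul, smul_smul]
  have := Real.pi_ne_zero
  have e : 1 / (4 * Real.pi) * ((Real.cos 0 - Real.cos Real.pi) * (2 * Real.pi)) = 1 := by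
    rw [Real.cos_zero, Real.cos_pi]
    field_simp
    norm_num
  rw [mul_assoc, e, one_smul]

theorem sph_congr {E : Type} [NormedAddCommGroup E] [NormedSpace ℝ E] {f g : R3 → E}
    (h : ∀ u, ‖u‖ = 1 → f u = g u) : sph f = sph g := by
  unfold sph
  have e : ∀ θ φ : ℝ, f (sp θ φ) = g (sp θ φ) := fun θ φ => h _ (norm_sp θ φ)
  simp only [e]

theorem sph_add {E : Type} [NormedAddCommGroup E] [NormedSpace ℝ E] [CompleteSpace E]
    {f g : R3 → E} (hf : ContinuousOn f (Metric.sphere 0 1))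
    (hg : ContinuousOn g (Metric.sphere 0 1)) :
    sph (fun u => f u + g u) = sph f + sph g := by
  rw [sph_eq_toSphere f hf, sph_eq_toSphere g hg,
    sph_eq_toSphere (fun u => f u + g u) (hf.add hg),
    integral_add (sph1_integrable f hf) (sph1_integrable g hg), smul_add]

theorem sph_smul {E : Type} [NormedAddCommGroup E] [NormedSpace ℝ E] (c : ℝ) (f : R3 → E) :
    sph (fun u => c • f u) = c • sph f := by
  rw [sph1_sph, sph1_sph, smul_comm c]
  congr 1
  rw [← integral_smul]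
  refine integral_congr_ae (Filter.Eventually.of_forall fun θ => ?_)
  change (∫ φ in Set.Ioo (-Real.pi) Real.pi, Real.sin θ • c • f (sp θ φ)) =
    c • ∫ φ in Set.Ioo (-Real.pi) Real.pi, Real.sin θ • f (sp θ φ)
  rw [← integral_smul]
  refine integral_congr_ae (Filter.Eventually.of_forall fun φ => ?_)
  exact smul_comm _ _ _

theorem sph_mono {f g : R3 → ℝ} (hf : ContinuousOn f (Metric.sphere 0 1))
    (hg : ContinuousOn g (Metric.sphere 0 1)) (h : ∀ u, ‖u‖ = 1 → f u ≤ g u) :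
    sph f ≤ sph g := by
  rw [sph_eq_toSphere f hf, sph_eq_toSphere g hg]
  refine smul_le_smul_of_nonneg_left ?_ (by positivity)
  exact integral_mono (sph1_integrable f hf) (sph1_integrable g hg)
    fun ω => h _ (mem_sphere_zero_iff_norm.1 ω.2)

/-- zonal functions -/
theorem sph_zonal {E : Type} [NormedAddCommGroup E] [NormedSpace ℝ E] [CompleteSpace E]
    (e : R3) (he : ‖e‖ = 1) (f : ℝ → E) (hf : ContinuousOn f (Set.Icc (-1) 1)) :
    sph (fun u => f (inner ℝ e u)) = (1 / 2 : ℝ) • ∫ t in (-1 : ℝ)..1, f t := by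
  have hz : ‖sp 0 0‖ = 1 := norm_sp 0 0
  have hc : ∀ v : R3, ‖v‖ = 1 →
      ContinuousOn (fun u : R3 => f (inner ℝ v u)) (Metric.sphere 0 1) := by
    intro v hv
    refine hf.comp (by fun_prop) fun u hu => ?_
    rw [mem_sphere_zero_iff_norm] at hu
    have := abs_real_inner_le_norm v u
    rw [hv, hu, mul_one] at this
    exact abs_le.1 this
  -- rotate to the z axis
  set g : R3 ≃ₗᵢ[ℝ] R3 := (ℝ ∙ (e - sp 0 0))ᗮ.reflection with hg
  have hg1 : g e = sp 0 0 := Submodule.reflection_sub (he.trans hz.symm)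
  have hgg : ∀ u, g (g u) = u := fun u => Submodule.reflection_reflection _ u
  have h1 : sph (fun u => f (inner ℝ e u)) = sph (fun u => f (inner ℝ (sp 0 0) u)) := by
    rw [← sph_rot g _ (hc e he)]
    congr 1
    funext u
    rw [← hg1, ← g.inner_map_map e (g u), hgg]
  rw [h1]
  have h2 : ∀ θ φ : ℝ, inner ℝ (sp 0 0) (sp θ φ) = Real.cos θ := by
    intro θ φ
    unfold sp
    rw [PiLp.inner_apply, Fin.sum_univ_three]
    simp only [Real.sin_zero, Real.cos_zero, mul_one, mul_zero, Fin.isValue, Matrix.cons_val_zero, RCLike.inner_apply, Real.ringHom_apply, Matrix.cons_val_one, add_zero, Matrix.cons_val, zero_add]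
  unfold sph
  simp only [h2]
  have h3 : ∀ θ : ℝ, (∫ _ in (0 : ℝ)..(2 * Real.pi), Real.sin θ • f (Real.cos θ)) =
      (2 * Real.pi) • (Real.sin θ • f (Real.cos θ)) := by
    intro θ
    rw [intervalIntegral.integral_const, sub_zero]
  simp only [h3]
  rw [intervalIntegral.integral_smul, smul_smul]
  have h4 : (∫ θ in (0 : ℝ)..Real.pi, (-Real.sin θ) • (f ∘ Real.cos) θ) =
      ∫ t in (Real.cos 0)..(Real.cos Real.pi), f t := by
    refine intervalIntegral.integral_deriv_smul_comp' (fun x _ => Real.hasDerivAt_cos x)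
      (by fun_prop) (hf.mono ?_)
    rintro t ⟨x, -, rfl⟩
    exact ⟨Real.neg_one_le_cos x, Real.cos_le_one x⟩
  rw [Real.cos_zero, Real.cos_pi] at h4
  have h5 : (∫ θ in (0 : ℝ)..Real.pi, Real.sin θ • f (Real.cos θ)) =
      ∫ t in (-1 : ℝ)..1, f t := by
    rw [intervalIntegral.integral_symm (1 : ℝ) (-1), ← h4, ← intervalIntegral.integral_neg]
    refine intervalIntegral.integral_congr fun θ _ => ?_
    simp
  rw [h5]
  congr 1
  have := Real.pi_ne_zero
  field_simp
  norm_num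

end Vale.Agent.P370.Q
end
end

section

section

/-!
Correctness of the calibration: elementary facts on the parameters and the binary search.
-/

namespace Vale.Agent.P370.Q.Alg

open Finset

/-! ### parameters -/

theorem an_ge (k : ℕ) (hk : 1 ≤ k) : 100000 * k ≤ an k := by
  have h1 : k ≤ 2 ^ k := Nat.lt_two_pow_self.le
  have h2 : an k = 2 ^ k * 2 ^ (2047 * k) := by rw [an, ← pow_add]; congr 1; ring
  have h3 : 2 ^ 17 ≤ 2 ^ (2047 * k) := Nat.pow_le_pow_right (by norm_num) (by (clear * - hk; omega))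
  rw [h2, mul_comm]
  exact Nat.mul_le_mul h1 (le_trans (by (clear * -; norm_num)) h3)

theorem an_cube_ge (k : ℕ) (hk : 1 ≤ k) : 100000 * k ≤ an k ^ 3 := by
  refine (an_ge k hk).trans ?_
  exact Nat.le_self_pow (by norm_num) _

theorem TJ_eq (k : ℕ) (hk : 1 ≤ k) : (pT k : ℝ) * pJ k = (aJ1 k : ℝ) := by
  have h0 := an_cube_ge k hk
  have h1 : (pn k : ℝ) = 2 ^ (2048 * k) := by unfold pn; push_cast; rfl
  have h2 : (pK k : ℝ) = 2 ^ k := by unfold pK; push_cast; rfl
  have h3 : (pT k : ℝ) = 2 ^ (2000 * an k ^ 3) := by unfold pT; push_cast; rfl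
  have h4 : (aJ1 k : ℝ) = 2 ^ (2000 * an k ^ 3 - 4352 * k) := by unfold aJ1; push_cast; rfl
  rw [h3, pJ, h1, h2, h4]
  have h5 : (2 : ℝ) ^ (2000 * an k ^ 3) = 2 ^ (2000 * an k ^ 3 - 4352 * k) * 2 ^ (4352 * k) := by
    rw [← pow_add]; congr 1; omega
  have h6 : ((2 : ℝ) ^ (2048 * k)) ^ 2 * ((2 : ℝ) ^ k) ^ 256 = 2 ^ (4352 * k) := by
    rw [← pow_mul, ← pow_mul, ← pow_add]; congr 1; ring
  rw [h6, h5]
  field_simp

theorem TJ_big (k : ℕ) (hk : 1 ≤ k) : 1024 * (pK k : ℝ) ^ 9 ≤ (pT k : ℝ) * pJ k := by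
  rw [TJ_eq k hk]
  have h0 := an_cube_ge k hk
  have h2 : (pK k : ℝ) = 2 ^ k := by unfold pK; push_cast; rfl
  have h4 : (aJ1 k : ℝ) = 2 ^ (2000 * an k ^ 3 - 4352 * k) := by unfold aJ1; push_cast; rfl
  rw [h2, h4, ← pow_mul]
  calc (1024 : ℝ) * 2 ^ (k * 9) = 2 ^ (10 + k * 9) := by rw [pow_add]; norm_num
    _ ≤ _ := pow_le_pow_right₀ (by norm_num) (by omega)

theorem offs_eq (k : ℕ) (hk : 1 ≤ k) (w : List Bool) :
    (offs k w : ℝ) = (2 * ((mSum w : ℝ) + hA w) - 1) * ((pT k : ℝ) * pJ k) / (4 * pK k) := by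
  have h0 := an_cube_ge k hk
  have h2 : (pK k : ℝ) = 2 ^ k := by unfold pK; push_cast; rfl
  have h4 : (aJ1 k : ℝ) = 2 ^ (2000 * an k ^ 3 - 4352 * k) := by unfold aJ1; push_cast; rfl
  rw [TJ_eq k hk, h4, h2, offs]
  push_cast
  have h5 : (2 : ℝ) ^ (2000 * an k ^ 3 - 4352 * k) =
      2 ^ (2000 * an k ^ 3 - 4353 * k - 2) * (4 * 2 ^ k) := by
    rw [show (4 : ℝ) = 2 ^ 2 by norm_num, ← pow_add, ← pow_add]; congr 1; omega
  rw [h5]
  (clear * -; field_simp)

theorem pJ_pos (k : ℕ) : 0 < pJ k := by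
  unfold pJ pn pK; positivity

theorem pK_real_ge (k : ℕ) (hk : 10 ≤ k) : (1024 : ℝ) ≤ (pK k : ℝ) := by
  have : (1024 : ℕ) ≤ pK k := by
    unfold pK
    calc 1024 = 2 ^ 10 := by norm_num
      _ ≤ 2 ^ k := Nat.pow_le_pow_right (by norm_num) hk
  exact_mod_cast this

/-- `2^-n` is tiny compared with `pJ` -/
theorem pJ_big (k : ℕ) (hk : 1 ≤ k) : 4096 * (pK k : ℝ) ^ 12 / 2 ^ pn k ≤ pJ k := by
  have h0 := an_ge k hk
  have h1 : (pn k : ℝ) = 2 ^ (2048 * k) := by unfold pn; push_cast; rfl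
  have h2 : (pK k : ℝ) = 2 ^ k := by unfold pK; push_cast; rfl
  have h6 : ((2 : ℝ) ^ (2048 * k)) ^ 2 * ((2 : ℝ) ^ k) ^ 256 = 2 ^ (4352 * k) := by
    rw [← pow_mul, ← pow_mul, ← pow_add]; congr 1; ring
  rw [pJ, h1, h2, h6, div_le_div_iff₀ (by positivity) (by positivity), one_mul, ← pow_mul,
    show (4096 : ℝ) = 2 ^ 12 by norm_num, ← pow_add, ← pow_add]
  have h3 : pn k = an k := rfl
  exact pow_le_pow_right₀ (by norm_num) (by rw [h3]; omega)

/-! ### binary search -/

end Vale.Agent.P370.Q.Alg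
end
end

section

section

/-! Rotation invariant potential `(1/r - 1/ρ)_+` on the shells. -/

namespace Vale.Agent.P370.Hyd

open MeasureTheory Filter Topology MvPolynomial

/-- the potential `(1/r - 1/ρ)_+` -/
noncomputable def Vr (ρ r : ℝ) : ℝ := max (1 / r - 1 / ρ) 0

theorem Vr_nonneg (ρ r : ℝ) : 0 ≤ Vr ρ r := le_max_right _ _

theorem Vr_le {ρ : ℝ} (hρ : 0 < ρ) {r : ℝ} (hr : 0 ≤ r) : Vr ρ r ≤ 1 / r := by
  unfold Vr
  refine max_le ?_ (by (clear * - hr; positivity))
  have : 0 < 1 / ρ := by positivity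
  linarith only [this]

theorem measurable_Vr (ρ : ℝ) : Measurable fun x : R3 => Vr ρ ‖x‖ := by
  unfold Vr
  exact (((measurable_const).div measurable_norm).sub measurable_const).max measurable_const

theorem integrable_Vr {ρ : ℝ} (hρ : 0 < ρ) (v w : AdmS) :
    Integrable fun x => v.1.1 x * w.1.1 x * Vr ρ ‖x‖ := by
  have h1 := v.2.int_mul_div w.2
  refine Integrable.mono h1 ?_ (Eventually.of_forall fun x => ?_)
  · exact ((v.2.cont.mul w.2.cont).aestronglyMeasurable).mul
      (measurable_Vr ρ).aestronglyMeasurable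
  · rw [norm_mul, norm_div, norm_norm, Real.norm_eq_abs (Vr ρ ‖x‖), abs_of_nonneg (Vr_nonneg _ _),
      div_eq_mul_one_div]
    exact mul_le_mul_of_nonneg_left (Vr_le hρ (norm_nonneg x)) (norm_nonneg _)

/-- the form of the potential -/
noncomputable def VB {ρ : ℝ} (hρ : 0 < ρ) : AdmS →ₗ[ℝ] AdmS →ₗ[ℝ] ℝ :=
  LinearMap.mk₂ ℝ (fun v w => ∫ x, v.1.1 x * w.1.1 x * Vr ρ ‖x‖)
    (fun v v' w => by
      rw [← integral_add (integrable_Vr hρ v w) (integrable_Vr hρ v' w)]
      refine integral_congr_ae (Eventually.of_forall fun x => ?_)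
      show (v.1.1 x + v'.1.1 x) * w.1.1 x * Vr ρ ‖x‖ = _
      ring)
    (fun c v w => by
      rw [smul_eq_mul, ← integral_const_mul]
      refine integral_congr_ae (Eventually.of_forall fun x => ?_)
      show (c * v.1.1 x) * w.1.1 x * Vr ρ ‖x‖ = c * (v.1.1 x * w.1.1 x * Vr ρ ‖x‖)
      ring)
    (fun v w w' => by
      rw [← integral_add (integrable_Vr hρ v w) (integrable_Vr hρ v w')]
      refine integral_congr_ae (Eventually.of_forall fun x => ?_)
      show v.1.1 x * (w.1.1 x + w'.1.1 x) * Vr ρ ‖x‖ = _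
      ring)
    (fun c v w => by
      rw [smul_eq_mul, ← integral_const_mul]
      refine integral_congr_ae (Eventually.of_forall fun x => ?_)
      show v.1.1 x * (c * w.1.1 x) * Vr ρ ‖x‖ = c * (v.1.1 x * w.1.1 x * Vr ρ ‖x‖)
      ring)

theorem VB_apply {ρ : ℝ} (hρ : 0 < ρ) (v w : AdmS) :
    VB hρ v w = ∫ x, v.1.1 x * w.1.1 x * Vr ρ ‖x‖ := rfl

theorem VB_gS {ρ : ℝ} (hρ : 0 < ρ) {k k' l l' : ℕ} {h h' : Pl} (hh : h.IsHomogeneous l)
    (hh' : h'.IsHomogeneous l') :
    VB hρ (gS k l h) (gS k' l' h')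
      = sph h h' * ∫ r in Set.Ioi (0 : ℝ), r ^ (l + l' + 2) * (rad k l r * rad k' l' r * Vr ρ r)
      := by
  rw [← integral_homog hh hh', VB_apply]
  refine integral_congr_ae (Eventually.of_forall fun x => ?_)
  show (gS k l h).1.1 x * (gS k' l' h').1.1 x * Vr ρ ‖x‖ = _
  rw [gS_apply, gS_apply]
  ring

/-- radial matrix element -/
noncomputable def beta (ρ : ℝ) (k l : ℕ) : ℝ :=
  ∫ r in Set.Ioi (0 : ℝ), r ^ (2 * l + 2) * (rad k l r ^ 2 * Vr ρ r)

theorem VB_gS_self {ρ : ℝ} (hρ : 0 < ρ) {k l : ℕ} {h h' : Pl} (hh : h.IsHomogeneous l)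
    (hh' : h'.IsHomogeneous l) :
    VB hρ (gS k l h) (gS k l h') = sph h h' * beta ρ k l := by
  rw [VB_gS hρ hh hh']
  unfold beta
  congr 1
  refine setIntegral_congr_fun measurableSet_Ioi fun r _ => ?_
  rw [pow_two (rad k l r), ← two_mul]

/-! ### bounds for the radial functions -/

theorem abs_cf_le {k l : ℕ} (hl : l ≤ k) {j : ℕ} (hj : j + l ≤ k) : |cf (kap k) l j| ≤ 1 := by
  induction j with
  | zero => simp [cf]
  | succ j ih =>
    have ih' := ih (by (clear * - hj; omega))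
    rw [cf, abs_mul]
    refine mul_le_one₀ ?_ (abs_nonneg _) ih'
    rw [abs_div, abs_mul, abs_two]
    have hk1 : (0 : ℝ) < (k : ℝ) + 1 := by positivity
    have h1 : |kap k * ((j : ℝ) + l + 1) - 1| ≤ 1 := by
      have h2 : kap k * ((j : ℝ) + l + 1) ≤ 1 := by
        unfold kap
        rw [one_div, inv_mul_le_iff₀ hk1]
        have : (j : ℝ) + 1 + l ≤ k := by exact_mod_cast hj
        linarith only [this]
      have h3 : 0 ≤ kap k * ((j : ℝ) + l + 1) := by
        have := kap_pos k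
        (clear * - this; positivity)
      rw [abs_le]
      constructor <;> linarith
    have h4 : 0 < ((j : ℝ) + 1) * (j + 2 * l + 2) := by (clear * -; positivity)
    rw [abs_of_pos h4, div_le_one h4]
    have h5 : (2 : ℝ) ≤ ((j : ℝ) + 1) * (j + 2 * l + 2) := by
      have hj0 : (0 : ℝ) ≤ j := Nat.cast_nonneg j
      have hl0 : (0 : ℝ) ≤ l := Nat.cast_nonneg l
      linarith only [mul_nonneg hj0 hj0, mul_nonneg hj0 hl0]
    linarith only [h1, h5]

theorem Lr_lower {k l : ℕ} (hl : l ≤ k) {r : ℝ} (hr : 0 ≤ r) (hr1 : r ≤ 1 / 2) :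
    1 - 2 * r ≤ Lr (kap k) l (k + 1 - l) r := by
  have e : k + 1 - l = (k - l) + 1 := by (clear * - hl; omega)
  rw [e]
  unfold Lr
  rw [Finset.sum_range_succ']
  have h0 : cf (kap k) l 0 * r ^ 0 = 1 := by simp [cf]
  rw [h0]
  have h1 : -(∑ j ∈ Finset.range (k - l), r ^ (j + 1))
      ≤ ∑ j ∈ Finset.range (k - l), cf (kap k) l (j + 1) * r ^ (j + 1) := by
    rw [← Finset.sum_neg_distrib]
    refine Finset.sum_le_sum fun j hj => ?_
    have hj' := Finset.mem_range.1 hj
    have h2 := abs_cf_le hl (j := j + 1) (by omega)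
    have h3 := neg_le_of_abs_le h2
    have h4 : 0 ≤ r ^ (j + 1) := by (clear * - hr; positivity)
    nlinarith only [h3, h4]
  have h2 : ∑ j ∈ Finset.range (k - l), r ^ (j + 1) ≤ 2 * r := by
    have h3 : ∑ j ∈ Finset.range (k - l), r ^ (j + 1)
        = r * ∑ j ∈ Finset.range (k - l), r ^ j := by
      rw [Finset.mul_sum]
      exact Finset.sum_congr rfl fun j _ => pow_succ' r j
    have h4 : ∑ j ∈ Finset.range (k - l), r ^ j ≤ 2 := by
      have h5 := geom_sum_eq (x := r) (by linarith only [hr1]) (k - l)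
      rw [h5]
      have h6 : (r ^ (k - l) - 1) / (r - 1) = (1 - r ^ (k - l)) / (1 - r) := by
        rw [← neg_div_neg_eq]
        congr 1 <;> ring
      rw [h6, div_le_iff₀ (by linarith only [hr1])]
      have h7 : 0 ≤ r ^ (k - l) := by (clear * - hr; positivity)
      linarith only [hr1, h7]
    rw [h3]
    nlinarith only [hr, h4]
  linarith only [h1, h2]

theorem rad_sq_lower {k l : ℕ} (hl : l ≤ k) {r : ℝ} (hr : 0 ≤ r) (hr1 : r ≤ 1 / 8) :
    1 / 4 ≤ rad k l r ^ 2 := by
  have h1 := Lr_lower hl hr (by linarith only [hr1])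
  have h2 : 1 - r ≤ Real.exp (-kap k * r) := by
    have h3 := Real.add_one_le_exp (-kap k * r)
    have h4 : kap k ≤ 1 := by
      unfold kap
      rw [div_le_one (by (clear * -; positivity))]
      have : (0 : ℝ) ≤ k := Nat.cast_nonneg k
      linarith only []
    nlinarith only [h3, hr, h4]
  have h5 : 1 / 2 ≤ rad k l r := by
    unfold rad
    calc (1 : ℝ) / 2 ≤ (1 - 2 * r) * (1 - r) := by nlinarith only [hr1]
      _ ≤ Lr (kap k) l (k + 1 - l) r * Real.exp (-kap k * r) :=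
        mul_le_mul h1 h2 (by linarith only [hr1]) (by linarith only [hr1, h1])
  nlinarith only [h5]

theorem integral_Vr_lower {k l : ℕ} (hl : l ≤ k) {ρ : ℝ} (hρ : 0 < ρ) (hρ1 : ρ ≤ 1 / 8) :
    1 / 4 * (ρ ^ (2 * l + 2) / ((2 * l + 2) * (2 * l + 3))) ≤ beta ρ k l := by
  have hF : ∀ r ∈ Set.Ioi (0 : ℝ), r ^ (2 * l + 2) * (rad k l r ^ 2 * Vr ρ r)
      = r ^ (2 * l + 1) * (rad k l r ^ 2 * max (1 - r / ρ) 0) := by
    intro r hr
    have hr' : (0 : ℝ) < r := hr
    have h1 : r * Vr ρ r = max (1 - r / ρ) 0 := by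
      unfold Vr
      rw [mul_max_of_nonneg _ _ hr'.le, mul_zero]
      congr 1
      (clear * - hρ hr'; field_simp)
    rw [← h1]
    ring
  have hcont : Continuous fun r : ℝ => r ^ (2 * l + 1) * (rad k l r ^ 2 * max (1 - r / ρ) 0) := by
    have := continuous_Lr (kap k) l (k + 1 - l)
    unfold rad
    (clear * - this; fun_prop)
  have hint : IntegrableOn (fun r : ℝ => r ^ (2 * l + 1) * (rad k l r ^ 2 * max (1 - r / ρ) 0))
      (Set.Ioi 0) := by
    have h1 : IntegrableOn (fun r : ℝ => r ^ (2 * l + 1) * (rad k l r ^ 2 * max (1 - r / ρ) 0))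
        (Set.Ioc 0 ρ) :=
      (hcont.continuousOn.integrableOn_Icc (a := 0) (b := ρ)).mono_set Set.Ioc_subset_Icc_self
    have h2 : IntegrableOn (fun r : ℝ => r ^ (2 * l + 1) * (rad k l r ^ 2 * max (1 - r / ρ) 0))
        (Set.Ioi ρ) := by
      refine (integrableOn_zero (s := Set.Ioi ρ)).congr_fun (fun r hr => ?_) measurableSet_Ioi
      have hr' : ρ < r := hr
      rw [max_eq_right, mul_zero, mul_zero]
      rw [sub_nonpos, le_div_iff₀ hρ]
      linarith only [hr']
    have h3 : Set.Ioi (0 : ℝ) = Set.Ioc 0 ρ ∪ Set.Ioi ρ := (Set.Ioc_union_Ioi_eq_Ioi hρ.le).symm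
    rw [h3]
    exact h1.union h2
  unfold beta
  rw [setIntegral_congr_fun measurableSet_Ioi hF]
  have h1 : ∫ r in Set.Ioc (0 : ℝ) ρ, r ^ (2 * l + 1) * (1 / 4 * (1 - r / ρ))
      ≤ ∫ r in Set.Ioi (0 : ℝ), r ^ (2 * l + 1) * (rad k l r ^ 2 * max (1 - r / ρ) 0) := by
    refine le_trans ?_ (setIntegral_mono_set hint ?_
      (show Set.Ioc (0 : ℝ) ρ ⊆ Set.Ioi 0 from Set.Ioc_subset_Ioi_self).eventuallyLE)
    · refine setIntegral_mono_on ?_ (hint.mono_set Set.Ioc_subset_Ioi_self) measurableSet_Ioc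
        fun r hr => ?_
      · have hc : Continuous fun r : ℝ => r ^ (2 * l + 1) * (1 / 4 * (1 - r / ρ)) := by fun_prop
        exact (hc.continuousOn.integrableOn_Icc (a := 0) (b := ρ)).mono_set
          Set.Ioc_subset_Icc_self
      · have h2 : r / ρ ≤ 1 := by
          rw [div_le_one hρ]
          exact hr.2
        refine mul_le_mul_of_nonneg_left ?_ (pow_nonneg hr.1.le _)
        refine mul_le_mul (rad_sq_lower hl hr.1.le (hr.2.trans hρ1)) (le_max_left _ _)
          (by linarith only [h2]) (sq_nonneg _)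
    · rw [Filter.EventuallyLE]
      filter_upwards [ae_restrict_mem measurableSet_Ioi] with r hr
      have hr' : (0 : ℝ) < r := hr
      show (0 : ℝ) ≤ _
      (clear * - hr'; positivity)
  refine le_trans (le_of_eq ?_) h1
  rw [← intervalIntegral.integral_of_le hρ.le]
  have h2 : ∀ r : ℝ, r ^ (2 * l + 1) * (1 / 4 * (1 - r / ρ))
      = 1 / 4 * r ^ (2 * l + 1) - 1 / (4 * ρ) * r ^ (2 * l + 2) := by
    intro r
    field_simp
    ring
  simp only [h2]
  rw [intervalIntegral.integral_sub (Continuous.intervalIntegrable (by fun_prop) _ _)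
    (Continuous.intervalIntegrable (by fun_prop) _ _),
    intervalIntegral.integral_const_mul, intervalIntegral.integral_const_mul, integral_pow,
    integral_pow]
  simp only [zero_pow (Nat.succ_ne_zero _), sub_zero]
  push_cast
  field_simp
  ring


/-! ### normalisation -/

theorem integral_pow_exp (m : ℕ) {b : ℝ} (hb : 0 < b) :
    ∫ r in Set.Ioi (0 : ℝ), r ^ m * Real.exp (-b * r) = (m.factorial : ℝ) / b ^ (m + 1) := by
  have h6 := Real.integral_rpow_mul_exp_neg_mul_Ioi (a := (m : ℝ) + 1) (by positivity) hb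
  have h7 : ∫ r in Set.Ioi (0 : ℝ), r ^ m * Real.exp (-b * r)
      = ∫ r in Set.Ioi (0 : ℝ), r ^ ((m : ℝ) + 1 - 1) * Real.exp (-(b * r)) := by
    refine setIntegral_congr_fun measurableSet_Ioi fun r _ => ?_
    rw [add_sub_cancel_right, Real.rpow_natCast, neg_mul]
  rw [h7, h6, Real.Gamma_nat_eq_factorial, ← Nat.cast_succ, Real.rpow_natCast, one_div, inv_pow,
    div_eq_inv_mul]

theorem integrableOn_pow_exp (m : ℕ) {b : ℝ} (hb : 0 < b) :
    IntegrableOn (fun r : ℝ => r ^ m * Real.exp (-b * r)) (Set.Ioi 0) := by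
  by_contra hcon
  have h := integral_pow_exp m hb
  rw [integral_undef hcon] at h
  have : (0 : ℝ) < (m.factorial : ℝ) / b ^ (m + 1) := by positivity
  linarith

theorem radN_le {k l : ℕ} (hl : l ≤ k) :
    radN k l ≤ ((k : ℝ) + 1) ^ 2 * ((2 * k + 2).factorial * ((k : ℝ) + 1) ^ (2 * k + 3)) := by
  have hk := kap_pos k
  have hk2 : 0 < 2 * kap k := by positivity
  have hpt : ∀ r ∈ Set.Ioi (0 : ℝ), r ^ (2 * l + 2) * rad k l r ^ 2
      ≤ ∑ j ∈ Finset.range (k + 1 - l), ((k : ℝ) + 1) *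
        (r ^ (2 * l + 2 + 2 * j) * Real.exp (-(2 * kap k) * r)) := by
    intro r hr
    have hr' : (0 : ℝ) < r := hr
    have h1 : Lr (kap k) l (k + 1 - l) r ^ 2
        ≤ ((k : ℝ) + 1) * ∑ j ∈ Finset.range (k + 1 - l), (r ^ j) ^ 2 := by
      have h2 : |Lr (kap k) l (k + 1 - l) r| ≤ ∑ j ∈ Finset.range (k + 1 - l), r ^ j := by
        unfold Lr
        refine (Finset.abs_sum_le_sum_abs _ _).trans (Finset.sum_le_sum fun j hj => ?_)
        have hj' := Finset.mem_range.1 hj
        rw [abs_mul, abs_of_nonneg (pow_nonneg hr'.le j)]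
        exact mul_le_of_le_one_left (pow_nonneg hr'.le j) (abs_cf_le hl (by omega))
      have h3 : (∑ j ∈ Finset.range (k + 1 - l), r ^ j) ^ 2
          ≤ ((Finset.range (k + 1 - l)).card : ℝ) * ∑ j ∈ Finset.range (k + 1 - l), (r ^ j) ^ 2 :=
        sq_sum_le_card_mul_sum_sq
      have h4 : ((Finset.range (k + 1 - l)).card : ℝ) ≤ (k : ℝ) + 1 := by
        rw [Finset.card_range]
        have : k + 1 - l ≤ k + 1 := Nat.sub_le _ _
        exact_mod_cast this
      calc Lr (kap k) l (k + 1 - l) r ^ 2 = |Lr (kap k) l (k + 1 - l) r| ^ 2 := (sq_abs _).symm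
        _ ≤ (∑ j ∈ Finset.range (k + 1 - l), r ^ j) ^ 2 :=
          pow_le_pow_left₀ (abs_nonneg _) h2 2
        _ ≤ _ := h3
        _ ≤ _ := mul_le_mul_of_nonneg_right h4 (Finset.sum_nonneg fun _ _ => sq_nonneg _)
    unfold rad
    rw [mul_pow, ← Real.exp_nat_mul]
    have h5 : Real.exp (((2 : ℕ) : ℝ) * (-kap k * r)) = Real.exp (-(2 * kap k) * r) := by
      congr 1
      push_cast
      ring
    rw [h5]
    calc r ^ (2 * l + 2) * (Lr (kap k) l (k + 1 - l) r ^ 2 * Real.exp (-(2 * kap k) * r))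
        ≤ r ^ (2 * l + 2) * ((((k : ℝ) + 1) * ∑ j ∈ Finset.range (k + 1 - l), (r ^ j) ^ 2)
          * Real.exp (-(2 * kap k) * r)) := by
          refine mul_le_mul_of_nonneg_left ?_ (pow_nonneg hr'.le _)
          exact mul_le_mul_of_nonneg_right h1 (Real.exp_pos _).le
      _ = _ := by
          rw [Finset.mul_sum, Finset.sum_mul, Finset.mul_sum]
          refine Finset.sum_congr rfl fun j _ => ?_
          rw [← pow_mul, pow_add]
          ring
  have hint : ∀ j ∈ Finset.range (k + 1 - l), IntegrableOn (fun r : ℝ => ((k : ℝ) + 1) *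
        (r ^ (2 * l + 2 + 2 * j) * Real.exp (-(2 * kap k) * r))) (Set.Ioi 0) := fun j _ =>
    (integrableOn_pow_exp (2 * l + 2 + 2 * j) hk2).const_mul _
  have hle : radN k l ≤ ∑ j ∈ Finset.range (k + 1 - l), ((k : ℝ) + 1) *
      (((2 * l + 2 + 2 * j).factorial : ℝ) / (2 * kap k) ^ (2 * l + 2 + 2 * j + 1)) := by
    have h1 : ∫ r in Set.Ioi (0 : ℝ), ∑ j ∈ Finset.range (k + 1 - l), ((k : ℝ) + 1) *
        (r ^ (2 * l + 2 + 2 * j) * Real.exp (-(2 * kap k) * r))
        = ∑ j ∈ Finset.range (k + 1 - l), ((k : ℝ) + 1) *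
      (((2 * l + 2 + 2 * j).factorial : ℝ) / (2 * kap k) ^ (2 * l + 2 + 2 * j + 1)) := by
      rw [integral_finsetSum _ hint]
      refine Finset.sum_congr rfl fun j _ => ?_
      rw [integral_const_mul, integral_pow_exp _ hk2]
    rw [← h1]
    unfold radN
    by_cases hi : IntegrableOn (fun r => r ^ (2 * l + 2) * rad k l r ^ 2) (Set.Ioi 0)
    · exact setIntegral_mono_on hi (integrable_finsetSum _ hint) measurableSet_Ioi hpt
    · rw [integral_undef hi]
      refine setIntegral_nonneg measurableSet_Ioi fun r hr => ?_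
      have hr' : (0 : ℝ) < r := hr
      (clear * - hr'; positivity)
  refine hle.trans ?_
  have hterm : ∀ j ∈ Finset.range (k + 1 - l), ((k : ℝ) + 1) *
      (((2 * l + 2 + 2 * j).factorial : ℝ) / (2 * kap k) ^ (2 * l + 2 + 2 * j + 1))
      ≤ ((k : ℝ) + 1) * ((2 * k + 2).factorial * ((k : ℝ) + 1) ^ (2 * k + 3)) := by
    intro j hj
    have hj' := Finset.mem_range.1 hj
    refine mul_le_mul_of_nonneg_left ?_ (by positivity)
    rw [div_eq_mul_inv]
    have h1 : ((2 * l + 2 + 2 * j).factorial : ℝ) ≤ ((2 * k + 2).factorial : ℝ) := by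
      exact_mod_cast Nat.factorial_le (by omega)
    have h2 : ((2 * kap k) ^ (2 * l + 2 + 2 * j + 1))⁻¹ ≤ ((k : ℝ) + 1) ^ (2 * k + 3) := by
      rw [← inv_pow]
      have h3 : (2 * kap k)⁻¹ ≤ (k : ℝ) + 1 := by
        unfold kap
        rw [mul_one_div, inv_div]
        have : (0 : ℝ) ≤ k := Nat.cast_nonneg k
        linarith only []
      have h4 : 0 ≤ (2 * kap k)⁻¹ := by (clear * - hk; positivity)
      have h5 : (1 : ℝ) ≤ (k : ℝ) + 1 := by
        have : (0 : ℝ) ≤ k := Nat.cast_nonneg k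
        linarith only []
      exact (pow_le_pow_left₀ h4 h3 _).trans (pow_le_pow_right₀ h5 (by omega))
    exact mul_le_mul h1 h2 (by positivity) (by positivity)
  refine (Finset.sum_le_sum hterm).trans ?_
  rw [Finset.sum_const, Finset.card_range, nsmul_eq_mul, pow_two, mul_assoc]
  refine mul_le_mul_of_nonneg_right ?_ (by (clear * -; positivity))
  have : k + 1 - l ≤ k + 1 := Nat.sub_le _ _
  exact_mod_cast this

theorem nat_bound (n : ℕ) (hn : 1 ≤ n) :
    32 * n ^ 4 * ((2 * n) ^ (2 * n) * n ^ (2 * n + 1)) ≤ 2 ^ (16 * n ^ 2) := by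
  have h1 : n ≤ 2 ^ n := Nat.lt_two_pow_self.le
  calc 32 * n ^ 4 * ((2 * n) ^ (2 * n) * n ^ (2 * n + 1))
      ≤ 2 ^ 5 * (2 ^ n) ^ 4 * ((2 * 2 ^ n) ^ (2 * n) * (2 ^ n) ^ (2 * n + 1)) := by
        gcongr
        norm_num
    _ = 2 ^ (5 + n * 4 + ((n + 1) * (2 * n) + n * (2 * n + 1))) := by
        have e1 : (2 * 2 ^ n) ^ (2 * n) = 2 ^ ((n + 1) * (2 * n)) := by
          rw [← pow_succ', ← pow_mul]
        have e2 : (2 ^ n) ^ (2 * n + 1) = 2 ^ (n * (2 * n + 1)) := by
          rw [← pow_mul]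
        have e3 : (2 ^ n) ^ 4 = 2 ^ (n * 4) := by
          rw [← pow_mul]
        rw [e1, e2, e3, ← pow_add, ← pow_add, ← pow_add]
    _ ≤ 2 ^ (16 * n ^ 2) := by
        apply Nat.pow_le_pow_right (by norm_num)
        nlinarith

theorem beta_div_radN {k l : ℕ} (hl : l < k) {ρ : ℝ} (hρ : 0 < ρ)
    (hρ2 : ρ ≤ 1 / 2 ^ (8 * (k + 1) ^ 2)) :
    2 * (ρ ^ (2 * k) / 2 ^ (16 * (k + 1) ^ 2)) ≤ beta ρ k l / radN k l := by
  obtain ⟨n, hn⟩ : ∃ n, n = k + 1 := ⟨_, rfl⟩
  have hρ8 : ρ ≤ 1 / 8 := by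
    refine hρ2.trans ?_
    apply one_div_le_one_div_of_le (by norm_num)
    calc (8 : ℝ) = 2 ^ 3 := by norm_num
      _ ≤ 2 ^ (8 * (k + 1) ^ 2) := pow_le_pow_right₀ (by norm_num) (by (clear * - hl; nlinarith))
  have h1 := integral_Vr_lower hl.le hρ hρ8
  have h2 := radN_le hl.le
  have h3 := radN_pos hl.le
  rw [le_div_iff₀ h3]
  refine le_trans ?_ h1
  have hnb := nat_bound n (by (clear * - hn; omega))
  have hfac : ((2 * k + 2).factorial : ℝ) ≤ (2 * (n : ℝ)) ^ (2 * n) := by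
    have h4 := Nat.factorial_le_pow (2 * k + 2)
    have h5 : 2 * k + 2 = 2 * n := by omega
    rw [h5] at h4
    rw [h5]
    exact_mod_cast h4
  have hkn : (k : ℝ) + 1 = n := by
    rw [hn]
    push_cast
    ring
  rw [hkn] at h2
  have h6 : radN k l ≤ (n : ℝ) ^ 2 * ((2 * (n : ℝ)) ^ (2 * n) * (n : ℝ) ^ (2 * n + 1)) := by
    refine h2.trans ?_
    have h7 : 2 * k + 3 = 2 * n + 1 := by omega
    rw [h7]
    gcongr
  have h8 : ρ ^ (2 * k) ≤ ρ ^ (2 * l + 2) :=
    pow_le_pow_of_le_one hρ.le (by linarith only [hρ8]) (by (clear * - hl hn; omega))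
  have h9 : ((2 * (l : ℝ) + 2) * (2 * l + 3)) ≤ 4 * (n : ℝ) ^ 2 := by
    have : (l : ℝ) + 1 + 1 ≤ n := by
      rw [hn]
      exact_mod_cast (by omega : l + 1 + 1 ≤ k + 1)
    have hl0 : (0 : ℝ) ≤ l := Nat.cast_nonneg l
    nlinarith only [this]
  have hn0 : (0 : ℝ) < n := by
    rw [hn]
    positivity
  calc 2 * (ρ ^ (2 * k) / 2 ^ (16 * (k + 1) ^ 2)) * radN k l
      ≤ 2 * (ρ ^ (2 * k) / 2 ^ (16 * (k + 1) ^ 2)) *
        ((n : ℝ) ^ 2 * ((2 * (n : ℝ)) ^ (2 * n) * (n : ℝ) ^ (2 * n + 1))) := by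
        gcongr
    _ ≤ 1 / 4 * (ρ ^ (2 * k) / (4 * (n : ℝ) ^ 2)) := by
        rw [← hn]
        have h10 : (32 : ℝ) * (n : ℝ) ^ 4 * ((2 * (n : ℝ)) ^ (2 * n) * (n : ℝ) ^ (2 * n + 1))
            ≤ 2 ^ (16 * n ^ 2) := by exact_mod_cast hnb
        have h11 : 2 * (ρ ^ (2 * k) / 2 ^ (16 * n ^ 2)) *
            ((n : ℝ) ^ 2 * ((2 * (n : ℝ)) ^ (2 * n) * (n : ℝ) ^ (2 * n + 1)))
            = (1 / 16 * (ρ ^ (2 * k) / (n : ℝ) ^ 2)) *
              ((32 : ℝ) * (n : ℝ) ^ 4 * ((2 * (n : ℝ)) ^ (2 * n) * (n : ℝ) ^ (2 * n + 1))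
                / 2 ^ (16 * n ^ 2)) := by
          field_simp
          ring
        rw [h11]
        have h12 : (32 : ℝ) * (n : ℝ) ^ 4 * ((2 * (n : ℝ)) ^ (2 * n) * (n : ℝ) ^ (2 * n + 1))
                / 2 ^ (16 * n ^ 2) ≤ 1 := by
          rw [div_le_one (by positivity)]
          exact h10
        calc _ ≤ (1 / 16 * (ρ ^ (2 * k) / (n : ℝ) ^ 2)) * 1 :=
              mul_le_mul_of_nonneg_left h12 (by positivity)
          _ = _ := by
              field_simp
              ring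
    _ ≤ 1 / 4 * (ρ ^ (2 * l + 2) / ((2 * l + 2) * (2 * l + 3))) := by
        (clear * - hρ h8 h9; gcongr)

end Vale.Agent.P370.Hyd
end
end

section

section

/-!
Couplings of the Heisenberg model: the real numbers which the integers approximate.
-/

namespace Vale.Agent.P370.H

/-- `mm` (spins `4 b + g`) approximates the couplings of the circuit -/
def CloseW (N m : ℕ) (rs : List Rnd) (mm : ℕ → ℕ → ℕ) : Prop :=
  ∀ p q : Fin (N + tc rs.length) × Fin 4, p ≠ q →
    |(mm (4 * (p.1 : ℕ) + (p.2 : ℕ)) (4 * (q.1 : ℕ) + (q.2 : ℕ)) : ℝ) -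
      jw ((rr N rs.length : ℝ) ^ 100)
        (tR ((rr N rs.length : ℝ) ^ 66) (ham N m rs (1 : ℝ) trR))
        (dR ((rr N rs.length : ℝ) ^ 66) ((rr N rs.length : ℝ) ^ 100) (ham N m rs (1 : ℝ) trR))
        p q| ≤ 3

/-- minus the middle of the energies of yes and no instances -/
noncomputable def midA (N m : ℕ) (rs : List Rnd) : ℝ :=
  6 * (rr N rs.length : ℝ) ^ 1000 * ((N + tc rs.length : ℕ) : ℝ) +
    3 / 16 * ((rr N rs.length : ℝ) ^ 400 + (rr N rs.length : ℝ) ^ 300) *
      ((N + tc rs.length : ℕ) : ℝ) * (((N + tc rs.length : ℕ) : ℝ) - 1) -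
    (rr N rs.length : ℝ) ^ 234 / 6 *
      (11 / (18 * ((rs.length : ℝ) + 1)) - co0 (ham N m rs (1 : ℝ) trR))

end Vale.Agent.P370.H
end
end

section

section
set_option linter.all false

/-!
The integers approximate the real couplings (H10).
-/

namespace Vale.Agent.P370.H

/-! ### square roots -/

theorem apx_sqrt (B : ℕ) (Y : ℝ) (hY : 0 ≤ Y) (h : |(B : ℝ) - Y| ≤ 2) :
    |(Nat.sqrt B : ℝ) - √Y| ≤ 3 := by
  have h1 : (Nat.sqrt B : ℝ) ^ 2 ≤ B := by exact_mod_cast Nat.sqrt_le' B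
  have h2 : (B : ℝ) + 1 ≤ ((Nat.sqrt B : ℝ) + 1) ^ 2 := by
    exact_mod_cast Nat.succ_le_succ_sqrt' B
  obtain ⟨h3, h4⟩ := abs_le.1 h
  have h5 : (0 : ℝ) ≤ Nat.sqrt B := Nat.cast_nonneg _
  rw [abs_le]
  constructor
  · have : √Y ≤ (Nat.sqrt B : ℝ) + 3 := by
      rw [Real.sqrt_le_left (by (clear * -; positivity))]
      linarith
    linarith only [this]
  · have : (Nat.sqrt B : ℝ) - 3 ≤ √Y := by
      by_cases h6 : (Nat.sqrt B : ℝ) ≤ 3
      · linarith only [h6, Real.sqrt_nonneg Y]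
      · apply Real.le_sqrt_of_sq_le
        linarith only [h1, h4, h6]
    linarith only [this]

theorem apx_div4 (X : ℕ) : |((X / 4 : ℕ) : ℝ) - (X : ℝ) / 4| ≤ 1 := by
  have h1 : (((X / 4 : ℕ) : ℝ)) * 4 ≤ X := by exact_mod_cast Nat.div_mul_le_self X 4
  have h2 : (X : ℝ) ≤ ((X / 4 : ℕ) : ℝ) * 4 + 4 := by
    have : X ≤ (X / 4) * 4 + 4 := by (clear * -; omega)
    exact_mod_cast this
  rw [abs_le]
  constructor <;> linarith only [h1, h2]

theorem apx_div2 (X : ℕ) : |((X / 2 : ℕ) : ℝ) - (X : ℝ) / 2| ≤ 1 := by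
  have h1 : (((X / 2 : ℕ) : ℝ)) * 2 ≤ X := by exact_mod_cast Nat.div_mul_le_self X 2
  have h2 : (X : ℝ) ≤ ((X / 2 : ℕ) : ℝ) * 2 + 2 := by
    have : X ≤ (X / 2) * 2 + 2 := by omega
    exact_mod_cast this
  rw [abs_le]
  constructor <;> linarith

theorem apx_s2 (u : ℕ) : |(Nat.sqrt (2 * u ^ 4) : ℝ) - √2 * (u : ℝ) ^ 2| ≤ 3 := by
  have h := apx_sqrt (2 * u ^ 4) (2 * (u : ℝ) ^ 4) (by positivity) (by push_cast; simp)
  have h2 : √(2 * (u : ℝ) ^ 4) = √2 * (u : ℝ) ^ 2 := by
    rw [Real.sqrt_mul (by norm_num), show (u : ℝ) ^ 4 = ((u : ℝ) ^ 2) ^ 2 by ring,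
      Real.sqrt_sq (by (clear * -; positivity))]
  rwa [h2] at h

theorem apx_s2_le (u : ℕ) : Nat.sqrt (2 * u ^ 4) ≤ 2 * u ^ 2 := by
  have : 2 * u ^ 4 ≤ (2 * u ^ 2) ^ 2 := by
    have : 0 ≤ u ^ 4 := Nat.zero_le _
    linarith
  calc Nat.sqrt (2 * u ^ 4) ≤ Nat.sqrt ((2 * u ^ 2) ^ 2) := Nat.sqrt_le_sqrt this
    _ = 2 * u ^ 2 := Nat.sqrt_eq' _

theorem apx_cos (u : ℕ) :
    |(Nat.sqrt ((2 * u ^ 2 + Nat.sqrt (2 * u ^ 4)) / 4) : ℝ) - (u : ℝ) * Real.cos (Real.pi / 8)|
      ≤ 3 := by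
  have h0 := abs_le.1 (apx_s2 u)
  have h1 := abs_le.1 (apx_div4 (2 * u ^ 2 + Nat.sqrt (2 * u ^ 4)))
  push_cast at h1
  have h2 : (0 : ℝ) ≤ 2 + √2 := by positivity
  have h := apx_sqrt ((2 * u ^ 2 + Nat.sqrt (2 * u ^ 4)) / 4) ((2 + √2) * ((u : ℝ) / 2) ^ 2)
    (by (clear * -; (clear * -; positivity))) (by rw [abs_le]; constructor <;> linarith)
  rw [Real.sqrt_mul h2, Real.sqrt_sq (by (clear * -; positivity))] at h
  rw [Real.cos_pi_div_eight]
  rwa [show (u : ℝ) * (√(2 + √2) / 2) = √(2 + √2) * ((u : ℝ) / 2) by ring]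

theorem apx_sin (u : ℕ) :
    |(Nat.sqrt ((2 * u ^ 2 - Nat.sqrt (2 * u ^ 4)) / 4) : ℝ) - (u : ℝ) * Real.sin (Real.pi / 8)|
      ≤ 3 := by
  have h0 := abs_le.1 (apx_s2 u)
  have h1 := abs_le.1 (apx_div4 (2 * u ^ 2 - Nat.sqrt (2 * u ^ 4)))
  rw [Nat.cast_sub (apx_s2_le u)] at h1
  push_cast at h1
  have h3 : √2 ≤ 2 := by
    rw [Real.sqrt_le_left (by norm_num)]; norm_num
  have h2 : (0 : ℝ) ≤ 2 - √2 := by linarith only [h3]
  have h := apx_sqrt ((2 * u ^ 2 - Nat.sqrt (2 * u ^ 4)) / 4) ((2 - √2) * ((u : ℝ) / 2) ^ 2)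
    (by (clear * - h3; (clear * - h3; positivity))) (by rw [abs_le]; constructor <;> linarith)
  rw [Real.sqrt_mul h2, Real.sqrt_sq (by (clear * -; positivity))] at h
  rw [Real.sin_pi_div_eight]
  rwa [show (u : ℝ) * (√(2 - √2) / 2) = √(2 - √2) * ((u : ℝ) / 2) by ring]

theorem apx_half (u : ℕ) : |(Nat.sqrt (u ^ 2 / 2) : ℝ) - (u : ℝ) * (√2 / 2)| ≤ 3 := by
  have h1 := abs_le.1 (apx_div2 (u ^ 2))
  push_cast at h1
  have h := apx_sqrt (u ^ 2 / 2) (2 * ((u : ℝ) / 2) ^ 2)
    (by (clear * -; positivity)) (by rw [abs_le]; constructor <;> linarith)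
  rw [Real.sqrt_mul (by norm_num), Real.sqrt_sq (by (clear * -; positivity))] at h
  rwa [show (u : ℝ) * (√2 / 2) = √2 * ((u : ℝ) / 2) by ring]

theorem apx_tr (u a : ℕ) : |((trI u a).1 : ℝ) - (u : ℝ) * (trR a).1| ≤ 3 ∧
    |((trI u a).2 : ℝ) - (u : ℝ) * (trR a).2| ≤ 3 := by
  unfold trI trR ang
  by_cases h : a = 1
  · rw [if_pos h, if_pos h]
    exact ⟨by simpa only [Int.cast_natCast, Real.cos_pi_div_eight] using apx_cos u, by simpa only [Int.cast_natCast, Real.sin_pi_div_eight] using apx_sin u⟩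
  · rw [if_neg h, if_neg h]
    simp only [Real.cos_pi_div_four, Real.sin_pi_div_four]
    exact ⟨by simpa only [Int.cast_natCast] using apx_half u, by simpa only [Int.cast_natCast] using apx_half u⟩

theorem apx_trZ (a : ℕ) : |(((0 : ℤ)) : ℝ) - ((1 : ℤ) : ℝ) * (trR a).1| ≤ 3 ∧
    |(((0 : ℤ)) : ℝ) - ((1 : ℤ) : ℝ) * (trR a).2| ≤ 3 := by
  unfold trR
  have h1 := Real.abs_cos_le_one (ang a)
  have h2 := Real.abs_sin_le_one (ang a)
  constructor
  · simp only [Int.cast_zero, Int.cast_one, one_mul, zero_sub, abs_neg]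
    (clear * - h1; linarith)
  · simp only [Int.cast_zero, Int.cast_one, one_mul, zero_sub, abs_neg]
    linarith only [h2]

/-! ### the coordinates of the Pauli operators -/

theorem apx_s3 (u : ℕ) : |(Nat.sqrt (3 * u ^ 2) : ℝ) - 3 * (u : ℝ) * (1 / √3)| ≤ 3 := by
  have h := apx_sqrt (3 * u ^ 2) (3 * (u : ℝ) ^ 2) (by (clear * -; positivity)) (by push_cast; simp only [sub_self, abs_zero, Nat.ofNat_nonneg])
  have h3 : √3 * √3 = 3 := Real.mul_self_sqrt (by norm_num)
  have h4 : √3 ≠ 0 := by positivity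
  have h2 : √(3 * (u : ℝ) ^ 2) = 3 * (u : ℝ) * (1 / √3) := by
    rw [Real.sqrt_mul (by norm_num), Real.sqrt_sq (by (clear * -; (clear * -; positivity)))]
    field_simp
    linear_combination (u : ℝ) * h3
  rwa [h2] at h

theorem apx_s3_le (u : ℕ) : Nat.sqrt (3 * u ^ 2) ≤ 2 * u := by
  have : 3 * u ^ 2 ≤ (2 * u) ^ 2 := by
    have : 0 ≤ u ^ 2 := Nat.zero_le _
    nlinarith
  calc Nat.sqrt (3 * u ^ 2) ≤ Nat.sqrt ((2 * u) ^ 2) := Nat.sqrt_le_sqrt this
    _ = 2 * u := Nat.sqrt_eq' _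

theorem apx_inv3 : 1 / √3 ≤ 2 / 3 := by
  have h : (3 : ℝ) / 2 ≤ √3 := by
    apply Real.le_sqrt_of_sq_le; (clear * -; norm_num)
  rw [div_le_div_iff₀ (by positivity) (by (clear * -; norm_num))]
  linarith only [h]

theorem apx_pvR_abs (P a : ℕ) : |pvR P a| ≤ 2 / 3 := by
  have h := apx_inv3
  have h0 : 0 ≤ 1 / √3 := by (clear * -; positivity)
  unfold pvR
  split_ifs <;> rw [abs_le] <;> constructor <;> linarith

theorem apx_pvI_abs (u P a : ℕ) : |(pvI u P a : ℝ)| ≤ 2 * u := by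
  have h : (Nat.sqrt (3 * u ^ 2) : ℝ) ≤ 2 * u := by exact_mod_cast apx_s3_le u
  have h0 : (0 : ℝ) ≤ (Nat.sqrt (3 * u ^ 2) : ℝ) := Nat.cast_nonneg _
  have hu : (0 : ℝ) ≤ (u : ℝ) := Nat.cast_nonneg _
  unfold pvI
  split_ifs <;> rw [abs_le] <;> push_cast <;> constructor <;> linarith

theorem apx_pv (u P a : ℕ) : |(pvI u P a : ℝ) - 3 * u * pvR P a| ≤ 3 := by
  have h := apx_s3 u
  obtain ⟨h1, h2⟩ := abs_le.1 h
  unfold pvI pvR
  split_ifs <;> rw [abs_le] <;> push_cast <;> constructor <;> linarith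


/-! ### the relation between the two Hamiltonians -/

/-- relation of a term with integer coefficient (unit `u`, error `K`) and a real term -/
def apxG (u K : ℝ) (x : Tm ℤ) (y : Tm ℝ) : Prop :=
  x.P = y.P ∧ x.i = y.i ∧ x.Q = y.Q ∧ x.j = y.j ∧ |(x.c : ℝ) - u * y.c| ≤ K ∧
    (x.P = 0 → (x.c : ℝ) = u * y.c ∧ 0 ≤ x.c)

theorem apx_gE {u K : ℝ} (hK : 0 ≤ K) {c : ℤ} {c' : ℝ} (P i Q j : ℕ) (hc : (c : ℝ) = u * c')
    (h0 : P = 0 → 0 ≤ c) : apxG u K ⟨c, P, i, Q, j⟩ ⟨c', P, i, Q, j⟩ := by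
  refine ⟨rfl, rfl, rfl, rfl, ?_, fun h => ⟨hc, h0 h⟩⟩
  simp only [hc, sub_self, abs_zero]
  exact hK

theorem apx_flatMap {α β γ : Type} {ρ : β → γ → Prop} (l : List α) (f : α → List β)
    (g : α → List γ) (h : ∀ a, List.Forall₂ ρ (f a) (g a)) :
    List.Forall₂ ρ (l.flatMap f) (l.flatMap g) := by
  induction l with
  | nil => simp only [List.flatMap_nil]; exact List.Forall₂.nil
  | cons a l ih =>
    simp only [List.flatMap_cons]
    exact List.rel_append (h a) ih

theorem apx_projT {u K : ℝ} (hK : 0 ≤ K) (N Tc : ℕ) {c : ℤ} {c' : ℝ} (hc : (c : ℝ) = u * c')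
    (h0 : 0 ≤ c) (t : ℕ) : List.Forall₂ (apxG u K) (projT N Tc c t) (projT N Tc c' t) := by
  have hn : ((-c : ℤ) : ℝ) = u * (-c') := by push_cast; rw [hc]; ring
  unfold projT
  split_ifs
  · exact .cons (apx_gE hK _ _ _ _ hc fun _ => h0) (.cons (apx_gE hK _ _ _ _ hc (by simp only [OfNat.ofNat_ne_zero, IsEmpty.forall_iff])) .nil)
  · exact .cons (apx_gE hK _ _ _ _ hc fun _ => h0) (.cons (apx_gE hK _ _ _ _ hn (by simp only [OfNat.ofNat_ne_zero, Int.neg_nonneg, IsEmpty.forall_iff])) .nil)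
  · exact .cons (apx_gE hK _ _ _ _ hc (by simp only [OfNat.ofNat_ne_zero, IsEmpty.forall_iff])) (.cons (apx_gE hK _ _ _ _ hn (by simp only [OfNat.ofNat_ne_zero, Int.neg_nonneg, IsEmpty.forall_iff])) .nil)

theorem apx_hClock {u K : ℝ} (hK : 0 ≤ K) (N Tc : ℕ) {J : ℤ} {J' : ℝ} (hJ : (J : ℝ) = u * J')
    (h0 : 0 ≤ J) : List.Forall₂ (apxG u K) (hClock N Tc J) (hClock N Tc J') := by
  have h1 : ((2 * J : ℤ) : ℝ) = u * (2 * J') := by push_cast; rw [hJ]; ring
  have h2 : ((-(2 * J) : ℤ) : ℝ) = u * (-(2 * J')) := by push_cast; rw [hJ]; ring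
  unfold hClock
  apply apx_flatMap
  intro t
  exact .cons (apx_gE hK _ _ _ _ h1 fun _ => by linarith only [h0]) (.cons (apx_gE hK _ _ _ _ h1 (by simp only [OfNat.ofNat_ne_zero, Order.lt_two_iff, zero_le_one, mul_nonneg_iff_of_pos_left, IsEmpty.forall_iff]))
    (.cons (apx_gE hK _ _ _ _ h2 (by simp only [OfNat.ofNat_ne_zero, Int.neg_nonneg, IsEmpty.forall_iff])) (.cons (apx_gE hK _ _ _ _ h2 (by simp only [OfNat.ofNat_ne_zero, Int.neg_nonneg, IsEmpty.forall_iff])) .nil)))

theorem apx_hIn {u K : ℝ} (hK : 0 ≤ K) (N m : ℕ) {J : ℤ} {J' : ℝ} (hJ : (J : ℝ) = u * J')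
    (h0 : 0 ≤ J) : List.Forall₂ (apxG u K) (hIn N m J) (hIn N m J') := by
  have h1 : ((2 * J : ℤ) : ℝ) = u * (2 * J') := by push_cast; rw [hJ]; ring
  have h2 : ((-(2 * J) : ℤ) : ℝ) = u * (-(2 * J')) := by push_cast; rw [hJ]; ring
  unfold hIn
  apply apx_flatMap
  intro t
  exact .cons (apx_gE hK _ _ _ _ h1 fun _ => by linarith only [h0]) (.cons (apx_gE hK _ _ _ _ h2 (by simp only [OfNat.ofNat_ne_zero, Int.neg_nonneg, IsEmpty.forall_iff]))
    (.cons (apx_gE hK _ _ _ _ h1 (by simp only [OfNat.ofNat_ne_zero, Order.lt_two_iff, zero_le_one, mul_nonneg_iff_of_pos_left, IsEmpty.forall_iff])) (.cons (apx_gE hK _ _ _ _ h2 (by simp only [OfNat.ofNat_ne_zero, Int.neg_nonneg, IsEmpty.forall_iff])) .nil)))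

theorem apx_hOut {u K : ℝ} (hK : 0 ≤ K) (N Tc : ℕ) {J : ℤ} {J' : ℝ} (hJ : (J : ℝ) = u * J')
    (h0 : 0 ≤ J) : List.Forall₂ (apxG u K) (hOut N Tc J) (hOut N Tc J') := by
  have h1 : ((2 * J : ℤ) : ℝ) = u * (2 * J') := by push_cast; rw [hJ]; ring
  have h2 : ((-(2 * J) : ℤ) : ℝ) = u * (-(2 * J')) := by push_cast; rw [hJ]; ring
  unfold hOut
  exact .cons (apx_gE hK _ _ _ _ h1 fun _ => by linarith only [h0]) (.cons (apx_gE hK _ _ _ _ h1 (by simp only [OfNat.ofNat_ne_zero, Order.lt_two_iff, zero_le_one, mul_nonneg_iff_of_pos_left, IsEmpty.forall_iff]))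
    (.cons (apx_gE hK _ _ _ _ h2 (by simp only [OfNat.ofNat_ne_zero, Int.neg_nonneg, IsEmpty.forall_iff])) (.cons (apx_gE hK _ _ _ _ h2 (by simp only [OfNat.ofNat_ne_zero, Int.neg_nonneg, IsEmpty.forall_iff])) .nil)))

theorem apx_hCz {u K : ℝ} (hK : 0 ≤ K) (N : ℕ) (rs : List Rnd) {J : ℤ} {J' : ℝ}
    (hJ : (J : ℝ) = u * J') (h0 : 0 ≤ J) :
    List.Forall₂ (apxG u K) (hCz N rs J) (hCz N rs J') := by
  have h1 : ((-(4 * J) : ℤ) : ℝ) = u * (-(4 * J')) := by push_cast; rw [hJ]; ring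
  have h2 : ((-(6 * J) : ℤ) : ℝ) = u * (-(6 * J')) := by push_cast; rw [hJ]; ring
  have h3 : ((2 * J : ℤ) : ℝ) = u * (2 * J') := by push_cast; rw [hJ]; ring
  have h4 : ((4 * J : ℤ) : ℝ) = u * (4 * J') := by push_cast; rw [hJ]; ring
  have h5 : (0 : ℤ) ≤ 4 * J := by linarith only [h0]
  unfold hCz
  apply apx_flatMap
  intro l
  refine List.rel_append (List.rel_append (List.rel_append ?_ ?_) ?_) ?_
  · exact .cons (apx_gE hK _ _ _ _ h1 (by simp only [one_ne_zero, Int.neg_nonneg, IsEmpty.forall_iff])) (.cons (apx_gE hK _ _ _ _ h2 (by simp only [OfNat.ofNat_ne_zero, Int.neg_nonneg, IsEmpty.forall_iff]))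
      (.cons (apx_gE hK _ _ _ _ h2 (by simp only [OfNat.ofNat_ne_zero, Int.neg_nonneg, IsEmpty.forall_iff])) .nil))
  · exact apx_projT hK _ _ h4 h5 _
  · exact apx_projT hK _ _ h4 h5 _
  · exact .cons (apx_gE hK _ _ _ _ hJ (by simp only [one_ne_zero, IsEmpty.forall_iff])) (.cons (apx_gE hK _ _ _ _ hJ (by simp only [one_ne_zero, IsEmpty.forall_iff]))
      (.cons (apx_gE hK _ _ _ _ h3 (by simp)) (.cons (apx_gE hK _ _ _ _ hJ (by simp only [one_ne_zero, IsEmpty.forall_iff]))
      (.cons (apx_gE hK _ _ _ _ hJ (by simp only [one_ne_zero, IsEmpty.forall_iff])) (.cons (apx_gE hK _ _ _ _ h3 (by simp only [one_ne_zero, Order.lt_two_iff, zero_le_one, mul_nonneg_iff_of_pos_left, IsEmpty.forall_iff])) .nil)))))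

theorem apx_fineG (rs : List Rnd) (w : ℤ) (tr : ℕ → ℤ × ℤ)
    (htr : ∀ a, |((tr a).1 : ℝ) - (w : ℝ) * (trR a).1| ≤ 3 ∧
      |((tr a).2 : ℝ) - (w : ℝ) * (trR a).2| ≤ 3) (t : ℕ) :
    List.Forall₂ (fun (g : ℤ × ℕ × ℕ) (g' : ℝ × ℕ × ℕ) =>
      g.2 = g'.2 ∧ |(g.1 : ℝ) - (w : ℝ) * g'.1| ≤ 3) (fineG rs w tr t)
      (fineG rs (1 : ℝ) trR t) := by
  have hw : |((w : ℤ) : ℝ) - (w : ℝ) * 1| ≤ 3 := by
    rw [mul_one, sub_self, abs_zero]; norm_num
  have ite' : ∀ {c : Prop} [Decidable c] {a b : List (ℤ × ℕ × ℕ)} {a' b' : List (ℝ × ℕ × ℕ)},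
      List.Forall₂ (fun (g : ℤ × ℕ × ℕ) (g' : ℝ × ℕ × ℕ) =>
        g.2 = g'.2 ∧ |(g.1 : ℝ) - (w : ℝ) * g'.1| ≤ 3) a a' →
      List.Forall₂ (fun (g : ℤ × ℕ × ℕ) (g' : ℝ × ℕ × ℕ) =>
        g.2 = g'.2 ∧ |(g.1 : ℝ) - (w : ℝ) * g'.1| ≤ 3) b b' →
      List.Forall₂ (fun (g : ℤ × ℕ × ℕ) (g' : ℝ × ℕ × ℕ) =>
        g.2 = g'.2 ∧ |(g.1 : ℝ) - (w : ℝ) * g'.1| ≤ 3) (if c then a else b) (if c then a' else b') := by
    intro c _ a b a' b' h1 h2
    by_cases hc : c
    · rw [if_pos hc, if_pos hc]; exact h1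
    · rw [if_neg hc, if_neg hc]; exact h2
  have one : ∀ p : ℕ × ℕ, List.Forall₂ (fun (g : ℤ × ℕ × ℕ) (g' : ℝ × ℕ × ℕ) =>
      g.2 = g'.2 ∧ |(g.1 : ℝ) - (w : ℝ) * g'.1| ≤ 3) [(w, p)] [((1 : ℝ), p)] :=
    fun p => .cons ⟨rfl, hw⟩ .nil
  unfold fineG
  exact ite' (ite' (one _) (one _)) (ite' (ite' (one _) (one _)) (ite' (ite'
    (.cons ⟨rfl, (htr _).1⟩ (.cons ⟨rfl, (htr _).2⟩ .nil)) (one _))
    (ite' (ite' (one _) (one _)) (ite' (one _) (one _)))))

theorem apx_hFine (N : ℕ) (rs : List Rnd) (w : ℤ) (hw : 0 ≤ w) (tr : ℕ → ℤ × ℤ)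
    (htr : ∀ a, |((tr a).1 : ℝ) - (w : ℝ) * (trR a).1| ≤ 3 ∧
      |((tr a).2 : ℝ) - (w : ℝ) * (trR a).2| ≤ 3) (J : ℕ) :
    List.Forall₂ (apxG w (12 * J)) (hFine N rs w tr (J : ℤ)) (hFine N rs (1 : ℝ) trR (J : ℝ)) := by
  have hJ : (0 : ℝ) ≤ (J : ℝ) := Nat.cast_nonneg _
  have hK : (0 : ℝ) ≤ 12 * (J : ℝ) := by (clear * -; positivity)
  have h1 : ((2 * (J : ℤ) * w : ℤ) : ℝ) = (w : ℝ) * (2 * (J : ℝ) * 1) := by push_cast; ring
  have h2 : 0 ≤ 2 * (J : ℤ) * w := by (clear * - hw; (clear * - hw; positivity))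
  unfold hFine
  apply apx_flatMap
  intro t
  split_ifs with h3
  · exact .nil
  · refine List.rel_append (List.rel_append (apx_projT hK _ _ h1 h2 _)
      (apx_projT hK _ _ h1 h2 _)) ?_
    rw [List.forall₂_map_left_iff, List.forall₂_map_right_iff]
    refine List.Forall₂.imp ?_ (apx_fineG rs w tr htr (t + 1))
    rintro ⟨g, P, i⟩ ⟨g', P', i'⟩ ⟨hg1, hg2⟩
    obtain ⟨rfl, rfl⟩ := Prod.mk.inj hg1
    have h4 : |((-(4 * (J : ℤ) * g) : ℤ) : ℝ) - (w : ℝ) * (-(4 * (J : ℝ) * g'))| ≤ 12 * J := by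
      have : ((-(4 * (J : ℤ) * g) : ℤ) : ℝ) - (w : ℝ) * (-(4 * (J : ℝ) * g')) =
          -(4 * J) * ((g : ℝ) - w * g') := by push_cast; ring
      rw [this, abs_mul, abs_neg, abs_of_nonneg (by (clear * -; (clear * -; positivity)))]
      nlinarith only [hg2]
    by_cases h5 : P = 0
    · simp only [h5, if_true]
      exact ⟨rfl, rfl, rfl, rfl, h4, fun h => absurd h one_ne_zero⟩
    · simp only [h5, if_false]
      exact ⟨rfl, rfl, rfl, rfl, h4, fun h => absurd h h5⟩

theorem apx_ham (N m : ℕ) (rs : List Rnd) (w : ℤ) (hw : 0 ≤ w) (tr : ℕ → ℤ × ℤ)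
    (htr : ∀ a, |((tr a).1 : ℝ) - (w : ℝ) * (trR a).1| ≤ 3 ∧
      |((tr a).2 : ℝ) - (w : ℝ) * (trR a).2| ≤ 3) :
    List.Forall₂ (apxG w (12 * (rr N rs.length : ℝ) ^ 24)) (ham N m rs w tr)
      (ham N m rs (1 : ℝ) trR) := by
  have hK : (0 : ℝ) ≤ 12 * (rr N rs.length : ℝ) ^ 24 := by (clear * -; positivity)
  unfold ham
  refine List.rel_append (List.rel_append (List.rel_append (List.rel_append ?_ ?_) ?_) ?_) ?_
  · exact apx_hClock hK _ _ (by push_cast; ring) (by (clear * - hw; positivity))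
  · have := apx_hFine N rs w hw tr htr (rr N rs.length ^ 24)
    push_cast at this
    exact this
  · exact apx_hCz hK _ _ (by push_cast; ring) (by (clear * - hw; positivity))
  · exact apx_hIn hK _ _ (by push_cast; ring) (by (clear * - hw; positivity))
  · exact apx_hOut hK _ _ (by push_cast; ring) (by positivity)

/-! ### the number of terms -/

theorem apx_len_flatMap {α β : Type} (l : List α) (f : α → List β) (k : ℕ)
    (h : ∀ a, (f a).length ≤ k) : (l.flatMap f).length ≤ l.length * k := by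
  induction l with
  | nil => simp
  | cons a l ih =>
    simp only [List.flatMap_cons, List.length_append, List.length_cons]
    have := h a
    linarith only [ih, this]

theorem apx_len_projT {R : Type} [CommRing R] (N Tc : ℕ) (c : R) (t : ℕ) :
    (projT N Tc c t).length ≤ 2 := by
  unfold projT
  split_ifs <;> simp only [List.length_cons, List.length_nil, zero_add, Nat.reduceAdd, Std.le_refl]

theorem apx_len_fineG {R : Type} [CommRing R] (rs : List Rnd) (w : R) (tr : ℕ → R × R) (t : ℕ) :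
    (fineG rs w tr t).length ≤ 2 := by
  have ite' : ∀ {c : Prop} [Decidable c] {a b : List (R × ℕ × ℕ)}, a.length ≤ 2 →
      b.length ≤ 2 → (if c then a else b).length ≤ 2 := by
    intro c _ a b h1 h2
    by_cases hc : c
    · rw [if_pos hc]; exact h1
    · rw [if_neg hc]; exact h2
  have one : ∀ x : R × ℕ × ℕ, [x].length ≤ 2 := fun x => Nat.le_succ 1
  unfold fineG
  exact ite' (ite' (one _) (one _)) (ite' (ite' (one _) (one _)) (ite' (ite'
    (le_refl 2) (one _)) (ite' (ite' (one _) (one _)) (ite' (one _) (one _)))))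

theorem apx_len {R : Type} [CommRing R] (N m : ℕ) (rs : List Rnd) (w : R) (tr : ℕ → R × R) :
    (ham N m rs w tr).length ≤ 100 * rr N rs.length := by
  have h1 : (hClock N (tc rs.length) ((rr N rs.length : R) ^ 64 * w)).length ≤
      (tc rs.length - 1) * 4 := by
    unfold hClock
    refine (apx_len_flatMap _ _ 4 fun t => by simp only [List.length_cons, List.length_nil, zero_add, Nat.reduceAdd, Std.le_refl]).trans (by simp only [List.length_range, Std.le_refl])
  have h2 : (hFine N rs w tr ((rr N rs.length : R) ^ 24)).length ≤ tc rs.length * 6 := by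
    unfold hFine
    refine (apx_len_flatMap _ _ 6 fun t => ?_).trans (by simp)
    split_ifs
    · simp only [List.length_nil, zero_le]
    · simp only [List.length_append, List.length_map]
      have a1 := apx_len_projT N (tc rs.length) (2 * (rr N rs.length : R) ^ 24 * w) (t + 1)
      have a2 := apx_len_projT N (tc rs.length) (2 * (rr N rs.length : R) ^ 24 * w) t
      have a3 := apx_len_fineG rs w tr (t + 1)
      omega
  have h3 : (hCz N rs ((rr N rs.length : R) ^ 8 * w)).length ≤ rs.length * 13 := by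
    unfold hCz
    refine (apx_len_flatMap _ _ 13 fun l => ?_).trans (by simp)
    simp only [List.length_append, List.length_cons, List.length_nil]
    have a1 := apx_len_projT N (tc rs.length) (4 * ((rr N rs.length : R) ^ 8 * w)) (6 * (l + 1))
    have a2 := apx_len_projT N (tc rs.length) (4 * ((rr N rs.length : R) ^ 8 * w))
      (6 * (l + 1) - 1)
    (clear * - a1 a2; omega)
  have h4 : (hIn N m (1000 * w)).length ≤ (N - 1 - m) * 4 := by
    unfold hIn
    refine (apx_len_flatMap _ _ 4 fun t => by simp only [List.length_cons, List.length_nil, zero_add, Nat.reduceAdd, Std.le_refl]).trans (by simp only [List.length_range, Std.le_refl])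
  have h5 : (hOut N (tc rs.length) w).length = 4 := by
    unfold hOut; simp
  unfold ham
  simp only [List.length_append]
  have h6 : tc rs.length = 6 * rs.length + 5 := rfl
  have h7 : rr N rs.length = N + rs.length + 1000 := rfl
  (clear * - h1 h2 h3 h4 h5 h6 h7; omega)


/-! ### the coefficients -/

/-- generic estimate of a weighted sum -/
theorem apx_sum {u K A : ℝ} (L : List (Tm ℤ)) (L' : List (Tm ℝ))
    (h : List.Forall₂ (apxG u K) L L') (f : Tm ℤ → ℤ) (g : Tm ℝ → ℝ)
    (hfg : ∀ x y, apxG u K x y → |(f x : ℝ) - g y| ≤ A * (K + |y.c|)) :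
    |((L.map f).sum : ℝ) - (L'.map g).sum| ≤ A * (K * L.length + tabs L') := by
  unfold tabs
  induction h with
  | nil => simp
  | @cons x y L L' hxy hL ih =>
    simp only [List.map_cons, List.sum_cons, List.length_cons]
    push_cast at ih ⊢
    have h1 := abs_le.1 (hfg x y hxy)
    have h2 := abs_le.1 ih
    rw [abs_le]
    constructor
    · linarith only [h1.1, h2.1]
    · linarith only [h1.2, h2.2]

theorem apx_co2 (u : ℕ) {K : ℝ} (hu : (1 : ℝ) ≤ (u : ℝ)) (hK : 0 ≤ K) (L : List (Tm ℤ))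
    (L' : List (Tm ℝ)) (h : List.Forall₂ (apxG u K) L L') (b b' a a' : ℕ) :
    |((co2 (pvI u) L b b' a a' : ℤ) : ℝ) - 9 * (u : ℝ) ^ 3 * co2 pvR L' b b' a a'| ≤
      12 * (u : ℝ) ^ 2 * (K * L.length + tabs L') := by
  have key : ∀ (x : Tm ℤ) (y : Tm ℝ), apxG u K x y → ∀ P Q a a' : ℕ,
      |((x.c * (pvI u P a * pvI u Q a') : ℤ) : ℝ) -
        9 * (u : ℝ) ^ 3 * (y.c * (pvR P a * pvR Q a'))| ≤ 12 * (u : ℝ) ^ 2 * (K + |y.c|) := by
    intro x y hxy P Q a a'
    have hc := hxy.2.2.2.2.1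
    have p1 := apx_pv u P a
    have p2 := apx_pv u Q a'
    have q1 := apx_pvI_abs u P a
    have q2 := apx_pvI_abs u Q a'
    have r1 : |3 * (u : ℝ) * pvR P a| ≤ 2 * u := by
      rw [abs_mul, abs_of_nonneg (by (clear * - hu; positivity))]
      linarith only [mul_nonneg_of_nonpos_of_nonpos (Mathlib.Tactic.Linarith.sub_nonpos_of_le (Mathlib.Tactic.Linarith.natCast_nonneg ℝ u)) (Mathlib.Tactic.Linarith.sub_nonpos_of_le (Vale.Agent.P370.H.apx_pvR_abs P a))]
    have e1 : |(pvI u P a : ℝ) * pvI u Q a' - 3 * u * pvR P a * (3 * u * pvR Q a')| ≤ 12 * u := by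
      have : (pvI u P a : ℝ) * pvI u Q a' - 3 * u * pvR P a * (3 * u * pvR Q a') =
          ((pvI u P a : ℝ) - 3 * u * pvR P a) * pvI u Q a' +
            (3 * u * pvR P a) * ((pvI u Q a' : ℝ) - 3 * u * pvR Q a') := by ring
      rw [this]
      refine (abs_add_le _ _).trans ?_
      rw [abs_mul, abs_mul]
      have s1 : |(pvI u P a : ℝ) - 3 * u * pvR P a| * |(pvI u Q a' : ℝ)| ≤ 3 * (2 * u) :=
        mul_le_mul p1 q2 (abs_nonneg _) (by norm_num)
      have s2 : |3 * (u : ℝ) * pvR P a| * |(pvI u Q a' : ℝ) - 3 * u * pvR Q a'| ≤ (2 * u) * 3 :=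
        mul_le_mul r1 p2 (abs_nonneg _) (by (clear * - hu; positivity))
      linarith only [s1, s2]
    have e2 : |(pvI u P a : ℝ) * pvI u Q a'| ≤ 2 * u * (2 * u) := by
      rw [abs_mul]
      exact mul_le_mul q1 q2 (abs_nonneg _) (by (clear * - hu; positivity))
    have : ((x.c * (pvI u P a * pvI u Q a') : ℤ) : ℝ) -
        9 * (u : ℝ) ^ 3 * (y.c * (pvR P a * pvR Q a')) =
        ((x.c : ℝ) - u * y.c) * ((pvI u P a : ℝ) * pvI u Q a') +
          (u * y.c) * ((pvI u P a : ℝ) * pvI u Q a' - 3 * u * pvR P a * (3 * u * pvR Q a')) := by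
      push_cast; ring
    rw [this]
    refine (abs_add_le _ _).trans ?_
    rw [abs_mul ((x.c : ℝ) - u * y.c), abs_mul ((u : ℝ) * y.c), abs_mul (u : ℝ) y.c,
      abs_of_nonneg (show (0 : ℝ) ≤ (u : ℝ) by (clear * - hu; positivity))]
    have s1 : |(x.c : ℝ) - u * y.c| * |(pvI u P a : ℝ) * pvI u Q a'| ≤ K * (2 * u * (2 * u)) :=
      mul_le_mul hc e2 (abs_nonneg _) hK
    have s2 : (u : ℝ) * |y.c| *
        |(pvI u P a : ℝ) * pvI u Q a' - 3 * u * pvR P a * (3 * u * pvR Q a')| ≤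
        (u : ℝ) * |y.c| * (12 * u) :=
      mul_le_mul_of_nonneg_left e1 (by (clear * - hu; positivity))
    linarith only [s1, s2, mul_nonneg hK (sq_nonneg (u : ℝ))]
  have h9 : 9 * (u : ℝ) ^ 3 * co2 pvR L' b b' a a' =
      (L'.map fun t => 9 * (u : ℝ) ^ 3 * (if t.P = 0 ∨ t.Q = 0 then 0
        else if t.i = b ∧ t.j = b' then t.c * (pvR t.P a * pvR t.Q a')
        else if t.i = b' ∧ t.j = b then t.c * (pvR t.P a' * pvR t.Q a) else 0)).sum := by
    unfold co2
    rw [List.sum_map_mul_left]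
  rw [h9]
  unfold co2
  have h10 := apx_sum (A := 12 * (u : ℝ) ^ 2) L L' h
    (fun t => if t.P = 0 ∨ t.Q = 0 then 0
      else if t.i = b ∧ t.j = b' then t.c * (pvI u t.P a * pvI u t.Q a')
      else if t.i = b' ∧ t.j = b then t.c * (pvI u t.P a' * pvI u t.Q a) else 0)
    (fun t => 9 * (u : ℝ) ^ 3 * (if t.P = 0 ∨ t.Q = 0 then 0
        else if t.i = b ∧ t.j = b' then t.c * (pvR t.P a * pvR t.Q a')
        else if t.i = b' ∧ t.j = b then t.c * (pvR t.P a' * pvR t.Q a) else 0)) ?_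
  · exact h10
  · intro x y hxy
    have hz : |((0 : ℤ) : ℝ) - 9 * (u : ℝ) ^ 3 * 0| ≤ 12 * (u : ℝ) ^ 2 * (K + |y.c|) := by
      simp only [Int.cast_zero, mul_zero, sub_zero, abs_zero]; (clear * - hu hK; (clear * - hu hK; positivity))
    obtain ⟨hP, hi, hQ, hj, -⟩ := id hxy
    simp only [hP, hi, hQ, hj]
    split_ifs
    · exact hz
    · exact key x y hxy _ _ _ _
    · exact key x y hxy _ _ _ _
    · exact hz

theorem apx_co1 (u : ℕ) {K : ℝ} (hu : (1 : ℝ) ≤ (u : ℝ)) (hK : 0 ≤ K) (L : List (Tm ℤ))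
    (L' : List (Tm ℝ)) (h : List.Forall₂ (apxG u K) L L') (b a : ℕ) :
    |((co1 (pvI u) L b a : ℤ) : ℝ) - 3 * (u : ℝ) ^ 2 * co1 pvR L' b a| ≤
      3 * (u : ℝ) * (K * L.length + tabs L') := by
  have key : ∀ (x : Tm ℤ) (y : Tm ℝ), apxG u K x y → ∀ P a : ℕ,
      |((x.c * pvI u P a : ℤ) : ℝ) - 3 * (u : ℝ) ^ 2 * (y.c * pvR P a)| ≤
        3 * (u : ℝ) * (K + |y.c|) := by
    intro x y hxy P a
    have hc := hxy.2.2.2.2.1
    have p1 := apx_pv u P a
    have q1 := apx_pvI_abs u P a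
    have : ((x.c * pvI u P a : ℤ) : ℝ) - 3 * (u : ℝ) ^ 2 * (y.c * pvR P a) =
        ((x.c : ℝ) - u * y.c) * (pvI u P a : ℝ) +
          (u * y.c) * ((pvI u P a : ℝ) - 3 * u * pvR P a) := by
      push_cast; ring
    rw [this]
    refine (abs_add_le _ _).trans ?_
    rw [abs_mul, abs_mul, abs_mul, abs_of_nonneg (show (0 : ℝ) ≤ (u : ℝ) by (clear * - hu; positivity))]
    have s1 : |(x.c : ℝ) - u * y.c| * |(pvI u P a : ℝ)| ≤ K * (2 * u) :=
      mul_le_mul hc q1 (abs_nonneg _) hK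
    have s2 : (u : ℝ) * |y.c| * |(pvI u P a : ℝ) - 3 * u * pvR P a| ≤ (u : ℝ) * |y.c| * 3 :=
      mul_le_mul_of_nonneg_left p1 (by (clear * - hu; positivity))
    linarith only [s1, s2, mul_nonneg hK (show (0 : ℝ) ≤ (u : ℝ) by positivity)]
  have h9 : 3 * (u : ℝ) ^ 2 * co1 pvR L' b a =
      (L'.map fun t => 3 * (u : ℝ) ^ 2 *
        (if t.P ≠ 0 ∧ t.Q = 0 ∧ t.i = b then t.c * pvR t.P a else 0)).sum := by
    unfold co1
    rw [List.sum_map_mul_left]
  rw [h9]
  unfold co1
  have h10 := apx_sum (A := 3 * (u : ℝ)) L L' h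
    (fun t => if t.P ≠ 0 ∧ t.Q = 0 ∧ t.i = b then t.c * pvI u t.P a else 0)
    (fun t => 3 * (u : ℝ) ^ 2 *
        (if t.P ≠ 0 ∧ t.Q = 0 ∧ t.i = b then t.c * pvR t.P a else 0)) ?_
  · exact h10
  · intro x y hxy
    have hz : |((0 : ℤ) : ℝ) - 3 * (u : ℝ) ^ 2 * 0| ≤ 3 * (u : ℝ) * (K + |y.c|) := by
      simp only [Int.cast_zero, mul_zero, sub_zero, abs_zero]; (clear * - hu hK; (clear * - hu hK; positivity))
    obtain ⟨hP, hi, hQ, hj, -⟩ := id hxy
    simp only [hP, hi, hQ, hj]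
    split_ifs
    · exact key x y hxy _ _
    · exact hz

theorem apx_co2_abs (L : List (Tm ℝ)) (b b' a a' : ℕ) : |co2 pvR L b b' a a'| ≤ tabs L := by
  unfold co2 tabs
  induction L with
  | nil => simp
  | cons y L ih =>
    simp only [List.map_cons, List.sum_cons]
    refine (abs_add_le _ _).trans (add_le_add ?_ ih)
    have key : ∀ P Q a a' : ℕ, |y.c * (pvR P a * pvR Q a')| ≤ |y.c| := by
      intro P Q a a'
      rw [abs_mul, abs_mul]
      have h1 := apx_pvR_abs P a
      have h2 := apx_pvR_abs Q a'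
      have h3 : |pvR P a| * |pvR Q a'| ≤ 1 := by
        linarith only [mul_nonneg_of_nonpos_of_nonpos (Mathlib.Tactic.Linarith.sub_nonpos_of_le h1) (Mathlib.Tactic.Linarith.sub_nonpos_of_le (abs_nonneg (Vale.Agent.P370.H.pvR Q a'))), h2]
      nlinarith only [h3, abs_nonneg y.c]
    split_ifs
    · simp only [abs_zero, abs_nonneg]
    · exact key _ _ _ _
    · exact key _ _ _ _
    · simp only [abs_zero, abs_nonneg]

theorem apx_co1_abs (L : List (Tm ℝ)) (b a : ℕ) : |co1 pvR L b a| ≤ tabs L := by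
  unfold co1 tabs
  induction L with
  | nil => simp
  | cons y L ih =>
    simp only [List.map_cons, List.sum_cons]
    refine (abs_add_le _ _).trans (add_le_add ?_ ih)
    split_ifs
    · rw [abs_mul]
      have h1 := apx_pvR_abs y.P a
      linarith only [mul_nonneg_of_nonpos_of_nonpos (Mathlib.Tactic.Linarith.sub_nonpos_of_le h1) (Mathlib.Tactic.Linarith.sub_nonpos_of_le (abs_nonneg y.c)), abs_nonneg y.c]
    · simp

theorem apx_tR (n : ℕ) (L : List (Tm ℝ)) (C : ℝ) (hC : 0 < C) (hL : tabs L ≤ C)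
    (b b' : Fin n) (a a' : Fin 3) : 0 ≤ tR C L b b' a a' ∧ tR C L b b' a a' ≤ 1 := by
  have h := abs_le.1 ((apx_co2_abs L b b' a a').trans hL)
  have h1 : co2 pvR L b b' a a' / C ≤ 1 := by rw [div_le_one hC]; exact h.2
  have h2 : -1 ≤ co2 pvR L b b' a a' / C := by rw [le_div_iff₀ hC]; linarith only [h.1]
  unfold tR
  constructor <;> linarith

theorem apx_dR (n : ℕ) (L : List (Tm ℝ)) (C s : ℝ) (hC : 0 < C) (hs : 0 ≤ s) (hL : tabs L ≤ C)
    (b : Fin n) (a : Fin 3) : |dR C s L b a| ≤ s ^ 3 := by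
  have h := (apx_co1_abs L b a).trans hL
  unfold dR
  rw [abs_mul, abs_neg, abs_of_nonneg (by (clear * - hs hC; positivity))]
  calc s ^ 3 / (12 * C) * |co1 pvR L b a| ≤ s ^ 3 / (12 * C) * C :=
        mul_le_mul_of_nonneg_left h (by (clear * - hs hC; positivity))
    _ = s ^ 3 / 12 := by field_simp
    _ ≤ s ^ 3 := by linarith only [pow_nonneg hs 3]

/-! ### rounding -/

/-- integer division -/
theorem apx_floor (x : ℤ) (y : ℤ) (hy : 0 < y) : |((x / y : ℤ) : ℝ) - (x : ℝ) / y| ≤ 1 := by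
  have h1 : (((x / y : ℤ)) : ℝ) * y ≤ x := by exact_mod_cast Int.ediv_mul_le x hy.ne'
  have h2 : (x : ℝ) ≤ ((x / y : ℤ) + 1) * y := by
    exact_mod_cast (Int.lt_ediv_add_one_mul_self x hy).le
  have hy' : (0 : ℝ) < y := by exact_mod_cast hy
  have h3 : ((x / y : ℤ) : ℝ) ≤ (x : ℝ) / y := by rw [le_div_iff₀ hy']; exact h1
  have h4 : (x : ℝ) / y ≤ ((x / y : ℤ) : ℝ) + 1 := by rw [div_le_iff₀ hy']; exact h2
  rw [abs_le]
  constructor <;> linarith only [h3, h4]

theorem apx_clamp (z : ℤ) (M : ℕ) (x : ℝ) (h0 : 0 ≤ x) (h1 : x ≤ M) (h : |(z : ℝ) - x| ≤ 3) :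
    |((min z.toNat M : ℕ) : ℝ) - x| ≤ 3 := by
  obtain ⟨h2, h3⟩ := abs_le.1 h
  have h4 : ((z.toNat : ℕ) : ℝ) = max (z : ℝ) 0 := by
    have : ((z.toNat : ℤ)) = max z 0 := Int.toNat_eq_max z ▸ rfl
    have h5 : (((z.toNat : ℤ)) : ℝ) = ((max z 0 : ℤ) : ℝ) := by rw [this]
    push_cast at h5
    exact h5
  rw [Nat.cast_min, h4, abs_le]
  constructor
  · have : x - 3 ≤ min (max (z : ℝ) 0) (M : ℝ) := by
      rw [le_min_iff]
      exact ⟨le_max_of_le_left (by linarith only [h2]), by linarith only [h1]⟩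
    linarith only [this]
  · have : min (max (z : ℝ) 0) (M : ℝ) ≤ x + 3 := by
      apply min_le_of_left_le
      rw [max_le_iff]
      exact ⟨by linarith only [h3], by linarith only [h0]⟩
    linarith only [this]


theorem apx_fI (r : ℕ) (hr : 1000 ≤ r) (L : List (Tm ℤ)) (b b' a a' : ℕ) (x : ℝ)
    (h : |((co2 (pvI (r ^ 1000)) L b b' a a' : ℤ) : ℝ) - 9 * ((r : ℝ) ^ 1000) ^ 3 * x| ≤
      24 * ((r : ℝ) ^ 1000) ^ 2 * (r : ℝ) ^ 66) :
    |(fI r L b b' a a' : ℝ) - ((r : ℝ) ^ 100) ^ 6 * (1 / 2 * (1 - x / (r : ℝ) ^ 66))| ≤ 2 := by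
  have hr' : (1000 : ℝ) ≤ r := by exact_mod_cast hr
  have hr0 : (0 : ℝ) < r := by linarith only [hr']
  have hz : (0 : ℤ) < r := by exact_mod_cast (show 0 < r by omega)
  have h1 := apx_floor ((r : ℤ) ^ 600 * (9 * (r : ℤ) ^ 3066 -
    co2 (pvI (r ^ 1000)) L b b' a a')) (18 * (r : ℤ) ^ 3066) (by (clear * - hr; positivity))
  unfold fI
  rw [show ((r : ℝ) ^ 100) ^ 6 = (r : ℝ) ^ 600 by rw [← pow_mul]]
  generalize co2 (pvI (r ^ 1000)) L b b' a a' = c at h h1 ⊢
  have h5 : 2 * (r : ℝ) ^ 600 ≤ (r : ℝ) ^ 1000 := by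
    rw [show (r : ℝ) ^ 1000 = (r : ℝ) ^ 400 * (r : ℝ) ^ 600 by rw [← pow_add]]
    have : (2 : ℝ) ≤ (r : ℝ) ^ 400 :=
      le_trans (by linarith only [hr']) (le_self_pow₀ (by linarith only [hr'] : (1 : ℝ) ≤ r) (by norm_num))
    exact mul_le_mul_of_nonneg_right this (by (clear * - hr; positivity))
  have e1 : (r : ℝ) ^ 3066 = ((r : ℝ) ^ 1000) ^ 3 * (r : ℝ) ^ 66 := by
    rw [← pow_mul, ← pow_add]
  generalize ((r : ℤ) ^ 600 * (9 * (r : ℤ) ^ 3066 - c)) / (18 * (r : ℤ) ^ 3066) = z at h1 ⊢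
  push_cast at h1
  rw [e1] at h1
  have hU : (0 : ℝ) < (r : ℝ) ^ 1000 := by (clear * - hr; positivity)
  have hC : (0 : ℝ) < (r : ℝ) ^ 66 := by positivity
  have hS : (0 : ℝ) < (r : ℝ) ^ 600 := by positivity
  generalize (r : ℝ) ^ 1000 = U at *
  generalize (r : ℝ) ^ 66 = C at *
  generalize (r : ℝ) ^ 600 = S at *
  have e2 : S * (9 * (U ^ 3 * C) - (c : ℝ)) / (18 * (U ^ 3 * C)) - S * (1 / 2 * (1 - x / C)) =
      -(S * ((c : ℝ) - 9 * U ^ 3 * x) / (18 * (U ^ 3 * C))) := by
    field_simp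
    ring
  have e3 : |S * (9 * (U ^ 3 * C) - (c : ℝ)) / (18 * (U ^ 3 * C)) - S * (1 / 2 * (1 - x / C))| ≤
      1 := by
    rw [e2, abs_neg, abs_div, abs_mul, abs_of_pos hS,
      abs_of_pos (show 0 < 18 * (U ^ 3 * C) by (clear * - hU hC; positivity)), div_le_one (by positivity)]
    calc S * |(c : ℝ) - 9 * U ^ 3 * x| ≤ S * (24 * U ^ 2 * C) :=
          mul_le_mul_of_nonneg_left h hS.le
      _ = (12 * U ^ 2 * C) * (2 * S) := by ring
      _ ≤ (12 * U ^ 2 * C) * U := mul_le_mul_of_nonneg_left h5 (by positivity)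
      _ = 12 * (U ^ 3 * C) := by ring
      _ ≤ 18 * (U ^ 3 * C) := by
        have : 0 < U ^ 3 * C := by (clear * - hU hC; positivity)
        linarith only [this]
  have := abs_le.1 h1
  have := abs_le.1 e3
  rw [abs_le]
  constructor <;> (clear r hr L b b' a a' hr' hr0 hz e1; linarith)

theorem apx_dI (r : ℕ) (hr : 1000 ≤ r) (L : List (Tm ℤ)) (b a : ℕ) (x : ℝ)
    (h : |((co1 (pvI (r ^ 1000)) L b a : ℤ) : ℝ) - 3 * ((r : ℝ) ^ 1000) ^ 2 * x| ≤
      6 * ((r : ℝ) ^ 1000) * (r : ℝ) ^ 66) :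
    |(dI r L b a : ℝ) - -(((r : ℝ) ^ 100) ^ 3 / (12 * (r : ℝ) ^ 66)) * x| ≤ 2 := by
  have hr' : (1000 : ℝ) ≤ r := by exact_mod_cast hr
  have hr0 : (0 : ℝ) < r := by linarith only [hr']
  have hz : (0 : ℤ) < r := by exact_mod_cast (show 0 < r by omega)
  have h1 := apx_floor (-((r : ℤ) ^ 300 * co1 (pvI (r ^ 1000)) L b a)) (36 * (r : ℤ) ^ 2066)
    (by (clear * - hr; positivity))
  unfold dI
  rw [show ((r : ℝ) ^ 100) ^ 3 = (r : ℝ) ^ 300 by rw [← pow_mul]]
  generalize co1 (pvI (r ^ 1000)) L b a = c at h h1 ⊢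
  have h5 : (r : ℝ) ^ 300 ≤ (r : ℝ) ^ 1000 :=
    pow_le_pow_right₀ (by linarith only [hr']) (by norm_num)
  have e1 : (r : ℝ) ^ 2066 = ((r : ℝ) ^ 1000) ^ 2 * (r : ℝ) ^ 66 := by
    rw [← pow_mul, ← pow_add]
  generalize -((r : ℤ) ^ 300 * c) / (36 * (r : ℤ) ^ 2066) = z at h1 ⊢
  push_cast at h1
  rw [e1] at h1
  have hU : (0 : ℝ) < (r : ℝ) ^ 1000 := by (clear * - hr; positivity)
  have hC : (0 : ℝ) < (r : ℝ) ^ 66 := by positivity
  have hS : (0 : ℝ) < (r : ℝ) ^ 300 := by positivity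
  generalize (r : ℝ) ^ 1000 = U at *
  generalize (r : ℝ) ^ 66 = C at *
  generalize (r : ℝ) ^ 300 = S at *
  have e2 : -(S * (c : ℝ)) / (36 * (U ^ 2 * C)) - -(S / (12 * C)) * x =
      -(S * ((c : ℝ) - 3 * U ^ 2 * x) / (36 * (U ^ 2 * C))) := by
    field_simp
    ring
  have e3 : |-(S * (c : ℝ)) / (36 * (U ^ 2 * C)) - -(S / (12 * C)) * x| ≤ 1 := by
    rw [e2, abs_neg, abs_div, abs_mul, abs_of_pos hS,
      abs_of_pos (show 0 < 36 * (U ^ 2 * C) by (clear * - hU hC; positivity)), div_le_one (by (clear * - hU hC; positivity))]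
    calc S * |(c : ℝ) - 3 * U ^ 2 * x| ≤ S * (6 * U * C) :=
          mul_le_mul_of_nonneg_left h hS.le
      _ = (6 * U * C) * S := by ring
      _ ≤ (6 * U * C) * U := mul_le_mul_of_nonneg_left h5 (by positivity)
      _ = 6 * (U ^ 2 * C) := by ring
      _ ≤ 36 * (U ^ 2 * C) := by
        have : 0 < U ^ 2 * C := by positivity
        linarith only [this]
  have := abs_le.1 h1
  have := abs_le.1 e3
  rw [abs_le]
  constructor <;> (clear r hr L b a hr' hr0 hz e1; linarith)

theorem apx_jw (n r : ℕ) (L : List (Tm ℤ)) (L' : List (Tm ℝ)) (s C : ℝ) (hs1 : 1 ≤ s)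
    (ht : ∀ (b b' : Fin n) (a a' : Fin 3), 0 ≤ tR C L' b b' a a' ∧ tR C L' b b' a a' ≤ 1)
    (hdd : ∀ (b : Fin n) (a : Fin 3), |dR C s L' b a| ≤ s ^ 3)
    (ef : ∀ (b b' : Fin n) (a a' : Fin 3),
      |(fI r L b b' a a' : ℝ) - s ^ 6 * tR C L' b b' a a'| ≤ 2)
    (ed : ∀ (b : Fin n) (a : Fin 3), |(dI r L b a : ℝ) - dR C s L' b a| ≤ 2)
    (hU : (((r : ℤ) ^ 1000 : ℤ) : ℝ) = s ^ 10) (hV : (((r : ℤ) ^ 700 : ℤ) : ℝ) = s ^ 7)
    (p q : Fin n × Fin 4) (hpq : p ≠ q) :
    0 ≤ jw s (tR C L') (dR C s L') p q ∧ jw s (tR C L') (dR C s L') p q ≤ 2 * s ^ 10 ∧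
      |(wI r L (4 * (p.1 : ℕ) + (p.2 : ℕ)) (4 * (q.1 : ℕ) + (q.2 : ℕ)) : ℝ) -
        jw s (tR C L') (dR C s L') p q| ≤ 2 := by
  have p3 : s ^ 3 ≤ s ^ 10 := pow_le_pow_right₀ hs1 (by norm_num)
  have p6 : s ^ 6 ≤ s ^ 10 := pow_le_pow_right₀ hs1 (by norm_num)
  have p7 : s ^ 7 ≤ s ^ 10 := pow_le_pow_right₀ hs1 (by norm_num)
  have q6 : 0 < s ^ 6 := by (clear * - hs1; positivity)
  have q7 : 0 < s ^ 7 := by positivity
  have q10 : 0 < s ^ 10 := by positivity
  obtain ⟨b, g⟩ := p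
  obtain ⟨b', g'⟩ := q
  have hb : (4 * (b : ℕ) + (g : ℕ)) / 4 = b := by have := g.isLt; omega
  have hg : (4 * (b : ℕ) + (g : ℕ)) % 4 = g := by have := g.isLt; (clear * - hb; omega)
  have hb' : (4 * (b' : ℕ) + (g' : ℕ)) / 4 = b' := by have := g'.isLt; omega
  have hg' : (4 * (b' : ℕ) + (g' : ℕ)) % 4 = g' := by have := g'.isLt; (clear * - hb'; omega)
  have hz : ∀ x : Fin 4, x ≠ 0 → (x : ℕ) ≠ 0 := fun x hx h => hx (Fin.ext h)
  unfold jw wI
  simp only [hb, hg, hb', hg']
  by_cases hbb : b = b'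
  · subst hbb
    rw [if_pos rfl, if_pos rfl]
    by_cases h0 : g = 0
    · have h0' : g' ≠ 0 := fun h => hpq (by rw [h0, h])
      subst h0
      have h1 := ed b (g'.pred h0')
      have h2 := abs_le.1 (hdd b (g'.pred h0'))
      rw [Fin.val_pred] at h1
      have h3 := hz _ h0'
      simp only [h0', h3, ne_eq, not_false_eq_true, dif_pos, if_true, not_true_eq_false,
        Fin.val_zero, and_self, dif_neg, add_zero, if_false, and_false, false_and, true_and]
      rw [Int.cast_add, hU, add_sub_add_left_eq_sub]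
      exact ⟨by linarith only [p3, h2], by linarith only [p3, h2], h1⟩
    · have h3 := hz _ h0
      by_cases h0' : g' = 0
      · subst h0'
        have h1 := ed b (g.pred h0)
        have h2 := abs_le.1 (hdd b (g.pred h0))
        rw [Fin.val_pred] at h1
        simp only [h0, h3, ne_eq, not_false_eq_true, dif_pos, if_true, not_true_eq_false,
          Fin.val_zero, and_self, dif_neg, add_zero, if_false, and_false, false_and, true_and]
        rw [Int.cast_add, hU, add_sub_add_left_eq_sub]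
        exact ⟨by linarith only [p3, h2], by linarith only [p3, h2], h1⟩
      · have h3' := hz _ h0'
        simp only [h0, h3, h0', h3', ne_eq, not_false_eq_true, dif_pos, if_true,
          not_true_eq_false, and_self, dif_neg, add_zero, if_false, and_false, false_and, true_and]
        rw [hU, sub_self, abs_zero]
        exact ⟨by linarith only [p6, q6], by linarith only [p6, q6], by norm_num⟩
  · have hbb' : (b : ℕ) ≠ (b' : ℕ) := fun h => hbb (Fin.ext h)
    rw [if_neg hbb, if_neg hbb']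
    by_cases h0 : g = 0
    · subst h0
      by_cases h0' : g' = 0
      · subst h0'
        simp only [ne_eq, not_true_eq_false, Fin.val_zero, and_self, if_false, if_true, dif_neg,
          not_false_eq_true]
        rw [hV, sub_self, abs_zero]
        exact ⟨by linarith only [q7], by linarith only [p6, p7, q6], by norm_num⟩
      · have h3' := hz _ h0'
        simp only [h0', h3', ne_eq, not_true_eq_false, Fin.val_zero, and_self, if_false, if_true,
          dif_neg, not_false_eq_true, false_and, and_false, true_and]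
        exact ⟨le_refl _, by linarith only [p6, q6], by simp⟩
    · have h3 := hz _ h0
      by_cases h0' : g' = 0
      · subst h0'
        simp only [ne_eq, h0, not_false_eq_true, not_true_eq_false, dif_neg, if_true, dif_pos, h3, Fin.val_zero, and_false, false_and, if_false]
        exact ⟨le_refl _, by linarith only [p6, q6], by simp⟩
      · have h3' := hz _ h0'
        have h1 := ef b b' (g.pred h0) (g'.pred h0')
        rw [Fin.val_pred, Fin.val_pred] at h1
        obtain ⟨t0, t1⟩ := ht b b' (g.pred h0) (g'.pred h0')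
        simp only [ne_eq, h0, not_false_eq_true, h0', dif_pos, if_false, h3, h3', and_self, if_true]
        refine ⟨mul_nonneg q6.le t0, ?_, h1⟩
        have := mul_le_mul_of_nonneg_left t1 q6.le
        linarith only [p6, q6, this]

theorem apx_close (n r : ℕ) (hr : 1000 ≤ r) (L : List (Tm ℤ)) (L' : List (Tm ℝ))
    (hF : List.Forall₂ (apxG ((r ^ 1000 : ℕ) : ℝ) (12 * (r : ℝ) ^ 24)) L L')
    (hlen : (L.length : ℝ) ≤ 100 * (r : ℝ)) (hL : tabs L' ≤ (r : ℝ) ^ 66)
    (p q : Fin n × Fin 4) (hpq : p ≠ q) :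
    |(wN r L (4 * (p.1 : ℕ) + (p.2 : ℕ)) (4 * (q.1 : ℕ) + (q.2 : ℕ)) : ℝ) -
      jw ((r : ℝ) ^ 100) (tR ((r : ℝ) ^ 66) L') (dR ((r : ℝ) ^ 66) ((r : ℝ) ^ 100) L') p q| ≤
      3 := by
  have hr' : (1000 : ℝ) ≤ r := by exact_mod_cast hr
  have hr0 : (0 : ℝ) < r := by linarith only [hr']
  have hKl : 12 * (r : ℝ) ^ 24 * L.length + tabs L' ≤ 2 * (r : ℝ) ^ 66 := by
    have h1 : 12 * (r : ℝ) ^ 24 * L.length ≤ 12 * (r : ℝ) ^ 24 * (100 * r) :=
      mul_le_mul_of_nonneg_left hlen (by (clear * - hr; positivity))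
    have h2 : 12 * (r : ℝ) ^ 24 * (100 * r) ≤ (r : ℝ) ^ 66 := by
      have h3 : (1200 : ℝ) ≤ (r : ℝ) ^ 2 := by nlinarith only [hr']
      calc 12 * (r : ℝ) ^ 24 * (100 * r) = 1200 * (r : ℝ) ^ 25 := by ring
        _ ≤ (r : ℝ) ^ 2 * (r : ℝ) ^ 25 := mul_le_mul_of_nonneg_right h3 (by positivity)
        _ = (r : ℝ) ^ 27 := by ring
        _ ≤ (r : ℝ) ^ 66 := pow_le_pow_right₀ (by linarith only [hr']) (by norm_num)
    linarith only [hL, h1, h2]
  have hU1 : (1 : ℝ) ≤ ((r ^ 1000 : ℕ) : ℝ) := by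
    rw [Nat.cast_pow]
    exact one_le_pow₀ (by linarith only [hr'])
  have hK : (0 : ℝ) ≤ 12 * (r : ℝ) ^ 24 := by (clear * - hr; positivity)
  have hC : (0 : ℝ) < (r : ℝ) ^ 66 := by positivity
  have hs1 : (1 : ℝ) ≤ (r : ℝ) ^ 100 := one_le_pow₀ (by linarith only [hr'])
  have hs0 : (0 : ℝ) < (r : ℝ) ^ 100 := by positivity
  have H := apx_jw n r L L' ((r : ℝ) ^ 100) ((r : ℝ) ^ 66) hs1
    (fun b b' a a' => apx_tR n L' _ hC hL b b' a a')
    (fun b a => apx_dR n L' _ _ hC hs0.le hL b a)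
    (by
      intro b b' a a'
      refine apx_fI r hr L b b' a a' (co2 pvR L' b b' a a') ?_
      have := apx_co2 (r ^ 1000) hU1 hK L L' hF b b' a a'
      rw [Nat.cast_pow] at this
      refine this.trans ?_
      calc 12 * ((r : ℝ) ^ 1000) ^ 2 * (12 * (r : ℝ) ^ 24 * L.length + tabs L') ≤
            12 * ((r : ℝ) ^ 1000) ^ 2 * (2 * (r : ℝ) ^ 66) :=
            mul_le_mul_of_nonneg_left hKl (by positivity)
        _ = 24 * ((r : ℝ) ^ 1000) ^ 2 * (r : ℝ) ^ 66 := by ring)
    (by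
      intro b a
      refine apx_dI r hr L b a (co1 pvR L' b a) ?_
      have := apx_co1 (r ^ 1000) hU1 hK L L' hF b a
      rw [Nat.cast_pow] at this
      refine this.trans ?_
      calc 3 * ((r : ℝ) ^ 1000) * (12 * (r : ℝ) ^ 24 * L.length + tabs L') ≤
            3 * ((r : ℝ) ^ 1000) * (2 * (r : ℝ) ^ 66) :=
            mul_le_mul_of_nonneg_left hKl (by positivity)
        _ = 6 * ((r : ℝ) ^ 1000) * (r : ℝ) ^ 66 := by ring)
    (by push_cast; rw [← pow_mul]) (by push_cast; rw [← pow_mul]) p q hpq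
  have hW : ((2 * r ^ 1000 : ℕ) : ℝ) = 2 * ((r : ℝ) ^ 100) ^ 10 := by
    push_cast; rw [← pow_mul]
  unfold wN
  exact apx_clamp _ _ _ H.1 (by rw [hW]; exact H.2.1) (H.2.2.trans (by norm_num))

theorem wN_close (N m : ℕ) (hN : 1 ≤ N) (rs : List Rnd) (hok : ∀ r ∈ rs, r.Ok N)
    (hL : tabs (ham N m rs (1 : ℝ) trR) ≤ (rr N rs.length : ℝ) ^ 66)
    (hT : ∀ t ∈ ham N m rs (1 : ℝ) trR, t.Ok (N + tc rs.length)) :
    CloseW N m rs (wN (rr N rs.length) (hamI N m rs)) := by
  have hr : 1000 ≤ rr N rs.length := by unfold rr; omega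
  have hF : List.Forall₂ (apxG ((rr N rs.length ^ 1000 : ℕ) : ℝ)
      (12 * (rr N rs.length : ℝ) ^ 24)) (hamI N m rs) (ham N m rs (1 : ℝ) trR) := by
    have := apx_ham N m rs ((rr N rs.length : ℤ) ^ 1000) (by (clear * - hr; positivity))
      (trI (rr N rs.length ^ 1000)) (fun a => by
        have := apx_tr (rr N rs.length ^ 1000) a
        push_cast at this ⊢
        exact this)
    unfold hamI
    push_cast at this ⊢
    exact this
  have hlen : ((hamI N m rs).length : ℝ) ≤ 100 * (rr N rs.length : ℝ) := by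
    unfold hamI
    exact_mod_cast apx_len N m rs _ _
  unfold CloseW
  intro p q hpq
  exact apx_close _ _ hr _ _ hF hlen hL p q hpq


/-! ### the threshold -/

theorem apx_co0 {K : ℝ} (L : List (Tm ℤ)) (L' : List (Tm ℝ))
    (h : List.Forall₂ (apxG ((1 : ℤ) : ℝ) K) L L') :
    ((co0 L : ℤ) : ℝ) = co0 L' ∧ 0 ≤ co0 L := by
  unfold co0
  induction h with
  | nil => simp
  | @cons x y L L' hxy hL ih =>
    simp only [List.map_cons, List.sum_cons]
    obtain ⟨hP, -, -, -, -, h0⟩ := hxy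
    rw [← hP]
    by_cases hx : x.P = 0
    · obtain ⟨h1, h2⟩ := h0 hx
      rw [if_pos hx, if_pos hx, Int.cast_add, ih.1, h1, Int.cast_one, one_mul]
      exact ⟨rfl, add_nonneg h2 ih.2⟩
    · rw [if_neg hx, if_neg hx, Int.cast_add, ih.1, Int.cast_zero]
      exact ⟨rfl, add_nonneg le_rfl ih.2⟩

theorem thrI_close (N m : ℕ) (hN : 1 ≤ N) (rs : List Rnd) (hok : ∀ r ∈ rs, r.Ok N) :
    |((thrI N m rs).toNat : ℝ) - midA N m rs| ≤ 1 := by
  have hr : 1000 ≤ rr N rs.length := by unfold rr; omega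
  obtain ⟨hc, hc0⟩ := apx_co0 _ _ (apx_ham N m rs (1 : ℤ) (by (clear * -; norm_num)) (fun _ => (0, 0))
    (fun a => apx_trZ a))
  have hK : 1 ≤ N + tc rs.length := by omega
  unfold thrI midA
  rw [← hc]
  generalize co0 (ham N m rs (1 : ℤ) fun _ => (0, 0)) = c at *
  generalize rr N rs.length = r at *
  generalize N + tc rs.length = K at *
  generalize rs.length = M at *
  have hr1 : (1 : ℤ) ≤ (r : ℤ) := by exact_mod_cast (show 1 ≤ r by omega)
  have hK1 : (1 : ℤ) ≤ (K : ℤ) := by exact_mod_cast hK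
  have hM0 : (0 : ℤ) ≤ (M : ℤ) := by (clear * -; positivity)
  have hnum : 0 ≤ 864 * (6 * ((M : ℤ) + 1)) * (r : ℤ) ^ 1000 * (K : ℤ) +
      27 * (6 * ((M : ℤ) + 1)) * ((r : ℤ) ^ 400 + (r : ℤ) ^ 300) * (K : ℤ) * ((K : ℤ) - 1) +
      24 * (r : ℤ) ^ 234 * (6 * ((M : ℤ) + 1)) * c - 88 * (r : ℤ) ^ 234 := by
    have h1 : (r : ℤ) ^ 234 ≤ (r : ℤ) ^ 1000 := pow_le_pow_right₀ hr1 (by norm_num)
    have h2 : 0 ≤ 27 * (6 * ((M : ℤ) + 1)) * ((r : ℤ) ^ 400 + (r : ℤ) ^ 300) * (K : ℤ) *
        ((K : ℤ) - 1) := mul_nonneg (by (clear * - hr hK; positivity)) (by linarith only [hK])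
    have h3 : 0 ≤ 24 * (r : ℤ) ^ 234 * (6 * ((M : ℤ) + 1)) * c := by (clear * - hr hc0; (clear * - hr hc0; positivity))
    have h4 : 1 ≤ ((M : ℤ) + 1) * K := by nlinarith only [hK]
    have h5 : 0 ≤ (r : ℤ) ^ 1000 := by (clear * - hr; positivity)
    have h6 : (r : ℤ) ^ 1000 ≤ ((M : ℤ) + 1) * K * (r : ℤ) ^ 1000 := by exact le_of_not_gt fun hng => by linarith only [mul_nonneg_of_nonpos_of_nonpos (Mathlib.Tactic.Linarith.sub_nonpos_of_le h4) (Mathlib.Tactic.Linarith.sub_nonpos_of_le h5), Int.add_one_le_iff.mpr hng]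
    have h7 : 864 * (6 * ((M : ℤ) + 1)) * (r : ℤ) ^ 1000 * (K : ℤ) =
        5184 * (((M : ℤ) + 1) * K * (r : ℤ) ^ 1000) := by ring
    rw [h7]
    linarith only [h1, h2, h3, h5, h6]
  have hden : (0 : ℤ) < 144 * (6 * ((M : ℤ) + 1)) := by (clear * -; positivity)
  have hfl := apx_floor (864 * (6 * ((M : ℤ) + 1)) * (r : ℤ) ^ 1000 * (K : ℤ) +
      27 * (6 * ((M : ℤ) + 1)) * ((r : ℤ) ^ 400 + (r : ℤ) ^ 300) * (K : ℤ) * ((K : ℤ) - 1) +
      24 * (r : ℤ) ^ 234 * (6 * ((M : ℤ) + 1)) * c - 88 * (r : ℤ) ^ 234) _ hden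
  have hnn := Int.ediv_nonneg hnum hden.le
  generalize (864 * (6 * ((M : ℤ) + 1)) * (r : ℤ) ^ 1000 * (K : ℤ) +
      27 * (6 * ((M : ℤ) + 1)) * ((r : ℤ) ^ 400 + (r : ℤ) ^ 300) * (K : ℤ) * ((K : ℤ) - 1) +
      24 * (r : ℤ) ^ 234 * (6 * ((M : ℤ) + 1)) * c - 88 * (r : ℤ) ^ 234) /
    (144 * (6 * ((M : ℤ) + 1))) = z at hfl hnn ⊢
  have hz : ((z.toNat : ℕ) : ℝ) = (z : ℝ) := by
    have : ((z.toNat : ℕ) : ℤ) = z := Int.toNat_of_nonneg hnn
    exact_mod_cast congrArg (fun t : ℤ => (t : ℝ)) this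
  rw [hz]
  refine le_trans (le_of_eq ?_) hfl
  congr 2
  push_cast
  have hM1 : ((M : ℝ) + 1) ≠ 0 := by (clear * -; (clear * -; positivity))
  generalize (r : ℝ) ^ 1000 = x1
  generalize (r : ℝ) ^ 400 = x2
  generalize (r : ℝ) ^ 300 = x3
  generalize (r : ℝ) ^ 234 = x4
  field_simp
  ring

end Vale.Agent.P370.H
end
end

section

section

/-!
The queries are computed in polynomial time.
-/

namespace Vale.Agent.P370.Q.Alg

open Vale.Agent.Lib.PolyTime

variable {A : Set Word} {α : Type*} [Enc α]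

/-! ### parsing -/

theorem blocks_cons (b : Bool) (w : List Bool) :
    blocks (b :: w) = bif b then ((blocks w).headD 0 + 1) :: (blocks w).tail else 0 :: blocks w :=
  rfl

theorem blocks_bound (w : List Bool) : (blocks w).length ≤ w.length + 1 ∧
    (∀ x ∈ blocks w, x ≤ w.length) ∧ (w ≠ [] → (blocks w).length ≤ w.length) := by
  induction w with
  | nil => simp only [blocks, List.headD_eq_head?_getD, List.foldr_nil, List.length_nil, zero_add, zero_le, List.not_mem_nil, nonpos_iff_eq_zero, IsEmpty.forall_iff, implies_true, ne_eq, not_true_eq_false, Std.le_refl, and_self]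
  | cons b w ih =>
    obtain ⟨h1, h2, h3⟩ := ih
    rw [blocks_cons]
    cases b
    · simp only [cond_false, List.length_cons, List.mem_cons]
      refine ⟨by omega, ?_, fun _ => ?_⟩
      · rintro x (rfl | hx)
        · omega
        · have := h2 x hx; omega
      · rcases w with _ | ⟨c, w⟩
        · simp [blocks]
        · have := h3 (by simp); simp at this ⊢; omega
    · simp only [cond_true, List.length_cons, List.mem_cons, List.length_tail]
      have h4 : (blocks w).headD 0 ≤ w.length := by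
        rcases e : blocks w with _ | ⟨x, l⟩
        · simp only [List.headD_eq_head?_getD, List.head?_nil, Option.getD_none, zero_le]
        · simpa only [List.headD_eq_head?_getD, List.head?_cons, Option.getD_some] using h2 x (by rw [e]; simp)
      refine ⟨by omega, ?_, fun _ => ?_⟩
      · rintro x (rfl | hx)
        · omega
        · have := h2 x (List.mem_of_mem_tail hx); omega
      · rcases w with _ | ⟨c, w⟩
        · simp only [blocks, List.headD_eq_head?_getD, List.foldr_nil, List.length_nil, zero_tsub, zero_add, Std.le_refl]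
        · have := h3 (by simp); simp only [List.length_cons, add_le_add_iff_right, tsub_le_iff_right, ge_iff_le] at this ⊢; omega

theorem esize_blocks (w : List Bool) : esize (blocks w) ≤ (w.length + 1) * (2 * w.length + 1) := by
  obtain ⟨h1, h2, -⟩ := blocks_bound w
  refine (esize_list_le (B := w.length) fun x hx => ?_).trans (Nat.mul_le_mul_right _ h1)
  exact (esize_nat_le_self x).trans (h2 x hx)

theorem pt_blocks {w : α → List Bool} (hw : PT A w) : PT A (fun a => blocks (w a)) := by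
  have hwb := PBd.length (A := A) hw
  refine PT.foldr (init := fun _ => ([] : List ℕ))
    (f := fun _ (b : Bool) (l : List ℕ) => bif b then (l.headD 0 + 1) :: l.tail else 0 :: l)
    hw (PT.const []) ?_ (b := fun a => ((w a).length + 1) * (2 * (w a).length + 1))
    (by (clear * - hwb; fun_prop)) fun a i => ?_
  · exact PT.cond PT.snd'.fst (PT.cons ((PT.headD PT.snd'.snd (PT.const 0)).add (PT.const 1))
      (PT.tail PT.snd'.snd)) (PT.cons (PT.const 0) PT.snd'.snd)
  · refine (esize_blocks ((w a).drop i)).trans ?_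
    have : ((w a).drop i).length ≤ (w a).length := by simp only [List.length_drop, tsub_le_iff_right, le_add_iff_nonneg_right, zero_le]
    exact Nat.mul_le_mul (by omega) (by (clear * - this; omega))

theorem pt_hK {w : α → List Bool} (hw : PT A w) : PT A (fun a => hK (w a)) :=
  PT.getD (pt_blocks hw) (PT.const 0) (PT.const 0)

theorem pt_hA {w : α → List Bool} (hw : PT A w) : PT A (fun a => hA (w a)) :=
  PT.getD (pt_blocks hw) (PT.const 1) (PT.const 0)

theorem pt_hM {w : α → List Bool} {i j : α → ℕ} (hw : PT A w) (hi : PT A i) (hj : PT A j) :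
    PT A (fun a => hM (w a) (i a) (j a)) :=
  PT.getD (pt_blocks hw) (((PT.const 2).add (hi.mul (pt_hK hw))).add hj) (PT.const 0)

theorem getD_blocks_le (w : List Bool) (i : ℕ) : (blocks w).getD i 0 ≤ w.length := by
  rcases lt_or_ge i (blocks w).length with h | h
  · rw [List.getD_eq_getElem _ _ h]
    exact (blocks_bound w).2.1 _ (List.getElem_mem _)
  · rw [List.getD_eq_default _ _ h]
    exact Nat.zero_le _

theorem hK_le (w : List Bool) : hK w ≤ w.length := getD_blocks_le w 0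
theorem hM_le (w : List Bool) (i j : ℕ) : hM w i j ≤ w.length := getD_blocks_le w _

theorem pbd_hK {w : α → List Bool} (hw : PT A w) : PBd (fun a => hK (w a)) :=
  (PBd.length (A := A) hw).mono fun a => hK_le _

theorem pt_mSum {w : α → List Bool} (hw : PT A w) : PT A (fun a => mSum (w a)) := by
  refine PT.rangeSumNat (pt_hK hw) (pbd_hK hw) (PT.rangeSumNat (PT.unVal PT.snd')
    PBd.unSnd ?_)
  exact pt_hM (hw.comp PT.fst'.fst) (PT.unVal PT.snd') (PT.unVal PT.fst'.snd)

theorem pt_mW {w : α → List Bool} {i j : α → ℕ} (hw : PT A w) (hi : PT A i) (hj : PT A j) :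
    PT A (fun a => mW (w a) (i a) (j a)) :=
  PT.ite (p := fun a => i a < j a ∧ j a < hK (w a))
    (PT.decide_and (PT.lt hi hj) (PT.lt hj (pt_hK hw))) (pt_hM hw hi hj) (PT.const 0)

/-! ### parameters -/

theorem pt_kk {w : α → List Bool} (hw : PT A w) : PT A (fun a => kk (w a)) :=
  PT.max (PT.const 10) (PT.natSize (PT.length hw))

theorem two_pow_kk (w : List Bool) : 2 ^ kk w ≤ 1024 + 2 * w.length := by
  unfold kk
  rcases le_total 10 (Nat.size w.length) with h | h
  · rw [max_eq_right h]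
    have h1 : 2 ^ (Nat.size w.length - 1) ≤ w.length := by
      by_contra h2
      have h3 := Nat.size_le.2 (not_le.1 h2)
      omega
    have h2 : 2 ^ Nat.size w.length = 2 * 2 ^ (Nat.size w.length - 1) := by
      rw [← pow_succ']; congr 1; omega
    (clear * - h1 h2; omega)
  · rw [max_eq_left h]; (clear * -; omega)

theorem length_lt_two_pow_kk (w : List Bool) : w.length < 2 ^ kk w :=
  (Nat.size_le.1 le_rfl).trans_le (Nat.pow_le_pow_right two_pos (le_max_right _ _))

theorem pbd_kk {w : α → List Bool} (hw : PT A w) : PBd (fun a => 2 ^ kk (w a)) := by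
  have hwb := PBd.length (A := A) hw
  have h : PBd (fun a => 1024 + 2 * (w a).length) := by fun_prop
  exact h.mono fun a => two_pow_kk _

variable {k : α → ℕ}

/-- final parameters, with a general calibration function -/
theorem pt_sfin {x : α → ℕ → ℕ} {w : α → List Bool} (hk : PT A k)
    (hK : PBd (fun a => 2 ^ k a)) (hx : PT A (fun p : α × Un => x p.1 p.2.v)) (hw : PT A w) :
    PT A (fun a => sfin (k a) (x a) (w a)) := by
  have hKK := pt_aK hk hK
  have hKb := pbd_aK hK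
  have hi : PT A (fun p : α × Un => p.2.v) := PT.unVal PT.snd'
  have hib : PBd (fun p : α × Un => p.2.v) := PBd.unSnd
  have hK' : PT A (fun p : α × Un => aK (k p.1)) := hKK.comp PT.fst'
  have h1 := hi.mod hK'
  have h2 := hi.div hK'
  have h3 : PT A (fun p : α × Un => Un.mk (p.2.v % aK (k p.1) - p.2.v / aK (k p.1))) :=
    PT.mkUn (h1.sub h2) (hib.mono fun _ => (Nat.sub_le _ _).trans (Nat.mod_le _ _))
  have h4 : PT A (fun p : α × Un => x p.1 (p.2.v % aK (k p.1) - p.2.v / aK (k p.1))) :=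
    hx.comp (PT.fst'.pair h3)
  exact PT.rangeMap (hKK.mul hKK) (hKb.mul hKb)
    (PT.natSqrt (((h4.powConst 2).mul (pt_mW (hw.comp PT.fst') h2 h1)).div hK'))

theorem pt_offs {w : α → List Bool} (hk : PT A k) (hK : PBd (fun a => 2 ^ k a)) (hw : PT A w) :
    PT A (fun a => offs (k a) (w a)) := by
  have hnb := pbd_an hK
  have h : PBd (fun a => 2000 * an (k a) ^ 3) := by fun_prop
  exact (((PT.const 2).intMul ((PT.natCast (pt_mSum hw)).intAdd
    (PT.natCast (pt_hA hw)))).intSub (PT.const 1)).intMul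
    (PT.twoPowInt ((((PT.const 2000).mul ((pt_an hk hK).powConst 3)).sub
      ((PT.const 4353).mul hk)).sub (PT.const 2))
      (h.mono fun _ => (Nat.sub_le _ _).trans (Nat.sub_le _ _)))

/-! ### from typed functions to machines -/

/-- functions on words from the typed layer -/
theorem polyTimeFn_of_pt {f : List Bool → List Bool}
    (hf : PT ∅ (fun x : Raw => f x.w)) : PolyTimeFn f := by
  obtain ⟨g, hg, hg'⟩ := PT.rawOfList hf
  refine exists_tm2_of_polyTimeFun id id f g (polyTimeFun_iff.2 hg) fun a => ?_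
  exact hg' ⟨a⟩

end Vale.Agent.P370.Q.Alg
end
end

section

section

set_option linter.all false

/-!
Composition of reductions (H12).
-/

namespace Vale.Agent.P370.H

open Vale.Agent.Lib.PolyTime

theorem fp_of_polyTimeFn {f : List Bool → List Bool} (hf : PolyTimeFn f) : FP ∅ f := by
  obtain ⟨M, _⟩ := hf
  exact OfTM2.FP_of_tm2 M

theorem polyTimeFn_of_fp {f : List Bool → List Bool} (hf : FP ∅ f) : PolyTimeFn f :=
  exists_tm2_of_polyTimeFun id id f f (polyTimeFun_iff.2 hf) fun _ => rfl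

theorem PolyTimeFn.comp {f g : List Bool → List Bool} (hf : PolyTimeFn f) (hg : PolyTimeFn g) :
    PolyTimeFn (fun w => f (g w)) :=
  polyTimeFn_of_fp ((fp_of_polyTimeFn hf).comp (fp_of_polyTimeFn hg))

theorem karp_trans {A B C : PromiseProblem} (h1 : KarpReduces A B) (h2 : KarpReduces B C) :
    KarpReduces A C := by
  obtain ⟨f, hf, hf1, hf2⟩ := h1
  obtain ⟨g, hg, hg1, hg2⟩ := h2
  exact ⟨fun w => g (f w), PolyTimeFn.comp hg hf, fun w hw => hg1 _ (hf1 w hw),
    fun w hw => hg2 _ (hf2 w hw)⟩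

end Vale.Agent.P370.H
end
end

section

section

set_option linter.all false

/-!
Integer weights close to the real couplings (H9A).
-/

namespace Vale.Agent.P370.H

open Finset ComplexConjugate

/-- sums over ordered pairs of a symmetric function -/
private lemma sum_sym {K : ℕ} (F : Fin K → Fin K → ℝ) (hF : ∀ i j, F i j = F j i) :
    ∑ i, ∑ j, (if i = j then 0 else F i j) = 2 * ∑ i, ∑ j ∈ Ioi i, F i j := by
  have h1 : ∀ i j, (if i = j then 0 else F i j)
      = (if i < j then F i j else 0) + (if j < i then F i j else 0) := by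
    intro i j
    rcases lt_trichotomy i j with h | h | h
    · rw [if_neg h.ne, if_pos h, if_neg h.asymm, add_zero]
    · subst h; simp
    · rw [if_neg h.ne', if_neg h.asymm, if_pos h, zero_add]
  have h2 : ∑ i, ∑ j, (if j < i then F i j else 0) = ∑ i, ∑ j, (if i < j then F i j else 0) := by
    rw [Finset.sum_comm]
    refine Finset.sum_congr rfl fun i _ => Finset.sum_congr rfl fun j _ => ?_
    rw [hF]
  have h3 : ∀ i, ∑ j ∈ Ioi i, F i j = ∑ j, (if i < j then F i j else 0) := by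
    intro i
    rw [← Finset.sum_filter]
    refine Finset.sum_congr ?_ fun _ _ => rfl
    ext j; simp only [mem_Ioi, mem_filter, mem_univ, true_and]
  calc ∑ i, ∑ j, (if i = j then 0 else F i j)
      = ∑ i, ∑ j, ((if i < j then F i j else 0) + (if j < i then F i j else 0)) :=
        Finset.sum_congr rfl fun i _ => Finset.sum_congr rfl fun j _ => h1 i j
    _ = ∑ i, ∑ j, (if i < j then F i j else 0) + ∑ i, ∑ j, (if j < i then F i j else 0) := by
        simp only [Finset.sum_add_distrib]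
    _ = 2 * ∑ i, ∑ j ∈ Ioi i, F i j := by
        rw [h2, two_mul, Finset.sum_congr rfl fun i _ => h3 i]

/-- overlap with the swapped state -/
private noncomputable def ov {I : Type} [Fintype I] [DecidableEq I] (Φ : SSt I) (p q : I) : ℝ :=
  (∑ t, conj (Φ t) * Φ (t ∘ Equiv.swap p q)).re

private lemma ov_comm {I : Type} [Fintype I] [DecidableEq I] (Φ : SSt I) (p q : I) :
    ov Φ p q = ov Φ q p := by
  unfold ov
  rw [Equiv.swap_comm]

private lemma comp_swap_swap {I : Type} [DecidableEq I] (p q : I) (t : I → Fin 2) :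
    (t ∘ Equiv.swap p q) ∘ Equiv.swap p q = t := by
  funext x
  simp

private lemma ov_abs {I : Type} [Fintype I] [DecidableEq I] (Φ : SSt I) (p q : I) :
    |ov Φ p q| ≤ snorm2 Φ := by
  let τ : (I → Fin 2) ≃ (I → Fin 2) :=
    { toFun := fun t => t ∘ Equiv.swap p q
      invFun := fun t => t ∘ Equiv.swap p q
      left_inv := fun t => comp_swap_swap p q t
      right_inv := fun t => comp_swap_swap p q t }
  have hτ : ∑ t, ‖Φ (t ∘ Equiv.swap p q)‖ ^ 2 = ∑ t, ‖Φ t‖ ^ 2 :=
    Equiv.sum_comp τ fun t => ‖Φ t‖ ^ 2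
  have h1 : |ov Φ p q| ≤ ∑ t, ‖Φ t‖ * ‖Φ (t ∘ Equiv.swap p q)‖ := by
    refine (Complex.abs_re_le_norm _).trans ((norm_sum_le _ _).trans (le_of_eq ?_))
    refine Finset.sum_congr rfl fun t _ => ?_
    rw [norm_mul, RCLike.norm_conj]
  have h2 : ∑ t, ‖Φ t‖ * ‖Φ (t ∘ Equiv.swap p q)‖ ≤
      ∑ t, (‖Φ t‖ ^ 2 + ‖Φ (t ∘ Equiv.swap p q)‖ ^ 2) / 2 := by
    refine Finset.sum_le_sum fun t _ => ?_
    (clear * -; nlinarith [sq_nonneg (‖Φ t‖ - ‖Φ (t ∘ Equiv.swap p q)‖)])
  refine (h1.trans h2).trans (le_of_eq ?_)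
  rw [← Finset.sum_div, Finset.sum_add_distrib, hτ]
  unfold snorm2
  ring

private lemma snorm2_nn {I : Type} [Fintype I] [DecidableEq I] (Φ : SSt I) : 0 ≤ snorm2 Φ :=
  Finset.sum_nonneg fun _ _ => by positivity

private lemma sip_dotS {I : Type} [Fintype I] [DecidableEq I] (Φ : SSt I) (p q : I) :
    (sip Φ (dotS p q Φ)).re = 1 / 2 * ov Φ p q - 1 / 4 * snorm2 Φ := by
  have h : sip Φ (dotS p q Φ) = (1 / 2 : ℝ) * (∑ t, conj (Φ t) * Φ (t ∘ Equiv.swap p q))
      - ((1 / 4 * snorm2 Φ : ℝ) : ℂ) := by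
    unfold sip dotS snorm2
    push_cast
    rw [Finset.mul_sum, Finset.mul_sum, ← Finset.sum_sub_distrib]
    refine Finset.sum_congr rfl fun t _ => ?_
    have h2 : ((‖Φ t‖ : ℝ) : ℂ) ^ 2 = conj (Φ t) * Φ t := by
      rw [← Complex.normSq_eq_conj_mul_self, Complex.normSq_eq_norm_sq]
      push_cast
      rfl
    rw [h2]
    ring
  rw [h, Complex.sub_re, Complex.re_ofReal_mul, Complex.ofReal_re]
  rfl

private lemma hs_eq {I : Type} [Fintype I] [DecidableEq I] (J : I → I → ℝ) (Φ : SSt I) :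
    4 * hs J Φ = ∑ p, ∑ q, (if p = q then 0 else J p q * (ov Φ p q - snorm2 Φ / 2)) := by
  unfold hs
  rw [← mul_assoc, Finset.mul_sum]
  refine Finset.sum_congr rfl fun p _ => ?_
  rw [Finset.mul_sum]
  refine Finset.sum_congr rfl fun q _ => ?_
  split_ifs with h
  · simp only [one_div, mul_zero]
  · rw [sip_dotS]; ring

private lemma swap_conj {A B : Type} [DecidableEq A] [DecidableEq B] (σ : A ≃ B) (i j : B)
    (s : B → Fin 2) :
    (s ∘ Equiv.swap i j) ∘ σ = (s ∘ σ) ∘ Equiv.swap (σ.symm i) (σ.symm j) := by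
  funext x
  simp only [Function.comp_apply]
  congr 1
  by_cases h1 : x = σ.symm i
  · subst h1; simp
  · by_cases h2 : x = σ.symm j
    · subst h2; simp
    · rw [Equiv.swap_apply_of_ne_of_ne h1 h2, Equiv.swap_apply_of_ne_of_ne]
      · exact fun h => h1 (by rw [← h]; simp)
      · exact fun h => h2 (by rw [← h]; simp)

/-- integer weights close to the real couplings -/
theorem heis_close (n K : ℕ) (hK : K = n * 4) (mm : ℕ → ℕ → ℕ)
    (J : Fin n × Fin 4 → Fin n × Fin 4 → ℝ) (hJ : ∀ p q, J p q = J q p)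
    (hm : ∀ p q : Fin n × Fin 4, p ≠ q →
      |(mm (4 * (p.1 : ℕ) + (p.2 : ℕ)) (4 * (q.1 : ℕ) + (q.2 : ℕ)) : ℝ) - J p q| ≤ 3) :
    ∃ e : SSt (Fin n × Fin 4) ≃ ((Fin K → Fin 2) → ℂ), ∀ Φ,
      ∑ s, ‖e Φ s‖ ^ 2 = snorm2 Φ ∧
      |heisenbergForm mm (e Φ) - 4 * hs J Φ| ≤ 9 * (K : ℝ) ^ 2 / 2 * snorm2 Φ := by
  subst hK
  let σ : Fin n × Fin 4 ≃ Fin (n * 4) := finProdFinEquiv
  have hσ : ∀ i : Fin (n * 4), 4 * ((σ.symm i).1 : ℕ) + ((σ.symm i).2 : ℕ) = (i : ℕ) := by
    intro i
    have h := finProdFinEquiv_apply_val (σ.symm i)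
    have h2 : finProdFinEquiv (σ.symm i) = i := σ.apply_symm_apply i
    rw [h2] at h
    rw [h]; ring
  let τ : (Fin (n * 4) → Fin 2) ≃ (Fin n × Fin 4 → Fin 2) :=
    { toFun := fun s => s ∘ σ
      invFun := fun t => t ∘ σ.symm
      left_inv := fun s => by funext x; simp only [Function.comp_apply, Equiv.apply_symm_apply]
      right_inv := fun t => by funext x; simp only [Function.comp_apply, Equiv.symm_apply_apply] }
  let e : SSt (Fin n × Fin 4) ≃ ((Fin (n * 4) → Fin 2) → ℂ) :=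
    { toFun := fun Φ s => Φ (τ s)
      invFun := fun φ t => φ (τ.symm t)
      left_inv := fun Φ => by funext t; exact congrArg Φ (τ.apply_symm_apply t)
      right_inv := fun φ => by funext s; exact congrArg φ (τ.symm_apply_apply s) }
  refine ⟨e, fun Φ => ?_⟩
  have he : ∀ s, e Φ s = Φ (s ∘ σ) := fun s => rfl
  have hnorm : ∑ s, ‖e Φ s‖ ^ 2 = snorm2 Φ := Equiv.sum_comp τ fun t => ‖Φ t‖ ^ 2
  refine ⟨hnorm, ?_⟩
  have hov : ∀ i j : Fin (n * 4), (∑ s, conj (e Φ s) * e Φ (s ∘ Equiv.swap i j)).re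
      = ov Φ (σ.symm i) (σ.symm j) := by
    intro i j
    unfold ov
    congr 1
    rw [← Equiv.sum_comp τ fun t => conj (Φ t) * Φ (t ∘ Equiv.swap (σ.symm i) (σ.symm j))]
    refine Finset.sum_congr rfl fun s _ => ?_
    rw [he, he, swap_conj]
    rfl
  have h1 : heisenbergForm mm (e Φ) = ∑ i : Fin (n * 4), ∑ j ∈ Finset.Ioi i,
      (mm i j : ℝ) * (2 * ov Φ (σ.symm i) (σ.symm j) - snorm2 Φ) := by
    unfold heisenbergForm
    refine Finset.sum_congr rfl fun i _ => Finset.sum_congr rfl fun j _ => ?_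
    rw [hov, hnorm]
  have h2 : 4 * hs J Φ = ∑ i : Fin (n * 4), ∑ j ∈ Finset.Ioi i,
      J (σ.symm i) (σ.symm j) * (2 * ov Φ (σ.symm i) (σ.symm j) - snorm2 Φ) := by
    rw [hs_eq]
    have h3 : ∑ p, ∑ q, (if p = q then 0 else J p q * (ov Φ p q - snorm2 Φ / 2))
        = ∑ i : Fin (n * 4), ∑ j : Fin (n * 4), (if i = j then 0 else
            J (σ.symm i) (σ.symm j) * (ov Φ (σ.symm i) (σ.symm j) - snorm2 Φ / 2)) := by
      rw [← Equiv.sum_comp σ.symm]
      refine Finset.sum_congr rfl fun i _ => ?_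
      rw [← Equiv.sum_comp σ.symm]
      refine Finset.sum_congr rfl fun j _ => ?_
      by_cases h : i = j
      · subst h; simp
      · rw [if_neg h, if_neg (fun h' => h (σ.symm.injective h'))]
    rw [h3, sum_sym (fun i j => J (σ.symm i) (σ.symm j) *
      (ov Φ (σ.symm i) (σ.symm j) - snorm2 Φ / 2)) (fun i j => by
        rw [hJ, ov_comm]), Finset.mul_sum]
    refine Finset.sum_congr rfl fun i _ => ?_
    rw [Finset.mul_sum]
    refine Finset.sum_congr rfl fun j _ => ?_
    ring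
  have hN := snorm2_nn Φ
  have h3 : |heisenbergForm mm (e Φ) - 4 * hs J Φ| ≤
      ∑ i : Fin (n * 4), ∑ j ∈ Finset.Ioi i, 9 * snorm2 Φ := by
    rw [h1, h2, ← Finset.sum_sub_distrib]
    refine (Finset.abs_sum_le_sum_abs _ _).trans (Finset.sum_le_sum fun i _ => ?_)
    rw [← Finset.sum_sub_distrib]
    refine (Finset.abs_sum_le_sum_abs _ _).trans (Finset.sum_le_sum fun j hj => ?_)
    rw [← sub_mul, abs_mul]
    have hij : i ≠ j := (Finset.mem_Ioi.1 hj).ne
    have h4 := hm (σ.symm i) (σ.symm j) (fun h => hij (σ.symm.injective h))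
    rw [hσ, hσ] at h4
    have h5 : |2 * ov Φ (σ.symm i) (σ.symm j) - snorm2 Φ| ≤ 3 * snorm2 Φ := by
      have h6 := abs_le.1 (ov_abs Φ (σ.symm i) (σ.symm j))
      rw [abs_le]
      constructor <;> linarith only [h6]
    calc |(mm i j : ℝ) - J (σ.symm i) (σ.symm j)| * |2 * ov Φ (σ.symm i) (σ.symm j) - snorm2 Φ|
        ≤ 3 * (3 * snorm2 Φ) := mul_le_mul h4 h5 (abs_nonneg _) (by norm_num)
      _ = 9 * snorm2 Φ := by ring
  have h4 : 2 * ∑ i : Fin (n * 4), ∑ j ∈ Finset.Ioi i, 9 * snorm2 Φ ≤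
      ((n * 4 : ℕ) : ℝ) ^ 2 * (9 * snorm2 Φ) := by
    rw [← sum_sym (fun _ _ => 9 * snorm2 Φ) (fun _ _ => rfl)]
    calc ∑ i : Fin (n * 4), ∑ j : Fin (n * 4), (if i = j then 0 else 9 * snorm2 Φ)
        ≤ ∑ i : Fin (n * 4), ∑ j : Fin (n * 4), 9 * snorm2 Φ :=
          Finset.sum_le_sum fun i _ => Finset.sum_le_sum fun j _ => by
            split_ifs
            · (clear * - hN; positivity)
            · exact le_rfl
      _ = ((n * 4 : ℕ) : ℝ) ^ 2 * (9 * snorm2 Φ) := by
          simp only [Finset.sum_const, Finset.card_univ, Fintype.card_fin, nsmul_eq_mul]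
          ring
  linarith only [h3, h4]

end Vale.Agent.P370.H
end
end

section

section

set_option linter.all false

/-!
Algebra of block singlets (H5): spin operators, the interaction between blocks.
-/

namespace Vale.Agent.P370.H

open Finset ComplexConjugate

/-! ### the form `sip` -/

section sipsec

variable {I : Type} [Fintype I] [DecidableEq I]

theorem sip_add_right (Φ Ψ Ω : SSt I) : sip Φ (Ψ + Ω) = sip Φ Ψ + sip Φ Ω := by
  simp only [sip, Pi.add_apply, mul_add, sum_add_distrib]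

theorem sip_add_left (Φ Ψ Ω : SSt I) : sip (Φ + Ψ) Ω = sip Φ Ω + sip Ψ Ω := by
  simp only [sip, Pi.add_apply, map_add, add_mul, sum_add_distrib]

theorem sip_smul_right (c : ℂ) (Φ Ψ : SSt I) : sip Φ (c • Ψ) = c * sip Φ Ψ := by
  simp only [sip, Pi.smul_apply, smul_eq_mul, mul_sum]
  exact sum_congr rfl fun s _ => by ring

theorem sip_smul_left (c : ℂ) (Φ Ψ : SSt I) : sip (c • Φ) Ψ = conj c * sip Φ Ψ := by
  simp only [sip, Pi.smul_apply, smul_eq_mul, map_mul, mul_sum]
  exact sum_congr rfl fun s _ => by ring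

theorem sip_zero_right (Φ : SSt I) : sip Φ 0 = 0 := by simp only [sip, Pi.zero_apply, mul_zero, sum_const_zero]

theorem sip_zero_left (Φ : SSt I) : sip 0 Φ = 0 := by simp only [sip, Pi.zero_apply, map_zero, zero_mul, sum_const_zero]

theorem sip_sub_right (Φ Ψ Ω : SSt I) : sip Φ (Ψ - Ω) = sip Φ Ψ - sip Φ Ω := by
  simp only [sip, Pi.sub_apply, mul_sub, sum_sub_distrib]

theorem sip_sum_right {ι : Type*} (s : Finset ι) (Φ : SSt I) (f : ι → SSt I) :
    sip Φ (∑ i ∈ s, f i) = ∑ i ∈ s, sip Φ (f i) := by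
  classical
  induction s using Finset.induction_on with
  | empty => simp only [sum_empty, sip_zero_right]
  | insert a s ha ih => rw [sum_insert ha, sum_insert ha, sip_add_right, ih]

theorem sip_sum_left {ι : Type*} (s : Finset ι) (Φ : SSt I) (f : ι → SSt I) :
    sip (∑ i ∈ s, f i) Φ = ∑ i ∈ s, sip (f i) Φ := by
  classical
  induction s using Finset.induction_on with
  | empty => simp [sip_zero_left]
  | insert a s ha ih => rw [sum_insert ha, sum_insert ha, sip_add_left, ih]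

theorem sip_self (Φ : SSt I) : sip Φ Φ = (snorm2 Φ : ℂ) := by
  simp only [sip, snorm2, Complex.ofReal_sum]
  exact sum_congr rfl fun s _ => by
    rw [Complex.ofReal_pow, Complex.conj_mul']

theorem snorm2_nonneg (Φ : SSt I) : 0 ≤ snorm2 Φ := sum_nonneg fun _ _ => by (clear * -; positivity)

theorem snorm2_eq_zero (Φ : SSt I) (h : snorm2 Φ = 0) : Φ = 0 := by
  funext s
  have h1 := (sum_eq_zero_iff_of_nonneg (fun s _ => by (clear * -; positivity))).1 h s (mem_univ s)
  simpa only [Pi.zero_apply, ne_eq, OfNat.ofNat_ne_zero, not_false_eq_true, pow_eq_zero_iff, norm_eq_zero] using     h1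

/-! ### spin operators -/

/-- matrix element of a spin operator (`0, 1, 2` stand for `x, y, z`) -/
noncomputable def sco (a : Fin 3) (x : Fin 2) : ℂ :=
  if a = 0 then 1 / 2 else if a = 1 then (if x = 0 then -(Complex.I / 2) else Complex.I / 2)
  else (if x = 0 then 1 / 2 else -(1 / 2))

/-- target of a spin operator -/
def stg (a : Fin 3) (x : Fin 2) : Fin 2 := if a = 2 then x else 1 - x

/-- spin operator -/
noncomputable def Sp (a : Fin 3) (i : I) : Module.End ℂ (SSt I) where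
  toFun Φ := fun s => sco a (s i) * Φ (Function.update s i (stg a (s i)))
  map_add' := by intro x y; funext s; simp only [Pi.add_apply, mul_add]
  map_smul' := by
    intro c x; funext s
    simp only [Pi.smul_apply, smul_eq_mul, RingHom.id_apply]; ring

omit [Fintype I] in
theorem Sp_apply (a : Fin 3) (i : I) (Φ : SSt I) (s : I → Fin 2) :
    Sp a i Φ s = sco a (s i) * Φ (Function.update s i (stg a (s i))) := rfl

theorem stg_stg (a : Fin 3) (x : Fin 2) : stg a (stg a x) = x := by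
  revert a x; decide

theorem stg_cyc (a : Fin 3) (x : Fin 2) : stg (a + 1) (stg a x) = stg (a + 2) x := by
  revert a x; decide

theorem stg_cyc' (a : Fin 3) (x : Fin 2) : stg a (stg (a + 1) x) = stg (a + 2) x := by
  revert a x; decide

theorem sco_sq (a : Fin 3) (x : Fin 2) : sco a x * sco a (stg a x) = 1 / 4 := by
  fin_cases a <;> fin_cases x <;> simp [sco, stg] <;> ring_nf <;> simp only [Complex.I_sq, neg_mul, one_mul, one_div] <;> norm_num

theorem sco_cyc (a : Fin 3) (x : Fin 2) :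
    sco a x * sco (a + 1) (stg a x) = Complex.I / 2 * sco (a + 2) x := by
  fin_cases a <;> fin_cases x <;> simp [sco, stg] <;> ring_nf <;> simp [Complex.I_sq] <;> norm_num

theorem sco_cyc' (a : Fin 3) (x : Fin 2) :
    sco (a + 1) x * sco a (stg (a + 1) x) = -(Complex.I / 2) * sco (a + 2) x := by
  fin_cases a <;> fin_cases x <;> simp [sco, stg] <;> ring_nf <;> simp [Complex.I_sq] <;> norm_num

theorem sco_conj (a : Fin 3) (x : Fin 2) : conj (sco a (stg a x)) = sco a x := by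
  have h2 : (starRingEnd ℂ) 2 = 2 := Complex.conj_ofNat 2
  fin_cases a <;> fin_cases x <;> simp [sco, stg, h2] <;> ring

omit [Fintype I] in
theorem Sp_comm (a b : Fin 3) {i j : I} (h : i ≠ j) : Sp a i * Sp b j = Sp b j * Sp a i := by
  refine LinearMap.ext fun Φ => funext fun s => ?_
  simp only [Module.End.mul_apply, Sp_apply, Function.update_of_ne h, Function.update_of_ne h.symm]
  rw [Function.update_comm h]
  ring

omit [Fintype I] in
theorem Sp_sq (a : Fin 3) (i : I) : Sp a i * Sp a i = (1 / 4 : ℂ) • (1 : Module.End ℂ (SSt I)) := by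
  refine LinearMap.ext fun Φ => funext fun s => ?_
  simp only [Module.End.mul_apply, Sp_apply, Function.update_self, Function.update_idem, stg_stg,
    Function.update_eq_self, LinearMap.smul_apply, Module.End.one_apply, Pi.smul_apply, smul_eq_mul]
  rw [← mul_assoc, sco_sq]

omit [Fintype I] in
theorem Sp_cyc (a : Fin 3) (i : I) : Sp a i * Sp (a + 1) i = (Complex.I / 2) • Sp (a + 2) i := by
  refine LinearMap.ext fun Φ => funext fun s => ?_
  simp only [Module.End.mul_apply, Sp_apply, Function.update_self, Function.update_idem, stg_cyc,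
    LinearMap.smul_apply, Pi.smul_apply, smul_eq_mul]
  rw [← mul_assoc, sco_cyc, mul_assoc]

omit [Fintype I] in
theorem Sp_cyc' (a : Fin 3) (i : I) :
    Sp (a + 1) i * Sp a i = (-(Complex.I / 2)) • Sp (a + 2) i := by
  refine LinearMap.ext fun Φ => funext fun s => ?_
  simp only [Module.End.mul_apply, Sp_apply, Function.update_self, Function.update_idem, stg_cyc',
    LinearMap.smul_apply, Pi.smul_apply, smul_eq_mul]
  rw [← mul_assoc, sco_cyc', mul_assoc]

theorem sip_Sp (a : Fin 3) (i : I) (Φ Ψ : SSt I) : sip Φ (Sp a i Ψ) = sip (Sp a i Φ) Ψ := by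
  unfold sip
  have hinv : ∀ s : I → Fin 2, Function.update (Function.update s i (stg a (s i))) i
      (stg a ((Function.update s i (stg a (s i))) i)) = s := by
    intro s
    simp only [Function.update_self, Function.update_idem, stg_stg, Function.update_eq_self]
  let e : (I → Fin 2) ≃ (I → Fin 2) :=
    { toFun := fun s => Function.update s i (stg a (s i))
      invFun := fun s => Function.update s i (stg a (s i))
      left_inv := hinv
      right_inv := hinv }
  rw [← e.sum_comp]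
  refine sum_congr rfl fun s _ => ?_
  have h1 : Sp a i Ψ (e s) = sco a (stg a (s i)) * Ψ s := by
    rw [Sp_apply]
    have : Function.update (e s) i (stg a ((e s) i)) = s := hinv s
    rw [this]
    simp [e]
  rw [h1, Sp_apply, map_mul]
  have h2 : sco a (stg a (s i)) = conj (sco a (s i)) := by
    rw [← sco_conj a (stg a (s i)), stg_stg]
  rw [h2]
  change conj (Φ (Function.update s i (stg a (s i)))) * _ = _
  ring

omit [Fintype I] in
theorem dotS_eq {i j : I} (h : i ≠ j) (Φ : SSt I) :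
    dotS i j Φ = ∑ a : Fin 3, Sp a i (Sp a j Φ) := by
  funext s
  simp only [dotS, Fin.sum_univ_three, Pi.add_apply, Sp_apply, Function.update_of_ne h.symm]
  have hsw : s ∘ Equiv.swap i j = Function.update (Function.update s i (s j)) j (s i) := by
    funext k
    by_cases h1 : k = i
    · subst h1
      rw [Function.comp_apply, Equiv.swap_apply_left, Function.update_of_ne h, Function.update_self]
    · by_cases h2 : k = j
      · subst h2
        rw [Function.comp_apply, Equiv.swap_apply_right, Function.update_self]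
      · rw [Function.comp_apply, Equiv.swap_apply_of_ne_of_ne h1 h2, Function.update_of_ne h2,
          Function.update_of_ne h1]
  have hss : Function.update (Function.update s i (s i)) j (s j) = s := by
    rw [Function.update_eq_self, Function.update_eq_self]
  have key : ∀ x y : Fin 2, (1 / 2 : ℂ) * Φ (Function.update (Function.update s i y) j x) -
      1 / 4 * Φ (Function.update (Function.update s i x) j y) =
      sco 0 x * (sco 0 y * Φ (Function.update (Function.update s i (stg 0 x)) j (stg 0 y))) +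
      sco 1 x * (sco 1 y * Φ (Function.update (Function.update s i (stg 1 x)) j (stg 1 y))) +
      sco 2 x * (sco 2 y * Φ (Function.update (Function.update s i (stg 2 x)) j (stg 2 y))) := by
    intro x y
    fin_cases x <;> fin_cases y <;> simp [sco, stg] <;> ring_nf <;> simp [Complex.I_sq] <;> ring
  have := key (s i) (s j)
  rw [hss] at this
  rw [hsw]
  exact this

end sipsec

/-! ### blocks -/

variable {B : Type} [Fintype B] [DecidableEq B]

theorem f3a (a : Fin 3) : a + 1 + 2 = a := by revert a; decide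

theorem f3b (a : Fin 3) : a + 2 + 1 = a := by revert a; decide

theorem f3c (a : Fin 3) : a + 2 + 2 = a + 1 := by revert a; decide

/-- total spin of a block -/
noncomputable def Tt (a : Fin 3) (b : B) : Module.End ℂ (SSt (B × Fin 4)) :=
  ∑ g : Fin 4, Sp a (b, g)

theorem sip_Tt (a : Fin 3) (b : B) (Φ Ψ : SSt (B × Fin 4)) :
    sip Φ (Tt a b Ψ) = sip (Tt a b Φ) Ψ := by
  simp only [Tt, LinearMap.sum_apply, sip_sum_right, sip_Sp, sip_sum_left]

omit [Fintype B] in
theorem Sp_sq_apply (a : Fin 3) (i : B × Fin 4) (Φ : SSt (B × Fin 4)) :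
    Sp a i (Sp a i Φ) = (1 / 4 : ℂ) • Φ := by
  rw [← Module.End.mul_apply, Sp_sq]; rfl

omit [Fintype B] in
theorem block_eq (b : B) (Φ : SSt (B × Fin 4)) :
    (∑ g : Fin 4, ∑ k : Fin 4, (if g = k then (3 / 4 : ℂ) • Φ else dotS (b, g) (b, k) Φ)) =
      ∑ a : Fin 3, Tt a b (Tt a b Φ) := by
  have h : ∀ g k : Fin 4, (if g = k then (3 / 4 : ℂ) • Φ else dotS (b, g) (b, k) Φ) =
      ∑ a : Fin 3, Sp a (b, g) (Sp a (b, k) Φ) := by
    intro g k
    split_ifs with h
    · subst h
      simp only [Sp_sq_apply, sum_const, card_univ, Fintype.card_fin]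
      rw [← Nat.cast_smul_eq_nsmul ℂ, smul_smul]; norm_num
    · exact dotS_eq (fun h' => h (Prod.ext_iff.1 h').2) Φ
  simp only [h, Tt, LinearMap.sum_apply, map_sum]
  calc _ = ∑ g : Fin 4, ∑ a : Fin 3, ∑ k : Fin 4, Sp a (b, g) (Sp a (b, k) Φ) :=
        sum_congr rfl fun g _ => sum_comm
    _ = ∑ a : Fin 3, ∑ g : Fin 4, ∑ k : Fin 4, Sp a (b, g) (Sp a (b, k) Φ) := sum_comm
    _ = _ := sum_congr rfl fun a _ => sum_comm

/-- the total spin of the block `b` vanishes -/
def Kl (b : B) (Φ : SSt (B × Fin 4)) : Prop := ∀ a, Tt a b Φ = 0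

theorem isBS_iff (Φ : SSt (B × Fin 4)) : IsBS Φ ↔ ∀ b, Kl b Φ := by
  unfold IsBS
  refine forall_congr' fun b => ?_
  rw [block_eq]
  constructor
  · intro h
    have h1 : sip Φ (∑ a : Fin 3, Tt a b (Tt a b Φ)) = 0 := by rw [h, sip_zero_right]
    rw [sip_sum_right] at h1
    simp only [sip_Tt _ b Φ, sip_self] at h1
    have h2 : ∑ a : Fin 3, snorm2 (Tt a b Φ) = 0 := by exact_mod_cast h1
    intro a
    exact snorm2_eq_zero _ ((sum_eq_zero_iff_of_nonneg fun _ _ => snorm2_nonneg _).1 h2 a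
      (mem_univ a))
  · intro h
    refine sum_eq_zero fun a _ => ?_
    rw [h a, map_zero]

omit [Fintype B] in
theorem Tt_comm (c a : Fin 3) {b b' : B} (h : b ≠ b') (k : Fin 4) :
    Tt c b * Sp a (b', k) = Sp a (b', k) * Tt c b := by
  simp only [Tt, sum_mul, mul_sum]
  exact sum_congr rfl fun g _ => Sp_comm _ _ fun h' => h (Prod.ext_iff.1 h').1

omit [Fintype B] in
theorem Tt_comm_same (c a : Fin 3) (b : B) (g : Fin 4) :
    Tt c b * Sp a (b, g) - Sp a (b, g) * Tt c b =
      Sp c (b, g) * Sp a (b, g) - Sp a (b, g) * Sp c (b, g) := by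
  simp only [Tt, sum_mul, mul_sum]
  rw [← sum_sub_distrib]
  refine sum_eq_single g (fun k _ hk => ?_) (fun h => absurd (mem_univ g) h)
  rw [Sp_comm c a (fun h' => hk (Prod.ext_iff.1 h').2), sub_self]

omit [Fintype B] in
theorem Tt_cyc (a : Fin 3) (b : B) (g : Fin 4) :
    Tt a b * Sp (a + 1) (b, g) - Sp (a + 1) (b, g) * Tt a b = Complex.I • Sp (a + 2) (b, g) := by
  rw [Tt_comm_same, Sp_cyc, Sp_cyc']
  module

omit [Fintype B] in
theorem Tt_cyc' (a : Fin 3) (b : B) (g : Fin 4) :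
    Tt (a + 1) b * Sp a (b, g) - Sp a (b, g) * Tt (a + 1) b =
      (-Complex.I) • Sp (a + 2) (b, g) := by
  rw [Tt_comm_same, Sp_cyc, Sp_cyc']
  module

omit [Fintype B] in
theorem Tt_self (a : Fin 3) (b : B) (g : Fin 4) :
    Tt a b * Sp a (b, g) - Sp a (b, g) * Tt a b = 0 := by
  rw [Tt_comm_same, sub_self]

omit [Fintype B] in
theorem Kl.sp {b b' : B} (h : b ≠ b') {Φ : SSt (B × Fin 4)} (hΦ : Kl b Φ) (a : Fin 3)
    (k : Fin 4) : Kl b (Sp a (b', k) Φ) := by
  intro c
  rw [← Module.End.mul_apply, Tt_comm c a h, Module.End.mul_apply, hΦ c, map_zero]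

omit [Fintype B] in
theorem Kl.smul {b : B} {Φ : SSt (B × Fin 4)} (hΦ : Kl b Φ) (x : ℂ) : Kl b (x • Φ) := by
  intro c; rw [map_smul, hΦ c, smul_zero]

omit [Fintype B] in
theorem Kl.sum {ι : Type*} {b : B} (s : Finset ι) {f : ι → SSt (B × Fin 4)}
    (h : ∀ i ∈ s, Kl b (f i)) : Kl b (∑ i ∈ s, f i) := by
  intro c; rw [map_sum]; exact sum_eq_zero fun i hi => h i hi c

theorem comm_zero {b : B} {Φ Ψ : SSt (B × Fin 4)} (hΨ : Kl b Ψ) (hΦ : Kl b Φ) (c : Fin 3)
    (X : Module.End ℂ (SSt (B × Fin 4))) : sip Ψ ((Tt c b * X - X * Tt c b) Φ) = 0 := by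
  rw [LinearMap.sub_apply, Module.End.mul_apply, Module.End.mul_apply, sip_sub_right, sip_Tt,
    hΨ c, hΦ c, map_zero, sip_zero_left, sip_zero_right, sub_zero]

theorem one_zero {b : B} {Φ Ψ : SSt (B × Fin 4)} (hΨ : Kl b Ψ) (hΦ : Kl b Φ) (a : Fin 3)
    (g : Fin 4) : sip Ψ (Sp a (b, g) Φ) = 0 := by
  have h := comm_zero hΨ hΦ (a + 1) (Sp (a + 1 + 1) (b, g))
  rw [Tt_cyc, f3a, LinearMap.smul_apply, sip_smul_right] at h
  exact (mul_eq_zero.1 h).resolve_left Complex.I_ne_zero

theorem mat3 (M : Fin 3 → Fin 3 → ℂ) (L1 : ∀ c, M (c + 2) (c + 2) = M (c + 1) (c + 1))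
    (L2 : ∀ c, M (c + 2) c = 0) (L3 : ∀ c, M c (c + 2) = 0) (a a' : Fin 3) :
    M a a' = if a = a' then 1 / 3 * ∑ c : Fin 3, M c c else 0 := by
  have a1 : M 2 2 = M 1 1 := L1 0
  have a2 : M 0 0 = M 2 2 := L1 1
  have b0 : M 2 0 = 0 := L2 0
  have b1 : M 0 1 = 0 := L2 1
  have b2 : M 1 2 = 0 := L2 2
  have c0 : M 0 2 = 0 := L3 0
  have c1 : M 1 0 = 0 := L3 1
  have c2 : M 2 1 = 0 := L3 2
  rw [Fin.sum_univ_three, a2, a1]
  fin_cases a <;> fin_cases a' <;> simp [b0, b1, b2, c0, c1, c2, a1, a2] <;> ring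

theorem two_spin {b : B} {Φ Ψ : SSt (B × Fin 4)} (hΨ : Kl b Ψ) (hΦ : Kl b Φ) (g g' : Fin 4)
    (a a' : Fin 3) : sip Ψ (Sp a (b, g) (Sp a' (b, g') Φ)) =
      if a = a' then 1 / 3 * ∑ c : Fin 3, sip Ψ (Sp c (b, g) (Sp c (b, g') Φ)) else 0 := by
  have hM : ∀ c a a' : Fin 3, sip Ψ ((Tt c b * Sp a (b, g) - Sp a (b, g) * Tt c b)
      (Sp a' (b, g') Φ)) + sip Ψ (Sp a (b, g) ((Tt c b * Sp a' (b, g') -
        Sp a' (b, g') * Tt c b) Φ)) = 0 := by
    intro c a a'
    rw [← comm_zero hΨ hΦ c (Sp a (b, g) * Sp a' (b, g')), ← sip_add_right]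
    refine congrArg (sip Ψ) ?_
    simp only [LinearMap.sub_apply, Module.End.mul_apply, map_sub]
    abel
  have I0 := Complex.I_ne_zero
  have L1 : ∀ c : Fin 3, sip Ψ (Sp (c + 2) (b, g) (Sp (c + 2) (b, g') Φ)) =
      sip Ψ (Sp (c + 1) (b, g) (Sp (c + 1) (b, g') Φ)) := by
    intro c
    have h := hM c (c + 1) (c + 2)
    rw [Tt_cyc] at h
    have h3 := Tt_cyc' (c + 2) b g'
    rw [f3b, f3c] at h3
    rw [h3, LinearMap.smul_apply, LinearMap.smul_apply, map_smul, sip_smul_right,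
      sip_smul_right] at h
    have h4 : Complex.I * (sip Ψ (Sp (c + 2) (b, g) (Sp (c + 2) (b, g') Φ)) -
      sip Ψ (Sp (c + 1) (b, g) (Sp (c + 1) (b, g') Φ))) = 0 := by
      linear_combination h
    exact sub_eq_zero.1 ((mul_eq_zero.1 h4).resolve_left I0)
  have L2 : ∀ c : Fin 3, sip Ψ (Sp (c + 2) (b, g) (Sp c (b, g') Φ)) = 0 := by
    intro c
    have h := hM c (c + 1) c
    rw [Tt_cyc, Tt_self, LinearMap.zero_apply, map_zero, sip_zero_right, add_zero,
      LinearMap.smul_apply, sip_smul_right] at h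
    exact (mul_eq_zero.1 h).resolve_left I0
  have L3 : ∀ c : Fin 3, sip Ψ (Sp c (b, g) (Sp (c + 2) (b, g') Φ)) = 0 := by
    intro c
    have h := hM c c (c + 1)
    rw [Tt_cyc, Tt_self, LinearMap.zero_apply, sip_zero_right, zero_add,
      LinearMap.smul_apply, map_smul, sip_smul_right] at h
    exact (mul_eq_zero.1 h).resolve_left I0
  exact mat3 (fun a a' => sip Ψ (Sp a (b, g) (Sp a' (b, g') Φ))) L1 L2 L3 a a'

theorem f3d (a : Fin 3) : a + 1 + 1 = a + 2 := by revert a; decide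

theorem sum3 {M : Type*} [AddCommMonoid M] (a : Fin 3) (F : Fin 3 → M) :
    ∑ c, F c = F a + F (a + 1) + F (a + 2) := by
  rw [Fin.sum_univ_three]
  fin_cases a
  · rfl
  · change F 0 + F 1 + F 2 = F 1 + F 2 + F 0
    abel
  · change F 0 + F 1 + F 2 = F 2 + F 0 + F 1
    abel

omit [Fintype B] in
theorem cas_one {b : B} {Φ : SSt (B × Fin 4)} (hΦ : Kl b Φ) (a : Fin 3) (g : Fin 4) :
    ∑ c : Fin 3, Tt c b (Tt c b (Sp a (b, g) Φ)) = (2 : ℂ) • Sp a (b, g) Φ := by
  have hT : ∀ c a, Tt c b (Sp a (b, g) Φ) = (Tt c b * Sp a (b, g) - Sp a (b, g) * Tt c b) Φ := by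
    intro c a
    rw [LinearMap.sub_apply, Module.End.mul_apply, Module.End.mul_apply, hΦ c, map_zero, sub_zero]
  have h0 : Tt a b (Sp a (b, g) Φ) = 0 := by rw [hT, Tt_self, LinearMap.zero_apply]
  have h1 : Tt (a + 1) b (Tt (a + 1) b (Sp a (b, g) Φ)) = Sp a (b, g) Φ := by
    rw [hT, Tt_cyc', LinearMap.smul_apply, map_smul, ← f3d a, hT, Tt_cyc, f3a,
      LinearMap.smul_apply, smul_smul, neg_mul, Complex.I_mul_I, neg_neg, one_smul]
  have h2 : Tt (a + 2) b (Tt (a + 2) b (Sp a (b, g) Φ)) = Sp a (b, g) Φ := by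
    have e1 : Tt (a + 2) b (Sp a (b, g) Φ) = Complex.I • Sp (a + 1) (b, g) Φ := by
      have := Tt_cyc (a + 2) b g
      rw [f3b, f3c] at this
      rw [hT, this, LinearMap.smul_apply]
    have e2 : Tt (a + 2) b (Sp (a + 1) (b, g) Φ) = (-Complex.I) • Sp a (b, g) Φ := by
      have := Tt_cyc' (a + 1) b g
      rw [f3d, f3a] at this
      rw [hT, this, LinearMap.smul_apply]
    rw [e1, map_smul, e2, smul_smul, mul_neg, Complex.I_mul_I, neg_neg, one_smul]
  rw [sum3 a, h0, map_zero, h1, h2, zero_add, two_smul]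

omit [Fintype B] in
theorem Sp_comm_apply (a b : Fin 3) {i j : B × Fin 4} (h : i ≠ j) (Φ : SSt (B × Fin 4)) :
    Sp a i (Sp b j Φ) = Sp b j (Sp a i Φ) := by
  rw [← Module.End.mul_apply, Sp_comm a b h, Module.End.mul_apply]

omit [Fintype B] [DecidableEq B] in
theorem ne_blk {b b' : B} (h : b ≠ b') (g k : Fin 4) : (b, g) ≠ (b', k) :=
  fun h' => h (Prod.ext_iff.1 h').1

/-- Casimir operator -/
noncomputable def Cas : Module.End ℂ (SSt (B × Fin 4)) :=
  ∑ b : B, (1 / 2 : ℂ) • ∑ a : Fin 3, Tt a b * Tt a b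

theorem casimir_eq (Φ : SSt (B × Fin 4)) : casimir Φ = Cas Φ := by
  simp only [casimir, block_eq, Cas, LinearMap.sum_apply, LinearMap.smul_apply,
    Module.End.mul_apply]

theorem cas_pair {b b' : B} (h : b ≠ b') {Φ : SSt (B × Fin 4)} (hΦ : ∀ d, Kl d Φ) (a : Fin 3)
    (g k : Fin 4) : Cas (Sp a (b, g) (Sp a (b', k) Φ)) =
      (2 : ℂ) • Sp a (b, g) (Sp a (b', k) Φ) := by
  simp only [Cas, LinearMap.sum_apply, LinearMap.smul_apply, Module.End.mul_apply]
  rw [sum_eq_add b b' h]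
  · rw [cas_one ((hΦ b).sp h a k) a g, Sp_comm_apply a a (ne_blk h g k),
      cas_one ((hΦ b').sp h.symm a g) a k, smul_smul, ← add_smul]
    norm_num
  · rintro d - ⟨h1, h2⟩
    have hk := ((hΦ d).sp h2 a k).sp h1 a g
    simp only [hk _, map_zero, sum_const_zero, smul_zero]
  · intro h'; exact absurd (mem_univ _) h'
  · intro h'; exact absurd (mem_univ _) h'

/-- coupling of two blocks -/
noncomputable def Wb (c : B → B → Fin 4 → Fin 4 → ℝ) (b b' : B) (Φ : SSt (B × Fin 4)) :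
    SSt (B × Fin 4) :=
  ∑ g : Fin 4, ∑ h : Fin 4, (c b b' g h : ℂ) • ∑ a : Fin 3, Sp a (b, g) (Sp a (b', h) Φ)

theorem inter_eq (c : B → B → Fin 4 → Fin 4 → ℝ) (Φ : SSt (B × Fin 4)) :
    inter c Φ = (1 / 2 : ℂ) • ∑ b : B, ∑ b' : B, if b = b' then 0 else Wb c b b' Φ := by
  unfold inter
  refine congrArg (HSMul.hSMul (1 / 2 : ℂ)) ?_
  refine sum_congr rfl fun b _ => sum_congr rfl fun b' _ => ?_
  split_ifs with h
  · rfl
  · simp only [Wb, dotS_eq (ne_blk h _ _)]

/-- the interaction has no matrix elements between block singlets -/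
theorem inter_bs (c : B → B → Fin 4 → Fin 4 → ℝ) (Φ Ψ : SSt (B × Fin 4)) (hΦ : IsBS Φ)
    (hΨ : IsBS Ψ) : sip Ψ (inter c Φ) = 0 := by
  rw [isBS_iff] at hΦ hΨ
  rw [inter_eq, sip_smul_right, sip_sum_right]
  have : ∀ b b', sip Ψ (if b = b' then 0 else Wb c b b' Φ) = 0 := by
    intro b b'
    split_ifs with h
    · exact sip_zero_right _
    · simp only [Wb, sip_sum_right, sip_smul_right]
      refine sum_eq_zero fun g _ => sum_eq_zero fun k _ => ?_
      rw [sum_eq_zero fun a _ => one_zero (hΨ b) ((hΦ b).sp h a k) a g, mul_zero]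
  simp only [sip_sum_right, this, sum_const_zero, mul_zero]

/-- it excites exactly two blocks to spin one -/
theorem casimir_inter (c : B → B → Fin 4 → Fin 4 → ℝ) (hc : ∀ b b' g h, c b b' g h = c b' b h g)
    (Φ : SSt (B × Fin 4)) (hΦ : IsBS Φ) :
    casimir (inter c Φ) = (2 : ℂ) • inter c Φ := by
  rw [isBS_iff] at hΦ
  rw [casimir_eq, inter_eq, map_smul, smul_comm]
  refine congrArg (HSMul.hSMul (1 / 2 : ℂ)) ?_
  rw [map_sum, smul_sum]
  refine sum_congr rfl fun b _ => ?_
  rw [map_sum, smul_sum]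
  refine sum_congr rfl fun b' _ => ?_
  split_ifs with h
  · rw [map_zero, smul_zero]
  · simp only [Wb, map_sum, map_smul, smul_sum, cas_pair h hΦ]
    exact sum_congr rfl fun g _ => sum_congr rfl fun k _ => sum_congr rfl fun a _ =>
      smul_comm _ _ _

/-- symmetry and positivity of the block Casimir operator -/
theorem casimir_symm (Φ Ψ : SSt (B × Fin 4)) : sip Ψ (casimir Φ) = sip (casimir Ψ) Φ := by
  simp only [casimir, block_eq, sip_sum_right, sip_sum_left, sip_smul_right, sip_smul_left, sip_Tt]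
  refine sum_congr rfl fun b _ => ?_

  rw [map_div₀, map_one, Complex.conj_ofNat]

theorem casimir_bs (Φ : SSt (B × Fin 4)) (hΦ : IsBS Φ) : casimir Φ = 0 := by
  unfold casimir
  exact sum_eq_zero fun b _ => by rw [hΦ b, smul_zero]

/-! ### the norm of the excited state -/

omit [Fintype B] in
theorem pair_eq {b : B} {Φ : SSt (B × Fin 4)} (hΦ : Kl b Φ) (c : Fin 3) (g g' l m : Fin 4)
    (h1 : g ≠ g') (h2 : l ≠ m) (h3 : g ≠ l) (h4 : g ≠ m) (h5 : g' ≠ l) (h6 : g' ≠ m)
    (hs : ∀ f : Fin 4 → SSt (B × Fin 4), ∑ k, f k = f g + f g' + (f l + f m)) :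
    Sp c (b, g) (Sp c (b, g') Φ) = Sp c (b, l) (Sp c (b, m) Φ) := by
  have hne : ∀ {k k' : Fin 4}, k ≠ k' → (b, k) ≠ (b, k') := fun h h' => h (Prod.ext_iff.1 h').2
  have h0 : Sp c (b, g) Φ + Sp c (b, g') Φ = -(Sp c (b, l) Φ + Sp c (b, m) Φ) := by
    have := hΦ c
    rw [Tt, LinearMap.sum_apply, hs] at this
    exact eq_neg_of_add_eq_zero_left this
  have e1 : (Sp c (b, g) + Sp c (b, g')) (Sp c (b, g) Φ + Sp c (b, g') Φ) =
      (1 / 2 : ℂ) • Φ + (2 : ℂ) • Sp c (b, g) (Sp c (b, g') Φ) := by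
    rw [map_add, LinearMap.add_apply, LinearMap.add_apply, Sp_sq_apply, Sp_sq_apply,
      Sp_comm_apply c c (hne h1.symm)]
    module
  have e2 : (Sp c (b, l) + Sp c (b, m)) (Sp c (b, l) Φ + Sp c (b, m) Φ) =
      (1 / 2 : ℂ) • Φ + (2 : ℂ) • Sp c (b, l) (Sp c (b, m) Φ) := by
    rw [map_add, LinearMap.add_apply, LinearMap.add_apply, Sp_sq_apply, Sp_sq_apply,
      Sp_comm_apply c c (hne h2.symm)]
    module
  have e3 : (Sp c (b, g) + Sp c (b, g')) (Sp c (b, l) Φ + Sp c (b, m) Φ) =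
      (Sp c (b, l) + Sp c (b, m)) (Sp c (b, g) Φ + Sp c (b, g') Φ) := by
    rw [map_add, map_add]
    simp only [LinearMap.add_apply]
    rw [Sp_comm_apply c c (hne h3), Sp_comm_apply c c (hne h4), Sp_comm_apply c c (hne h5),
      Sp_comm_apply c c (hne h6)]
    abel
  have e4 : (1 / 2 : ℂ) • Φ + (2 : ℂ) • Sp c (b, g) (Sp c (b, g') Φ) =
      (1 / 2 : ℂ) • Φ + (2 : ℂ) • Sp c (b, l) (Sp c (b, m) Φ) := by
    rw [← e1, ← e2, h0, map_neg, e3, h0, map_neg, neg_neg]
  have e5 := add_left_cancel e4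
  exact smul_right_injective _ (two_ne_zero) e5

omit [Fintype B] in
theorem Dd_kl {b : B} {Φ : SSt (B × Fin 4)} (hΦ : Kl b Φ) (g g' : Fin 4) :
    ∑ c : Fin 3, Sp c (b, g) (Sp c (b, g') Φ) = hcl b (cls g g') Φ := by
  have hne : ∀ {k k' : Fin 4}, k ≠ k' → (b, k) ≠ (b, k') := fun h h' => h (Prod.ext_iff.1 h').2
  by_cases h : g = g'
  · subst h
    have h0 : cls g g = 0 := by revert g; decide
    rw [h0, hcl, if_pos rfl]
    simp only [Sp_sq_apply, sum_const, card_univ, Fintype.card_fin]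
    rw [← Nat.cast_smul_eq_nsmul ℂ, smul_smul]; norm_num
  · have h0 : cls g g' ≠ 0 := by revert g g'; decide
    rw [hcl, if_neg h0, dotS_eq (hne h0.symm)]
    by_cases hg : g = 0
    · subst hg
      have : cls 0 g' = g' := by revert g'; decide
      rw [this]
    by_cases hg' : g' = 0
    · subst hg'
      have : cls g 0 = g := by revert g; decide
      rw [this]
      exact sum_congr rfl fun c _ => Sp_comm_apply c c (hne hg) Φ
    refine sum_congr rfl fun c _ => pair_eq hΦ c g g' 0 (cls g g') h h0.symm hg ?_ hg' ?_ ?_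
    · revert g g'; (clear * -; decide)
    · revert g g'; decide
    · intro f
      rw [Fin.sum_univ_four]
      have key : ∀ g g' : Fin 4, g ≠ g' → g ≠ 0 → g' ≠ 0 →
          (g = 1 ∧ g' = 2 ∧ cls g g' = 3) ∨ (g = 1 ∧ g' = 3 ∧ cls g g' = 2) ∨
          (g = 2 ∧ g' = 1 ∧ cls g g' = 3) ∨ (g = 2 ∧ g' = 3 ∧ cls g g' = 1) ∨
          (g = 3 ∧ g' = 1 ∧ cls g g' = 2) ∨ (g = 3 ∧ g' = 2 ∧ cls g g' = 1) := by decide
      rcases key g g' h hg hg' with ⟨a1, a2, a3⟩ | ⟨a1, a2, a3⟩ | ⟨a1, a2, a3⟩ | ⟨a1, a2, a3⟩ |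
        ⟨a1, a2, a3⟩ | ⟨a1, a2, a3⟩ <;> rw [a3, a1, a2] <;> abel

omit [Fintype B] in
theorem Kl.hcl {b b' : B} (h : b ≠ b') {Φ : SSt (B × Fin 4)} (hΦ : Kl b Φ) (k : Fin 4) :
    Kl b (hcl b' k Φ) := by
  unfold Vale.Agent.P370.H.hcl
  split_ifs with hk
  · exact hΦ.smul _
  · rw [dotS_eq (fun h' => hk (Prod.ext_iff.1 h').2.symm)]
    exact Kl.sum _ fun a _ => (hΦ.sp h a k).sp h a 0

theorem W_term {b b' : B} (h : b ≠ b') {Φ : SSt (B × Fin 4)} (hΦ : ∀ d, Kl d Φ)
    (g k g' k' : Fin 4) :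
    ∑ a : Fin 3, ∑ a' : Fin 3, sip (Sp a (b, g) (Sp a (b', k) Φ))
      (Sp a' (b, g') (Sp a' (b', k') Φ)) =
      1 / 3 * sip Φ (hcl b (cls g g') (hcl b' (cls k k') Φ)) := by
  have h1 : ∀ a a' : Fin 3, sip (Sp a (b, g) (Sp a (b', k) Φ))
      (Sp a' (b, g') (Sp a' (b', k') Φ)) =
      if a = a' then 1 / 3 * ∑ c : Fin 3, sip Φ (Sp c (b, g) (Sp c (b, g')
        (Sp a (b', k) (Sp a (b', k') Φ)))) else 0 := by
    intro a a'
    rw [← sip_Sp, two_spin ((hΦ b).sp h a k) ((hΦ b).sp h a' k')]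
    split_ifs with haa
    · subst haa
      refine congrArg (HMul.hMul (1 / 3 : ℂ)) ?_
      refine sum_congr rfl fun c _ => ?_
      rw [← sip_Sp, Sp_comm_apply a c (ne_blk h.symm k g), Sp_comm_apply a c (ne_blk h.symm k g')]
    · rfl
  simp only [h1, sum_ite_eq, mem_univ, if_true]
  rw [← mul_sum, sum_comm]
  refine congrArg (HMul.hMul (1 / 3 : ℂ)) ?_
  simp only [← sip_sum_right, ← map_sum]
  rw [Dd_kl (hΦ b') k k', Dd_kl ((hΦ b).hcl h _) g g']

theorem W_self (c : B → B → Fin 4 → Fin 4 → ℝ) {b b' : B} (h : b ≠ b') {Φ : SSt (B × Fin 4)}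
    (hΦ : ∀ d, Kl d Φ) : sip (Wb c b b' Φ) (Wb c b b' Φ) =
      1 / 3 * ∑ g, ∑ k, ∑ g', ∑ k', (c b b' g k * c b b' g' k' : ℝ) *
        sip Φ (hcl b (cls g g') (hcl b' (cls k k') Φ)) := by
  conv_lhs => rw [Wb, sip_sum_left]
  rw [mul_sum]
  refine sum_congr rfl fun g _ => ?_
  rw [sip_sum_left, mul_sum]
  refine sum_congr rfl fun k _ => ?_
  rw [sip_smul_left, sip_sum_right, mul_sum, mul_sum]
  refine sum_congr rfl fun g' _ => ?_
  rw [sip_sum_right, mul_sum, mul_sum]
  refine sum_congr rfl fun k' _ => ?_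
  rw [sip_smul_right, sip_sum_left]
  simp only [sip_sum_right]
  rw [W_term h hΦ, Complex.conj_ofReal]
  push_cast
  ring

omit [Fintype B] in
theorem W_symm (c : B → B → Fin 4 → Fin 4 → ℝ) (hc : ∀ b b' g h, c b b' g h = c b' b h g)
    {b b' : B} (h : b ≠ b') (Φ : SSt (B × Fin 4)) : Wb c b' b Φ = Wb c b b' Φ := by
  unfold Wb
  rw [sum_comm]
  refine sum_congr rfl fun g _ => sum_congr rfl fun k _ => ?_
  rw [hc b' b k g]
  refine congrArg (HSMul.hSMul ((c b b' g k : ℝ) : ℂ)) ?_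
  exact sum_congr rfl fun a _ => Sp_comm_apply a a (ne_blk h.symm k g) Φ

theorem W_zero (c : B → B → Fin 4 → Fin 4 → ℝ) {b b' : B} (h : b ≠ b') {Φ Ψ : SSt (B × Fin 4)}
    (hΦ : ∀ d, Kl d Φ) (hΨ : Kl b Ψ) : sip (Wb c b b' Φ) Ψ = 0 := by
  simp only [Wb, sip_sum_left, sip_smul_left]
  refine sum_eq_zero fun g _ => sum_eq_zero fun k _ => ?_
  rw [sum_eq_zero fun a _ => ?_, mul_zero]
  rw [← sip_Sp]
  exact one_zero ((hΦ b).sp h a k) hΨ a g

omit [Fintype B] in
theorem Kl.wb (c : B → B → Fin 4 → Fin 4 → ℝ) {b d d' : B} (h : b ≠ d) (h' : b ≠ d')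
    {Φ : SSt (B × Fin 4)} (hΦ : Kl b Φ) : Kl b (Wb c d d' Φ) :=
  Kl.sum _ fun _ _ => Kl.sum _ fun _ _ => (Kl.sum _ fun _ _ => (hΦ.sp h' _ _).sp h _ _).smul _

/-- norm of the excited state -/
theorem snorm2_inter (c : B → B → Fin 4 → Fin 4 → ℝ)
    (hc : ∀ b b' g h, c b b' g h = c b' b h g) (Φ : SSt (B × Fin 4)) (hΦ : IsBS Φ) :
    snorm2 (inter c Φ) = 1 / 6 * ∑ b, ∑ b', if b = b' then 0 else
      ∑ g, ∑ h, ∑ g', ∑ h', c b b' g h * c b b' g' h' *
        (sip Φ (hcl b (cls g g') (hcl b' (cls h h') Φ))).re := by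
  rw [isBS_iff] at hΦ
  have hcross : ∀ b b' : B, b ≠ b' →
      sip (Wb c b b' Φ) (∑ d, ∑ d', if d = d' then 0 else Wb c d d' Φ) =
        2 * sip (Wb c b b' Φ) (Wb c b b' Φ) := by
    intro b b' h
    have hz : ∀ d d' : B, d ≠ d' → ¬ (d = b ∧ d' = b') → ¬ (d = b' ∧ d' = b) →
        sip (Wb c b b' Φ) (Wb c d d' Φ) = 0 := by
      intro d d' hd h1 h2
      by_cases hb : b ≠ d ∧ b ≠ d'
      · exact W_zero c h hΦ ((hΦ b).wb c hb.1 hb.2)
      · have hb' : b' ≠ d ∧ b' ≠ d' := by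
          constructor
          · rintro rfl
            by_cases hbd' : b = d'
            · exact h2 ⟨rfl, hbd'.symm⟩
            · exact hb ⟨h, hbd'⟩
          · rintro rfl
            by_cases hbd : b = d
            · exact h1 ⟨hbd.symm, rfl⟩
            · exact hb ⟨hbd, h⟩
        rw [← W_symm c hc h]
        exact W_zero c h.symm hΦ ((hΦ b').wb c hb'.1 hb'.2)
    rw [sip_sum_right, sum_eq_add b b' h]
    · rw [sip_sum_right, sip_sum_right, sum_eq_single b', sum_eq_single b, if_neg h,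
        if_neg h.symm, W_symm c hc h, two_mul]
      · intro d' _ hd'
        split_ifs with h1
        · exact sip_zero_right _
        · exact hz _ _ h1 (fun h2 => h h2.1.symm) (fun h2 => hd' h2.2)
      · intro h'; exact absurd (mem_univ _) h'
      · intro d' _ hd'
        split_ifs with h1
        · exact sip_zero_right _
        · exact hz _ _ h1 (fun h2 => hd' h2.2) (fun h2 => h h2.1)
      · intro h'; exact absurd (mem_univ _) h'
    · rintro d - ⟨h1, h2⟩
      rw [sip_sum_right]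
      refine sum_eq_zero fun d' _ => ?_
      split_ifs with h3
      · exact sip_zero_right _
      · exact hz _ _ h3 (fun h4 => h1 h4.1) (fun h4 => h2 h4.1)
    · intro h'; exact absurd (mem_univ _) h'
    · intro h'; exact absurd (mem_univ _) h'
  have h1 : sip (inter c Φ) (inter c Φ) = ((1 / 6 : ℝ) : ℂ) * ∑ b, ∑ b', if b = b' then 0 else
      ∑ g, ∑ h, ∑ g', ∑ h', (c b b' g h * c b b' g' h' : ℝ) *
        sip Φ (hcl b (cls g g') (hcl b' (cls h h') Φ)) := by
    rw [inter_eq, sip_smul_left, sip_smul_right, sip_sum_left, mul_sum, mul_sum, mul_sum]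
    refine sum_congr rfl fun b _ => ?_
    rw [sip_sum_left, mul_sum, mul_sum, mul_sum]
    refine sum_congr rfl fun b' _ => ?_
    split_ifs with h
    · rw [sip_zero_left, mul_zero, mul_zero, mul_zero]
    · rw [hcross b b' h, W_self c h hΦ, map_div₀, map_one, Complex.conj_ofNat]
      push_cast
      ring
  rw [sip_self] at h1
  have h2 := congrArg Complex.re h1
  rw [Complex.ofReal_re, Complex.re_ofReal_mul, Complex.re_sum] at h2
  rw [h2]
  refine congrArg (HMul.hMul (1 / 6 : ℝ)) ?_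
  refine sum_congr rfl fun b _ => ?_
  rw [Complex.re_sum]
  refine sum_congr rfl fun b' _ => ?_
  split_ifs with h
  · exact Complex.zero_re
  · simp only [Complex.re_sum, Complex.re_ofReal_mul]

end Vale.Agent.P370.H
end
end

section

section

/-!
KC: explicit (rational) evaluation of the constants of the structure theorem. Definitions only.
All functions of this file are nested finite sums of rational expressions in natural numbers and
the cosines `x`.
-/

namespace Vale.Agent.P370.KC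

open Finset Vale.Agent.P370.Q

/-! ### Legendre polynomials -/

/-- `½ ∫_{-1}^1 t^m` -/
noncomputable def mom (m : ℕ) : ℝ := if Even m then 1 / ((m : ℝ) + 1) else 0

/-- coefficient of `t ^ m` in the Legendre polynomial `lp l` -/
noncomputable def lpc (l m : ℕ) : ℝ :=
  if m ≤ l ∧ Even (l - m) then
    (-1) ^ ((l - m) / 2) * ((l + m).factorial : ℝ) /
      (2 ^ l * (((l - m) / 2).factorial : ℝ) * (((l + m) / 2).factorial : ℝ) * (m.factorial : ℝ))
  else 0

/-- `½ ∫_{-1}^1 t^m lp L` -/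
noncomputable def mu (m L : ℕ) : ℝ := ∑ i ∈ range (L + 1), lpc L i * mom (m + i)

/-- `½ ∫_{-1}^1 lp a lp b lp c` -/
noncomputable def tri (a b c : ℕ) : ℝ :=
  ∑ i ∈ range (a + 1), ∑ j ∈ range (b + 1), lpc a i * lpc b j * mu (i + j) c

/-- `½ ∫_{-1}^1 (1 - t²)^(n-1) lp L` -/
noncomputable def zc (n L : ℕ) : ℝ :=
  ∑ i ∈ range n, (-1) ^ i * ((n - 1).choose i : ℝ) * mu (2 * i) L

/-- value of the polynomial `lp l` at `x` by its coefficients -/
noncomputable def lpv (l : ℕ) (x : ℝ) : ℝ := ∑ m ∈ range (l + 1), lpc l m * x ^ m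

/-! ### radial integrals -/

/-- `∫_0^∞ r^p e^{-α r} ∫_r^∞ s^q e^{-β s} ds dr` -/
noncomputable def Jf (p q : ℕ) (α β : ℝ) : ℝ :=
  ∑ i ∈ range (q + 1), (q.factorial : ℝ) / (i.factorial : ℝ) * ((p + i).factorial : ℝ) /
    (β ^ (q + 1 - i) * (α + β) ^ (p + i + 1))

/-- `∫_0^∞ ∫_0^∞ r^a s^b e^{-α r - β s} min(r,s)^L / max(r,s)^(L+1)` -/
noncomputable def Phi (a b L : ℕ) (α β : ℝ) : ℝ :=
  Jf (a + L) (b - L - 1) α β + Jf (b + L) (a - L - 1) β α

/-- decay rate of shell `k + 1` -/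
noncomputable def kp (k : ℕ) : ℝ := 1 / ((k : ℝ) + 1)

/-- Laguerre coefficients of the radial functions, as products -/
noncomputable def lag (k l j : ℕ) : ℝ :=
  ∏ i ∈ range j, (2 * (kp k * ((i : ℝ) + l + 1) - 1) / (((i : ℝ) + 1) * ((i : ℝ) + 2 * l + 2)))

/-- radial normalisation -/
noncomputable def nrm (k l : ℕ) : ℝ :=
  ∑ i ∈ range (k + 1 - l), ∑ j ∈ range (k + 1 - l), lag k l i * lag k l j *
    (((2 * l + 2 + i + j).factorial : ℝ) / (2 * kp k) ^ (2 * l + 3 + i + j))

/-- direct Slater integral of the subshells `(k, l)` and `(k', l')` -/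
noncomputable def sld (k l k' l' : ℕ) : ℝ :=
  (∑ i ∈ range (k + 1 - l), ∑ j ∈ range (k + 1 - l), ∑ i' ∈ range (k' + 1 - l'),
    ∑ j' ∈ range (k' + 1 - l'), lag k l i * lag k l j * lag k' l' i' * lag k' l' j' *
      Phi (2 * l + 2 + i + j) (2 * l' + 2 + i' + j') 0 (2 * kp k) (2 * kp k')) /
    (nrm k l * nrm k' l')

/-- exchange Slater integral of order `L` -/
noncomputable def slx (k l k' l' L : ℕ) : ℝ :=
  (∑ i ∈ range (k + 1 - l), ∑ j ∈ range (k + 1 - l), ∑ i' ∈ range (k' + 1 - l'),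
    ∑ j' ∈ range (k' + 1 - l'), lag k l i * lag k l j * lag k' l' i' * lag k' l' j' *
      Phi (l + l' + 2 + i + i') (l + l' + 2 + j + j') L (kp k + kp k') (kp k + kp k')) /
    (nrm k l * nrm k' l')

/-- direct minus exchange energy of two subshells -/
noncomputable def pe2 (k l k' l' : ℕ) : ℝ :=
  2 * sld k l k' l' - ∑ L ∈ range (l + l' + 1), tri l l' L * slx k l k' l' L

/-- Coulomb energy of the closed shells `1, ..., n - 1` -/
noncomputable def closed3 (n : ℕ) : ℝ :=
  ∑ k ∈ range (n - 1), ∑ l ∈ range (k + 1), ∑ k' ∈ range (n - 1), ∑ l' ∈ range (k' + 1),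
    (2 * (l : ℝ) + 1) * (2 * (l' : ℝ) + 1) * pe2 k l k' l'

/-- mean field of the closed shells on the top subspace of shell `n` -/
noncomputable def mf (n : ℕ) : ℝ :=
  ∑ k ∈ range (n - 1), ∑ l ∈ range (k + 1), (2 * (l : ℝ) + 1) * pe2 (n - 1) (n - 1) k l

/-! ### truncated series for the integrals over the small ball -/

/-- Taylor polynomial of `exp (-x)` -/
noncomputable def eN (N : ℕ) (x : ℝ) : ℝ := ∑ i ∈ range N, (-x) ^ i / (i.factorial : ℝ)

/-- `∫_0^ρ r^a eN N (α r) (1/r - 1/ρ) dr`, `1 ≤ a` -/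
noncomputable def ser (N a : ℕ) (α ρ : ℝ) : ℝ :=
  ∑ i ∈ range N, (-α) ^ i / (i.factorial : ℝ) * ρ ^ (a + i) *
    (1 / ((a : ℝ) + i) - 1 / ((a : ℝ) + i + 1))

/-- exact value of `gm` on the subshell `(k, l)`, divided by `2 l + 1` -/
noncomputable def gI (k l : ℕ) (ρ : ℝ) : ℝ :=
  (∫ r in (0 : ℝ)..ρ, r ^ (2 * l + 2) * Hyd.rad k l r ^ 2 * (1 / r - 1 / ρ)) / Hyd.radN k l

/-- its truncated series -/
noncomputable def gIs (N k l : ℕ) (ρ : ℝ) : ℝ :=
  (∑ i ∈ range (k + 1 - l), ∑ j ∈ range (k + 1 - l), lag k l i * lag k l j *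
    ser N (2 * l + 2 + i + j) (2 * kp k) ρ) / nrm k l

/-- truncated series of the trace of `gm` over the closed shells -/
noncomputable def gms (N n : ℕ) (ρ : ℝ) : ℝ :=
  ∑ k ∈ range (n - 1), ∑ l ∈ range (k + 1), (2 * (l : ℝ) + 1) * gIs N k l ρ

/-- truncated series of `xr` -/
noncomputable def xrs (N n : ℕ) (ρ : ℝ) : ℝ :=
  ser N (2 * n) (2 / n) ρ / (((2 * n).factorial : ℝ) * ((n : ℝ) / 2) ^ (2 * n + 1))

/-! ### the sites -/

/-- Coulomb energy of two axially symmetric rings whose axes have the scalar product `x` -/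
noncomputable def W0 (n : ℕ) (x : ℝ) : ℝ :=
  (4 / ((n : ℝ) ^ (2 * n + 2) * ((n - 1).factorial : ℝ) ^ 2)) ^ 2 *
    ∑ L ∈ range (2 * n - 1), zc n L ^ 2 * Phi (2 * n) (2 * n) L (2 / n) (2 / n) * lpv L x

/-- hopping amplitude `hopA n q 0 δ (-δ)` as a function of `x = cos δ` -/
noncomputable def hopx (n q : ℕ) (x : ℝ) : ℝ :=
  1 / 2 * (((2 * n - 1).factorial : ℝ) * ((n - 1 + q).factorial : ℝ) *
    ((2 * q).factorial : ℝ)) /
    (((2 * n + 2 * q - 1).factorial : ℝ) * ((n - 1 - q).factorial : ℝ) * (q.factorial : ℝ) ^ 2) *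
  ((1 - x ^ 2) ^ (n - 1 - q) * ((x - 1) ^ (2 * q) + (x + 1) ^ (2 * q)) +
    (x ^ 2) ^ (n - 1 - q) * (2 * (1 - x ^ 2) ^ q))

/-- exchange coupling at distance `d` as a function of `x = cos (π d / (2 K))` -/
noncomputable def kapx (k q : ℕ) (x : ℝ) : ℝ :=
  2 * (pη k * hopx (pn k) q x) ^ 2 / (W0 (pn k) 1 - W0 (pn k) (2 * x ^ 2 - 1))

/-- number of terms of the truncated series -/
def pNs (k : ℕ) : ℕ := 32 * pn k

/-- reference energy as a function of `x d = cos (π d / (2 K))` -/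
noncomputable def erefx (k : ℕ) (x : ℕ → ℝ) : ℝ :=
  (pT k : ℝ) ^ 2 * (-((pn k : ℝ) - 1) - pK k / (2 * (pn k : ℝ) ^ 2)) +
    pT k * (2 * (pW k * gms (pNs k) (pn k) (pρ k)) + closed3 (pn k) +
      pK k * (pW k * xrs (pNs k) (pn k) (pρ k) + mf (pn k) - pL k * gam (pn k)) +
      ∑ d ∈ range (pK k), if d = 0 then 0 else
        ((pK k : ℝ) - d) * W0 (pn k) (2 * x d ^ 2 - 1))

end Vale.Agent.P370.KC
end
end

section

section

/-!
KC1: algebra of the Legendre polynomials.
-/

namespace Vale.Agent.P370.KC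

open Finset MeasureTheory Vale.Agent.P370.Q

theorem lpc_add (m k : ℕ) : lpc (m + 2 * k) m = (-1) ^ k * ((2 * m + 2 * k).factorial : ℝ) /
      (2 ^ (m + 2 * k) * ((k.factorial : ℝ) * ((m + k).factorial : ℝ) * (m.factorial : ℝ))) := by
  unfold lpc
  have h1 : m + 2 * k - m = 2 * k := by omega
  have h2 : 2 * k / 2 = k := by omega
  have h3 : (m + 2 * k + m) / 2 = m + k := by omega
  have h4 : m + 2 * k + m = 2 * m + 2 * k := by ring
  rw [if_pos ⟨by omega, by rw [h1]; exact even_two_mul k⟩, h1, h2, h3, h4]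
  congr 1
  ring

theorem lpc_odd (l m : ℕ) (_h : m ≤ l) (ho : ¬ Even (l - m)) : lpc l m = 0 := by
  unfold lpc
  rw [if_neg (fun h' => ho h'.2)]

theorem lpc_gt (l m : ℕ) (h : l < m) : lpc l m = 0 := by
  unfold lpc
  rw [if_neg (fun h' => absurd h'.1 (by omega))]

theorem lpc_rec_top (n : ℕ) :
    ((n : ℝ) + 2) * lpc (n + 2) (n + 2) = (2 * (n : ℝ) + 3) * lpc (n + 1) (n + 1) := by
  have h1 := lpc_add (n + 2) 0
  have h2 := lpc_add (n + 1) 0
  simp only [Nat.mul_zero, Nat.add_zero] at h1 h2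
  rw [h1, h2]
  have e1 : 2 * (n + 2) = 2 * (n + 1) + 1 + 1 := by ring
  rw [e1, Nat.factorial_succ (2 * (n + 1) + 1), Nat.factorial_succ (2 * (n + 1)),
    Nat.factorial_succ (n + 1)]
  have f1 : ((2 * (n + 1)).factorial : ℝ) ≠ 0 := by exact_mod_cast Nat.factorial_ne_zero _
  have f2 : ((n + 1).factorial : ℝ) ≠ 0 := by exact_mod_cast Nat.factorial_ne_zero _
  push_cast
  field_simp
  ring

theorem lpc_rec_zero (j : ℕ) :
    ((2 * j : ℕ) + 2 : ℝ) * lpc (2 * j + 2) 0 = - (((2 * j : ℕ) : ℝ) + 1) * lpc (2 * j) 0 := by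
  have h1 := lpc_add 0 (j + 1)
  have h2 := lpc_add 0 j
  have e1 : 0 + 2 * (j + 1) = 2 * j + 2 := by ring
  have e2 : 0 + 2 * j = 2 * j := by ring
  rw [e1] at h1
  rw [e2] at h2
  rw [h1, h2]
  have e3 : (2 * j + 2).factorial = (2 * j + 2) * ((2 * j + 1) * (2 * j).factorial) := rfl
  have e5 : 0 + (j + 1) = j + 1 := by ring
  have e6 : 0 + j = j := by ring
  rw [e3, e5, e6, Nat.factorial_succ j]
  have f1 : ((2 * j).factorial : ℝ) ≠ 0 := by exact_mod_cast Nat.factorial_ne_zero _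
  have f2 : (j.factorial : ℝ) ≠ 0 := by exact_mod_cast Nat.factorial_ne_zero _
  have f3 : (Nat.factorial 0 : ℝ) = 1 := by simp only [Nat.factorial_zero, Nat.cast_one]
  rw [f3]
  push_cast
  field_simp
  ring

theorem lpc_rec_pos (p j : ℕ) :
    (((p + 1 + 2 * j : ℕ) : ℝ) + 2) * lpc (p + 1 + 2 * j + 2) (p + 1) =
      (2 * ((p + 1 + 2 * j : ℕ) : ℝ) + 3) * lpc (p + 1 + 2 * j + 1) p -
      (((p + 1 + 2 * j : ℕ) : ℝ) + 1) * lpc (p + 1 + 2 * j) (p + 1) := by
  have h1 := lpc_add (p + 1) (j + 1)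
  have h2 := lpc_add p (j + 1)
  have h3 := lpc_add (p + 1) j
  have e1 : p + 1 + 2 * (j + 1) = p + 1 + 2 * j + 2 := by ring
  have e2 : p + 2 * (j + 1) = p + 1 + 2 * j + 1 := by ring
  rw [e1] at h1
  rw [e2] at h2
  rw [h1, h2, h3]
  have e3 : 2 * (p + 1) + 2 * (j + 1) = 2 * p + 2 * j + 2 + 1 + 1 := by ring
  have e4 : 2 * p + 2 * (j + 1) = 2 * p + 2 * j + 2 := by ring
  have e5 : 2 * (p + 1) + 2 * j = 2 * p + 2 * j + 2 := by ring
  have e6 : p + 1 + (j + 1) = p + j + 1 + 1 := by ring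
  have e7 : p + (j + 1) = p + j + 1 := by ring
  have e8 : p + 1 + j = p + j + 1 := by ring
  rw [e3, e4, e5, e6, e7, e8, Nat.factorial_succ (2 * p + 2 * j + 2 + 1),
    Nat.factorial_succ (2 * p + 2 * j + 2), Nat.factorial_succ (p + j + 1),
    Nat.factorial_succ j, Nat.factorial_succ p]
  have f1 : ((2 * p + 2 * j + 2).factorial : ℝ) ≠ 0 := by exact_mod_cast Nat.factorial_ne_zero _
  have f2 : (j.factorial : ℝ) ≠ 0 := by exact_mod_cast Nat.factorial_ne_zero _
  have f3 : (p.factorial : ℝ) ≠ 0 := by exact_mod_cast Nat.factorial_ne_zero _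
  have f4 : ((p + j + 1).factorial : ℝ) ≠ 0 := by exact_mod_cast Nat.factorial_ne_zero _
  push_cast
  field_simp
  ring

theorem LP_coeff_rec_zero (n : ℕ) :
    ((n : ℝ) + 2) * (LP (n + 2)).coeff 0 = - ((n : ℝ) + 1) * (LP n).coeff 0 := by
  simp only [LP]
  rw [Polynomial.coeff_C_mul, Polynomial.coeff_sub, Polynomial.coeff_C_mul,
    Polynomial.coeff_C_mul]
  have : ((n : ℝ) + 2) ≠ 0 := by positivity
  simp only [Polynomial.mul_coeff_zero, Polynomial.coeff_X_zero]
  field_simp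
  ring

theorem LP_coeff_rec_succ (n m : ℕ) :
    ((n : ℝ) + 2) * (LP (n + 2)).coeff (m + 1) =
      (2 * (n : ℝ) + 3) * (LP (n + 1)).coeff m - ((n : ℝ) + 1) * (LP n).coeff (m + 1) := by
  simp only [LP]
  rw [Polynomial.coeff_C_mul, Polynomial.coeff_sub, Polynomial.coeff_C_mul,
    Polynomial.coeff_C_mul, Polynomial.coeff_X_mul]
  have : ((n : ℝ) + 2) ≠ 0 := by positivity
  (clear * - this; field_simp)

theorem LP_coeff (l : ℕ) : ∀ m, (LP l).coeff m = lpc l m := by
  induction l using Nat.twoStepInduction with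
  | zero =>
    intro m
    rcases Nat.eq_zero_or_pos m with rfl | hm
    · simp only [LP, Polynomial.coeff_one_zero, lpc, Std.le_refl, tsub_self, Even.zero, and_self, ↓reduceIte, Nat.zero_div, pow_zero, add_zero, Nat.factorial_zero, Nat.cast_one, mul_one, ne_eq, one_ne_zero, not_false_eq_true, div_self]
    · rw [lpc_gt 0 m hm]
      simp [LP, Polynomial.coeff_one, hm.ne']
  | one =>
    intro m
    rcases m with _ | _ | m
    · simp only [LP, Polynomial.coeff_X_zero, lpc, zero_le, tsub_zero, Nat.not_even_one, and_false, ↓reduceIte]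
    · have := lpc_add 1 0
      simp only [Nat.mul_zero, Nat.add_zero] at this
      rw [zero_add, this]
      simp only [LP, Polynomial.coeff_X, ↓reduceIte, pow_zero, Nat.factorial, Nat.succ_eq_add_one, Nat.reduceAdd, zero_add, mul_one, Nat.cast_ofNat, one_mul, pow_one, Nat.cast_one, ne_eq, OfNat.ofNat_ne_zero, not_false_eq_true, div_self]
    · rw [lpc_gt 1 (m + 1 + 1) (by omega)]
      simp only [LP, Polynomial.coeff_X, Nat.right_eq_add, Nat.add_eq_zero_iff, one_ne_zero, and_false, ↓reduceIte]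
  | more n ih0 ih1 =>
    intro m
    have hn : ((n : ℝ) + 2) ≠ 0 := by positivity
    apply mul_left_cancel₀ hn
    rcases m with _ | p
    · rw [LP_coeff_rec_zero, ih0]
      rcases Nat.even_or_odd n with ⟨j, hj⟩ | ho
      · have hj' : n = 2 * j := by omega
        subst hj'
        exact (lpc_rec_zero j).symm
      · rw [lpc_odd n 0 (by omega) (by simpa only [tsub_zero, Nat.not_even_iff_odd] using ho),
          lpc_odd (n + 2) 0 (by omega) (by
            rw [Nat.not_even_iff_odd, Nat.sub_zero]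
            exact ho.add_even even_two)]
        simp only [neg_add_rev, mul_zero]
    · rw [LP_coeff_rec_succ, ih0, ih1]
      rcases Nat.lt_or_ge (n + 1) p with h | h
      · rw [lpc_gt _ _ h, lpc_gt n (p + 1) (by omega), lpc_gt (n + 2) (p + 1) (by omega)]
        simp only [mul_zero, sub_self]
      rcases h.eq_or_lt with h | h
      · rw [h, lpc_gt n (n + 1 + 1) (by (clear * -; omega))]
        have := lpc_rec_top n
        rw [this]
        ring
      rcases Nat.lt_or_ge n (p + 1) with h' | h'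
      · have hp : p = n := by omega
        subst hp
        rw [lpc_gt p (p + 1) h', lpc_odd (p + 1) p (by omega) (by simp only [add_tsub_cancel_left, Nat.not_even_one, not_false_eq_true]),
          lpc_odd (p + 2) (p + 1) (by omega) (by
            have : p + 2 - (p + 1) = 1 := by omega
            rw [this]
            exact Nat.not_even_one)]
        simp only [mul_zero, sub_self]
      · obtain ⟨d, hd⟩ := Nat.exists_eq_add_of_le h'
        rcases Nat.even_or_odd' d with ⟨j, hj | hj⟩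
        · subst hd
          subst hj
          exact (lpc_rec_pos p j).symm
        · rw [lpc_odd n (p + 1) h' (by
              have : n - (p + 1) = 2 * j + 1 := by omega
              rw [this, Nat.not_even_iff_odd]
              exact odd_two_mul_add_one j),
            lpc_odd (n + 1) p (by omega) (by
              have : n + 1 - p = 2 * (j + 1) + 1 := by omega
              rw [this, Nat.not_even_iff_odd]
              exact odd_two_mul_add_one _),
            lpc_odd (n + 2) (p + 1) (by omega) (by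
              have : n + 2 - (p + 1) = 2 * (j + 1) + 1 := by omega
              rw [this, Nat.not_even_iff_odd]
              exact odd_two_mul_add_one _)]
          simp only [mul_zero, sub_self]

theorem lpv_eq (l : ℕ) (t : ℝ) : lpv l t = S3.lp l t := by
  rw [← LP_eval, Polynomial.eval_eq_sum_range' (n := l + 1)
    (Nat.lt_succ_of_le (LP_natDegree_le l))]
  unfold lpv
  refine Finset.sum_congr rfl fun m _ => ?_
  rw [LP_coeff]

theorem mom_eq (m : ℕ) : (1 / 2) * ∫ t in (-1 : ℝ)..1, t ^ m = mom m := by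
  rw [integral_pow]
  unfold mom
  have hm : ((m : ℝ) + 1) ≠ 0 := by (clear * -; positivity)
  rcases Nat.even_or_odd m with h | h
  · rw [if_pos h, one_pow, h.add_one.neg_one_pow]
    field_simp
    norm_num
  · rw [if_neg (Nat.not_even_iff_odd.2 h), one_pow, h.add_one.neg_one_pow]
    simp only [one_div, sub_self, zero_div, mul_zero]

theorem mu_eq (m L : ℕ) : (1 / 2) * ∫ t in (-1 : ℝ)..1, t ^ m * S3.lp L t = mu m L := by
  have h : ∀ t : ℝ, t ^ m * S3.lp L t = ∑ i ∈ range (L + 1), lpc L i * t ^ (m + i) := by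
    intro t
    rw [← lpv_eq]
    unfold lpv
    rw [Finset.mul_sum]
    refine Finset.sum_congr rfl fun i _ => ?_
    ring
  simp only [h]
  rw [intervalIntegral.integral_finsetSum (fun i _ =>
    ((continuous_pow (m + i)).const_mul _).intervalIntegrable _ _)]
  unfold mu
  rw [Finset.mul_sum]
  refine Finset.sum_congr rfl fun i _ => ?_
  rw [intervalIntegral.integral_const_mul, ← mom_eq]
  ring

theorem tri_eq (a b c : ℕ) :
    (1 / 2) * ∫ t in (-1 : ℝ)..1, S3.lp a t * S3.lp b t * S3.lp c t = tri a b c := by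
  have h : ∀ t : ℝ, S3.lp a t * S3.lp b t * S3.lp c t =
      ∑ i ∈ range (a + 1), ∑ j ∈ range (b + 1), lpc a i * lpc b j * (t ^ (i + j) * S3.lp c t) := by
    intro t
    rw [← lpv_eq a, ← lpv_eq b]
    unfold lpv
    rw [Finset.sum_mul_sum, Finset.sum_mul]
    refine Finset.sum_congr rfl fun i _ => ?_
    rw [Finset.sum_mul]
    refine Finset.sum_congr rfl fun j _ => ?_
    ring
  have hc : ∀ i j : ℕ, Continuous fun t : ℝ => lpc a i * lpc b j * (t ^ (i + j) * S3.lp c t) :=
    fun i j => ((continuous_pow _).mul (S3.lp_continuous c)).const_mul _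
  simp only [h]
  rw [intervalIntegral.integral_finsetSum (fun i _ =>
    (continuous_finsetSum _ fun j _ => hc i j).intervalIntegrable _ _)]
  unfold tri
  rw [Finset.mul_sum]
  refine Finset.sum_congr rfl fun i _ => ?_
  rw [intervalIntegral.integral_finsetSum (fun j _ => (hc i j).intervalIntegrable _ _),
    Finset.mul_sum]
  refine Finset.sum_congr rfl fun j _ => ?_
  rw [intervalIntegral.integral_const_mul, ← mu_eq]
  ring

theorem zc_eq (n L : ℕ) (hn : 1 ≤ n) :
    (1 / 2) * ∫ t in (-1 : ℝ)..1, (1 - t ^ 2) ^ (n - 1) * S3.lp L t = zc n L := by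
  have h : ∀ t : ℝ, (1 - t ^ 2) ^ (n - 1) * S3.lp L t =
      ∑ i ∈ range n, (-1) ^ i * ((n - 1).choose i : ℝ) * (t ^ (2 * i) * S3.lp L t) := by
    intro t
    have e : (1 - t ^ 2) = -t ^ 2 + 1 := by ring
    rw [e, add_pow, Nat.sub_add_cancel hn, Finset.sum_mul]
    refine Finset.sum_congr rfl fun i _ => ?_
    rw [one_pow, neg_pow, pow_mul]
    ring
  have hc : ∀ i : ℕ, Continuous fun t : ℝ =>
      (-1 : ℝ) ^ i * ((n - 1).choose i : ℝ) * (t ^ (2 * i) * S3.lp L t) :=
    fun i => ((continuous_pow _).mul (S3.lp_continuous L)).const_mul _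
  simp only [h]
  rw [intervalIntegral.integral_finsetSum (fun i _ => (hc i).intervalIntegrable _ _)]
  unfold zc
  rw [Finset.mul_sum]
  refine Finset.sum_congr rfl fun i _ => ?_
  rw [intervalIntegral.integral_const_mul, ← mu_eq]
  ring

theorem lp_mul (a b : ℕ) (t : ℝ) :
    S3.lp a t * S3.lp b t = ∑ L ∈ range (a + b + 1), (2 * (L : ℝ) + 1) * tri a b L * S3.lp L t := by
  have hd : (LP a * LP b).degree < ((a + b + 1 : ℕ) : WithBot ℕ) := by
    refine lt_of_le_of_lt Polynomial.degree_le_natDegree ?_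
    have : (LP a * LP b).natDegree ≤ a + b :=
      Polynomial.natDegree_mul_le.trans (add_le_add (LP_natDegree_le a) (LP_natDegree_le b))
    exact_mod_cast Nat.lt_succ_of_le this
  have h := LP_expand (a + b + 1) (LP a * LP b) hd t
  rw [Polynomial.eval_mul, LP_eval, LP_eval] at h
  rw [h]
  refine Finset.sum_congr rfl fun L _ => ?_
  rw [← tri_eq]
  unfold lc
  simp only [Polynomial.eval_mul, LP_eval]

/-- crude bound -/
theorem lp_abs_le (l : ℕ) (t : ℝ) (ht : t ∈ Set.Icc (-1 : ℝ) 1) : |S3.lp l t| ≤ 3 ^ l := by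
  have ha : |t| ≤ 1 := abs_le.2 ht
  induction l using Nat.twoStepInduction with
  | zero => simp [S3.lp]
  | one =>
    simp only [S3.lp, pow_one]
    linarith only [ha]
  | more n ih0 ih1 =>
    have hn : (0 : ℝ) < (n : ℝ) + 2 := by positivity
    have h := S3.lp_succ n t
    have h1 : |(2 * (n : ℝ) + 3) * t * S3.lp (n + 1) t| ≤ (2 * (n : ℝ) + 3) * 3 ^ (n + 1) := by
      rw [abs_mul, abs_mul, abs_of_pos (by positivity : (0 : ℝ) < 2 * (n : ℝ) + 3)]
      have : (2 * (n : ℝ) + 3) * |t| ≤ (2 * (n : ℝ) + 3) * 1 :=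
        mul_le_mul_of_nonneg_left ha (by positivity)
      calc (2 * (n : ℝ) + 3) * |t| * |S3.lp (n + 1) t|
          ≤ (2 * (n : ℝ) + 3) * 1 * 3 ^ (n + 1) :=
            mul_le_mul this ih1 (abs_nonneg _) (by positivity)
        _ = _ := by ring
    have h2 : |((n : ℝ) + 1) * S3.lp n t| ≤ ((n : ℝ) + 1) * 3 ^ n := by
      rw [abs_mul, abs_of_pos (by (clear * -; positivity) : (0 : ℝ) < (n : ℝ) + 1)]
      exact mul_le_mul_of_nonneg_left ih0 (by positivity)
    have h3 : ((n : ℝ) + 2) * |S3.lp (n + 2) t| ≤ ((n : ℝ) + 2) * 3 ^ (n + 2) := by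
      have : ((n : ℝ) + 2) * |S3.lp (n + 2) t| = |((n : ℝ) + 2) * S3.lp (n + 2) t| := by
        rw [abs_mul, abs_of_pos hn]
      rw [this, h]
      refine (abs_sub _ _).trans ((add_le_add h1 h2).trans ?_)
      have h3 : (0 : ℝ) < 3 ^ n := by positivity
      have e1 : (3 : ℝ) ^ (n + 1) = 3 * 3 ^ n := by ring
      have e2 : (3 : ℝ) ^ (n + 2) = 9 * 3 ^ n := by ring
      rw [e1, e2]
      have hn0 : (0 : ℝ) ≤ n := Nat.cast_nonneg n
      nlinarith only [h3]
    exact le_of_mul_le_mul_left h3 hn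

theorem lq_abs_le (l : ℕ) (t : ℝ) (ht : t ∈ Set.Icc (-1 : ℝ) 1) : |S3.lq l t| ≤ 16 ^ l := by
  have ha : |t| ≤ 1 := abs_le.2 ht
  induction l using Nat.twoStepInduction with
  | zero => simp only [S3.lq, abs_zero, pow_zero, zero_le_one]
  | one =>
    simp only [S3.lq, pow_one]
    norm_num
  | more n ih0 ih1 =>
    have hn : (0 : ℝ) < (n : ℝ) + 2 := by positivity
    have h := S3.lq_succ n t
    have h0 : |S3.lp (n + 1) t| ≤ 16 ^ (n + 1) :=
      (lp_abs_le (n + 1) t ht).trans (pow_le_pow_left₀ (by norm_num) (by norm_num) _)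
    have h00 : |S3.lp (n + 1) t + t * S3.lq (n + 1) t| ≤ 2 * 16 ^ (n + 1) := by
      refine (abs_add_le _ _).trans ?_
      rw [abs_mul]
      have : |t| * |S3.lq (n + 1) t| ≤ 1 * 16 ^ (n + 1) :=
        mul_le_mul ha ih1 (abs_nonneg _) (by norm_num)
      linarith only [h0, this]
    have h1 : |(2 * (n : ℝ) + 3) * (S3.lp (n + 1) t + t * S3.lq (n + 1) t)| ≤
        (2 * (n : ℝ) + 3) * (2 * 16 ^ (n + 1)) := by
      rw [abs_mul, abs_of_pos (by (clear * -; positivity) : (0 : ℝ) < 2 * (n : ℝ) + 3)]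
      exact mul_le_mul_of_nonneg_left h00 (by positivity)
    have h2 : |((n : ℝ) + 1) * S3.lq n t| ≤ ((n : ℝ) + 1) * 16 ^ n := by
      rw [abs_mul, abs_of_pos (by (clear * -; positivity) : (0 : ℝ) < (n : ℝ) + 1)]
      exact mul_le_mul_of_nonneg_left ih0 (by positivity)
    have h3 : ((n : ℝ) + 2) * |S3.lq (n + 2) t| ≤ ((n : ℝ) + 2) * 16 ^ (n + 2) := by
      have : ((n : ℝ) + 2) * |S3.lq (n + 2) t| = |((n : ℝ) + 2) * S3.lq (n + 2) t| := by
        rw [abs_mul, abs_of_pos hn]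
      rw [this, h]
      refine (abs_sub _ _).trans ((add_le_add h1 h2).trans ?_)
      have h3 : (0 : ℝ) < 16 ^ n := by positivity
      have e1 : (16 : ℝ) ^ (n + 1) = 16 * 16 ^ n := by ring
      have e2 : (16 : ℝ) ^ (n + 2) = 256 * 16 ^ n := by ring
      rw [e1, e2]
      have hn0 : (0 : ℝ) ≤ n := Nat.cast_nonneg n
      nlinarith only [h3]
    exact le_of_mul_le_mul_left h3 hn

/-- crude Lipschitz bound -/
theorem lp_lip (l : ℕ) (s t : ℝ) (hs : s ∈ Set.Icc (-1 : ℝ) 1) (ht : t ∈ Set.Icc (-1 : ℝ) 1) :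
    |S3.lp l s - S3.lp l t| ≤ 16 ^ l * |s - t| := by
  have h := (convex_Icc (-1 : ℝ) 1).norm_image_sub_le_of_norm_hasDerivWithin_le
    (f := S3.lp l) (f' := S3.lq l) (C := 16 ^ l)
    (fun x _ => (S3.lp_hasDerivAt l x).hasDerivWithinAt)
    (fun x hx => by rw [Real.norm_eq_abs]; exact lq_abs_le l x hx) ht hs
  simpa only [ge_iff_le, Real.norm_eq_abs] using h

end Vale.Agent.P370.KC
end
end

section

section

/-!
Radial integrals: Gamma integral, scalar product of two functions of the top subspace,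
multipole matrix elements.
-/

namespace Vale.Agent.P370.Q

open MeasureTheory Finset ComplexConjugate

theorem rad_integrable (m : ℕ) {c : ℝ} (hc : 0 < c) :
    IntegrableOn (fun r : ℝ => r ^ m * Real.exp (-(c * r))) (Set.Ioi 0) := by
  have hm : (-1 : ℝ) < m := by
    have : (0 : ℝ) ≤ m := Nat.cast_nonneg m
    linarith only []
  have h := integrableOn_rpow_mul_exp_neg_mul_rpow (p := 1) (s := m) (b := c) hm one_pos hc
  refine h.congr_fun (fun r _ => ?_) measurableSet_Ioi
  simp only [Real.rpow_natCast, Real.rpow_one, neg_mul]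

theorem rad_integral (m : ℕ) {c : ℝ} (hc : 0 < c) :
    ∫ r in Set.Ioi (0 : ℝ), r ^ m * Real.exp (-(c * r)) =
      (m.factorial : ℝ) * (1 / c) ^ (m + 1) := by
  have h := Real.integral_rpow_mul_exp_neg_mul_Ioi (a := (m : ℝ) + 1) (r := c) (by positivity) hc
  rw [Real.Gamma_nat_eq_factorial, add_sub_cancel_right, ← Nat.cast_succ, Real.rpow_natCast] at h
  simp only [Real.rpow_natCast] at h
  rw [h, mul_comm]

theorem I0_eq' (n : ℕ) (hn : 1 ≤ n) :
    I0 n = ((2 * n).factorial : ℝ) * ((n : ℝ) / 2) ^ (2 * n + 1) := by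
  have hn0 : (0 : ℝ) < n := by exact_mod_cast hn
  have h := rad_integral (2 * n) (c := 2 / n) (by positivity)
  unfold I0
  rw [one_div_div] at h
  rw [← h]
  congr 1
  funext r
  congr 2
  ring

theorem vfun_ov' (n : ℕ) (hn : 1 ≤ n) {P P' : Poly3} (hP : Harm (n - 1) P)
    (hP' : Harm (n - 1) P') :
    ov (vfun n P) (vfun n P') = 4 * Real.pi * I0 n * sph (fun u => pe P u * pe P' u) := by
  have hn0 : (0 : ℝ) < n := by exact_mod_cast hn
  have hi : Integrable fun x : R3 => vfun n P x * vfun n P' x := by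
    have h := Hyd.integrable_poly_exp (κ := 2 / n) (by (clear * - hn; positivity)) (P * P')
    refine h.congr (Filter.Eventually.of_forall fun x => ?_)
    simp only [vfun, Hyd.ev, pe, map_mul]
    have : Real.exp (-(2 / (n : ℝ)) * ‖x‖) = Real.exp (-(‖x‖ / n)) * Real.exp (-(‖x‖ / n)) := by
      rw [← Real.exp_add]
      congr 1
      ring
    rw [this]
    ring
  have hpt : ∀ r ∈ Set.Ioi (0 : ℝ), (4 * Real.pi * r ^ 2) •
      sph (fun u => vfun n P (r • u) * vfun n P' (r • u)) =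
      (4 * Real.pi * sph (fun u => pe P u * pe P' u)) *
        (r ^ (2 * n) * Real.exp (-(2 * r / n))) := by
    intro r hr
    have hr0 : (0 : ℝ) < r := hr
    have h1 : sph (fun u => vfun n P (r • u) * vfun n P' (r • u)) =
        sph (fun u => (r ^ (2 * (n - 1)) * Real.exp (-(2 * r / n))) • (pe P u * pe P' u)) := by
      refine sph_congr fun u hu => ?_
      have h2 : pe P (r • u) = r ^ (n - 1) * pe P u := Hyd.ev_smul_homog hP.1 r u
      have h3 : pe P' (r • u) = r ^ (n - 1) * pe P' u := Hyd.ev_smul_homog hP'.1 r u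
      have h4 : ‖r • u‖ = r := by
        rw [norm_smul, hu, mul_one, Real.norm_of_nonneg hr0.le]
      have h5 : Real.exp (-(2 * r / n)) = Real.exp (-(r / n)) * Real.exp (-(r / n)) := by
        rw [← Real.exp_add]
        congr 1
        ring
      simp only [vfun]
      rw [h2, h3, h4, h5, smul_eq_mul, two_mul, pow_add]
      ring
    rw [h1, sph_smul, smul_eq_mul, smul_eq_mul]
    have h6 : r ^ (2 * n) = r ^ 2 * r ^ (2 * (n - 1)) := by
      rw [← pow_add]
      congr 1
      (clear * - hn; omega)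
    rw [h6]
    ring
  unfold ov
  rw [polar_sph _ hi, setIntegral_congr_fun measurableSet_Ioi hpt, integral_const_mul]
  unfold I0
  ring

theorem RN_aux (n N : ℕ) (hN2 : N ≤ 2 * n - 2) (hn : 2 ≤ n) (ρ : ℝ) (hρ : 0 < ρ)
    (hρ2 : ρ ≤ 1 / 2) :
    ρ ^ N / (2 * (N : ℝ) + 1) *
        ((∫ r in Set.Ioi (0 : ℝ), r ^ (2 * n - 1 - N) * Real.exp (-(2 / n * r))) - 1 / 2) ≤
      RN n N ρ ∧
    RN n N ρ ≤ ρ ^ N / (2 * (N : ℝ) + 1) *
      ∫ r in Set.Ioi (0 : ℝ), r ^ (2 * n - 1 - N) * Real.exp (-(2 / n * r)) := by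
  have hn0 : (0 : ℝ) < n := by
    have : (2 : ℝ) ≤ n := by exact_mod_cast hn
    linarith only [this]
  obtain ⟨m, hm⟩ : ∃ m, 2 * n = m + (N + 1) := ⟨2 * n - 1 - N, by omega⟩
  have hm' : 2 * n - 1 - N = m := by omega
  rw [hm']
  set g : ℝ → ℝ := fun r => r ^ (2 * n) * Real.exp (-(2 * r / n)) *
    (1 / (2 * (N : ℝ) + 1) * (min r ρ ^ N / max r ρ ^ (N + 1))) with hg
  set f : ℝ → ℝ := fun r => ρ ^ N / (2 * (N : ℝ) + 1) * (r ^ m * Real.exp (-(2 / n * r))) with hf
  have hexp : ∀ r : ℝ, Real.exp (-(2 * r / n)) = Real.exp (-(2 / n * r)) := fun r => by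
    congr 1
    ring
  have hfi : IntegrableOn f (Set.Ioi 0) :=
    (rad_integrable m (c := 2 / n) (by positivity)).const_mul _
  have hle : ∀ r, 0 < r → 0 ≤ g r ∧ g r ≤ f r := by
    intro r hr
    have hmin : 0 < min r ρ := lt_min hr hρ
    have hmax : 0 < max r ρ := lt_max_of_lt_left hr
    refine ⟨by simp only [hg]; (clear * - hr hρ; positivity), ?_⟩
    simp only [hg, hexp, hf]
    have h1 : r ^ (2 * n) * (min r ρ ^ N / max r ρ ^ (N + 1)) ≤ ρ ^ N * r ^ m := by
      rw [hm, pow_add, mul_assoc, mul_comm (ρ ^ N)]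
      refine mul_le_mul_of_nonneg_left ?_ (pow_nonneg hr.le _)
      rw [mul_div_assoc', div_le_iff₀ (pow_pos hmax _), mul_comm (r ^ (N + 1))]
      exact mul_le_mul (pow_le_pow_left₀ hmin.le (min_le_right _ _) _)
        (pow_le_pow_left₀ hr.le (le_max_left _ _) _) (pow_nonneg hr.le _) (pow_nonneg hρ.le _)
    calc r ^ (2 * n) * Real.exp (-(2 / n * r)) *
          (1 / (2 * (N : ℝ) + 1) * (min r ρ ^ N / max r ρ ^ (N + 1)))
        = (Real.exp (-(2 / n * r)) / (2 * (N : ℝ) + 1)) *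
          (r ^ (2 * n) * (min r ρ ^ N / max r ρ ^ (N + 1))) := by ring
      _ ≤ (Real.exp (-(2 / n * r)) / (2 * (N : ℝ) + 1)) * (ρ ^ N * r ^ m) :=
          mul_le_mul_of_nonneg_left h1 (by positivity)
      _ = ρ ^ N / (2 * (N : ℝ) + 1) * (r ^ m * Real.exp (-(2 / n * r))) := by ring
  have heq : ∀ r, ρ ≤ r → g r = f r := by
    intro r hr
    have hr0 : 0 < r := hρ.trans_le hr
    simp only [hg, hexp, hf]
    rw [min_eq_right hr, max_eq_left hr, hm, pow_add r m (N + 1)]
    (clear * - hr0 hρ; field_simp)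
  have hgm : AEStronglyMeasurable g (volume.restrict (Set.Ioi 0)) := by
    apply Measurable.aestronglyMeasurable
    simp only [hg]
    fun_prop
  have hgi : IntegrableOn g (Set.Ioi 0) := by
    refine Integrable.mono' hfi hgm ?_
    rw [ae_restrict_iff' measurableSet_Ioi]
    refine Filter.Eventually.of_forall fun r hr => ?_
    rw [Real.norm_of_nonneg (hle r hr).1]
    exact (hle r hr).2
  have hRN : RN n N ρ = ∫ r in Set.Ioi (0 : ℝ), g r := rfl
  have hfint : ρ ^ N / (2 * (N : ℝ) + 1) *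
      ∫ r in Set.Ioi (0 : ℝ), r ^ m * Real.exp (-(2 / n * r)) = ∫ r in Set.Ioi (0 : ℝ), f r := by
    rw [← integral_const_mul]
  constructor
  · rw [mul_sub, hfint, hRN]
    have hsplit : Set.Ioi (0 : ℝ) = Set.Ioc 0 ρ ∪ Set.Ioi ρ := (Set.Ioc_union_Ioi_eq_Ioi hρ.le).symm
    have h1 : ∫ r in Set.Ioi (0 : ℝ), f r =
        (∫ r in Set.Ioc 0 ρ, f r) + ∫ r in Set.Ioi ρ, f r := by
      rw [← setIntegral_union (Set.Ioc_disjoint_Ioi le_rfl) measurableSet_Ioi
        (hfi.mono_set (by rw [hsplit]; exact Set.subset_union_left))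
        (hfi.mono_set (by rw [hsplit]; exact Set.subset_union_right)), ← hsplit]
    have h2 : ∫ r in Set.Ioi ρ, f r = ∫ r in Set.Ioi ρ, g r :=
      setIntegral_congr_fun measurableSet_Ioi fun r hr => (heq r (le_of_lt hr)).symm
    have h3 : ∫ r in Set.Ioi ρ, g r ≤ ∫ r in Set.Ioi (0 : ℝ), g r := by
      refine setIntegral_mono_set hgi ?_ ?_
      · rw [Filter.EventuallyLE, ae_restrict_iff' measurableSet_Ioi]
        exact Filter.Eventually.of_forall fun r hr => (hle r hr).1
      · exact (Set.Ioi_subset_Ioi hρ.le).eventuallyLE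
    have h4 : ∫ r in Set.Ioc 0 ρ, f r ≤ ρ ^ N / (2 * (N : ℝ) + 1) * (1 / 2) := by
      have h5 : ∫ r in Set.Ioc 0 ρ, f r ≤ ∫ r in Set.Ioc 0 ρ, ρ ^ N / (2 * (N : ℝ) + 1) := by
        refine setIntegral_mono_on (hfi.mono_set (by rw [hsplit]; exact Set.subset_union_left))
          (integrableOn_const (by simp only [Real.volume_Ioc, sub_zero, ne_eq, ENNReal.ofReal_ne_top, not_false_eq_true])) measurableSet_Ioc fun r hr => ?_
        simp only [hf]
        have h6 : r ^ m ≤ 1 := pow_le_one₀ hr.1.le (hr.2.trans (hρ2.trans (by norm_num)))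
        have h7 : Real.exp (-(2 / n * r)) ≤ 1 := by
          rw [Real.exp_le_one_iff]
          have := hr.1
          have : 0 ≤ 2 / (n : ℝ) * r := by (clear * - hn this; positivity)
          linarith only [this]
        have h8 : r ^ m * Real.exp (-(2 / n * r)) ≤ 1 := by
          have := mul_le_mul h6 h7 (Real.exp_pos _).le zero_le_one
          rwa [one_mul] at this
        calc ρ ^ N / (2 * (N : ℝ) + 1) * (r ^ m * Real.exp (-(2 / n * r)))
            ≤ ρ ^ N / (2 * (N : ℝ) + 1) * 1 := mul_le_mul_of_nonneg_left h8 (by (clear * - hρ; positivity))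
          _ = _ := mul_one _
      refine h5.trans ?_
      rw [setIntegral_const, Real.volume_real_Ioc_of_le hρ.le, sub_zero, smul_eq_mul, mul_comm]
      exact mul_le_mul_of_nonneg_left hρ2 (by (clear * - hρ; positivity))
    linarith only [h1, h2, h3, h4]
  · rw [hfint, hRN]
    exact setIntegral_mono_on hgi hfi measurableSet_Ioi fun r hr => (hle r hr).2

theorem Xu_RN' (n N : ℕ) (hn : 2 ≤ n) (hN : 1 ≤ N) (hN2 : N ≤ 2 * n - 2) (ρ : ℝ) (hρ : 0 < ρ)
    (hρ2 : ρ ≤ 1 / 2 ^ (8 * n ^ 2)) :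
    1 / 2 ≤ Xu n N ρ * RN n N ρ / I0 n ∧ Xu n N ρ * RN n N ρ / I0 n ≤ 2 := by
  have hn0 : (0 : ℝ) < n := by
    have : (2 : ℝ) ≤ n := by exact_mod_cast hn
    linarith only [this]
  have hn1 : (1 : ℝ) ≤ (n : ℝ) / 2 := by
    have : (2 : ℝ) ≤ n := by exact_mod_cast hn
    linarith only [this]
  have hρ3 : ρ ≤ 1 / 2 := by
    refine hρ2.trans ?_
    refine one_div_le_one_div_of_le (by norm_num) ?_
    calc (2 : ℝ) = 2 ^ 1 := (pow_one 2).symm
      _ ≤ 2 ^ (8 * n ^ 2) := pow_le_pow_right₀ (by norm_num) (by nlinarith only [hn])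
  obtain ⟨h1, h2⟩ := RN_aux n N hN2 hn ρ hρ hρ3
  rw [rad_integral _ (by positivity), one_div_div] at h1 h2
  obtain ⟨m, hm⟩ : ∃ m, 2 * n = m + (N + 1) := ⟨2 * n - 1 - N, by omega⟩
  have hm' : 2 * n - 1 - N = m := by omega
  rw [hm'] at h1 h2
  set F : ℝ := (m.factorial : ℝ) * ((n : ℝ) / 2) ^ (m + 1) with hF
  have hF1 : 1 ≤ F := by
    have h3 : (1 : ℝ) ≤ m.factorial := by exact_mod_cast Nat.one_le_iff_ne_zero.2 m.factorial_ne_zero
    have h4 : (1 : ℝ) ≤ ((n : ℝ) / 2) ^ (m + 1) := one_le_pow₀ hn1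
    nlinarith only [h3, h4]
  have hI : Xu n N ρ * (ρ ^ N / (2 * (N : ℝ) + 1) * F) = I0 n := by
    rw [I0_eq' n (by omega), Xu, hm', hF]
    have h5 : ((n : ℝ) / 2) ^ (2 * n + 1) = ((n : ℝ) / 2) ^ (N + 1) * ((n : ℝ) / 2) ^ (m + 1) := by
      rw [← pow_add]
      congr 1
      (clear * - hm; omega)
    rw [h5]
    have h6 : (m.factorial : ℝ) ≠ 0 := by exact_mod_cast m.factorial_ne_zero
    have h7 : ρ ^ N ≠ 0 := pow_ne_zero _ hρ.ne'
    have h8 : (2 * (N : ℝ) + 1) ≠ 0 := by (clear * - hN; positivity)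
    rw [one_div, inv_pow]
    field_simp
  have hX : 0 < Xu n N ρ := by
    unfold Xu
    positivity
  have hI0 : 0 < I0 n := by
    rw [← hI]
    positivity
  constructor
  · rw [le_div_iff₀ hI0]
    calc 1 / 2 * I0 n = Xu n N ρ * (ρ ^ N / (2 * (N : ℝ) + 1) * (F / 2)) := by rw [← hI]; ring
      _ ≤ Xu n N ρ * (ρ ^ N / (2 * (N : ℝ) + 1) * (F - 1 / 2)) := by
          refine mul_le_mul_of_nonneg_left ?_ hX.le
          refine mul_le_mul_of_nonneg_left ?_ (by positivity)
          linarith only [hF1]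
      _ ≤ Xu n N ρ * RN n N ρ := mul_le_mul_of_nonneg_left h1 hX.le
  · rw [div_le_iff₀ hI0]
    calc Xu n N ρ * RN n N ρ ≤ Xu n N ρ * (ρ ^ N / (2 * (N : ℝ) + 1) * F) :=
          mul_le_mul_of_nonneg_left h2 hX.le
      _ = I0 n := hI
      _ ≤ 2 * I0 n := by linarith only [hI0]

end Vale.Agent.P370.Q
end
end

section

section

/-!
Radial integrals.
-/

namespace Vale.Agent.P370.Q

open MeasureTheory Finset ComplexConjugate

theorem I0_eq (n : ℕ) (hn : 1 ≤ n) :
    I0 n = ((2 * n).factorial : ℝ) * ((n : ℝ) / 2) ^ (2 * n + 1) :=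
  I0_eq' n hn

theorem vfun_ov (n : ℕ) (hn : 1 ≤ n) {P P' : Poly3} (hP : Harm (n - 1) P)
    (hP' : Harm (n - 1) P') :
    ov (vfun n P) (vfun n P') = 4 * Real.pi * I0 n * sph (fun u => pe P u * pe P' u) :=
  vfun_ov' n hn hP hP'

theorem Xu_RN (n N : ℕ) (hn : 2 ≤ n) (hN : 1 ≤ N) (hN2 : N ≤ 2 * n - 2) (ρ : ℝ) (hρ : 0 < ρ)
    (hρ2 : ρ ≤ 1 / 2 ^ (8 * n ^ 2)) :
    1 / 2 ≤ Xu n N ρ * RN n N ρ / I0 n ∧ Xu n N ρ * RN n N ρ / I0 n ≤ 2 :=
  Xu_RN' n N hn hN hN2 ρ hρ hρ2

end Vale.Agent.P370.Q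
end
end

section

section

/-!
Quadrature on the sphere: Fejér nodes in the latitude, equidistant in the longitude.
-/

namespace Vale.Agent.P370.Q

open MeasureTheory Finset ComplexConjugate

/-! ### discrete orthogonality -/

theorem quad_cos_sum (D : ℕ) (hD : 0 < D) (a : ℕ) (ha : 0 < a) (haD : a < 2 * D) :
    ∑ k ∈ range D, Real.cos (a * (Real.pi * (2 * k + 1) / (2 * D))) = 0 := by
  set α : ℝ := a * Real.pi / (2 * D) with hα
  have hDR : (0:ℝ) < D := by exact_mod_cast hD
  have haR : (0:ℝ) < a := by exact_mod_cast ha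
  have hs : 0 < Real.sin α := by
    apply Real.sin_pos_of_pos_of_lt_pi
    · (clear * - ha hD; positivity)
    · rw [hα, div_lt_iff₀ (by positivity)]
      have : (a:ℝ) < 2 * D := by exact_mod_cast haD
      linarith only [mul_pos_of_neg_of_neg (Mathlib.Tactic.Linarith.sub_neg_of_lt this) (Mathlib.Tactic.Linarith.sub_neg_of_lt Real.pi_pos)]
  have h1 : ∀ n : ℕ, 2 * Real.sin α * ∑ k ∈ range n,
      Real.cos (a * (Real.pi * (2 * k + 1) / (2 * D))) = Real.sin (2 * n * α) := by
    intro n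
    induction n with
    | zero => simp only [range_zero, sum_empty, mul_zero, CharP.cast_eq_zero, zero_mul, Real.sin_zero]
    | succ n ih =>
      rw [sum_range_succ, mul_add, ih]
      have e1 : (a:ℝ) * (Real.pi * (2 * n + 1) / (2 * D)) = 2 * n * α + α := by
        rw [hα]; field_simp
      have e2 : 2 * ((n+1 : ℕ) : ℝ) * α = (2 * n * α + α) + α := by push_cast; ring
      have e3 : Real.sin (2 * n * α) = Real.sin ((2*n*α + α) - α) := by congr 1; ring
      rw [e1, e2, Real.sin_add (2*n*α + α) α, e3, Real.sin_sub]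
      ring
  have h2 := h1 D
  have h3 : Real.sin (2 * D * α) = 0 := by
    have : 2 * (D:ℝ) * α = a * Real.pi := by rw [hα]; (clear * - hD ha; field_simp)
    rw [this]; exact Real.sin_nat_mul_pi a
  rw [h3] at h2
  rcases mul_eq_zero.mp h2 with h | h
  · exfalso; linarith only [hs, h]
  · exact h

theorem quad_cos_mul (D : ℕ) (hD : 0 < D) (j p : ℕ) (hj : j ∈ Icc 1 (D / 2))
    (hp : p < D) :
    ∑ k ∈ range D, Real.cos (2 * (j : ℝ) * (Real.pi * (2 * k + 1) / (2 * D))) *
      Real.cos (p * (Real.pi * (2 * k + 1) / (2 * D))) = if 2 * j = p then (D : ℝ) / 2 else 0 := by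
  rw [mem_Icc] at hj
  obtain ⟨hj1, hj2⟩ := hj
  have hj3 : 2 * j ≤ D := by omega
  have key : ∀ x y : ℝ, Real.cos x * Real.cos y = (Real.cos (x + y) + Real.cos (x - y)) / 2 := by
    intro x y; rw [Real.cos_add, Real.cos_sub]; ring
  have e1 : ∀ k ∈ range D, Real.cos (2 * (j : ℝ) * (Real.pi * (2 * k + 1) / (2 * D))) *
      Real.cos (p * (Real.pi * (2 * k + 1) / (2 * D))) =
      Real.cos (((2 * j + p : ℕ) : ℝ) * (Real.pi * (2 * k + 1) / (2 * D))) / 2 +
      Real.cos (((2 * j : ℝ) - p) * (Real.pi * (2 * k + 1) / (2 * D))) / 2 := by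
    intro k _
    rw [key]
    push_cast
    rw [← add_mul, ← sub_mul]
    ring
  rw [sum_congr rfl e1, sum_add_distrib, ← sum_div, ← sum_div,
    quad_cos_sum D hD (2 * j + p) (by (clear * - hj1; omega)) (by omega)]
  by_cases h : 2 * j = p
  · rw [if_pos h]
    have h' : (2 * j : ℝ) - p = 0 := by rw [← h]; push_cast; ring
    rw [h']
    simp only [zero_div, zero_mul, Real.cos_zero, sum_const, card_range, nsmul_eq_mul, mul_one, zero_add]
  · rw [if_neg h]
    have e2 : ∑ k ∈ range D, Real.cos (((2 * j : ℝ) - p) * (Real.pi * (2 * k + 1) / (2 * D))) = 0 := by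
      rcases lt_or_gt_of_ne h with h1 | h1
      · have e3 : ∀ k ∈ range D, Real.cos (((2 * j : ℝ) - p) * (Real.pi * (2 * k + 1) / (2 * D))) =
            Real.cos (((p - 2 * j : ℕ) : ℝ) * (Real.pi * (2 * k + 1) / (2 * D))) := by
          intro k _
          rw [Nat.cast_sub h1.le, ← Real.cos_neg]
          push_cast
          congr 1
          ring
        rw [sum_congr rfl e3]
        exact quad_cos_sum D hD _ (by omega) (by omega)
      · have e3 : ∀ k ∈ range D, Real.cos (((2 * j : ℝ) - p) * (Real.pi * (2 * k + 1) / (2 * D))) =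
            Real.cos (((2 * j - p : ℕ) : ℝ) * (Real.pi * (2 * k + 1) / (2 * D))) := by
          intro k _
          rw [Nat.cast_sub h1.le]
          push_cast
          rfl
        rw [sum_congr rfl e3]
        exact quad_cos_sum D hD _ (by omega) (by (clear * - hj3 h1; omega))
    rw [e2]
    simp only [zero_div, add_zero]

/-- value of the Fejér functional on `cos (p θ)` -/
theorem quad_fej_cos (D : ℕ) (hD : 2 ≤ D) (he : Even D) (p : ℕ) (hp : p < D) :
    ∑ k ∈ range D, fej D k * Real.cos (p * (Real.pi * (2 * k + 1) / (2 * D))) =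
      if Even p then 1 / (1 - (p : ℝ) ^ 2) else 0 := by
  have hD0 : 0 < D := by omega
  have hDR : (0:ℝ) < D := by exact_mod_cast hD0
  have e1 : ∀ k ∈ range D, fej D k * Real.cos (p * (Real.pi * (2 * k + 1) / (2 * D))) =
      (1 / (D : ℝ)) * Real.cos (p * (Real.pi * (2 * k + 1) / (2 * D))) -
      ∑ j ∈ Icc 1 (D / 2), (2 / (D : ℝ)) * (1 / (4 * (j : ℝ) ^ 2 - 1)) *
        (Real.cos (2 * (j : ℝ) * (Real.pi * (2 * k + 1) / (2 * D))) *
        Real.cos (p * (Real.pi * (2 * k + 1) / (2 * D)))) := by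
    intro k _
    unfold fej
    rw [mul_sub, sub_mul, mul_one]
    congr 1
    rw [mul_sum, mul_sum, sum_mul]
    refine sum_congr rfl fun j _ => ?_
    ring
  rw [sum_congr rfl e1, sum_sub_distrib, ← mul_sum, sum_comm]
  have e2 : ∀ j ∈ Icc 1 (D / 2), ∑ k ∈ range D, (2 / (D : ℝ)) * (1 / (4 * (j : ℝ) ^ 2 - 1)) *
        (Real.cos (2 * (j : ℝ) * (Real.pi * (2 * k + 1) / (2 * D))) *
        Real.cos (p * (Real.pi * (2 * k + 1) / (2 * D)))) =
        if 2 * j = p then 1 / ((p : ℝ) ^ 2 - 1) else 0 := by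
    intro j hj
    rw [← mul_sum, quad_cos_mul D hD0 j p hj hp]
    by_cases h : 2 * j = p
    · rw [if_pos h, if_pos h]
      have : (p : ℝ) = 2 * j := by rw [← h]; push_cast; ring
      rw [this]
      field_simp
      ring
    · rw [if_neg h, if_neg h, mul_zero]
  rw [sum_congr rfl e2]
  rcases Nat.eq_zero_or_pos p with rfl | hp0
  · have e3 : ∑ j ∈ Icc 1 (D / 2), (if 2 * j = 0 then 1 / (((0 : ℕ) : ℝ) ^ 2 - 1) else 0) = 0 := by
      refine sum_eq_zero fun j hj => ?_
      rw [mem_Icc] at hj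
      rw [if_neg (by omega)]
    rw [e3]
    simp only [one_div, CharP.cast_eq_zero, zero_mul, Real.cos_zero, sum_const, card_range, nsmul_eq_mul, mul_one, sub_zero, Even.zero, ↓reduceIte, ne_eq, OfNat.ofNat_ne_zero, not_false_eq_true, zero_pow, one_ne_zero, div_self]
    field_simp
  · rw [quad_cos_sum D hD0 p hp0 (by omega)]
    by_cases hpe : Even p
    · obtain ⟨r, hr⟩ := hpe
      have hr' : p = 2 * r := by omega
      have e3 : ∀ j ∈ Icc 1 (D / 2), (if 2 * j = p then 1 / ((p : ℝ) ^ 2 - 1) else 0) =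
          if j = r then 1 / ((p : ℝ) ^ 2 - 1) else 0 := by
        intro j _
        by_cases h : j = r
        · rw [if_pos h, if_pos (by omega)]
        · rw [if_neg h, if_neg (by (clear * - hr h; omega))]
      rw [sum_congr rfl e3, sum_ite_eq' (Icc 1 (D / 2)) r, if_pos (by rw [mem_Icc]; omega),
        if_pos ⟨r, hr⟩]
      have : (1 - (p : ℝ) ^ 2) = - ((p : ℝ) ^ 2 - 1) := by ring
      rw [this, div_neg]
      ring
    · rw [if_neg hpe]
      have e3 : ∑ j ∈ Icc 1 (D / 2), (if 2 * j = p then 1 / ((p : ℝ) ^ 2 - 1) else 0) = 0 := by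
        refine sum_eq_zero fun j hj => ?_
        rw [if_neg]
        intro h
        exact hpe ⟨j, by omega⟩
      rw [e3]
      simp only [one_div, mul_zero, sub_self]

theorem quad_sum_inv (n : ℕ) :
    ∑ j ∈ Icc 1 n, 1 / (4 * (j : ℝ) ^ 2 - 1) = (n : ℝ) / (2 * (n : ℝ) + 1) := by
  induction n with
  | zero => simp only [Order.lt_one_iff, Icc_eq_empty_of_lt, one_div, sum_empty, CharP.cast_eq_zero, mul_zero, zero_add, div_one]
  | succ n ih =>
    rw [sum_Icc_succ_top (by omega), ih]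
    have h1 : (4 * ((n + 1 : ℕ) : ℝ) ^ 2 - 1) = (2 * n + 1) * (2 * n + 3) := by
      push_cast; ring
    rw [h1]
    push_cast
    field_simp
    ring

theorem fej_pos (D : ℕ) (hD : 2 ≤ D) (he : Even D) (k : ℕ) (hk : k < D) :
    1 / (D : ℝ) ^ 3 ≤ fej D k := by
  have hDR : (2:ℝ) ≤ D := by exact_mod_cast hD
  have h1 : ∑ j ∈ Icc 1 (D / 2),
      Real.cos (2 * (j : ℝ) * (Real.pi * (2 * k + 1) / (2 * D))) / (4 * (j : ℝ) ^ 2 - 1) ≤
      ∑ j ∈ Icc 1 (D / 2), 1 / (4 * (j : ℝ) ^ 2 - 1) := by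
    refine sum_le_sum fun j hj => ?_
    rw [mem_Icc] at hj
    have hj1 : (1:ℝ) ≤ j := by exact_mod_cast hj.1
    have : (0:ℝ) ≤ 4 * (j : ℝ) ^ 2 - 1 := by linarith only [mul_nonneg_of_nonpos_of_nonpos (Mathlib.Tactic.Linarith.sub_nonpos_of_le (Mathlib.Tactic.Linarith.natCast_nonneg ℝ j)) (Mathlib.Tactic.Linarith.sub_nonpos_of_le hj1), hj1]
    exact div_le_div_of_nonneg_right (Real.cos_le_one _) this
  rw [quad_sum_inv] at h1
  have h2 : 2 * ((D / 2 : ℕ) : ℝ) = D := by
    obtain ⟨r, hr⟩ := he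
    have : D / 2 = r := by omega
    rw [this, hr]; push_cast; ring
  have h3 : 2 * (((D / 2 : ℕ) : ℝ) / (2 * ((D / 2 : ℕ) : ℝ) + 1)) = D / (D + 1) := by
    rw [← mul_div_assoc, h2]
  unfold fej
  have h4 : 1 - (D : ℝ) / (D + 1) ≤ 1 - 2 * ∑ j ∈ Icc 1 (D / 2),
      Real.cos (2 * (j : ℝ) * (Real.pi * (2 * k + 1) / (2 * D))) / (4 * (j : ℝ) ^ 2 - 1) := by
    rw [← h3]; linarith only [h1]
  have h5 : 1 - (D : ℝ) / (D + 1) = 1 / (D + 1) := by field_simp; ring
  have h6 : 1 / (D : ℝ) ^ 3 ≤ (1 / (D : ℝ)) * (1 / (D + 1)) := by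
    rw [one_div_mul_one_div]
    apply one_div_le_one_div_of_le
    · positivity
    · linarith only [mul_nonneg (by linarith : (0:ℝ) ≤ D) (by nlinarith : (0:ℝ) ≤ (D:ℝ) ^ 2 - D - 1)]
  calc 1 / (D : ℝ) ^ 3 ≤ (1 / (D : ℝ)) * (1 / (D + 1)) := h6
    _ ≤ _ := by
      apply mul_le_mul_of_nonneg_left
      · rw [← h5]; exact h4
      · positivity

theorem fej_sum (D : ℕ) (hD : 2 ≤ D) (he : Even D) : ∑ k ∈ range D, fej D k = 1 := by
  have h := quad_fej_cos D hD he 0 (by omega)
  simpa only [CharP.cast_eq_zero, zero_mul, Real.cos_zero, mul_one, Even.zero, ↓reduceIte, ne_eq,     OfNat.ofNat_ne_zero, not_false_eq_true, zero_pow, sub_zero, one_ne_zero, div_self] using h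

/-! ### exactness in the latitude -/

theorem quad_int_sin (a : ℝ) (ha : a ≠ 0) :
    ∫ θ in (0:ℝ)..Real.pi, Real.sin (a * θ) = (1 - Real.cos (a * Real.pi)) / a := by
  rw [intervalIntegral.integral_comp_mul_left (fun x => Real.sin x) ha, integral_sin]
  simp only [mul_zero, Real.cos_zero, smul_eq_mul]
  (clear * - ha; field_simp)

theorem quad_int_cos (p : ℕ) :
    (1 / 2) * ∫ θ in (0:ℝ)..Real.pi, Real.cos (p * θ) * Real.sin θ =
      if Even p then 1 / (1 - (p : ℝ) ^ 2) else 0 := by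
  have e1 : ∀ θ : ℝ, Real.cos (p * θ) * Real.sin θ =
      (1 / 2) * Real.sin (((p : ℝ) + 1) * θ) - (1 / 2) * Real.sin (((p : ℝ) - 1) * θ) := by
    intro θ
    rw [add_mul, sub_mul, one_mul, Real.sin_add, Real.sin_sub]
    ring
  simp_rw [e1]
  rw [intervalIntegral.integral_sub (by apply Continuous.intervalIntegrable; fun_prop)
    (by apply Continuous.intervalIntegrable; fun_prop),
    intervalIntegral.integral_const_mul, intervalIntegral.integral_const_mul,
    quad_int_sin _ (by positivity)]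
  have c1 : Real.cos (((p : ℝ) + 1) * Real.pi) = - (-1) ^ p := by
    have := Real.cos_nat_mul_pi (p + 1)
    push_cast at this
    rw [this, pow_succ]; ring
  rw [c1]
  by_cases hp : p = 1
  · subst hp
    simp only [one_div, pow_one, neg_neg, sub_self, Nat.cast_one, zero_div, mul_zero, zero_mul, Real.sin_zero, intervalIntegral.integral_zero, Nat.not_even_one, ↓reduceIte]
  · have hp1 : (p : ℝ) - 1 ≠ 0 := by
      intro h
      apply hp
      have : (p : ℝ) = 1 := by linarith only [h]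
      exact_mod_cast this
    have c2 : Real.cos (((p : ℝ) - 1) * Real.pi) = - (-1) ^ p := by
      have : ((p : ℝ) - 1) * Real.pi = (((p : ℝ) + 1) * Real.pi) - 2 * Real.pi := by ring
      rw [this, Real.cos_sub_two_pi, c1]
    rw [quad_int_sin _ hp1, c2]
    by_cases h : Even p
    · rw [if_pos h, h.neg_one_pow]
      have h3 : (1 - (p : ℝ) ^ 2) ≠ 0 := by
        intro h0
        have : ((p : ℝ) - 1) * (p + 1) = 0 := by linarith only [h0]
        rcases mul_eq_zero.mp this with h | h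
        · exact hp1 h
        · have : (0:ℝ) ≤ p := by (clear * -; (clear * -; positivity))
          linarith only [h]
      have h4 : (p : ℝ) + 1 ≠ 0 := by (clear * -; (clear * -; positivity))
      field_simp
      ring
    · rw [if_neg h, (Nat.not_even_iff_odd.mp h).neg_one_pow]
      simp only [one_div, neg_neg, sub_self, zero_div, mul_zero]

theorem quad_fej_pc (D : ℕ) (hD : 2 ≤ D) (he : Even D) (m : ℕ) : ∀ p : ℕ, m + p < D →
    ∑ k ∈ range D, fej D k * (Real.cos (Real.pi * (2 * k + 1) / (2 * D)) ^ m *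
      Real.cos (p * (Real.pi * (2 * k + 1) / (2 * D)))) =
      (1 / 2) * ∫ θ in (0:ℝ)..Real.pi, (Real.cos θ ^ m * Real.cos (p * θ)) * Real.sin θ := by
  induction m with
  | zero =>
    intro p hp
    simp only [pow_zero, one_mul]
    rw [quad_int_cos, quad_fej_cos D hD he p (by (clear * - hp; omega))]
  | succ m ih =>
    intro p hp
    rcases p with _ | p
    · have := ih 1 (by omega)
      simp only [Nat.cast_one, one_mul, Nat.cast_zero, zero_mul, Real.cos_zero, mul_one] at this ⊢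
      simp only [pow_succ]
      exact this
    · have i1 := ih p (by (clear * - hp; omega))
      have i2 := ih (p + 2) (by omega)
      have key : ∀ x : ℝ, Real.cos x ^ (m + 1) * Real.cos (((p + 1 : ℕ) : ℝ) * x) =
          (1 / 2) * (Real.cos x ^ m * Real.cos ((p : ℝ) * x)) +
          (1 / 2) * (Real.cos x ^ m * Real.cos (((p + 2 : ℕ) : ℝ) * x)) := by
        intro x
        have a1 : ((p + 2 : ℕ) : ℝ) * x = ((p + 1 : ℕ) : ℝ) * x + x := by push_cast; ring
        have a2 : (p : ℝ) * x = ((p + 1 : ℕ) : ℝ) * x - x := by push_cast; ring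
        rw [a1, a2, Real.cos_add, Real.cos_sub, pow_succ]
        ring
      simp_rw [key]
      have l1 : ∑ k ∈ range D, fej D k * ((1 / 2) * (Real.cos (Real.pi * (2 * k + 1) / (2 * D)) ^ m *
          Real.cos ((p : ℝ) * (Real.pi * (2 * k + 1) / (2 * D)))) +
          (1 / 2) * (Real.cos (Real.pi * (2 * k + 1) / (2 * D)) ^ m *
          Real.cos (((p + 2 : ℕ) : ℝ) * (Real.pi * (2 * k + 1) / (2 * D))))) =
          (1 / 2) * ∑ k ∈ range D, fej D k * (Real.cos (Real.pi * (2 * k + 1) / (2 * D)) ^ m *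
          Real.cos ((p : ℝ) * (Real.pi * (2 * k + 1) / (2 * D)))) +
          (1 / 2) * ∑ k ∈ range D, fej D k * (Real.cos (Real.pi * (2 * k + 1) / (2 * D)) ^ m *
          Real.cos (((p + 2 : ℕ) : ℝ) * (Real.pi * (2 * k + 1) / (2 * D)))) := by
        rw [mul_sum, mul_sum, ← sum_add_distrib]
        refine sum_congr rfl fun k _ => ?_
        ring
      rw [l1, i1, i2]
      have l2 : ∫ θ in (0:ℝ)..Real.pi, ((1 / 2) * (Real.cos θ ^ m * Real.cos ((p : ℝ) * θ)) +
          (1 / 2) * (Real.cos θ ^ m * Real.cos (((p + 2 : ℕ) : ℝ) * θ))) * Real.sin θ =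
          (1 / 2) * (∫ θ in (0:ℝ)..Real.pi, (Real.cos θ ^ m * Real.cos ((p : ℝ) * θ)) * Real.sin θ) +
          (1 / 2) * ∫ θ in (0:ℝ)..Real.pi,
            (Real.cos θ ^ m * Real.cos (((p + 2 : ℕ) : ℝ) * θ)) * Real.sin θ := by
        rw [← intervalIntegral.integral_const_mul, ← intervalIntegral.integral_const_mul,
          ← intervalIntegral.integral_add (by apply Continuous.intervalIntegrable; (clear * -; fun_prop))
          (by apply Continuous.intervalIntegrable; fun_prop)]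
        congr 1
        funext θ
        ring
      rw [l2]
      ring

theorem quad_fej_pow (D : ℕ) (hD : 2 ≤ D) (he : Even D) (m : ℕ) (hm : m < D) :
    ∑ k ∈ range D, fej D k * Real.cos (Real.pi * (2 * k + 1) / (2 * D)) ^ m =
      (1 / 2) * ∫ θ in (0:ℝ)..Real.pi, Real.cos θ ^ m * Real.sin θ := by
  have h := quad_fej_pc D hD he m 0 (by omega)
  simpa only [one_div, CharP.cast_eq_zero, zero_mul, Real.cos_zero, mul_one] using h

/-- exactness on `(sin θ)^(2 s) (cos θ)^c` -/
theorem quad_fej_sc (D : ℕ) (hD : 2 ≤ D) (he : Even D) (s : ℕ) : ∀ c : ℕ, 2 * s + c < D →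
    ∑ k ∈ range D, fej D k * (Real.sin (Real.pi * (2 * k + 1) / (2 * D)) ^ (2 * s) *
      Real.cos (Real.pi * (2 * k + 1) / (2 * D)) ^ c) =
      (1 / 2) * ∫ θ in (0:ℝ)..Real.pi, (Real.sin θ ^ (2 * s) * Real.cos θ ^ c) * Real.sin θ := by
  induction s with
  | zero =>
    intro c hc
    simp only [Nat.mul_zero, pow_zero, one_mul]
    exact quad_fej_pow D hD he c (by omega)
  | succ s ih =>
    intro c hc
    have i1 := ih c (by omega)
    have i2 := ih (c + 2) (by omega)
    have key : ∀ x : ℝ, Real.sin x ^ (2 * (s + 1)) * Real.cos x ^ c =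
        Real.sin x ^ (2 * s) * Real.cos x ^ c - Real.sin x ^ (2 * s) * Real.cos x ^ (c + 2) := by
      intro x
      have : Real.sin x ^ (2 * (s + 1)) = Real.sin x ^ (2 * s) * (1 - Real.cos x ^ 2) := by
        rw [← Real.sin_sq]; ring
      rw [this]
      ring
    simp_rw [key]
    have l1 : ∑ k ∈ range D, fej D k * (Real.sin (Real.pi * (2 * k + 1) / (2 * D)) ^ (2 * s) *
        Real.cos (Real.pi * (2 * k + 1) / (2 * D)) ^ c -
        Real.sin (Real.pi * (2 * k + 1) / (2 * D)) ^ (2 * s) *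
        Real.cos (Real.pi * (2 * k + 1) / (2 * D)) ^ (c + 2)) =
        ∑ k ∈ range D, fej D k * (Real.sin (Real.pi * (2 * k + 1) / (2 * D)) ^ (2 * s) *
        Real.cos (Real.pi * (2 * k + 1) / (2 * D)) ^ c) -
        ∑ k ∈ range D, fej D k * (Real.sin (Real.pi * (2 * k + 1) / (2 * D)) ^ (2 * s) *
        Real.cos (Real.pi * (2 * k + 1) / (2 * D)) ^ (c + 2)) := by
      rw [← sum_sub_distrib]
      refine sum_congr rfl fun k _ => ?_
      ring
    rw [l1, i1, i2, ← mul_sub,
      ← intervalIntegral.integral_sub (by apply Continuous.intervalIntegrable; fun_prop)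
        (by apply Continuous.intervalIntegrable; fun_prop)]
    congr 2
    funext θ
    ring

/-! ### exactness in the longitude -/

/-- the equidistant rule with `D` nodes integrates `f` exactly -/
def QuadEx (D : ℕ) (f : ℝ → ℂ) : Prop :=
  Continuous f ∧ (1 / (D : ℂ)) * ∑ j ∈ range D, f (2 * Real.pi * j / D) =
    (1 / (2 * (Real.pi : ℂ))) * ∫ φ in (0:ℝ)..(2 * Real.pi), f φ

theorem quadEx_add {D : ℕ} {f g : ℝ → ℂ} (hf : QuadEx D f) (hg : QuadEx D g) :
    QuadEx D (fun x => f x + g x) := by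
  refine ⟨hf.1.add hg.1, ?_⟩
  rw [sum_add_distrib, mul_add, hf.2, hg.2,
    intervalIntegral.integral_add (hf.1.intervalIntegrable _ _) (hg.1.intervalIntegrable _ _)]
  ring

theorem quadEx_smul {D : ℕ} {f : ℝ → ℂ} (c : ℂ) (hf : QuadEx D f) :
    QuadEx D (fun x => c * f x) := by
  refine ⟨continuous_const.mul hf.1, ?_⟩
  rw [← mul_sum, intervalIntegral.integral_const_mul, mul_left_comm, hf.2]
  ring

theorem quadEx_congr {D : ℕ} {f g : ℝ → ℂ} (hf : QuadEx D f) (h : ∀ x, f x = g x) :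
    QuadEx D g := by
  have : f = g := funext h
  rw [← this]
  exact hf

theorem quadEx_exp (D : ℕ) (hD : 0 < D) (p : ℤ) (hp : |p| < D) :
    QuadEx D (fun x => Complex.exp (p * x * Complex.I)) := by
  refine ⟨by (clear * -; fun_prop), ?_⟩
  have hDC : (D : ℂ) ≠ 0 := by exact_mod_cast hD.ne'
  have hpi : (Real.pi : ℂ) ≠ 0 := by exact_mod_cast Real.pi_ne_zero
  by_cases hp0 : p = 0
  · subst hp0
    simp only [one_div, Int.cast_zero, Complex.ofReal_div, Complex.ofReal_mul, Complex.ofReal_ofNat, Complex.ofReal_natCast, zero_mul, Complex.exp_zero, sum_const, card_range, nsmul_eq_mul, mul_one, mul_inv_rev, intervalIntegral.integral_const, sub_zero, Complex.real_smul]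
    field_simp
  · have hpC : (p : ℂ) ≠ 0 := by exact_mod_cast hp0
    have h1 : ∑ j ∈ range D, Complex.exp ((p : ℂ) * ((2 * Real.pi * j / D : ℝ) : ℂ) * Complex.I) = 0 := by
      set ζ : ℂ := Complex.exp ((p : ℂ) * (2 * Real.pi / D) * Complex.I) with hζ
      have e1 : ∀ j ∈ range D, Complex.exp ((p : ℂ) * ((2 * Real.pi * j / D : ℝ) : ℂ) * Complex.I) =
          ζ ^ j := by
        intro j _
        rw [hζ, ← Complex.exp_nat_mul]
        congr 1
        push_cast
        ring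
      rw [sum_congr rfl e1]
      have hz : ζ ≠ 1 := by
        intro h
        rw [hζ, Complex.exp_eq_one_iff] at h
        obtain ⟨n, hn⟩ := h
        have h2 : (p : ℂ) = n * D := by
          have hI := Complex.I_ne_zero
          field_simp at hn
          linear_combination hn
        have h3 : p = n * D := by exact_mod_cast h2
        have hn0 : n ≠ 0 := by
          rintro rfl
          apply hp0
          simpa using h3
        have h4 : (1 : ℤ) ≤ |n| := Int.one_le_abs hn0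
        rw [h3, abs_mul] at hp
        have h5 : |(D : ℤ)| = D := abs_of_nonneg (by (clear * - hD; positivity))
        rw [h5] at hp
        have hD' : (0 : ℤ) < D := by exact_mod_cast hD
        nlinarith only [hp, h4]
      have hz1 : ζ ^ D = 1 := by
        rw [hζ, ← Complex.exp_nat_mul, Complex.exp_eq_one_iff]
        refine ⟨p, ?_⟩
        (clear * - hDC hpi hpC; field_simp)
      have h6 := geom_sum_eq hz D
      rw [h6, hz1]
      simp
    have h2 : ∫ φ in (0:ℝ)..(2 * Real.pi), Complex.exp ((p : ℂ) * φ * Complex.I) = 0 := by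
      have e2 : ∀ φ : ℝ, Complex.exp ((p : ℂ) * φ * Complex.I) =
          Complex.exp (((p : ℂ) * Complex.I) * φ) := by
        intro φ; congr 1; ring
      simp_rw [e2]
      rw [integral_exp_mul_complex (mul_ne_zero hpC Complex.I_ne_zero)]
      have e3 : Complex.exp (((p : ℂ) * Complex.I) * ((2 * Real.pi : ℝ) : ℂ)) = 1 := by
        rw [Complex.exp_eq_one_iff]
        refine ⟨p, ?_⟩
        push_cast
        ring
      rw [e3]
      simp only [Complex.ofReal_zero, mul_zero, Complex.exp_zero, sub_self, zero_div]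
    rw [h1, h2]
    simp only [one_div, mul_zero, mul_inv_rev]

theorem quadEx_cs0 (D : ℕ) (hD : 0 < D) (a : ℕ) : ∀ p : ℤ, (a : ℤ) + |p| < D →
    QuadEx D (fun x => (Real.cos x : ℂ) ^ a * Complex.exp (p * x * Complex.I)) := by
  induction a with
  | zero =>
    intro p hp
    refine quadEx_congr (quadEx_exp D hD p (by simpa only [CharP.cast_eq_zero, zero_add] using hp)) fun x => ?_
    simp only [Complex.ofReal_cos, pow_zero, one_mul]
  | succ a ih =>
    intro p hp
    push_cast at hp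
    have b1 : |p + 1| ≤ |p| + 1 := by simpa only [abs_one] using abs_add_le p 1
    have b2 : |p - 1| ≤ |p| + 1 := by simpa only [abs_one] using abs_sub p 1
    have i1 := ih (p + 1) (by omega)
    have i2 := ih (p - 1) (by omega)
    refine quadEx_congr (quadEx_smul (1 / 2) (quadEx_add i1 i2)) fun x => ?_
    have e1 : Complex.exp (((p + 1 : ℤ) : ℂ) * x * Complex.I) =
        Complex.exp (p * x * Complex.I) * Complex.exp (x * Complex.I) := by
      rw [← Complex.exp_add]; congr 1; push_cast; ring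
    have e2 : Complex.exp (((p - 1 : ℤ) : ℂ) * x * Complex.I) =
        Complex.exp (p * x * Complex.I) * Complex.exp (-x * Complex.I) := by
      rw [← Complex.exp_add]; congr 1; push_cast; ring
    have e3 : (Real.cos x : ℂ) = (Complex.exp (x * Complex.I) + Complex.exp (-x * Complex.I)) / 2 := by
      rw [Complex.ofReal_cos]; rfl
    rw [e1, e2, pow_succ, e3]
    ring

theorem quadEx_cs (D : ℕ) (hD : 0 < D) (a b : ℕ) : ∀ p : ℤ, (a : ℤ) + b + |p| < D →
    QuadEx D (fun x => (Real.cos x : ℂ) ^ a * (Real.sin x : ℂ) ^ b *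
      Complex.exp (p * x * Complex.I)) := by
  induction b with
  | zero =>
    intro p hp
    refine quadEx_congr (quadEx_cs0 D hD a p (by simpa only [CharP.cast_eq_zero, add_zero] using hp)) fun x => ?_
    simp
  | succ b ih =>
    intro p hp
    push_cast at hp
    have b1 : |p + 1| ≤ |p| + 1 := by simpa only [abs_one] using abs_add_le p 1
    have b2 : |p - 1| ≤ |p| + 1 := by simpa only [abs_one] using abs_sub p 1
    have i1 := ih (p + 1) (by omega)
    have i2 := ih (p - 1) (by omega)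
    refine quadEx_congr (quadEx_add (quadEx_smul (-Complex.I / 2) i1)
      (quadEx_smul (Complex.I / 2) i2)) fun x => ?_
    have e1 : Complex.exp (((p + 1 : ℤ) : ℂ) * x * Complex.I) =
        Complex.exp (p * x * Complex.I) * Complex.exp (x * Complex.I) := by
      rw [← Complex.exp_add]; congr 1; push_cast; ring
    have e2 : Complex.exp (((p - 1 : ℤ) : ℂ) * x * Complex.I) =
        Complex.exp (p * x * Complex.I) * Complex.exp (-x * Complex.I) := by
      rw [← Complex.exp_add]; congr 1; push_cast; ring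
    have e3 : (Real.sin x : ℂ) = ((Complex.exp (-x * Complex.I) - Complex.exp (x * Complex.I)) *
        Complex.I) / 2 := by
      rw [Complex.ofReal_sin]; rfl
    rw [e1, e2]
    have e4 : ∀ C S E F G : ℂ, S = ((G - F) * Complex.I) / 2 →
        (-Complex.I / 2) * (C * S ^ b * (E * F)) + (Complex.I / 2) * (C * S ^ b * (E * G)) =
        C * S ^ (b + 1) * E := by
      intro C S E F G h
      rw [pow_succ]
      linear_combination (-(C * S ^ b * E)) * h
    exact e4 _ _ _ _ _ e3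

theorem quad_circ (D : ℕ) (hD : 0 < D) (a b : ℕ) (hab : a + b < D) :
    (1 / (D : ℝ)) * ∑ j ∈ range D, Real.cos (2 * Real.pi * j / D) ^ a *
      Real.sin (2 * Real.pi * j / D) ^ b =
    (1 / (2 * Real.pi)) * ∫ φ in (0:ℝ)..(2 * Real.pi), Real.cos φ ^ a * Real.sin φ ^ b := by
  have h := (quadEx_cs D hD a b 0 (by simp only [abs_zero, add_zero]; exact_mod_cast hab)).2
  simp only [Int.cast_zero, zero_mul, Complex.exp_zero, mul_one] at h
  have h1 : ∫ φ in (0:ℝ)..(2 * Real.pi), (Real.cos φ : ℂ) ^ a * (Real.sin φ : ℂ) ^ b =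
      ((∫ φ in (0:ℝ)..(2 * Real.pi), Real.cos φ ^ a * Real.sin φ ^ b : ℝ) : ℂ) := by
    rw [← intervalIntegral.integral_ofReal]
    congr 1
    funext φ
    push_cast
    rfl
  rw [h1] at h
  have h2 : ((((1 / (D : ℝ)) * ∑ j ∈ range D, Real.cos (2 * Real.pi * j / D) ^ a *
      Real.sin (2 * Real.pi * j / D) ^ b : ℝ)) : ℂ) =
      (((1 / (2 * Real.pi)) * ∫ φ in (0:ℝ)..(2 * Real.pi), Real.cos φ ^ a * Real.sin φ ^ b : ℝ) : ℂ) := by
    push_cast at h ⊢
    exact h
  exact_mod_cast h2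

theorem quad_circ_odd (a b : ℕ) (h : ¬ (Even a ∧ Even b)) :
    ∫ φ in (0:ℝ)..(2 * Real.pi), Real.cos φ ^ a * Real.sin φ ^ b = 0 := by
  have e : ∀ φ : ℝ, Real.cos φ ^ a * Real.sin φ ^ b = Real.sin φ ^ b * Real.cos φ ^ a := by
    intro φ; ring
  simp_rw [e]
  by_cases ha : Even a
  · have hb : ¬ Even b := fun hb => h ⟨ha, hb⟩
    obtain ⟨r, hr⟩ := Nat.not_even_iff_odd.mp hb
    rw [hr, integral_sin_pow_odd_mul_cos_pow]
    simp
  · obtain ⟨r, hr⟩ := Nat.not_even_iff_odd.mp ha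
    rw [hr, integral_sin_pow_mul_cos_pow_odd]
    simp

/-! ### the sphere -/

/-- exact value of the sphere average of a monomial -/
noncomputable def quadM (a b c : ℕ) : ℝ :=
  ((1 / 2) * ∫ θ in (0:ℝ)..Real.pi, (Real.sin θ ^ (a + b) * Real.cos θ ^ c) * Real.sin θ) *
    ((1 / (2 * Real.pi)) * ∫ φ in (0:ℝ)..(2 * Real.pi), Real.cos φ ^ a * Real.sin φ ^ b)

theorem quad_mono (D : ℕ) (hD : 2 ≤ D) (he : Even D) (a b c : ℕ) (h : a + b + c < D) :
    ∑ k ∈ range D, ∑ j ∈ range D, qw D k *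
      ((Real.sin (Real.pi * (2 * k + 1) / (2 * D)) * Real.cos (2 * Real.pi * j / D)) ^ a *
      (Real.sin (Real.pi * (2 * k + 1) / (2 * D)) * Real.sin (2 * Real.pi * j / D)) ^ b *
      Real.cos (Real.pi * (2 * k + 1) / (2 * D)) ^ c) = quadM a b c := by
  have hD0 : 0 < D := by omega
  have e1 : ∑ k ∈ range D, ∑ j ∈ range D, qw D k *
      ((Real.sin (Real.pi * (2 * k + 1) / (2 * D)) * Real.cos (2 * Real.pi * j / D)) ^ a *
      (Real.sin (Real.pi * (2 * k + 1) / (2 * D)) * Real.sin (2 * Real.pi * j / D)) ^ b *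
      Real.cos (Real.pi * (2 * k + 1) / (2 * D)) ^ c) =
      (∑ k ∈ range D, fej D k * (Real.sin (Real.pi * (2 * k + 1) / (2 * D)) ^ (a + b) *
        Real.cos (Real.pi * (2 * k + 1) / (2 * D)) ^ c)) *
      ((1 / (D : ℝ)) * ∑ j ∈ range D, Real.cos (2 * Real.pi * j / D) ^ a *
      Real.sin (2 * Real.pi * j / D) ^ b) := by
    rw [sum_mul]
    refine sum_congr rfl fun k _ => ?_
    rw [mul_sum, mul_sum]
    refine sum_congr rfl fun j _ => ?_
    unfold qw
    rw [mul_pow, mul_pow, pow_add]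
    ring
  rw [e1, quad_circ D hD0 a b (by (clear * - h; omega))]
  unfold quadM
  by_cases hab : Even a ∧ Even b
  · obtain ⟨⟨r, hr⟩, ⟨s, hs⟩⟩ := hab
    have hab2 : a + b = 2 * (r + s) := by omega
    rw [hab2, quad_fej_sc D hD he (r + s) c (by omega)]
  · rw [quad_circ_odd a b hab]
    simp only [one_div, mul_inv_rev, mul_zero]

theorem quad_sph_sum {ι : Type} (S : Finset ι) (w : ι → ℝ) (a b c : ι → ℕ) :
    sph (fun u : R3 => ∑ m ∈ S, w m * (u 0 ^ a m * u 1 ^ b m * u 2 ^ c m)) =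
      ∑ m ∈ S, w m * quadM (a m) (b m) (c m) := by
  unfold sph
  have e1 : ∀ θ φ : ℝ, Real.sin θ • (∑ m ∈ S, w m * ((sp θ φ) 0 ^ a m * (sp θ φ) 1 ^ b m *
      (sp θ φ) 2 ^ c m)) = ∑ m ∈ S, (w m * (Real.sin θ ^ (a m + b m) * Real.cos θ ^ c m * Real.sin θ)) *
        (Real.cos φ ^ a m * Real.sin φ ^ b m) := by
    intro θ φ
    rw [smul_eq_mul, mul_sum]
    refine sum_congr rfl fun m _ => ?_
    have h0 : (sp θ φ) 0 = Real.sin θ * Real.cos φ := rfl
    have h1 : (sp θ φ) 1 = Real.sin θ * Real.sin φ := rfl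
    have h2 : (sp θ φ) 2 = Real.cos θ := rfl
    rw [h0, h1, h2, mul_pow, mul_pow, pow_add]
    ring
  simp_rw [e1]
  have e2 : ∀ θ : ℝ, ∫ φ in (0:ℝ)..(2 * Real.pi), ∑ m ∈ S,
      (w m * (Real.sin θ ^ (a m + b m) * Real.cos θ ^ c m * Real.sin θ)) *
        (Real.cos φ ^ a m * Real.sin φ ^ b m) =
      ∑ m ∈ S, (w m * ∫ φ in (0:ℝ)..(2 * Real.pi), Real.cos φ ^ a m * Real.sin φ ^ b m) *
        (Real.sin θ ^ (a m + b m) * Real.cos θ ^ c m * Real.sin θ) := by
    intro θ
    rw [intervalIntegral.integral_finsetSum]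
    · refine sum_congr rfl fun m _ => ?_
      rw [intervalIntegral.integral_const_mul]
      ring
    · intro m _
      apply Continuous.intervalIntegrable
      (clear * -; fun_prop)
  simp_rw [e2]
  rw [intervalIntegral.integral_finsetSum]
  · rw [smul_eq_mul, mul_sum]
    refine sum_congr rfl fun m _ => ?_
    rw [intervalIntegral.integral_const_mul]
    unfold quadM
    have hpi := Real.pi_ne_zero
    field_simp
    ring
  · intro m _
    apply Continuous.intervalIntegrable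
    fun_prop

theorem quad_pe (P : Poly3) (u : R3) :
    pe P u = ∑ m ∈ P.support, P.coeff m * (u 0 ^ m 0 * u 1 ^ m 1 * u 2 ^ m 2) := by
  unfold pe
  rw [MvPolynomial.eval_eq']
  refine sum_congr rfl fun m _ => ?_
  rw [Fin.prod_univ_three]

theorem quad_exact (D : ℕ) (hD : 2 ≤ D) (he : Even D) (P : Poly3) (hP : P.totalDegree < D) :
    ∑ k ∈ range D, ∑ j ∈ range D, qw D k * pe P (node D k j) = sph (fun u => pe P u) := by
  simp_rw [quad_pe]
  rw [quad_sph_sum P.support (fun m => P.coeff m) (fun m => m 0) (fun m => m 1) (fun m => m 2)]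
  have e1 : ∀ k ∈ range D, ∑ j ∈ range D, qw D k * ∑ m ∈ P.support, P.coeff m *
      ((node D k j) 0 ^ m 0 * (node D k j) 1 ^ m 1 * (node D k j) 2 ^ m 2) =
      ∑ m ∈ P.support, P.coeff m * ∑ j ∈ range D, qw D k *
      ((Real.sin (Real.pi * (2 * k + 1) / (2 * D)) * Real.cos (2 * Real.pi * j / D)) ^ m 0 *
      (Real.sin (Real.pi * (2 * k + 1) / (2 * D)) * Real.sin (2 * Real.pi * j / D)) ^ m 1 *
      Real.cos (Real.pi * (2 * k + 1) / (2 * D)) ^ m 2) := by
    intro k _
    simp_rw [mul_sum]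
    rw [sum_comm]
    refine sum_congr rfl fun m _ => sum_congr rfl fun j _ => ?_
    have h0 : (node D k j) 0 = Real.sin (Real.pi * (2 * k + 1) / (2 * D)) *
      Real.cos (2 * Real.pi * j / D) := rfl
    have h1 : (node D k j) 1 = Real.sin (Real.pi * (2 * k + 1) / (2 * D)) *
      Real.sin (2 * Real.pi * j / D) := rfl
    have h2 : (node D k j) 2 = Real.cos (Real.pi * (2 * k + 1) / (2 * D)) := rfl
    rw [h0, h1, h2]
    ring
  rw [sum_congr rfl e1, sum_comm]
  refine sum_congr rfl fun m hm => ?_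
  rw [← mul_sum]
  congr 1
  apply quad_mono D hD he
  have h3 := MvPolynomial.le_totalDegree hm
  rw [Finsupp.sum_fintype _ _ (fun _ => rfl), Fin.sum_univ_three] at h3
  omega

theorem qw_sum (D : ℕ) (hD : 2 ≤ D) (he : Even D) :
    ∑ k ∈ range D, ∑ _j ∈ range D, qw D k = 1 := by
  rw [← fej_sum D hD he]
  refine sum_congr rfl fun k _ => ?_
  rw [sum_const, card_range, nsmul_eq_mul]
  unfold qw
  have : (D : ℝ) ≠ 0 := by
    have : 0 < D := by omega
    exact_mod_cast this.ne'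
  field_simp

end Vale.Agent.P370.Q
end
end

section

section

/-!
Half-filled Mott insulator, upper bound.
-/

namespace Vale.Agent.P370.Q

open MeasureTheory Finset ComplexConjugate

namespace Mott

variable {K : ℕ}

/-- antisymmetric family with a given spin state at the identity -/
noncomputable def seed (φ : SpinState K) : Fam K := fun π s =>
  ∑ g : Equiv.Perm (Fin K), if π = g then ((Equiv.Perm.sign g : ℤ) : ℂ) * φ (s ∘ g.symm) else 0

theorem seed_id (φ : SpinState K) : seed φ id = φ := by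
  funext s
  unfold seed
  rw [sum_eq_single 1]
  · simp only [Equiv.Perm.coe_one, ↓reduceIte, Equiv.Perm.sign_one, Units.val_one, Int.cast_one, one_mul]
    rfl
  · intro g _ hg
    rw [if_neg]
    intro h
    apply hg
    ext x
    rw [← h]
    simp only [id_eq, Equiv.Perm.coe_one]
  · simp only [mem_univ, not_true_eq_false, Equiv.Perm.coe_one, ↓reduceIte, Equiv.Perm.sign_one, Units.val_one, Int.cast_one, one_mul, IsEmpty.forall_iff]

theorem seed_zero (φ : SpinState K) {ρ : Fin K → Fin K} (hρ : ¬ Function.Bijective ρ) :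
    seed φ ρ = 0 := by
  funext s
  unfold seed
  refine sum_eq_zero fun g _ => ?_
  rw [if_neg]
  intro h
  exact hρ (h ▸ g.bijective)

theorem seed_anti (φ : SpinState K) : FAnti (seed φ) := by
  intro h ρ s
  unfold seed
  rw [← Equiv.sum_comp (Equiv.mulRight h), mul_sum]
  refine sum_congr rfl fun g _ => ?_
  have h1 : ((fun e => ρ (h e)) = ⇑(Equiv.mulRight h g)) ↔ ρ = g := by
    constructor
    · intro hh
      funext x
      have := congrFun hh (h.symm x)
      simpa using this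
    · intro hh
      rw [hh]
      rfl
  by_cases hg : ρ = g
  · rw [if_pos (h1.2 hg), if_pos hg]
    have h2 : (fun e => s (h e)) ∘ ⇑(Equiv.mulRight h g).symm = s ∘ g.symm := by
      funext x
      simp only [Function.comp, Equiv.coe_mulRight]
      congr 1
      change h (h.symm (g.symm x)) = g.symm x
      exact h.apply_symm_apply _
    rw [h2]
    simp only [Equiv.coe_mulRight, map_mul]
    push_cast
    ring
  · rw [if_neg (fun hh => hg (h1.1 hh)), if_neg hg, mul_zero]

theorem hop_smul (t : Fin K → Fin K → ℝ) (r : ℝ) (c : Fam K) :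
    hop t (fun ρ s => (r : ℂ) * c ρ s) = fun ρ s => (r : ℂ) * hop t c ρ s := by
  funext ρ s
  rw [hop_apply, hop_apply, mul_sum]
  refine sum_congr rfl fun e _ => ?_
  rw [mul_sum]
  exact sum_congr rfl fun b _ => by ring

theorem en0_smul (W t : Fin K → Fin K → ℝ) (ε0 r : ℝ) (C : Fam K) :
    en0 W t ε0 (fun ρ s => (r : ℂ) * C ρ s) = r ^ 2 * en0 W t ε0 C := by
  unfold en0
  rw [hop_smul, mul_add, mul_sum, mul_sum]
  congr 1
  · refine sum_congr rfl fun ρ _ => ?_
    rw [spinNsq_smul]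
    ring
  · refine sum_congr rfl fun ρ _ => ?_
    rw [rp_smul_left, rp_smul_right]
    ring

end Mott

namespace Mott

variable {K : ℕ}

/-- normalised trial family from the family `C` of squared norm `n + Z` -/
theorem normalise {h W t : Fin K → Fin K → ℝ} {v : Fin K → Fin K → Fin K → Fin K → ℝ}
    {ε0 w0 w1 u τ δ : ℝ} (H : MottHyp K h W t v ε0 w0 w1 u τ δ) {C : Fam K} (hC : FAnti C)
    {n Z X E : ℝ} (hn : 0 < n) (hZ : 0 ≤ Z) (hX : Z ≤ n * X) (hE : 0 ≤ E)
    (hCn : ∑ ρ, spinNsq (C ρ) = n + Z) {m : ℝ} (hm : 0 ≤ m)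
    (hen : en0 W t ε0 C ≤ mottBase W ε0 * (n + Z) - n * m + E * Z) :
    ∃ c : Tens K (Fin K × Fin 2), IsAnti c ∧ nsq c = 1 ∧
      enT h v c ≤ mottBase W ε0 - m + X * (m + E) + 2 * K ^ 4 * δ := by
  set r : ℝ := (Real.sqrt (n + Z))⁻¹ with hr
  have hr2 : r ^ 2 * (n + Z) = 1 := by
    rw [hr, inv_pow, Real.sq_sqrt (by (clear * - hn hZ; positivity))]
    exact inv_mul_cancel₀ (by (clear * - hn hZ; positivity))
  set D : Fam K := fun ρ s => (r : ℂ) * C ρ s with hD
  have hDa : FAnti D := by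
    intro g ρ s
    simp only [hD]
    rw [hC g]
    ring
  have hDn : nsq (ofFam D) = 1 := by
    rw [nsq_split, toFam_ofFam, ← hr2, ← hCn, mul_sum]
    exact sum_congr rfl fun ρ _ => spinNsq_smul _ _
  refine ⟨ofFam D, ofFam_anti hDa, hDn, ?_⟩
  have herr := (abs_le.1 (enT_error H (ofFam D))).2
  rw [toFam_ofFam, hDn, hD, en0_smul] at herr
  have hrn : r ^ 2 * n ≤ 1 := by
    rw [← hr2]
    exact mul_le_mul_of_nonneg_left (by linarith only [hZ]) (by (clear * - hn hZ; positivity))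
  have hX0 : 0 ≤ X := by
    by_contra hneg
    push Not at hneg
    nlinarith only [hZ, hX, hn, hneg]
  have hrZ : r ^ 2 * Z ≤ X := by
    calc r ^ 2 * Z ≤ r ^ 2 * (n * X) := mul_le_mul_of_nonneg_left hX (by (clear * - hn hZ; positivity))
      _ = (r ^ 2 * n) * X := by ring
      _ ≤ 1 * X := mul_le_mul_of_nonneg_right hrn hX0
      _ = _ := one_mul _
  have hE' := mul_le_mul_of_nonneg_left hen (sq_nonneg r)
  have e3 : r ^ 2 * (mottBase W ε0 * (n + Z) - n * m + E * Z) = mottBase W ε0 - m +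
      r ^ 2 * Z * (m + E) := by
    linear_combination (mottBase W ε0 - m) * hr2
  rw [e3] at hE'
  have e4 : r ^ 2 * Z * (m + E) ≤ X * (m + E) := mul_le_mul_of_nonneg_right hrZ (by (clear * - hm hE; positivity))
  linarith only [herr, hE', e4]

theorem t_bounds {h W t : Fin K → Fin K → ℝ} {v : Fin K → Fin K → Fin K → Fin K → ℝ}
    {ε0 w0 w1 u τ δ : ℝ} (H : MottHyp K h W t v ε0 w0 w1 u τ δ) (i j : Fin K) :
    t i j ^ 2 / (w0 - W i j) ≤ τ ^ 2 / u ∧ (t i j / (w0 - W i j)) ^ 2 ≤ (τ / u) ^ 2 := by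
  have hu := H.u_pos
  by_cases hij : i = j
  · subst hij
    rw [H.t_diag]
    constructor
    · simp only [ne_eq, OfNat.ofNat_ne_zero, not_false_eq_true, zero_pow, zero_div]
      (clear * - hu; positivity)
    · simp only [zero_div, ne_eq, OfNat.ofNat_ne_zero, not_false_eq_true, zero_pow]
      (clear * -; positivity)
  · have hU := u_le H hij
    have htt : t i j ^ 2 ≤ τ ^ 2 := by
      rw [← sq_abs]
      exact pow_le_pow_left₀ (abs_nonneg _) (H.t_le i j) 2
    have hU0 : 0 < w0 - W i j := by (clear * - hu hU; linarith)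
    constructor
    · exact div_le_div₀ (by (clear * -; positivity)) htt hu hU
    · rw [div_pow, div_pow]
      exact div_le_div₀ (by (clear * -; positivity)) htt (by positivity) (pow_le_pow_left₀ hu.le hU 2)

theorem sum_sq_le {a : Fin K → Fin K → ℝ} {X : ℝ} (hX : 0 ≤ X) (ha : ∀ i j, a i j ≤ X)
    {φ : SpinState K} (hφ : spinNsq φ = 1) :
    ∑ i, ∑ j, a i j * sw φ i j ≤ 2 * (K : ℝ) ^ 2 * X := by
  have : ∀ i j, a i j * sw φ i j ≤ 2 * X := by
    intro i j
    have hs := sw_bounds φ i j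
    rw [hφ] at hs
    calc a i j * sw φ i j ≤ X * sw φ i j := mul_le_mul_of_nonneg_right (ha i j) hs.1
      _ ≤ X * (2 * 1) := mul_le_mul_of_nonneg_left hs.2 hX
      _ = _ := by ring
  refine (sum_le_sum fun i _ => sum_le_sum fun j _ => this i j).trans (le_of_eq ?_)
  simp only [sum_const, card_univ, Fintype.card_fin, nsmul_eq_mul]
  ring

/-- the trial family -/
theorem trial {h W t : Fin K → Fin K → ℝ} {v : Fin K → Fin K → Fin K → Fin K → ℝ}
    {ε0 w0 w1 u τ δ : ℝ} (H : MottHyp K h W t v ε0 w0 w1 u τ δ) {φ : SpinState K}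
    (hφ1 : spinNsq φ = 1) :
    ∃ (C : Fam K) (Z : ℝ), FAnti C ∧ 0 ≤ Z ∧ Z ≤ nB K * (2 * (K : ℝ) ^ 2 * (τ / u) ^ 2) ∧
      ∑ ρ, spinNsq (C ρ) = nB K + Z ∧
      en0 W t ε0 C ≤ mottBase W ε0 * (nB K + Z) - nB K * heisE (mottJ W t w0) φ +
        ((K : ℝ) ^ 2 * τ) * Z := by
  have hu := H.u_pos
  set t' : Fin K → Fin K → ℝ := fun i j => t i j / (w0 - W i j - 0) with ht'
  have ht's : ∀ i j, t' i j = t' j i := fun i j => by simp only [ht', H.t_symm i j, H.W_symm i j]
  have ht'0 : ∀ i, t' i i = 0 := fun i => by simp only [ht', H.t_diag, zero_div]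
  set p := seed φ with hp
  have hpa : FAnti p := seed_anti φ
  have hbp : bp p = p := by
    funext ρ
    unfold bp
    split_ifs with hρ
    · rfl
    · exact (seed_zero φ hρ).symm
  set z := hop t' p with hz
  have hza : FAnti z := hop_anti t' hpa
  have hzb : ∀ ρ, Function.Bijective ρ → z ρ = 0 := by
    intro ρ hρ
    rw [hz, ← hbp]
    exact hop_bp_bij t' ht'0 p hρ
  set q : Fam K := fun ρ s => ((-1 : ℝ) : ℂ) * z ρ s with hq
  have hqb : ∀ ρ, Function.Bijective ρ → q ρ = 0 := by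
    intro ρ hρ
    funext s
    simp [hq, hzb ρ hρ]
  have hCa : FAnti (p + q) := by
    intro g ρ s
    rw [Pi.add_apply, Pi.add_apply, Pi.add_apply, Pi.add_apply, hpa g]
    simp only [hq]
    rw [hza g]
    ring
  have hCp : bp (p + q) = p := by
    funext ρ
    unfold bp
    split_ifs with hρ
    · rw [Pi.add_apply, hqb ρ hρ, add_zero]
    · exact (seed_zero φ hρ).symm
  have hCq : bq (p + q) = q := by
    funext ρ
    unfold bq
    split_ifs with hρ
    · exact (hqb ρ hρ).symm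
    · rw [Pi.add_apply, hp, seed_zero φ hρ, zero_add]
  have hid : p id = φ := seed_id φ
  have hso1 := second_order ht's H.t_symm ht'0 hpa
  have hso2 := second_order ht's ht's ht'0 hpa
  rw [hbp, hid, ← hz] at hso1 hso2
  have hJ1 : ∑ i, ∑ j, t' i j * t i j * sw φ i j = heisE (mottJ W t w0) φ := by
    rw [← mottJ_form H.W_symm H.t_symm H.t_diag]
    refine sum_congr rfl fun i _ => sum_congr rfl fun j _ => ?_
    simp only [ht', sub_zero]
    ring
  have hqz : ∀ ρ, spinNsq (q ρ) = spinNsq (z ρ) := by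
    intro ρ
    change spinNsq (fun s => ((-1 : ℝ) : ℂ) * z ρ s) = _
    rw [spinNsq_smul]
    ring
  refine ⟨p + q, ∑ ρ, spinNsq (z ρ), hCa, sum_nonneg fun ρ _ => spinNsq_nonneg _, ?_, ?_, ?_⟩
  · have e0 : ∑ ρ, spinNsq (z ρ) = ∑ ρ, rp (z ρ) (z ρ) :=
      sum_congr rfl fun ρ _ => (rp_self _).symm
    rw [e0, hso2]
    refine mul_le_mul_of_nonneg_left ?_ (Nat.cast_nonneg _)
    refine sum_sq_le (by (clear * -; positivity)) (fun i j => ?_) hφ1
    have := (t_bounds H i j).2
    simp only [ht', sub_zero]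
    rw [← sq]
    exact this
  · have e1 : ∑ ρ, spinNsq (p ρ) = nB K := by
      have := sum_bp_sq hpa
      rw [hbp, hid, hφ1, mul_one] at this
      exact this
    rw [← e1, ← sum_add_distrib]
    refine sum_congr rfl fun ρ _ => ?_
    rw [← hqz]
    by_cases hρ : Function.Bijective ρ
    · rw [Pi.add_apply, hqb ρ hρ, add_zero, spinNsq_zero, add_zero]
    · rw [Pi.add_apply, hp, seed_zero φ hρ, zero_add, spinNsq_zero, zero_add]
  · have hsplit := en0_split H (p + q)
    have hCn : ∑ ρ, spinNsq ((p + q) ρ) = nB K + ∑ ρ, spinNsq (z ρ) := by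
      have e1 : ∑ ρ, spinNsq (p ρ) = nB K := by
        have := sum_bp_sq hpa
        rw [hbp, hid, hφ1, mul_one] at this
        exact this
      rw [← e1, ← sum_add_distrib]
      refine sum_congr rfl fun ρ _ => ?_
      rw [← hqz]
      by_cases hρ : Function.Bijective ρ
      · rw [Pi.add_apply, hqb ρ hρ, add_zero, spinNsq_zero, add_zero]
      · rw [Pi.add_apply, hp, seed_zero φ hρ, zero_add, spinNsq_zero, zero_add]
    rw [hCp, hCq, hCn] at hsplit
    have hres := hop_res H (a := 0) hu p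
    rw [hbp, ← ht', ← hz] at hres
    have hE2 : ∑ ρ, (ws W ρ - ws W id) * spinNsq (q ρ) + 2 * ∑ ρ, rp (q ρ) (hop t p ρ) =
        -(nB K * heisE (mottJ W t w0) φ) := by
      rw [← hJ1, ← hso1, mul_sum, ← sum_add_distrib, ← sum_neg_distrib]
      refine sum_congr rfl fun ρ _ => ?_
      rw [hqz, hres ρ, rp_smul_right, rp_smul_right]
      change (ws W ρ - ws W id) * spinNsq (z ρ) + 2 * ((ws W ρ - ws W id - 0) *
        rp (fun s => ((-1 : ℝ) : ℂ) * z ρ s) (z ρ)) = -((ws W ρ - ws W id - 0) * rp (z ρ) (z ρ))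
      rw [rp_smul_left, rp_self]
      ring
    have hE3 : ∑ ρ, rp (q ρ) (hop t q ρ) ≤ (K : ℝ) ^ 2 * τ * ∑ ρ, spinNsq (z ρ) := by
      have := (abs_le.1 (hop_bound H.t_le q)).2
      simp only [hqz] at this
      exact this
    rw [hsplit]
    linarith only [hE2, hE3]

end Mott

open Mott in
theorem mott_upper {K : ℕ} {h W t : Fin K → Fin K → ℝ}
    {v : Fin K → Fin K → Fin K → Fin K → ℝ} {ε0 w0 w1 u τ δ : ℝ}
    (H : MottHyp K h W t v ε0 w0 w1 u τ δ) :
    ∃ c : Tens K (Fin K × Fin 2), IsAnti c ∧ nsq c = 1 ∧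
      enT h v c ≤ mottBase W ε0 - heisMax (mottJ W t w0) + 8 * K ^ 4 * (τ ^ 3 / u ^ 2 + δ) := by
  have hu := H.u_pos
  have hK : (2 : ℝ) ≤ K := by exact_mod_cast H.two_le
  have hτ : 0 ≤ τ := (abs_nonneg _).trans (H.t_le ⟨0, by have := H.two_le; omega⟩
    ⟨0, by have := H.two_le; omega⟩)
  have hK4 : (4 : ℝ) ≤ (K : ℝ) ^ 2 := by linarith only [mul_nonneg_of_nonpos_of_nonpos (Mathlib.Tactic.Linarith.sub_nonpos_of_le (Mathlib.Tactic.Linarith.natCast_nonneg ℝ K)) (Mathlib.Tactic.Linarith.sub_nonpos_of_le hK), hK]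
  have hτu : τ ≤ u / 8 := by
    have := H.τ_le
    linarith only [mul_nonneg_of_nonpos_of_nonpos (Mathlib.Tactic.Linarith.sub_nonpos_of_le hτ) (Mathlib.Tactic.Linarith.sub_nonpos_of_le hK4), this]
  obtain ⟨φ, hφ1, hφ2⟩ := heisMax_attained (mottJ W t w0)
  obtain ⟨C, Z, hCa, hZ0, hZ, hCn, hen⟩ := trial H hφ1
  rw [hφ2] at hen
  have hnB : (0 : ℝ) < nB K := by exact_mod_cast nB_pos
  have hm0 : 0 ≤ heisMax (mottJ W t w0) := heisMax_nonneg fun i j hij => by
    have := u_le H hij.ne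
    unfold mottJ
    exact div_nonneg (by (clear * -; positivity)) (by linarith only [hu, this])
  have hhm : heisMax (mottJ W t w0) ≤ 2 * (K : ℝ) ^ 2 * (τ ^ 2 / u) := by
    rw [← hφ2, ← mottJ_form H.W_symm H.t_symm H.t_diag]
    exact sum_sq_le (by (clear * - hu; positivity)) (fun i j => (t_bounds H i j).1) hφ1
  obtain ⟨c, hc1, hc2, hc3⟩ := normalise H hCa hnB hZ0 hZ
    (show 0 ≤ (K : ℝ) ^ 2 * τ by (clear * - hK hτ; positivity)) hCn hm0 hen
  refine ⟨c, hc1, hc2, hc3.trans ?_⟩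
  have e1 : heisMax (mottJ W t w0) + (K : ℝ) ^ 2 * τ ≤ 2 * ((K : ℝ) ^ 2 * τ) := by
    have : 2 * (K : ℝ) ^ 2 * (τ ^ 2 / u) ≤ (K : ℝ) ^ 2 * τ := by
      have e2 : τ ^ 2 / u ≤ τ / 8 := by
        rw [div_le_iff₀ hu]
        linarith only [mul_nonneg_of_nonpos_of_nonpos (Mathlib.Tactic.Linarith.sub_nonpos_of_le hτ) (Mathlib.Tactic.Linarith.sub_nonpos_of_le hτu)]
      calc 2 * (K : ℝ) ^ 2 * (τ ^ 2 / u) ≤ 2 * (K : ℝ) ^ 2 * (τ / 8) :=
            mul_le_mul_of_nonneg_left e2 (by (clear * - hK; positivity))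
        _ ≤ _ := by linarith only [mul_nonneg (sq_nonneg (K : ℝ)) hτ]
    linarith only [hhm, this]
  have hfin : 2 * (K : ℝ) ^ 2 * (τ / u) ^ 2 * (heisMax (mottJ W t w0) + (K : ℝ) ^ 2 * τ) ≤
      4 * K ^ 4 * (τ ^ 3 / u ^ 2) := by
    calc 2 * (K : ℝ) ^ 2 * (τ / u) ^ 2 * (heisMax (mottJ W t w0) + (K : ℝ) ^ 2 * τ) ≤
        2 * (K : ℝ) ^ 2 * (τ / u) ^ 2 * (2 * ((K : ℝ) ^ 2 * τ)) :=
          mul_le_mul_of_nonneg_left e1 (by (clear * - hK; positivity))
      _ = _ := by
        field_simp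
        ring
  have hpos : 0 ≤ (K : ℝ) ^ 4 * (τ ^ 3 / u ^ 2) := by (clear * - hK hτ hu; positivity)
  have hpos2 : 0 ≤ (K : ℝ) ^ 4 * δ := by
    have := H.δ_nonneg
    (clear * - hK this; positivity)
  linarith only [hfin, hpos, hpos2]

end Vale.Agent.P370.Q
end
end

section

section

/-!
History states (H3).
-/

set_option linter.all false

namespace Vale.Agent.P370.H

open Finset

namespace HistU

/-- sign of `Z_i` -/
def zg {n : ℕ} (i : ℕ) (x : Fin n → Bool) : ℝ :=
  if h : i < n then (if x ⟨i, h⟩ then -1 else 1) else 1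

theorem pau2 {n : ℕ} (i : ℕ) (v : RSt n) : pau 2 i v = fun x => zg i x * v x := by
  unfold pau zg
  by_cases h : i < n
  · simp only [h, ↓reduceDIte, OfNat.ofNat_ne_zero, ↓reduceIte, OfNat.ofNat_ne_one, ite_mul, neg_mul, one_mul]
  · simp [h]

theorem zg_cases {n : ℕ} (i : ℕ) (x : Fin n → Bool) : zg i x = 1 ∨ zg i x = -1 := by
  unfold zg
  by_cases h : i < n
  · simp only [h, dite_true]
    by_cases h2 : x ⟨i, h⟩ = true
    · right; simp [h2]
    · left; simp [h2]
  · left; simp [h]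

theorem nrm2_pau2 {n : ℕ} (i : ℕ) (v : RSt n) : nrm2 (pau 2 i v) = nrm2 v := by
  unfold nrm2 ip
  rw [pau2]
  refine Finset.sum_congr rfl fun x _ => ?_
  beta_reduce
  rcases zg_cases i x with h | h <;> rw [h] <;> ring

theorem czg_eq {n : ℕ} (f s : ℕ) (v : RSt n) :
    czg f s v = fun x => (1 / 2 * (1 + zg f x + zg s x - zg f x * zg s x)) * v x := by
  unfold czg
  rw [pau2, pau2, pau2]
  funext x
  simp only [Pi.smul_apply, Pi.add_apply, Pi.sub_apply, smul_eq_mul]
  ring

theorem nrm2_czg {n : ℕ} (f s : ℕ) (v : RSt n) : nrm2 (czg f s v) = nrm2 v := by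
  unfold nrm2 ip
  rw [czg_eq]
  refine Finset.sum_congr rfl fun x _ => ?_
  beta_reduce
  rcases zg_cases f x with h | h <;> rcases zg_cases s x with h' | h' <;> rw [h, h'] <;> ring

/-- flip of the bit `i` -/
def flp {n : ℕ} (i : Fin n) : (Fin n → Bool) ≃ (Fin n → Bool) where
  toFun x := Function.update x i (!x i)
  invFun x := Function.update x i (!x i)
  left_inv x := by simp
  right_inv x := by simp

theorem nrm2_refl {n : ℕ} (a q : ℕ) (hq : q < n) (v : RSt n) : nrm2 (refl a q v) = nrm2 v := by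
  unfold refl
  by_cases ha : a = 0
  · simp [ha]
  · simp only [ha, if_false]
    have e1 : pau 1 q v = fun x => v (flp ⟨q, hq⟩ x) := by
      unfold pau flp
      simp only [hq, ↓reduceDIte, one_ne_zero, ↓reduceIte, Equiv.coe_fn_mk]
    have e2 : ∑ x, zg q x * v x * v (flp ⟨q, hq⟩ x) = 0 := by
      have h1 : ∑ x, zg q x * v x * v (flp ⟨q, hq⟩ x)
          = ∑ x, zg q (flp ⟨q, hq⟩ x) * v (flp ⟨q, hq⟩ x) * v (flp ⟨q, hq⟩ (flp ⟨q, hq⟩ x)) :=
        (Equiv.sum_comp (flp ⟨q, hq⟩) (fun x => zg q x * v x * v (flp ⟨q, hq⟩ x))).symm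
      have h2 : ∀ x : Fin n → Bool, zg q (flp ⟨q, hq⟩ x) = - zg q x := by
        intro x
        unfold zg flp
        by_cases h : x ⟨q, hq⟩ = true <;> simp [hq, h]
      have h3 : ∀ x : Fin n → Bool, flp ⟨q, hq⟩ (flp ⟨q, hq⟩ x) = x := fun x =>
        (flp ⟨q, hq⟩).left_inv x
      have h4 : ∑ x, zg q x * v x * v (flp ⟨q, hq⟩ x)
          = - ∑ x, zg q x * v x * v (flp ⟨q, hq⟩ x) := by
        conv_lhs => rw [h1]
        rw [← Finset.sum_neg_distrib]
        refine Finset.sum_congr rfl fun x _ => ?_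
        rw [h2, h3]; ring
      linarith only [h4]
    have e3 : ∑ x, v (flp ⟨q, hq⟩ x) * v (flp ⟨q, hq⟩ x) = ∑ x, v x * v x :=
      Equiv.sum_comp (flp ⟨q, hq⟩) (fun x => v x * v x)
    have e4 : ∑ x, zg q x * v x * (zg q x * v x) = ∑ x, v x * v x := by
      refine Finset.sum_congr rfl fun x _ => ?_
      rcases zg_cases q x with h | h <;> rw [h] <;> ring
    unfold nrm2 ip
    rw [e1, pau2]
    have e5 : ∀ x : Fin n → Bool,
        (Real.cos (ang a) • (fun x => zg q x * v x) + Real.sin (ang a) •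
          (fun x => v (flp ⟨q, hq⟩ x)) : RSt n) x *
        (Real.cos (ang a) • (fun x => zg q x * v x) + Real.sin (ang a) •
          (fun x => v (flp ⟨q, hq⟩ x)) : RSt n) x
        = Real.cos (ang a) ^ 2 * (zg q x * v x * (zg q x * v x)) +
          Real.sin (ang a) ^ 2 * (v (flp ⟨q, hq⟩ x) * v (flp ⟨q, hq⟩ x)) +
          (2 * Real.cos (ang a) * Real.sin (ang a)) * (zg q x * v x * v (flp ⟨q, hq⟩ x)) := by
      intro x
      simp only [Pi.smul_apply, Pi.add_apply, smul_eq_mul]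
      ring
    rw [Finset.sum_congr rfl fun x _ => e5 x, Finset.sum_add_distrib, Finset.sum_add_distrib,
      ← Finset.mul_sum, ← Finset.mul_sum, ← Finset.mul_sum, e2, e3, e4]
    have := Real.sin_sq_add_cos_sq (ang a)
    linear_combination (∑ x, v x * v x) * this

/-- gate at the time `t` -/
noncomputable def hgate {n : ℕ} (rs : List Rnd) (t : ℕ) (v : RSt n) : RSt n :=
  if t % 6 = 0 then czg (rget rs (t / 6 - 1)).f (rget rs (t / 6 - 1)).s v else gfine rs t v

/-- history state -/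
noncomputable def hst {n : ℕ} (rs : List Rnd) (φ : RSt n) : ℕ → RSt n
  | 0 => φ
  | t + 1 => hgate rs (t + 1) (hst rs φ t)

theorem rget_ok {n : ℕ} (rs : List Rnd) (hok : ∀ r ∈ rs, r.Ok n) (l : ℕ) (hl : l < rs.length) :
    (rget rs l).Ok n := by
  unfold rget
  rw [List.getD_eq_getElem _ _ hl]
  exact hok _ (List.getElem_mem hl)

theorem nrm2_gfine {n : ℕ} (rs : List Rnd) (hok : ∀ r ∈ rs, r.Ok n) (t : ℕ) (v : RSt n) :
    nrm2 (gfine rs t v) = nrm2 v := by
  unfold gfine
  split_ifs with h1 h2 h3 h4 h5 h6 h7 h8 h9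
  · exact nrm2_pau2 _ _
  · rfl
  · exact nrm2_pau2 _ _
  · rfl
  · exact nrm2_refl _ _ (rget_ok rs hok _ h6).1 _
  · rfl
  · exact nrm2_pau2 _ _
  · rfl
  · exact nrm2_pau2 _ _
  · rfl

theorem nrm2_hst {n : ℕ} (rs : List Rnd) (hok : ∀ r ∈ rs, r.Ok n) (φ : RSt n) (t : ℕ) :
    nrm2 (hst rs φ t) = nrm2 φ := by
  induction t with
  | zero => rfl
  | succ t ih =>
    show nrm2 (hgate rs (t + 1) (hst rs φ t)) = nrm2 φ
    unfold hgate
    split_ifs with h
    · rw [nrm2_czg, ih]
    · rw [nrm2_gfine rs hok, ih]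

theorem hst_succ {n : ℕ} (rs : List Rnd) (φ : RSt n) (t : ℕ) :
    hst rs φ (t + 1) = hgate rs (t + 1) (hst rs φ t) := rfl

/-- the gates of a block -/
theorem hst_block {n : ℕ} (rs : List Rnd) (φ : RSt n) (l : ℕ) (hl : l < rs.length) :
    hst rs φ (6 * l + 3) = refl (rget rs l).a (rget rs l).q (hst rs φ (6 * l + 2)) ∧
    hst rs φ (6 * l + 4) = pau 2 (rget rs l).f (hst rs φ (6 * l + 3)) ∧
    hst rs φ (6 * l + 5) = pau 2 (rget rs l).s (hst rs φ (6 * l + 4)) ∧
    hst rs φ (6 * l + 6) = czg (rget rs l).f (rget rs l).s (hst rs φ (6 * l + 5)) ∧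
    hst rs φ (6 * l + 7) = pau 2 (rget rs l).f (hst rs φ (6 * l + 6)) ∧
    hst rs φ (6 * l + 8) = pau 2 (rget rs l).s (hst rs φ (6 * l + 7)) := by
  refine ⟨?_, ?_, ?_, ?_, ?_, ?_⟩
  · rw [hst_succ]
    have h1 : (6 * l + 2 + 1) % 6 = 3 := by omega
    have h2 : (6 * l + 2 + 1) / 6 = l := by omega
    simp only [hgate, h1, OfNat.ofNat_ne_zero, ↓reduceIte, gfine, OfNat.ofNat_ne_one, Nat.succ_ne_self, h2, hl]
  · rw [hst_succ]
    have h1 : (6 * l + 3 + 1) % 6 = 4 := by omega
    have h2 : (6 * l + 3 + 1) / 6 = l := by omega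
    simp only [hgate, h1, OfNat.ofNat_ne_zero, ↓reduceIte, gfine, OfNat.ofNat_ne_one, Nat.reduceEqDiff, Nat.succ_ne_self, h2, hl]
  · rw [hst_succ]
    have h1 : (6 * l + 4 + 1) % 6 = 5 := by omega
    have h2 : (6 * l + 4 + 1) / 6 = l := by omega
    simp only [hgate, h1, OfNat.ofNat_ne_zero, ↓reduceIte, gfine, OfNat.ofNat_ne_one, Nat.reduceEqDiff, Nat.succ_ne_self, h2, hl]
  · rw [hst_succ]
    have h1 : (6 * l + 5 + 1) % 6 = 0 := by (clear * -; omega)
    have h2 : (6 * l + 5 + 1) / 6 - 1 = l := by omega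
    simp [hgate, h1, h2]
  · rw [hst_succ]
    have h1 : (6 * l + 6 + 1) % 6 = 1 := by omega
    have h2 : (6 * l + 6 + 1) / 6 = l + 1 := by omega
    simp only [hgate, h1, one_ne_zero, ↓reduceIte, gfine, h2, le_add_iff_nonneg_left, zero_le, add_tsub_cancel_right]
  · rw [hst_succ]
    have h1 : (6 * l + 7 + 1) % 6 = 2 := by omega
    have h2 : (6 * l + 7 + 1) / 6 = l + 1 := by omega
    simp only [hgate, h1, OfNat.ofNat_ne_zero, ↓reduceIte, gfine, OfNat.ofNat_ne_one, h2, le_add_iff_nonneg_left, zero_le, add_tsub_cancel_right]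

theorem hst_two {n : ℕ} (rs : List Rnd) (φ : RSt n) : hst rs φ 2 = φ := by
  show hgate rs (1 + 1) (hgate rs (0 + 1) φ) = φ
  simp only [hgate, Nat.reduceAdd, Nat.reduceMod, OfNat.ofNat_ne_zero, ↓reduceIte, gfine, OfNat.ofNat_ne_one, Nat.reduceDiv, nonpos_iff_eq_zero, one_ne_zero, zero_add, Nat.one_mod]

theorem hst_last {n : ℕ} (rs : List Rnd) (φ : RSt n) :
    hst rs φ (6 * rs.length + 5) = hst rs φ (6 * rs.length + 2) := by
  rw [hst_succ, hst_succ, hst_succ]
  have h1 : (6 * rs.length + 4 + 1) % 6 = 5 := by omega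
  have h2 : (6 * rs.length + 4 + 1) / 6 = rs.length := by (clear * - h1; omega)
  have h3 : (6 * rs.length + 3 + 1) % 6 = 4 := by omega
  have h4 : (6 * rs.length + 3 + 1) / 6 = rs.length := by (clear * - h1 h3; omega)
  have h5 : (6 * rs.length + 2 + 1) % 6 = 3 := by omega
  have h6 : (6 * rs.length + 2 + 1) / 6 = rs.length := by omega
  simp only [hgate, h1, OfNat.ofNat_ne_zero, ↓reduceIte, gfine, OfNat.ofNat_ne_one, Nat.reduceEqDiff, Nat.succ_ne_self, h2, lt_self_iff_false, h3, h4, h5, h6]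

theorem czg_conj {n : ℕ} (f s : ℕ) (v : RSt n) :
    pau 2 s (pau 2 f (czg f s (pau 2 s (pau 2 f v)))) = czg f s v := by
  rw [czg_eq, czg_eq, pau2, pau2, pau2, pau2]
  funext x
  simp only
  rcases zg_cases f x with h | h <;> rcases zg_cases s x with h' | h' <;> rw [h, h'] <;> ring

theorem hst_round {n : ℕ} (rs : List Rnd) (φ : RSt n) (l : ℕ) (hl : l < rs.length) :
    hst rs φ (6 * (l + 1) + 2) = rndAct (rget rs l) (hst rs φ (6 * l + 2)) := by
  obtain ⟨h3, h4, h5, h6, h7, h8⟩ := hst_block rs φ l hl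
  have e : 6 * (l + 1) + 2 = 6 * l + 8 := by ring
  rw [e, h8, h7, h6, h5, h4, h3, czg_conj]
  rfl

theorem hst_run {n : ℕ} (rs : List Rnd) (φ : RSt n) (l : ℕ) (hl : l ≤ rs.length) :
    hst rs φ (6 * l + 2) = runR (rs.take l) φ := by
  induction l with
  | zero => simp only [mul_zero, zero_add, hst_two, runR, List.take_zero, List.foldl_nil]
  | succ l ih =>
    have hl' : l < rs.length := by omega
    rw [hst_round rs φ l hl', ih hl'.le, List.take_succ_eq_append_getElem hl']
    unfold runR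
    rw [List.foldl_append]
    have hr : rget rs l = rs[l] := List.getD_eq_getElem _ _ hl'
    rw [hr]
    rfl

theorem q2_zero {n : ℕ} (rs : List Rnd) (φ : RSt n) (l : ℕ) (hl : l < rs.length) :
    q2 (rget rs l) (6 * (l + 1)) (hst rs φ) = 0 := by
  obtain ⟨h3, h4, h5, h6, h7, h8⟩ := hst_block rs φ l hl
  have e1 : 6 * (l + 1) = 6 * l + 6 := by ring
  have e2 : 6 * l + 6 - 1 = 6 * l + 5 := by omega
  have e3 : 6 * l + 6 - 2 = 6 * l + 4 := by omega
  have e4 : 6 * l + 6 - 3 = 6 * l + 3 := by (clear * -; omega)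
  unfold q2
  rw [e1, e2, e3, e4]
  have e5 : 6 * l + 6 + 1 = 6 * l + 7 := by ring
  have e6 : 6 * l + 6 + 2 = 6 * l + 8 := by ring
  rw [e5, e6, h8, h7, h6, h5, h4]
  set v := hst rs φ (6 * l + 3) with hv
  set f := (rget rs l).f
  set s := (rget rs l).s
  unfold nrm2 ip
  simp only [czg_eq, pau2]
  rw [← Finset.sum_add_distrib, ← Finset.sum_sub_distrib, ← Finset.sum_add_distrib,
    Finset.mul_sum, ← Finset.sum_sub_distrib, ← Finset.sum_add_distrib,
    ← Finset.sum_add_distrib, ← Finset.sum_add_distrib, Finset.mul_sum,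
    ← Finset.sum_add_distrib, ← Finset.sum_add_distrib, Finset.mul_sum,
    ← Finset.sum_add_distrib]
  refine Finset.sum_eq_zero fun x _ => ?_
  rcases zg_cases f x with h | h <;> rcases zg_cases s x with h' | h' <;> rw [h, h'] <;> ring

end HistU

open HistU in
theorem hist_upper (N m : ℕ) (hN : 1 ≤ N) (rs : List Rnd) (hok : ∀ r ∈ rs, r.Ok N)
    (J1 J2 J3 : ℝ) (φ : RSt N) (hφ : ValidIn m φ) :
    ∃ a : ℕ → RSt N, tot rs.length a = 6 * ((rs.length : ℝ) + 1) * nrm2 φ ∧
      e1 J1 J2 J3 m rs a = nrm2 (zer 0 (runR rs φ)) := by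
  refine ⟨hst rs φ, ?_, ?_⟩
  · unfold tot tc
    rw [Finset.sum_congr rfl fun t _ => nrm2_hst rs hok φ t, Finset.sum_const, Finset.card_range,
      nsmul_eq_mul]
    push_cast
    ring
  · unfold e1
    have h1 : (∑ t ∈ Icc 1 (tc rs.length), if t % 6 = 0 then (0 : ℝ)
        else 1 / 2 * nrm2 (hst rs φ t - gfine rs t (hst rs φ (t - 1)))) = 0 := by
      refine Finset.sum_eq_zero fun t ht => ?_
      rw [Finset.mem_Icc] at ht
      split_ifs with h
      · rfl
      · obtain ⟨u, rfl⟩ : ∃ u, t = u + 1 := ⟨t - 1, by omega⟩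
        have : hst rs φ (u + 1) = gfine rs (u + 1) (hst rs φ (u + 1 - 1)) := by
          rw [hst_succ, hgate, if_neg h]; rfl
        rw [← this, sub_self]
        simp only [one_div, nrm2, ip, Pi.zero_apply, mul_zero, sum_const_zero]
    have h2 : (∑ l ∈ range rs.length, q2 (rget rs l) (6 * (l + 1)) (hst rs φ)) = 0 :=
      Finset.sum_eq_zero fun l hl => q2_zero rs φ l (Finset.mem_range.1 hl)
    have h3 : (∑ i ∈ Ico m (N - 1), nrm2 (one i (hst rs φ 0))) = 0 := by
      refine Finset.sum_eq_zero fun i hi => ?_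
      rw [Finset.mem_Ico] at hi
      have : one i (hst rs φ 0) = 0 := hφ i hi.1 hi.2
      rw [this]
      simp only [nrm2, ip, Pi.zero_apply, mul_zero, sum_const_zero]
    have h4 : hst rs φ (tc rs.length) = runR rs φ := by
      show hst rs φ (6 * rs.length + 5) = _
      rw [hst_last, hst_run rs φ _ le_rfl, List.take_length]
    rw [h1, h2, h3, h4]
    ring

end Vale.Agent.P370.H
end
end

section

section

/-!
Rotations in the plane of a great circle; masses of balls.
-/

namespace Vale.Agent.P370.GC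

open MeasureTheory Set Metric Module

/-- rotation by the angle `φ` in the plane of the circle (vertical plane of azimuth `α`) -/
noncomputable def rotL (α φ : ℝ) : V3 →ₗ[ℝ] V3 where
  toFun x := !₂[x 0 + ((Real.sin φ * x 2 + Real.cos φ * ta α x) - ta α x) * Real.cos α,
    x 1 + ((Real.sin φ * x 2 + Real.cos φ * ta α x) - ta α x) * Real.sin α,
    Real.cos φ * x 2 - Real.sin φ * ta α x]
  map_add' x y := by
    ext i
    fin_cases i <;> simp [ta] <;> ring
  map_smul' c x := by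
    ext i
    fin_cases i <;> simp [ta] <;> ring

theorem ta_rotL (α φ : ℝ) (x : V3) :
    ta α (rotL α φ x) = Real.sin φ * x 2 + Real.cos φ * ta α x := by
  have h : ta α (rotL α φ x) =
      Real.cos α * (x 0 + ((Real.sin φ * x 2 + Real.cos φ * ta α x) - ta α x) * Real.cos α) +
      Real.sin α * (x 1 + ((Real.sin φ * x 2 + Real.cos φ * ta α x) - ta α x) * Real.sin α) := by
    simp only [ta, Fin.isValue, rotL, LinearMap.coe_mk, AddHom.coe_mk, Matrix.cons_val_zero, Matrix.cons_val_one]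
  have h2 : ta α x = Real.cos α * x 0 + Real.sin α * x 1 := rfl
  rw [h]
  linear_combination ((Real.sin φ * x 2 + Real.cos φ * ta α x) - ta α x) *
    Real.sin_sq_add_cos_sq α - h2

theorem rotL_two (α φ : ℝ) (x : V3) :
    rotL α φ x 2 = Real.cos φ * x 2 - Real.sin φ * ta α x := by
  simp only [Fin.isValue, rotL, LinearMap.coe_mk, AddHom.coe_mk, Matrix.cons_val]

theorem nu_rotL (α φ : ℝ) (x : V3) : nu α (rotL α φ x) = nu α x := by
  simp only [nu, Fin.isValue, rotL, LinearMap.coe_mk, AddHom.coe_mk, Matrix.cons_val_zero, neg_mul, Matrix.cons_val_one]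
  ring

theorem lf_rotL (α φ : ℝ) (x : V3) :
    lf (av α) (rotL α φ x) = Complex.exp (φ * Complex.I) * lf (av α) x := by
  have e1 : ∀ y : V3, lf (av α) y = ((y 2 : ℝ) : ℂ) + ((ta α y : ℝ) : ℂ) * Complex.I :=
    fun y => lf_av α y
  rw [e1, e1, ta_rotL, rotL_two, Complex.exp_mul_I, ← Complex.ofReal_cos, ← Complex.ofReal_sin]
  push_cast
  linear_combination (-(Complex.sin φ) * (ta α x : ℂ)) * Complex.I_sq

theorem norm_lf_rotL (α φ : ℝ) (x : V3) : ‖lf (av α) (rotL α φ x)‖ = ‖lf (av α) x‖ := by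
  rw [lf_rotL, norm_mul, Complex.norm_exp_ofReal_mul_I, one_mul]

theorem norm_rotL (α φ : ℝ) (x : V3) : ‖rotL α φ x‖ = ‖x‖ := by
  have h : ‖rotL α φ x‖ ^ 2 = ‖x‖ ^ 2 := by
    rw [norm_sq_eq_add α, norm_sq_eq_add α x, norm_lf_rotL, nu_rotL]
  exact (sq_eq_sq₀ (norm_nonneg _) (norm_nonneg _)).1 h

/-- rotation as a linear isometry equivalence -/
noncomputable def rot (α φ : ℝ) : V3 ≃ₗᵢ[ℝ] V3 :=
  LinearIsometry.toLinearIsometryEquiv ⟨rotL α φ, norm_rotL α φ⟩ rfl

theorem rot_apply (α φ : ℝ) (x : V3) : rot α φ x = rotL α φ x := rfl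

theorem wd_rot (l : ℕ) (α φ : ℝ) (x : V3) : wd l α (rot α φ x) = wd l α x := by
  unfold wd
  rw [rot_apply, norm_lf_rotL, norm_rotL]

theorem dist_rot (α φ ψ : ℝ) (x : V3) :
    dist (rot α φ x) (rot α ψ x) = 2 * |Real.sin ((φ - ψ) / 2)| * ‖lf (av α) x‖ := by
  have h : dist (rot α φ x) (rot α ψ x) ^ 2 =
      (2 * |Real.sin ((φ - ψ) / 2)| * ‖lf (av α) x‖) ^ 2 := by
    rw [dist_eq_norm, rot_apply, rot_apply, norm_sq_eq_add α]
    have h1 : nu α (rotL α φ x - rotL α ψ x) = 0 := by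
      have : nu α (rotL α φ x - rotL α ψ x) = nu α (rotL α φ x) - nu α (rotL α ψ x) := by
        simp only [nu, Fin.isValue, PiLp.sub_apply, neg_mul]
        ring
      rw [this, nu_rotL, nu_rotL, sub_self]
    have h2 : ‖lf (av α) (rotL α φ x - rotL α ψ x)‖ =
        ‖Complex.exp (φ * Complex.I) - Complex.exp (ψ * Complex.I)‖ * ‖lf (av α) x‖ := by
      rw [map_sub, lf_rotL, lf_rotL, ← sub_mul, norm_mul]
    rw [h1, h2]
    have h3 : ‖Complex.exp (φ * Complex.I) - Complex.exp (ψ * Complex.I)‖ ^ 2 =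
        (2 * Real.sin ((φ - ψ) / 2)) ^ 2 := by
      rw [← Complex.normSq_eq_norm_sq, Complex.exp_mul_I, Complex.exp_mul_I,
        ← Complex.ofReal_cos, ← Complex.ofReal_sin, ← Complex.ofReal_cos, ← Complex.ofReal_sin]
      have : ((Real.cos φ : ℂ) + (Real.sin φ : ℂ) * Complex.I) -
          ((Real.cos ψ : ℂ) + (Real.sin ψ : ℂ) * Complex.I) =
          ((Real.cos φ - Real.cos ψ : ℝ) : ℂ) + ((Real.sin φ - Real.sin ψ : ℝ) : ℂ) * Complex.I := by
        push_cast
        ring
      have hc : Real.cos (φ - ψ) = 1 - 2 * Real.sin ((φ - ψ) / 2) ^ 2 := by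
        have h1 := Real.cos_two_mul ((φ - ψ) / 2)
        rw [show 2 * ((φ - ψ) / 2) = φ - ψ by ring] at h1
        (clear * - h1; linarith [Real.sin_sq_add_cos_sq ((φ - ψ) / 2)])
      rw [Real.cos_sub] at hc
      rw [this, Complex.normSq_add_mul_I]
      linear_combination Real.sin_sq_add_cos_sq φ + Real.sin_sq_add_cos_sq ψ - 2 * hc
    rw [mul_pow, h3]
    rw [mul_pow, mul_pow, mul_pow, sq_abs]
    ring
  exact (sq_eq_sq₀ dist_nonneg (by positivity)).1 h

theorem abs_sin_pi_mul_ge {N : ℕ} {j k : ℕ} (hj : j < N) (hk : k < N) (hjk : j ≠ k) :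
    2 / (N : ℝ) ≤ |Real.sin ((2 * Real.pi * j / N - 2 * Real.pi * k / N) / 2)| := by
  wlog h : k < j generalizing j k
  · have h' : j < k := by omega
    have := this hk hj (Ne.symm hjk) h'
    rw [← abs_neg, ← Real.sin_neg] at this
    convert this using 3
    ring
  have hN : (0 : ℝ) < N := by exact_mod_cast (by omega : 0 < N)
  obtain ⟨m, rfl⟩ : ∃ m, j = k + m := ⟨j - k, by omega⟩
  have hm1 : (1 : ℝ) ≤ m := by exact_mod_cast (by omega : 1 ≤ m)
  have hm2 : (m : ℝ) + 1 ≤ N := by exact_mod_cast (by omega : m + 1 ≤ N)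
  have e : (2 * Real.pi * ((k + m : ℕ) : ℝ) / N - 2 * Real.pi * k / N) / 2 = Real.pi * m / N := by
    push_cast
    field_simp
    ring
  rw [e]
  refine le_trans ?_ (le_abs_self _)
  have hpi := Real.pi_pos
  rcases le_or_gt (Real.pi * m / N) (Real.pi / 2) with hx | hx
  · refine le_trans ?_ (Real.mul_le_sin (by positivity) hx)
    rw [div_le_iff₀ hN]
    have : 2 / Real.pi * (Real.pi * m / N) * N = 2 * m := by
      (clear * - hN hm1; field_simp)
    rw [this]
    linarith only [hm1]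
  · rw [← Real.sin_pi_sub]
    have h1 : Real.pi - Real.pi * m / N = Real.pi * (N - m) / N := by
      (clear * - hN; field_simp)
    have h2 : 0 ≤ Real.pi * (N - m) / N := by
      have : (0 : ℝ) ≤ N - m := by linarith only [hm2]
      (clear * - this hN; positivity)
    have hx' : Real.pi * (N - m) / N ≤ Real.pi / 2 := by rw [← h1]; linarith only [hx]
    rw [h1]
    refine le_trans ?_ (Real.mul_le_sin h2 hx')
    rw [div_le_iff₀ hN]
    have : 2 / Real.pi * (Real.pi * (N - m) / N) * N = 2 * (N - m) := by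
      (clear * - hN; field_simp)
    rw [this]
    linarith only [hm2]

theorem ball_integral_rot (l : ℕ) (α φ : ℝ) (z : V3) (t : ℝ) :
    ∫ x in ball (rot α φ z) t, wd l α x = ∫ x in ball z t, wd l α x := by
  have h := (rot α φ).measurePreserving.setIntegral_preimage_emb
    (rot α φ).toHomeomorph.measurableEmbedding (wd l α) (ball (rot α φ z) t)
  rw [← h]
  have e : (rot α φ) ⁻¹' (ball (rot α φ z) t) = ball z t := by
    ext x
    simp [mem_ball]
  rw [e]
  refine setIntegral_congr_fun measurableSet_ball fun x _ => ?_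
  exact wd_rot l α φ x

theorem ball_mass_le_div (l : ℕ) (α : ℝ) (z : V3) (t : ℝ) {N : ℕ} (hN : 1 ≤ N)
    (h : t * N ≤ 2 * ‖lf (av α) z‖) :
    ∫ x in ball z t, wd l α x ≤ wm l / N := by
  have hN0 : (0 : ℝ) < N := by exact_mod_cast hN
  rw [le_div_iff₀ hN0]
  have hd : ((Finset.range N : Finset ℕ) : Set ℕ).Pairwise
      (Function.onFun Disjoint fun k : ℕ => ball (rot α (2 * Real.pi * k / N) z) t) := by
    intro j hj k hk hjk
    simp only [Finset.coe_range, Set.mem_Iio] at hj hk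
    refine ball_disjoint_ball ?_
    rw [dist_rot]
    have h1 := abs_sin_pi_mul_ge hj hk hjk
    have h2 : 0 ≤ ‖lf (av α) z‖ := norm_nonneg _
    calc t + t = 2 * (t * N) / N := by field_simp; ring
      _ ≤ 2 * (2 * ‖lf (av α) z‖) / N := by gcongr
      _ = 2 * (2 / N) * ‖lf (av α) z‖ := by ring
      _ ≤ _ := by gcongr
  have hs := integral_biUnion_finset (μ := (volume : Measure V3)) (Finset.range N)
    (s := fun k : ℕ => ball (rot α (2 * Real.pi * k / N) z) t) (f := wd l α)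
    (fun k _ => measurableSet_ball) hd (fun k _ => (integrable_wd l α).integrableOn)
  have h3 : ∑ k ∈ Finset.range N, ∫ x in ball (rot α (2 * Real.pi * k / N) z) t, wd l α x =
      (∫ x in ball z t, wd l α x) * N := by
    simp only [ball_integral_rot]
    rw [Finset.sum_const, Finset.card_range, nsmul_eq_mul, mul_comm]
  rw [← h3, ← hs, ← integral_wd l α]
  exact setIntegral_le_integral (integrable_wd l α) (.of_forall fun x => wd_nonneg l α x)

theorem ball_mass_le_one (l : ℕ) (α : ℝ) (z : V3) (t : ℝ) :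
    ∫ x in ball z t, wd l α x ≤ wm l := by
  rw [← integral_wd l α]
  exact setIntegral_le_integral (integrable_wd l α) (.of_forall fun x => wd_nonneg l α x)

/-- the ball mass bound -/
theorem ball_mass_le (l : ℕ) (hl : 1 ≤ l) (α : ℝ) (z : V3) {t : ℝ} (ht : 0 < t) :
    ∫ x in ball z t, wd l α x ≤
      wm l * (3 * t / ((l : ℝ) + 1) ^ 2 + 15 / ((l : ℝ) + 1)) := by
  obtain ⟨n, hn⟩ : ∃ n : ℝ, n = (l : ℝ) + 1 := ⟨_, rfl⟩
  have hn1 : 1 ≤ n := by rw [hn]; have : (0 : ℝ) ≤ l := Nat.cast_nonneg l; linarith only []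
  have hw := wm_pos l
  rw [← hn]
  have hn2 : 0 < n ^ 2 := by positivity
  rcases le_or_gt (n ^ 2 / 3) t with h1 | h1
  · refine (ball_mass_le_one l α z t).trans ?_
    have : 1 ≤ 3 * t / n ^ 2 + 15 / n := by
      have h2 : 1 ≤ 3 * t / n ^ 2 := by
        rw [le_div_iff₀ hn2]
        linarith only [h1]
      have h3 : 0 ≤ 15 / n := by positivity
      linarith only [h2, h3]
    calc wm l = wm l * 1 := (mul_one _).symm
      _ ≤ _ := by (clear * - this hw; gcongr)
  rcases le_or_gt (n ^ 2 / 3) ‖lf (av α) z‖ with h2 | h2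
  · -- rotation argument
    have hR : 0 < ‖lf (av α) z‖ := lt_of_lt_of_le (by (clear * - hn1; positivity)) h2
    obtain ⟨N, hN⟩ : ∃ N : ℕ, N = ⌊2 * ‖lf (av α) z‖ / t⌋₊ := ⟨_, rfl⟩
    have h3 : (N : ℝ) ≤ 2 * ‖lf (av α) z‖ / t := by
      rw [hN]
      exact Nat.floor_le (by (clear * - hR ht; positivity))
    have h4 : 2 * ‖lf (av α) z‖ / t < N + 1 := by
      rw [hN]
      exact Nat.lt_floor_add_one _
    have h5 : 2 ≤ 2 * ‖lf (av α) z‖ / t := by
      rw [le_div_iff₀ ht]
      linarith only [h1, h2]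
    have h6 : 1 ≤ N := by
      have : (1 : ℝ) < N + 1 + 0 := by linarith only [h4, h5]
      have : (0 : ℝ) < N := by linarith only [h4, h5]
      exact_mod_cast this
    have h7 : t * N ≤ 2 * ‖lf (av α) z‖ := by
      rw [le_div_iff₀ ht] at h3
      linarith only [h3]
    refine (ball_mass_le_div l α z t h6 h7).trans ?_
    rw [div_eq_mul_inv]
    refine mul_le_mul_of_nonneg_left ?_ hw.le
    have h8 : ‖lf (av α) z‖ / t ≤ N := by
      have : 2 * ‖lf (av α) z‖ / t = 2 * (‖lf (av α) z‖ / t) := by ring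
      rw [this] at h4 h5
      linarith only [h4, h5]
    have hN0 : (0 : ℝ) < N := by exact_mod_cast h6
    calc (N : ℝ)⁻¹ ≤ (‖lf (av α) z‖ / t)⁻¹ := by
          gcongr
      _ = t / ‖lf (av α) z‖ := inv_div _ _
      _ ≤ t / (n ^ 2 / 3) := by gcongr
      _ = 3 * t / n ^ 2 := by field_simp
      _ ≤ 3 * t / n ^ 2 + 15 / n := by
          have : 0 ≤ 15 / n := by positivity
          linarith only [this]
  · -- near the axis
    have hsub : ball z t ⊆ {x : V3 | ‖lf (av α) x‖ ≤ 2 * ((l : ℝ) + 1) ^ 2 / 3} := by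
      intro x hx
      rw [mem_ball, dist_eq_norm] at hx
      have : ‖lf (av α) x‖ ≤ ‖lf (av α) (x - z)‖ + ‖lf (av α) z‖ := by
        rw [map_sub]
        simpa only [sub_add_cancel] using norm_add_le (lf (av α) x - lf (av α) z) (lf (av α) z)
      have h3 := norm_lf_av_le α (x - z)
      show ‖lf (av α) x‖ ≤ 2 * ((l : ℝ) + 1) ^ 2 / 3
      rw [← hn]
      linarith only [h1, h2, hx, this, h3]
    have h3 : ∫ x in ball z t, wd l α x ≤
        ∫ x in {x : V3 | ‖lf (av α) x‖ ≤ 2 * ((l : ℝ) + 1) ^ 2 / 3}, wd l α x :=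
      setIntegral_mono_set (integrable_wd l α).integrableOn
        (.of_forall fun x => wd_nonneg l α x) hsub.eventuallyLE
    refine (h3.trans (mass_small_s l hl α)).trans ?_
    refine mul_le_mul_of_nonneg_left ?_ hw.le
    rw [← hn]
    have : 0 ≤ 3 * t / n ^ 2 := by positivity
    linarith only [this]

end Vale.Agent.P370.GC
end
end

section

section

/-!
Pointwise bound and Coulomb potential bound for great circle densities.
-/

namespace Vale.Agent.P370.GC

open MeasureTheory Set Metric Module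

theorem wd_le (l : ℕ) (hl : 1 ≤ l) (α : ℝ) (x : V3) :
    wd l α x ≤ wm l / (2 * Real.pi ^ 2 * l * ((l : ℝ) + 1) ^ 4) := by
  have hl0 : (0 : ℝ) < l := by exact_mod_cast hl
  obtain ⟨n, hn⟩ : ∃ n : ℝ, n = (l : ℝ) + 1 := ⟨_, rfl⟩
  have hn0 : 0 < n := by rw [hn]; positivity
  obtain ⟨r, hr⟩ : ∃ r : ℝ, r = ‖x‖ := ⟨_, rfl⟩
  have hr0 : 0 ≤ r := by rw [hr]; exact norm_nonneg _
  have h1 : wd l α x ≤ r ^ (2 * l) * Real.exp (-(2 / n) * r) := by
    unfold wd
    rw [← hn, ← hr]
    gcongr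
    rw [hr]
    exact norm_lf_av_le α x
  have h2 : r * Real.exp (-(r / (n * l))) ≤ n * l / Real.exp 1 := by
    have h3 : r / (n * l) ≤ Real.exp (r / (n * l) - 1) := by
      have := Real.add_one_le_exp (r / (n * l) - 1)
      linarith only [this]
    have h4 : r ≤ (n * l) * Real.exp (r / (n * l) - 1) := by
      rw [div_le_iff₀ (by positivity)] at h3
      linarith only [h3]
    calc r * Real.exp (-(r / (n * l)))
        ≤ ((n * l) * Real.exp (r / (n * l) - 1)) * Real.exp (-(r / (n * l))) := by gcongr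
      _ = (n * l) * (Real.exp (r / (n * l) - 1) * Real.exp (-(r / (n * l)))) := by ring
      _ = n * l / Real.exp 1 := by
          rw [← Real.exp_add, show r / (n * l) - 1 + -(r / (n * l)) = -1 by ring, Real.exp_neg]
          rfl
  have h5 : r ^ (2 * l) * Real.exp (-(2 / n) * r) ≤ (n * l / Real.exp 1) ^ (2 * l) := by
    have e : r ^ (2 * l) * Real.exp (-(2 / n) * r) = (r * Real.exp (-(r / (n * l)))) ^ (2 * l) := by
      rw [mul_pow, ← Real.exp_nat_mul]
      congr 2
      push_cast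
      (clear * - hl hn0; field_simp)
    rw [e]
    (clear * - hr0 h2; gcongr)
  have h6 := Stirling.le_factorial_stirling l
  have h7 : 2 * Real.pi * l * ((l : ℝ) / Real.exp 1) ^ (2 * l) ≤ (l.factorial : ℝ) ^ 2 := by
    have h8 : (√(2 * Real.pi * l) * ((l : ℝ) / Real.exp 1) ^ l) ^ 2 ≤ (l.factorial : ℝ) ^ 2 := by
      (clear * - hl h6; gcongr)
    rw [mul_pow, Real.sq_sqrt (by positivity), ← pow_mul, mul_comm l 2] at h8
    exact h8
  rw [le_div_iff₀ (by positivity)]
  calc wd l α x * (2 * Real.pi ^ 2 * l * ((l : ℝ) + 1) ^ 4)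
      ≤ (n * l / Real.exp 1) ^ (2 * l) * (2 * Real.pi ^ 2 * l * ((l : ℝ) + 1) ^ 4) := by
        gcongr
        exact h1.trans h5
    _ = Real.pi * (2 * Real.pi * l * ((l : ℝ) / Real.exp 1) ^ (2 * l)) * n ^ (2 * l + 4) := by
        rw [← hn, mul_div_assoc, mul_pow]
        ring
    _ ≤ Real.pi * (l.factorial : ℝ) ^ 2 * n ^ (2 * l + 4) := by
        gcongr
    _ = wm l := by
        unfold wm
        rw [← hn]

theorem ball_mass_le_vol (l : ℕ) (hl : 1 ≤ l) (α : ℝ) (z : V3) {t : ℝ} (ht : 0 < t) :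
    ∫ x in ball z t, wd l α x ≤
      wm l / (2 * Real.pi ^ 2 * l * ((l : ℝ) + 1) ^ 4) * (4 * Real.pi / 3 * t ^ 3) := by
  have hl0 : (0 : ℝ) < l := by exact_mod_cast hl
  have hv : (volume : Measure V3).real (ball z t) = 4 * Real.pi / 3 * t ^ 3 := by
    rw [Measure.real, EuclideanSpace.volume_ball_fin_three, ENNReal.toReal_mul,
      ENNReal.toReal_pow, ENNReal.toReal_ofReal ht.le, ENNReal.toReal_ofReal (by positivity)]
    ring
  calc ∫ x in ball z t, wd l α x
      ≤ ∫ x in ball z t, wm l / (2 * Real.pi ^ 2 * l * ((l : ℝ) + 1) ^ 4) := by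
        refine setIntegral_mono_on (integrable_wd l α).integrableOn ?_ measurableSet_ball
          fun x _ => wd_le l hl α x
        exact integrableOn_const (measure_ball_lt_top.ne)
    _ = _ := by
        rw [setIntegral_const, hv, smul_eq_mul, mul_comm]

/-- layer cake for the inverse distance, truncated at `T` -/
theorem ofReal_inv_le {T d : ℝ} (hT : 0 < T) (hd : 0 < d) :
    ENNReal.ofReal (1 / d) ≤ ENNReal.ofReal (1 / T) +
      ∫⁻ t in Ioc (0 : ℝ) T, (Ioi d).indicator (fun t => ENNReal.ofReal (1 / t ^ 2)) t := by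
  rcases le_or_gt T d with h | h
  · refine le_add_right ?_
    (clear * - hT h; gcongr)
  · have h1 : ∫⁻ t in Ioc (0 : ℝ) T, (Ioi d).indicator (fun t => ENNReal.ofReal (1 / t ^ 2)) t =
        ∫⁻ t in Ioc d T, ENNReal.ofReal (1 / t ^ 2) := by
      rw [← lintegral_indicator measurableSet_Ioc, ← lintegral_indicator measurableSet_Ioc]
      congr 1
      ext t
      by_cases h2 : t ∈ Ioc d T
      · have h3 : t ∈ Ioc (0 : ℝ) T := ⟨hd.trans h2.1, h2.2⟩
        rw [indicator_of_mem h3, indicator_of_mem h2, indicator_of_mem (show t ∈ Ioi d from h2.1)]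
      · rw [indicator_of_notMem h2]
        by_cases h3 : t ∈ Ioc (0 : ℝ) T
        · rw [indicator_of_mem h3, indicator_of_notMem]
          intro h4
          exact h2 ⟨h4, h3.2⟩
        · rw [indicator_of_notMem h3]
    have h2 : ∫⁻ t in Ioc d T, ENNReal.ofReal (1 / t ^ 2) = ENNReal.ofReal (1 / d - 1 / T) := by
      have hii : ∀ t ∈ Set.uIcc d T, t ≠ 0 := by
        intro t ht
        rw [uIcc_of_le h.le] at ht
        exact (hd.trans_le ht.1).ne'
      have hint : ∫ t in d..T, 1 / t ^ 2 = 1 / d - 1 / T := by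
        have : ∫ t in d..T, 1 / t ^ 2 = (-1 / T) - (-1 / d) := by
          refine intervalIntegral.integral_eq_sub_of_hasDerivAt
            (f := fun t => -1 / t) (fun t ht => ?_) ?_
          · have h0 := hii t ht
            have := ((hasDerivAt_id t).inv h0).neg
            refine (this.congr_deriv ?_).congr_of_eventuallyEq (.of_forall fun s => ?_)
            · simp only [id_eq, neg_div, one_div, neg_neg]
            · simp [neg_div]
          · refine ContinuousOn.intervalIntegrable ?_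
            exact continuousOn_const.div (continuousOn_pow 2) fun t ht => pow_ne_zero 2 (hii t ht)
        rw [this]
        ring
      rw [← hint, intervalIntegral.integral_of_le h.le, ofReal_integral_eq_lintegral_ofReal]
      · have : IntervalIntegrable (fun t : ℝ => 1 / t ^ 2) volume d T := by
          refine ContinuousOn.intervalIntegrable ?_
          exact continuousOn_const.div (continuousOn_pow 2) fun t ht => pow_ne_zero 2 (hii t ht)
        exact (intervalIntegrable_iff_integrableOn_Ioc_of_le h.le).1 this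
      · exact .of_forall fun t => by (clear * -; positivity)
    rw [h1, h2, ← ENNReal.ofReal_add (by positivity)
      (by rw [sub_nonneg]; exact one_div_le_one_div_of_le hd h.le)]
    gcongr
    linarith only []

theorem lintegral_ball_wd (l : ℕ) (α : ℝ) (y : V3) (t : ℝ) :
    ∫⁻ x in ball y t, ENNReal.ofReal (wd l α x) =
      ENNReal.ofReal (∫ x in ball y t, wd l α x) :=
  (ofReal_integral_eq_lintegral_ofReal (integrable_wd l α).integrableOn
    (.of_forall fun x => wd_nonneg l α x)).symm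

theorem lintegral_wd (l : ℕ) (α : ℝ) : ∫⁻ x, ENNReal.ofReal (wd l α x) =
    ENNReal.ofReal (wm l) := by
  rw [← integral_wd l α, ofReal_integral_eq_lintegral_ofReal (integrable_wd l α)
    (.of_forall fun x => wd_nonneg l α x)]

theorem pot_le_layer (l : ℕ) (α : ℝ) (y : V3) {T : ℝ} (hT : 0 < T) :
    ∫⁻ x, ENNReal.ofReal (wd l α x / dist x y) ≤ ENNReal.ofReal (wm l * (1 / T)) +
      ∫⁻ t in Ioc (0 : ℝ) T, ENNReal.ofReal (1 / t ^ 2) *
        ENNReal.ofReal (∫ x in ball y t, wd l α x) := by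
  have h1 : ∀ x : V3, ENNReal.ofReal (wd l α x / dist x y) ≤
      ENNReal.ofReal (wd l α x) * ENNReal.ofReal (1 / T) +
      ∫⁻ t in Ioc (0 : ℝ) T, ENNReal.ofReal (wd l α x) *
        (Ioi (dist x y)).indicator (fun t => ENNReal.ofReal (1 / t ^ 2)) t := by
    intro x
    rcases eq_or_lt_of_le (dist_nonneg (x := x) (y := y)) with h | h
    · rw [← h]
      simp only [div_zero, ENNReal.ofReal_zero, one_div, zero_le]
    · have h2 := ofReal_inv_le hT h
      rw [lintegral_const_mul _ (Measurable.indicator (by fun_prop) measurableSet_Ioi), ← mul_add]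
      calc ENNReal.ofReal (wd l α x / dist x y)
          = ENNReal.ofReal (wd l α x) * ENNReal.ofReal (1 / dist x y) := by
            rw [← ENNReal.ofReal_mul (wd_nonneg l α x)]
            congr 1
            ring
        _ ≤ _ := by gcongr
  have hm : Measurable fun p : V3 × ℝ => ENNReal.ofReal (wd l α p.1) *
      (Ioi (dist p.1 y)).indicator (fun t => ENNReal.ofReal (1 / t ^ 2)) p.2 := by
    refine ((continuous_wd l α).measurable.comp measurable_fst).ennreal_ofReal.mul ?_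
    have hs : MeasurableSet {p : V3 × ℝ | dist p.1 y < p.2} :=
      measurableSet_lt (by fun_prop) measurable_snd
    have : (fun p : V3 × ℝ => (Ioi (dist p.1 y)).indicator
        (fun t => ENNReal.ofReal (1 / t ^ 2)) p.2) =
        {p : V3 × ℝ | dist p.1 y < p.2}.indicator (fun p => ENNReal.ofReal (1 / p.2 ^ 2)) := by
      ext p
      by_cases hp : dist p.1 y < p.2
      · rw [indicator_of_mem (show p.2 ∈ Ioi (dist p.1 y) from hp), indicator_of_mem (by exact hp)]
      · rw [indicator_of_notMem (by simpa only [mem_Ioi, not_lt] using hp), indicator_of_notMem (by exact hp)]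
    rw [this]
    exact Measurable.indicator (by (clear * -; fun_prop)) hs
  calc ∫⁻ x, ENNReal.ofReal (wd l α x / dist x y)
      ≤ ∫⁻ x, (ENNReal.ofReal (wd l α x) * ENNReal.ofReal (1 / T) +
        ∫⁻ t in Ioc (0 : ℝ) T, ENNReal.ofReal (wd l α x) *
          (Ioi (dist x y)).indicator (fun t => ENNReal.ofReal (1 / t ^ 2)) t) :=
        lintegral_mono h1
    _ = (∫⁻ x, ENNReal.ofReal (wd l α x) * ENNReal.ofReal (1 / T)) +
        ∫⁻ x, ∫⁻ t in Ioc (0 : ℝ) T, ENNReal.ofReal (wd l α x) *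
          (Ioi (dist x y)).indicator (fun t => ENNReal.ofReal (1 / t ^ 2)) t := by
        refine lintegral_add_left ?_ _
        exact (continuous_wd l α).measurable.ennreal_ofReal.mul_const _
    _ = _ := by
        congr 1
        · rw [lintegral_mul_const _ (continuous_wd l α).measurable.ennreal_ofReal, lintegral_wd,
            ← ENNReal.ofReal_mul (wm_pos l).le]
        · rw [lintegral_lintegral_swap hm.aemeasurable]
          refine lintegral_congr fun t => ?_
          rw [← lintegral_ball_wd, ← lintegral_indicator measurableSet_ball,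
            ← lintegral_const_mul _ (Measurable.indicator
              (continuous_wd l α).measurable.ennreal_ofReal measurableSet_ball)]
          refine lintegral_congr fun x => ?_
          by_cases hx : dist x y < t
          · rw [indicator_of_mem (show t ∈ Ioi (dist x y) from hx),
              indicator_of_mem (show x ∈ ball y t from hx), mul_comm]
          · rw [indicator_of_notMem (show t ∉ Ioi (dist x y) by simpa only [mem_Ioi, not_lt] using hx),
              indicator_of_notMem (show x ∉ ball y t by simpa only [mem_ball, not_lt] using hx)]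
            simp only [mul_zero, one_div]

/-- potential of a great circle density -/
theorem pot_le (l : ℕ) (hl : 1 ≤ l) (α : ℝ) (y : V3) :
    ∫⁻ x, ENNReal.ofReal (wd l α x / dist x y) ≤
      ENNReal.ofReal (wm l * ((17 + 3 * Real.log ((l : ℝ) + 1)) / ((l : ℝ) + 1) ^ 2)) := by
  have hl1 : (1 : ℝ) ≤ l := by exact_mod_cast hl
  obtain ⟨n, hn⟩ : ∃ n : ℝ, n = (l : ℝ) + 1 := ⟨_, rfl⟩
  have hn2 : 2 ≤ n := by linarith only [hl1, hn]
  have hn0 : 0 < n := by linarith only [hn]
  have hw := wm_pos l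
  have hnn : n ≤ n ^ 2 := by nlinarith only [hn]
  have hlog : 0 ≤ Real.log n := Real.log_nonneg (by linarith only [hn])
  rw [← hn]
  refine (pot_le_layer l α y (T := n ^ 2) (by positivity)).trans ?_
  have hsplit : ∫⁻ t in Ioc (0 : ℝ) (n ^ 2), ENNReal.ofReal (1 / t ^ 2) *
        ENNReal.ofReal (∫ x in ball y t, wd l α x) =
      (∫⁻ t in Ioc (0 : ℝ) n, ENNReal.ofReal (1 / t ^ 2) *
        ENNReal.ofReal (∫ x in ball y t, wd l α x)) +
      ∫⁻ t in Ioc n (n ^ 2), ENNReal.ofReal (1 / t ^ 2) *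
        ENNReal.ofReal (∫ x in ball y t, wd l α x) := by
    rw [← lintegral_union measurableSet_Ioc (Ioc_disjoint_Ioc_of_le le_rfl),
      Ioc_union_Ioc_eq_Ioc hn0.le hnn]
  have hI1 : (∫⁻ t in Ioc (0 : ℝ) n, ENNReal.ofReal (1 / t ^ 2) *
        ENNReal.ofReal (∫ x in ball y t, wd l α x)) ≤ ENNReal.ofReal (wm l * (1 / n ^ 2)) := by
    calc (∫⁻ t in Ioc (0 : ℝ) n, ENNReal.ofReal (1 / t ^ 2) *
        ENNReal.ofReal (∫ x in ball y t, wd l α x))
        ≤ ∫⁻ _ in Ioc (0 : ℝ) n, ENNReal.ofReal (wm l * (1 / n ^ 3)) := by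
          refine setLIntegral_mono measurable_const fun t ht => ?_
          have ht0 : 0 < t := ht.1
          rw [← ENNReal.ofReal_mul (by positivity)]
          apply ENNReal.ofReal_le_ofReal
          have h1 := ball_mass_le_vol l hl α y ht0
          rw [← hn] at h1
          calc 1 / t ^ 2 * ∫ x in ball y t, wd l α x
              ≤ 1 / t ^ 2 * (wm l / (2 * Real.pi ^ 2 * l * n ^ 4) * (4 * Real.pi / 3 * t ^ 3)) := by
                gcongr
            _ = wm l * (2 / (3 * Real.pi * l)) * (t / n ^ 4) := by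
                have := Real.pi_pos
                field_simp
                ring
            _ ≤ wm l * 1 * (n / n ^ 4) := by
                have h3 : 2 / (3 * Real.pi * l) ≤ 1 := by
                  rw [div_le_one (by positivity)]
                  nlinarith only [hl1, Real.pi_gt_three]
                have h4 : t ≤ n := ht.2
                (clear * - h3 hw h4 hn2 ht0; gcongr)
            _ = wm l * (1 / n ^ 3) := by field_simp
      _ = _ := by
          rw [setLIntegral_const, Real.volume_Ioc, sub_zero, ← ENNReal.ofReal_mul (by positivity)]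
          congr 1
          field_simp
  have hI2 : (∫⁻ t in Ioc n (n ^ 2), ENNReal.ofReal (1 / t ^ 2) *
        ENNReal.ofReal (∫ x in ball y t, wd l α x)) ≤
      ENNReal.ofReal (wm l * (3 * Real.log n / n ^ 2 + 15 / n ^ 2)) := by
    have hpos : ∀ t ∈ uIcc n (n ^ 2), t ≠ 0 := by
      intro t ht
      rw [uIcc_of_le hnn] at ht
      exact (hn0.trans_le ht.1).ne'
    have hii : IntervalIntegrable (fun t : ℝ => wm l * (3 / n ^ 2 * (1 / t) + 15 / n * (1 / t ^ 2)))
        volume n (n ^ 2) := by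
      refine ContinuousOn.intervalIntegrable ?_
      refine continuousOn_const.mul ((continuousOn_const.mul ?_).add (continuousOn_const.mul ?_))
      · exact continuousOn_const.div continuousOn_id fun t ht => hpos t ht
      · exact continuousOn_const.div (continuousOn_pow 2) fun t ht => pow_ne_zero 2 (hpos t ht)
    have hint : ∫ t in n..n ^ 2, wm l * (3 / n ^ 2 * (1 / t) + 15 / n * (1 / t ^ 2)) =
        wm l * (3 / n ^ 2 * Real.log n + 15 / n * (1 / n - 1 / n ^ 2)) := by
      have hd : ∀ t ∈ uIcc n (n ^ 2), HasDerivAt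
          (fun t : ℝ => wm l * (3 / n ^ 2 * Real.log t + 15 / n * (-1 / t)))
          (wm l * (3 / n ^ 2 * (1 / t) + 15 / n * (1 / t ^ 2))) t := by
        intro t ht
        have h0 := hpos t ht
        have d1 : HasDerivAt Real.log (1 / t) t := by
          simpa using Real.hasDerivAt_log h0
        have d2 : HasDerivAt (fun t : ℝ => -1 / t) (1 / t ^ 2) t := by
          have := ((hasDerivAt_id t).inv h0).neg
          refine (this.congr_deriv ?_).congr_of_eventuallyEq (.of_forall fun s => ?_)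
          · simp [neg_div]
          · simp only [neg_div, one_div, Pi.neg_apply, Pi.inv_apply, id_eq]
        exact ((d1.const_mul _).add (d2.const_mul _)).const_mul _
      rw [intervalIntegral.integral_eq_sub_of_hasDerivAt hd hii, Real.log_pow]
      push_cast
      ring
    calc (∫⁻ t in Ioc n (n ^ 2), ENNReal.ofReal (1 / t ^ 2) *
        ENNReal.ofReal (∫ x in ball y t, wd l α x))
        ≤ ∫⁻ t in Ioc n (n ^ 2),
          ENNReal.ofReal (wm l * (3 / n ^ 2 * (1 / t) + 15 / n * (1 / t ^ 2))) := by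
          refine setLIntegral_mono (by fun_prop) fun t ht => ?_
          have ht0 : 0 < t := hn0.trans ht.1
          rw [← ENNReal.ofReal_mul (by (clear * - ht0; positivity))]
          apply ENNReal.ofReal_le_ofReal
          have h1 := ball_mass_le l hl α y ht0
          rw [← hn] at h1
          calc 1 / t ^ 2 * ∫ x in ball y t, wd l α x
              ≤ 1 / t ^ 2 * (wm l * (3 * t / n ^ 2 + 15 / n)) := by (clear * - h1 ht0; gcongr)
            _ = _ := by (clear * - ht0 hn2 hw; field_simp)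
      _ = ENNReal.ofReal (∫ t in n..n ^ 2,
            wm l * (3 / n ^ 2 * (1 / t) + 15 / n * (1 / t ^ 2))) := by
          rw [intervalIntegral.integral_of_le hnn, ofReal_integral_eq_lintegral_ofReal]
          · exact (intervalIntegrable_iff_integrableOn_Ioc_of_le hnn).1 hii
          · filter_upwards [ae_restrict_mem measurableSet_Ioc] with t ht
            have ht0 : 0 < t := hn0.trans ht.1
            positivity
      _ ≤ _ := by
          rw [hint]
          apply ENNReal.ofReal_le_ofReal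
          refine mul_le_mul_of_nonneg_left ?_ hw.le
          have h3 : 15 / n * (1 / n - 1 / n ^ 2) ≤ 15 / n ^ 2 := by
            have : 15 / n * (1 / n - 1 / n ^ 2) = 15 / n ^ 2 - 15 / n ^ 3 := by
              (clear * - hn2; field_simp)
            have h4 : 0 ≤ 15 / n ^ 3 := by positivity
            linarith only [this, h4]
          have h5 : 3 / n ^ 2 * Real.log n = 3 * Real.log n / n ^ 2 := by ring
          linarith only [h3, h5]
  rw [hsplit]
  calc ENNReal.ofReal (wm l * (1 / n ^ 2)) + (_ + _)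
      ≤ ENNReal.ofReal (wm l * (1 / n ^ 2)) + (ENNReal.ofReal (wm l * (1 / n ^ 2)) +
        ENNReal.ofReal (wm l * (3 * Real.log n / n ^ 2 + 15 / n ^ 2))) := by (clear * - hI1 hI2; gcongr)
    _ = _ := by
        rw [← ENNReal.ofReal_add (by (clear * - hw hn2; positivity)) (by positivity),
          ← ENNReal.ofReal_add (by positivity) (by positivity)]
        congr 1
        ring

end Vale.Agent.P370.GC
end
end

section

section

/-!
Moments of linear forms on the sphere, evaluation formula, triple products.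
-/

namespace Vale.Agent.P370.Q

open MeasureTheory Finset ComplexConjugate

lemma sph2_cdot_cont (v : C3) : Continuous (fun u : R3 => cdot v u) := by
  unfold cdot
  fun_prop

lemma sph2_sum {ι : Type} (s : Finset ι) (f : ι → R3 → ℂ) (hf : ∀ i ∈ s, Continuous (f i)) :
    sph (fun u => ∑ i ∈ s, f i u) = ∑ i ∈ s, sph (f i) := by
  classical
  induction s using Finset.induction_on with
  | empty => simp only [Finset.sum_empty]; exact sph_const 0
  | insert a s ha ih =>
    simp only [Finset.sum_insert ha]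
    rw [sph_add, ih (fun i hi => hf i (Finset.mem_insert_of_mem hi))]
    · exact (hf a (Finset.mem_insert_self a s)).continuousOn
    · exact (continuous_finsetSum s
        (fun i hi => hf i (Finset.mem_insert_of_mem hi))).continuousOn

lemma sph2_const_mul (c : ℂ) (f : R3 → ℂ) : sph (fun u => c * f u) = c * sph f := by
  unfold sph
  simp_rw [← mul_smul_comm, intervalIntegral.integral_const_mul, ← mul_smul_comm]

lemma sph2_unit (w : R3) : ∃ e : R3, ‖e‖ = 1 ∧ w = ‖w‖ • e := by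
  by_cases h : w = 0
  · refine ⟨EuclideanSpace.single 0 1, by simp, ?_⟩
    rw [h]; simp only [norm_zero, Fin.isValue, zero_smul]
  · refine ⟨‖w‖⁻¹ • w, ?_, ?_⟩
    · rw [norm_smul, norm_inv, norm_norm, inv_mul_cancel₀ (norm_ne_zero_iff.mpr h)]
    · rw [smul_smul, mul_inv_cancel₀ (norm_ne_zero_iff.mpr h), one_smul]

lemma sph2_pow_real (w : R3) (m : ℕ) :
    sph (fun u => cdot (fun k => (w k : ℂ)) u ^ m) =
      if Even m then cc (fun k => (w k : ℂ)) (fun k => (w k : ℂ)) ^ (m / 2) / (m + 1) else 0 := by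
  obtain ⟨e, he, hw⟩ := sph2_unit w
  have h1 : ∀ u : R3, cdot (fun k => (w k : ℂ)) u = (((‖w‖ * inner ℝ e u : ℝ)) : ℂ) := by
    intro u
    have h2 : ‖w‖ * inner ℝ e u = inner ℝ w u := by
      conv_rhs => rw [hw]
      rw [real_inner_smul_left]
    rw [h2, PiLp.inner_apply]
    unfold cdot
    push_cast
    refine Finset.sum_congr rfl fun k _ => ?_
    simp only [RCLike.inner_apply, conj_trivial]
    push_cast
    ring
  have h3 : cc (fun k => (w k : ℂ)) (fun k => (w k : ℂ)) = ((‖w‖ ^ 2 : ℝ) : ℂ) := by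
    rw [EuclideanSpace.norm_sq_eq]
    unfold cc
    push_cast
    refine Finset.sum_congr rfl fun k _ => ?_
    rw [Real.norm_eq_abs]
    have : (((|w k| : ℝ) ^ 2 : ℝ) : ℂ) = ((w k ^ 2 : ℝ) : ℂ) := by rw [sq_abs]
    push_cast at this
    rw [this]; ring
  have h4 : sph (fun u => cdot (fun k => (w k : ℂ)) u ^ m) =
      (1 / 2 : ℝ) • ∫ t in (-1 : ℝ)..1, (((‖w‖ * t : ℝ)) : ℂ) ^ m := by
    simp_rw [h1]
    exact sph_zonal e he (fun t => (((‖w‖ * t : ℝ)) : ℂ) ^ m) (by (clear * -; fun_prop))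
  have h5 : ∫ t in (-1 : ℝ)..1, (((‖w‖ * t : ℝ)) : ℂ) ^ m =
      (((‖w‖ ^ m * ((1 - (-1) ^ (m + 1)) / (m + 1))) : ℝ) : ℂ) := by
    have h6 : ∀ t : ℝ, (((‖w‖ * t : ℝ)) : ℂ) ^ m = ((‖w‖ ^ m * t ^ m : ℝ) : ℂ) := by
      intro t; push_cast; ring
    simp_rw [h6]
    rw [intervalIntegral.integral_ofReal, intervalIntegral.integral_const_mul, integral_pow,
      one_pow]
  rw [h4, h5, h3]
  by_cases hm : Even m
  · rw [if_pos hm]
    have h7 : (-1 : ℝ) ^ (m + 1) = -1 := (hm.add_one).neg_one_pow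
    rw [h7]
    obtain ⟨j, hj⟩ := hm
    have h8 : m / 2 = j := by (clear * - hj; omega)
    rw [h8, Complex.real_smul]
    subst hj
    push_cast
    rw [← pow_mul, two_mul]
    ring
  · rw [if_neg hm]
    have h7 : (-1 : ℝ) ^ (m + 1) = 1 := by
      have : Even (m + 1) := by
        rw [Nat.not_even_iff_odd] at hm
        exact hm.add_one
      exact this.neg_one_pow
    rw [h7, Complex.real_smul]
    simp

lemma sph2_expand (v : C3) (m : ℕ) :
    sph (fun u => cdot v u ^ m) = ∑ k ∈ piAntidiag univ m,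
      (Nat.multinomial univ k : ℂ) * sph (fun u => ∏ i, (u i : ℂ) ^ k i) * ∏ i, v i ^ k i := by
  have h1 : ∀ u : R3, cdot v u ^ m = ∑ k ∈ piAntidiag univ m,
      ((Nat.multinomial univ k : ℂ) * ∏ i, v i ^ k i) * ∏ i, (u i : ℂ) ^ k i := by
    intro u
    unfold cdot
    rw [sum_pow_eq_sum_piAntidiag]
    refine Finset.sum_congr rfl fun k _ => ?_
    simp_rw [mul_pow]
    rw [Finset.prod_mul_distrib]
    ring
  simp_rw [h1]
  rw [sph2_sum]
  · refine Finset.sum_congr rfl fun k _ => ?_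
    rw [sph2_const_mul]
    ring
  · intro k _
    fun_prop

/-- moments of linear forms -/
theorem sph_pow (v : C3) (m : ℕ) :
    sph (fun u => cdot v u ^ m) = if Even m then cc v v ^ (m / 2) / (m + 1) else 0 := by
  set p : MvPolynomial (Fin 3) ℂ := ∑ k ∈ piAntidiag univ m,
    MvPolynomial.C ((Nat.multinomial univ k : ℂ) * sph (fun u => ∏ i, (u i : ℂ) ^ k i)) *
      ∏ i, MvPolynomial.X i ^ k i with hp
  set q : MvPolynomial (Fin 3) ℂ := if Even m then
    MvPolynomial.C (1 / ((m : ℂ) + 1)) * (∑ i, MvPolynomial.X i * MvPolynomial.X i) ^ (m / 2)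
      else 0 with hq
  have hpe : ∀ v : C3, MvPolynomial.eval v p = sph (fun u => cdot v u ^ m) := by
    intro v
    rw [sph2_expand, hp, map_sum]
    refine Finset.sum_congr rfl fun k _ => ?_
    rw [map_mul, MvPolynomial.eval_C, map_prod]
    simp only [map_pow, MvPolynomial.eval_X]
  have hqe : ∀ v : C3, MvPolynomial.eval v q =
      if Even m then cc v v ^ (m / 2) / (m + 1) else 0 := by
    intro v
    rw [hq]
    by_cases hm : Even m
    · rw [if_pos hm, if_pos hm, map_mul, MvPolynomial.eval_C, map_pow, map_sum]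
      simp only [map_mul, MvPolynomial.eval_X]
      unfold cc
      ring
    · rw [if_neg hm, if_neg hm, map_zero]
  have hpq : p = q := by
    apply MvPolynomial.funext_set (fun _ => Set.range (fun t : ℝ => (t : ℂ)))
    · intro _
      exact Set.infinite_range_of_injective Complex.ofReal_injective
    · intro x hx
      have hx' : ∀ i, ∃ t : ℝ, (t : ℂ) = x i := fun i => hx i (Set.mem_univ i)
      choose w hw using hx'
      have h2 : x = fun k => ((WithLp.toLp 2 w : R3) k : ℂ) := by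
        funext k; exact (hw k).symm
      rw [hpe, hqe, h2]
      exact sph2_pow_real (WithLp.toLp 2 w) m
  rw [← hpe, hpq, hqe]

/-- a linear functional on homogeneous polynomials vanishes if it vanishes on powers of real
linear forms -/
theorem lin_ext {E : Type} [AddCommGroup E] [Module ℝ E] (m : ℕ) (L : Poly3 →ₗ[ℝ] E)
    (h : ∀ v : Fin 3 → ℝ, L ((∑ k, MvPolynomial.C (v k) * MvPolynomial.X k) ^ m) = 0)
    (P : Poly3) (hP : P.IsHomogeneous m) : L P = 0 := by
  rw [← Module.forall_dual_apply_eq_zero_iff ℝ]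
  intro φ
  have key : ∀ k ∈ piAntidiag (univ : Finset (Fin 3)) m,
      φ (L (∏ i, MvPolynomial.X i ^ k i)) = 0 := by
    set Q : Poly3 := ∑ k ∈ piAntidiag univ m,
      MvPolynomial.C ((Nat.multinomial univ k : ℝ) * φ (L (∏ i, MvPolynomial.X i ^ k i))) *
        ∏ i, MvPolynomial.X i ^ k i with hQ
    have hQe : ∀ v : Fin 3 → ℝ, MvPolynomial.eval v Q = 0 := by
      intro v
      have h1 : (∑ k, MvPolynomial.C (v k) * MvPolynomial.X k : Poly3) ^ m =
          ∑ k ∈ piAntidiag univ m, ((Nat.multinomial univ k : ℝ) * ∏ i, v i ^ k i) •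
            (∏ i, MvPolynomial.X i ^ k i : Poly3) := by
        rw [sum_pow_eq_sum_piAntidiag]
        refine Finset.sum_congr rfl fun k _ => ?_
        simp_rw [mul_pow]
        rw [Finset.prod_mul_distrib, MvPolynomial.smul_eq_C_mul, map_mul, map_prod]
        simp only [map_pow, map_natCast]
        ring
      have h2 := h v
      rw [h1, map_sum] at h2
      have h3 := congrArg φ h2
      rw [map_sum, map_zero] at h3
      rw [hQ, map_sum, ← h3]
      refine Finset.sum_congr rfl fun k _ => ?_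
      have h8 : MvPolynomial.eval v (∏ i, MvPolynomial.X i ^ k i) = ∏ i, v i ^ k i := by
        rw [map_prod]
        simp only [map_pow, MvPolynomial.eval_X]
      rw [map_mul, MvPolynomial.eval_C, h8, map_smul, map_smul, smul_eq_mul]
      ring
    have hQ0 : Q = 0 := MvPolynomial.funext (fun v => by rw [hQe, map_zero])
    intro k hk
    have h4 := congrArg (MvPolynomial.coeff (Finsupp.equivFunOnFinite.symm k)) hQ0
    rw [hQ, MvPolynomial.coeff_sum, MvPolynomial.coeff_zero] at h4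
    have h5 : ∀ j : Fin 3 → ℕ, (∏ i, MvPolynomial.X i ^ j i : Poly3) =
        MvPolynomial.monomial (Finsupp.equivFunOnFinite.symm j) 1 := by
      intro j
      rw [MvPolynomial.monomial_eq, map_one, one_mul, Finsupp.prod_fintype]
      · rfl
      · intro i; exact pow_zero _
    rw [Finset.sum_eq_single k] at h4
    · rw [h5 k, MvPolynomial.coeff_C_mul, MvPolynomial.coeff_monomial, if_pos rfl, mul_one] at h4
      have h6 : (Nat.multinomial univ k : ℝ) ≠ 0 := by
        exact_mod_cast (Nat.multinomial_pos univ k).ne'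
      rw [h5 k]
      exact (mul_eq_zero.mp h4).resolve_left h6
    · intro j _ hjk
      rw [h5 j, MvPolynomial.coeff_C_mul, MvPolynomial.coeff_monomial, if_neg, mul_zero]
      intro h7
      exact hjk (Finsupp.equivFunOnFinite.symm.injective h7)
    · intro h7; exact absurd hk h7
  rw [P.as_sum, map_sum, map_sum]
  refine Finset.sum_eq_zero fun d hd => ?_
  have hdeg : ∑ i, d i = m := by
    have h1 := hP (MvPolynomial.mem_support_iff.mp hd)
    rw [Finsupp.weight_apply, Finsupp.sum_fintype] at h1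
    · simpa only [Pi.one_apply, smul_eq_mul, mul_one] using h1
    · intro i; simp
  have h2 : MvPolynomial.monomial d (MvPolynomial.coeff d P) =
      (MvPolynomial.coeff d P) • (∏ i, MvPolynomial.X i ^ d i : Poly3) := by
    rw [MvPolynomial.monomial_eq, MvPolynomial.smul_eq_C_mul, Finsupp.prod_fintype]
    intro i; exact pow_zero _
  rw [h2, map_smul, map_smul, key (fun i => d i), smul_zero]
  rw [mem_piAntidiag]
  exact ⟨hdeg, fun i _ => mem_univ i⟩

lemma sph2_pe_cont (P : Poly3) : Continuous (fun u : R3 => pe P u) := by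
  unfold pe
  have h1 : Continuous (fun u : R3 => (fun i => u i : Fin 3 → ℝ)) := by fun_prop
  exact (MvPolynomial.continuous_eval P).comp h1

lemma sph2_cross (c : C3) (hc : cc c c = 0) (v : C3) (m : ℕ) :
    sph (fun u => cdot c u ^ m * cdot v u ^ m) = (Am m : ℂ) * cc v c ^ m := by
  set p : Polynomial ℂ := ∑ j ∈ range (2 * m + 1),
    Polynomial.C (((2 * m).choose j : ℂ) * sph (fun u => cdot v u ^ j * cdot c u ^ (2 * m - j))) *
      Polynomial.X ^ j with hp
  set q : Polynomial ℂ := (Polynomial.C (2 * cc v c) + Polynomial.C (cc v v) * Polynomial.X) ^ m *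
    Polynomial.C (1 / (2 * (m : ℂ) + 1)) * Polynomial.X ^ m with hq
  have hpq : p = q := by
    apply Polynomial.funext
    intro t
    have h1 : sph (fun u => cdot (t • v + c) u ^ (2 * m)) = Polynomial.eval t p := by
      have h2 : ∀ u : R3, cdot (t • v + c) u ^ (2 * m) = ∑ j ∈ range (2 * m + 1),
          (((2 * m).choose j : ℂ) * t ^ j) * (cdot v u ^ j * cdot c u ^ (2 * m - j)) := by
        intro u
        have h3 : cdot (t • v + c) u = t * cdot v u + cdot c u := by
          unfold cdot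
          rw [Finset.mul_sum, ← Finset.sum_add_distrib]
          refine Finset.sum_congr rfl fun k _ => ?_
          simp only [Pi.add_apply, Pi.smul_apply, smul_eq_mul]
          ring
        rw [h3, add_pow]
        refine Finset.sum_congr rfl fun j _ => ?_
        rw [mul_pow]; ring
      simp_rw [h2]
      rw [sph2_sum]
      · rw [hp, Polynomial.eval_finsetSum]
        refine Finset.sum_congr rfl fun j _ => ?_
        rw [sph2_const_mul]
        simp only [Polynomial.eval_mul, Polynomial.eval_C, Polynomial.eval_pow, Polynomial.eval_X]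
        ring
      · intro j _
        exact continuous_const.mul (((sph2_cdot_cont v).pow j).mul ((sph2_cdot_cont c).pow _))
    have h4 : cc (t • v + c) (t • v + c) = t * (2 * cc v c + cc v v * t) := by
      have h5 : cc (t • v + c) (t • v + c) = t ^ 2 * cc v v + 2 * t * cc v c + cc c c := by
        unfold cc
        rw [Finset.mul_sum, Finset.mul_sum, ← Finset.sum_add_distrib, ← Finset.sum_add_distrib]
        refine Finset.sum_congr rfl fun k _ => ?_
        simp only [Pi.add_apply, Pi.smul_apply, smul_eq_mul]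
        ring
      rw [h5, hc]; ring
    rw [← h1, sph_pow, if_pos (even_two_mul m), h4, Nat.mul_div_cancel_left m (by norm_num), hq,
      mul_pow]
    simp only [Polynomial.eval_mul, Polynomial.eval_C, Polynomial.eval_pow, Polynomial.eval_X,
      Polynomial.eval_add]
    push_cast
    ring
  have h6 : Polynomial.coeff p m = Polynomial.coeff q m := by rw [hpq]
  have h7 : Polynomial.coeff p m = ((2 * m).choose m : ℂ) *
      sph (fun u => cdot v u ^ m * cdot c u ^ m) := by
    rw [hp, Polynomial.finsetSum_coeff, Finset.sum_eq_single m]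
    · rw [Polynomial.coeff_C_mul, Polynomial.coeff_X_pow, if_pos rfl, mul_one]
      congr 3; funext u; congr 2; omega
    · intro j _ hj
      rw [Polynomial.coeff_C_mul, Polynomial.coeff_X_pow, if_neg (Ne.symm hj), mul_zero]
    · intro h8
      exfalso; apply h8; rw [mem_range]; omega
  have h8 : Polynomial.coeff q m = (2 * cc v c) ^ m * (1 / (2 * (m : ℂ) + 1)) := by
    rw [hq]
    have h9 := Polynomial.coeff_mul_X_pow
      ((Polynomial.C (2 * cc v c) + Polynomial.C (cc v v) * Polynomial.X) ^ m *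
        Polynomial.C (1 / (2 * (m : ℂ) + 1))) m 0
    rw [zero_add] at h9
    rw [h9, Polynomial.coeff_zero_eq_eval_zero]
    simp only [map_mul, one_div, Polynomial.eval_mul, Polynomial.eval_pow, Polynomial.eval_add, Polynomial.eval_C, Polynomial.eval_X, mul_zero, add_zero]
  rw [h7, h8] at h6
  have h10 : sph (fun u => cdot c u ^ m * cdot v u ^ m) =
      sph (fun u => cdot v u ^ m * cdot c u ^ m) := by
    congr 1; funext u; ring
  rw [h10]
  have h11 : ((2 * m).choose m : ℂ) ≠ 0 := by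
    exact_mod_cast (Nat.choose_pos (by omega)).ne'
  have h12 : ((2 * m).choose m : ℂ) * ((m.factorial : ℂ) * (m.factorial : ℂ)) =
      ((2 * m).factorial : ℂ) := by
    have h13 := Nat.choose_mul_factorial_mul_factorial (show m ≤ 2 * m by omega)
    rw [show 2 * m - m = m by omega] at h13
    rw [← mul_assoc]
    exact_mod_cast h13
  have h14 : (2 * (m : ℂ) + 1) ≠ 0 := by exact_mod_cast (Nat.succ_ne_zero (2 * m))
  have h15 : ((2 * m + 1).factorial : ℂ) = (2 * (m : ℂ) + 1) * ((2 * m).factorial : ℂ) := by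
    rw [Nat.factorial_succ]; push_cast; ring
  apply mul_left_cancel₀ h11
  rw [h6]
  unfold Am
  push_cast
  rw [h15, ← h12]
  have h16 : (m.factorial : ℂ) ≠ 0 := by exact_mod_cast m.factorial_ne_zero
  field_simp
  ring

/-- evaluation formula: the null power `(c·u)^m` reproduces the value at `c` -/
theorem sph_eval (c : C3) (hc : cc c c = 0) (m : ℕ) (P : Poly3) (hP : P.IsHomogeneous m) :
    sph (fun u => cdot c u ^ m * (pe P u : ℂ)) = (Am m : ℂ) * pc P c := by
  have hpeadd : ∀ P Q : Poly3, ∀ u, pe (P + Q) u = pe P u + pe Q u := fun P Q u => by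
    unfold pe; rw [map_add]
  have hpesmul : ∀ (r : ℝ) (P : Poly3), ∀ u, pe (r • P) u = r * pe P u := fun r P u => by
    unfold pe; rw [MvPolynomial.smul_eval]
  have hcont : ∀ P : Poly3, Continuous (fun u : R3 => cdot c u ^ m * (pe P u : ℂ)) := fun P =>
    ((sph2_cdot_cont c).pow m).mul (Complex.continuous_ofReal.comp (sph2_pe_cont P))
  let L : Poly3 →ₗ[ℝ] ℂ :=
    { toFun := fun P => sph (fun u => cdot c u ^ m * (pe P u : ℂ)) - (Am m : ℂ) * pc P c
      map_add' := by
        intro P Q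
        have h1 : sph (fun u => cdot c u ^ m * (pe (P + Q) u : ℂ)) =
            sph (fun u => cdot c u ^ m * (pe P u : ℂ)) +
              sph (fun u => cdot c u ^ m * (pe Q u : ℂ)) := by
          rw [← sph_add (hcont P).continuousOn (hcont Q).continuousOn]
          congr 1; funext u
          rw [hpeadd]; push_cast; ring
        have h2 : pc (P + Q) c = pc P c + pc Q c := by
          unfold pc; exact MvPolynomial.eval₂_add _ _
        rw [h1, h2]; ring
      map_smul' := by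
        intro r P
        have h1 : sph (fun u => cdot c u ^ m * (pe (r • P) u : ℂ)) =
            (r : ℂ) * sph (fun u => cdot c u ^ m * (pe P u : ℂ)) := by
          rw [← sph2_const_mul]
          congr 1; funext u
          rw [hpesmul]; push_cast; ring
        have h2 : pc (r • P) c = (r : ℂ) * pc P c := by
          unfold pc
          rw [MvPolynomial.smul_eq_C_mul, MvPolynomial.eval₂_mul, MvPolynomial.eval₂_C]
          rfl
        rw [h1, h2, RingHom.id_apply, Complex.real_smul]; ring }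
  have hL : L P = 0 := by
    apply lin_ext m L _ P hP
    intro v
    show sph (fun u => cdot c u ^ m *
      (pe ((∑ k, MvPolynomial.C (v k) * MvPolynomial.X k) ^ m) u : ℂ)) -
        (Am m : ℂ) * pc ((∑ k, MvPolynomial.C (v k) * MvPolynomial.X k) ^ m) c = 0
    have h1 : ∀ u : R3, (pe ((∑ k, MvPolynomial.C (v k) * MvPolynomial.X k) ^ m) u : ℂ) =
        cdot (fun k => (v k : ℂ)) u ^ m := by
      intro u
      unfold pe cdot
      rw [map_pow, map_sum]
      simp only [map_mul, MvPolynomial.eval_C, MvPolynomial.eval_X]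
      push_cast
      rfl
    have h2 : pc ((∑ k, MvPolynomial.C (v k) * MvPolynomial.X k) ^ m) c =
        cc (fun k => (v k : ℂ)) c ^ m := by
      unfold pc cc
      rw [MvPolynomial.eval₂_pow, MvPolynomial.eval₂_sum]
      simp only [MvPolynomial.eval₂_mul, MvPolynomial.eval₂_C, MvPolynomial.eval₂_X]
      rfl
    simp_rw [h1]
    rw [h2, sph2_cross c hc, sub_self]
  exact sub_eq_zero.mp hL

/-- triple product of null powers -/
theorem sph_triple (a b c : C3) (ha : cc a a = 0) (hb : cc b b = 0) (hc : cc c c = 0)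
    (l q : ℕ) (hq : q ≤ l) :
    sph (fun u => cdot a u ^ l * cdot b u ^ l * cdot c u ^ (2 * q)) =
      (2 ^ (l + q) * ((l + q).factorial : ℂ) * (l.factorial : ℂ) ^ 2 * ((2 * q).factorial : ℂ) /
        (((2 * l + 2 * q + 1).factorial : ℂ) * ((l - q).factorial : ℂ) * (q.factorial : ℂ) ^ 2)) *
        (cc a b ^ (l - q) * cc a c ^ q * cc b c ^ q) := by
  have hpt : ∀ u : R3, cdot a u ^ l * cdot b u ^ l * cdot c u ^ (2 * q) =
      GC.mon a b c l l (2 * q) u := by
    intro u
    unfold GC.mon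
    rw [cdot_eq_lf, cdot_eq_lf, cdot_eq_lf]
  have hint : Integrable (fun x : R3 => GC.mon a b c l l (2 * q) x *
      ((Real.exp (-‖x‖ ^ 2) : ℝ) : ℂ)) := GC.integrable_mon_gauss a b c l l (2 * q)
  have h1 := polar_sph _ hint
  have h2 := GC.integral_mon_radial a b c ha hb hc (l - q) q q
    (fun r => ((Real.exp (-r ^ 2) : ℝ) : ℂ))
  have e1 : l - q + q = l := by omega
  have e2 : q + q = 2 * q := by omega
  rw [e1, e2] at h2
  have h3 : ∫ r in Set.Ioi (0 : ℝ), (4 * Real.pi * r ^ 2) • sph (fun u : R3 =>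
      GC.mon a b c l l (2 * q) (r • u) * ((Real.exp (-‖r • u‖ ^ 2) : ℝ) : ℂ)) =
      (4 * (Real.pi : ℂ)) * sph (fun u => cdot a u ^ l * cdot b u ^ l * cdot c u ^ (2 * q)) *
        ∫ r in Set.Ioi (0 : ℝ), (r : ℂ) ^ (2 * (l + q) + 2) * ((Real.exp (-r ^ 2) : ℝ) : ℂ) := by
    rw [← integral_const_mul]
    refine setIntegral_congr_fun measurableSet_Ioi fun r hr => ?_
    have hr0 : (0 : ℝ) < r := hr
    have h4 : sph (fun u : R3 =>
        GC.mon a b c l l (2 * q) (r • u) * ((Real.exp (-‖r • u‖ ^ 2) : ℝ) : ℂ)) =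
        ((r : ℂ) ^ (2 * (l + q)) * ((Real.exp (-r ^ 2) : ℝ) : ℂ)) *
          sph (fun u => cdot a u ^ l * cdot b u ^ l * cdot c u ^ (2 * q)) := by
      rw [← sph2_const_mul]
      apply sph_congr
      intro u hu
      rw [GC.mon_smul, hpt, norm_smul, hu, mul_one, Real.norm_eq_abs, abs_of_pos hr0,
        show l + l + 2 * q = 2 * (l + q) by ring]
      ring
    rw [h4, Complex.real_smul]
    push_cast
    ring
  rw [h3, h2] at h1
  have hne : ∫ r in Set.Ioi (0 : ℝ), (r : ℂ) ^ (2 * (l + q) + 2) *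
      ((Real.exp (-r ^ 2) : ℝ) : ℂ) ≠ 0 := by
    have h5 : ∫ r in Set.Ioi (0 : ℝ), (r : ℂ) ^ (2 * (l + q) + 2) *
        ((Real.exp (-r ^ 2) : ℝ) : ℂ) =
        ((∫ r in Set.Ioi (0 : ℝ), r ^ (2 * (l + q) + 2) * Real.exp (-r ^ 2) : ℝ) : ℂ) := by
      rw [← integral_complex_ofReal]
      refine setIntegral_congr_fun measurableSet_Ioi fun r _ => ?_
      push_cast
      rfl
    rw [h5, GC.integral_pow_mul_exp_neg_sq]
    have h6 : (0 : ℝ) < Real.sqrt Real.pi / 4 * (((2 * (l + q) + 1).factorial : ℕ) : ℝ) /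
        (4 ^ (l + q) * ((l + q).factorial : ℝ)) := by
      have := Real.pi_pos
      positivity
    exact_mod_cast h6.ne'
  have h7 := mul_right_cancel₀ hne h1
  have hpi : (4 * (Real.pi : ℂ)) ≠ 0 := by
    have := Real.pi_ne_zero
    exact_mod_cast mul_ne_zero (by norm_num) this
  apply mul_left_cancel₀ hpi
  rw [← h7]
  unfold GC.sph
  rw [e1, e2, show 2 * l + 2 * q + 1 = 2 * (l + q) + 1 by ring, cc_eq, cc_eq, cc_eq]
  push_cast
  have f1 : ((2 * (l + q) + 1).factorial : ℂ) ≠ 0 := by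
    exact_mod_cast (2 * (l + q) + 1).factorial_ne_zero
  have f2 : ((l - q).factorial : ℂ) ≠ 0 := by exact_mod_cast (l - q).factorial_ne_zero
  have f3 : (q.factorial : ℂ) ≠ 0 := by exact_mod_cast q.factorial_ne_zero
  (clear * - f3 f2 f1; field_simp)

end Vale.Agent.P370.Q
end
end

section

section

/-!
Geometry of the great circle regions.
-/

namespace Vale.Agent.P370.GC

open MeasureTheory Set Metric Module
open scoped ENNReal

theorem abs_nu_le (α : ℝ) (x : V3) : |nu α x| ≤ ‖x‖ := by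
  refine abs_le_of_sq_le_sq ?_ (norm_nonneg x)
  have := norm_sq_eq_add α x
  nlinarith only [this]

theorem abs_ta_le (α : ℝ) (x : V3) : |ta α x| ≤ ‖x‖ := by
  refine abs_le_of_sq_le_sq ?_ (norm_nonneg x)
  have h1 := norm_sq_eq_add α x
  have h2 := normSq_lf_av' α x
  nlinarith only [h1, h2]

theorem nu_sub (α : ℝ) (x y : V3) : nu α (x - y) = nu α x - nu α y := by
  simp only [nu, Fin.isValue, PiLp.sub_apply, neg_mul]
  ring

theorem ta_sub (α : ℝ) (x y : V3) : ta α (x - y) = ta α x - ta α y := by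
  simp only [ta, Fin.isValue, PiLp.sub_apply]
  ring

theorem abs_nu_sub_le (α : ℝ) (x y : V3) : |nu α x - nu α y| ≤ dist x y := by
  rw [← nu_sub, dist_eq_norm]
  exact abs_nu_le _ _

theorem abs_ta_sub_le (α : ℝ) (x y : V3) : |ta α x - ta α y| ≤ dist x y := by
  rw [← ta_sub, dist_eq_norm]
  exact abs_ta_le _ _

theorem nu_change (α β : ℝ) (z : V3) :
    nu β z = Real.cos (α - β) * nu α z + Real.sin (α - β) * ta α z := by
  have h1 : Real.sin (α - β - α) = Real.sin (α - β) * Real.cos α - Real.cos (α - β) * Real.sin α :=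
    Real.sin_sub _ _
  have h2 : Real.cos (α - β - α) = Real.cos (α - β) * Real.cos α + Real.sin (α - β) * Real.sin α :=
    Real.cos_sub _ _
  rw [show α - β - α = -β by ring] at h1 h2
  rw [Real.sin_neg] at h1
  rw [Real.cos_neg] at h2
  simp only [nu, ta]
  linear_combination (z 0) * h1 + (z 1) * h2

/-- region of ball centres -/
def rgR (α T t0 : ℝ) : Set V3 := {z | |nu α z| ≤ 3 * t0 ∧ T / 8 ≤ |ta α z| ∧ ‖z‖ ≤ 9 * T}

/-- core of the density -/
def rgA (α T t0 : ℝ) : Set V3 := {z | |nu α z| ≤ t0 ∧ T / 4 ≤ |ta α z| ∧ ‖z‖ ≤ 8 * T}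

theorem measurableSet_rgR (α T t0 : ℝ) : MeasurableSet (rgR α T t0) := by
  refine MeasurableSet.inter (measurableSet_le (continuous_nu α).measurable.abs measurable_const)
    (MeasurableSet.inter (measurableSet_le measurable_const (continuous_ta α).measurable.abs)
      (measurableSet_le measurable_norm measurable_const))

theorem measurableSet_rgA (α T t0 : ℝ) : MeasurableSet (rgA α T t0) := by
  refine MeasurableSet.inter (measurableSet_le (continuous_nu α).measurable.abs measurable_const)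
    (MeasurableSet.inter (measurableSet_le measurable_const (continuous_ta α).measurable.abs)
      (measurableSet_le measurable_norm measurable_const))

theorem rgA_rgR (α : ℝ) {T t0 : ℝ} (hT : 2 * t0 ≤ T / 8) (hT0 : 0 ≤ T) {x z : V3}
    (hx : x ∈ rgA α T t0) (hz : dist z x < 2 * t0) : z ∈ rgR α T t0 := by
  obtain ⟨h1, h2, h3⟩ := hx
  have a1 := abs_nu_sub_le α z x
  have a2 := abs_ta_sub_le α z x
  rw [abs_sub_comm] at a2
  have b1 := abs_sub_abs_le_abs_sub (nu α z) (nu α x)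
  have b2 := abs_sub_abs_le_abs_sub (ta α x) (ta α z)
  have b3 : ‖z‖ ≤ ‖x‖ + dist z x := by
    rw [dist_eq_norm]
    calc ‖z‖ = ‖x + (z - x)‖ := by rw [add_sub_cancel]
      _ ≤ _ := norm_add_le _ _
  exact ⟨by linarith only [hz, h1, a1, b1], by linarith only [hT, hz, h2, a2, b2], by linarith⟩

theorem rgR_far (α β : ℝ) {K T t0 : ℝ} (hK : 0 < K) (ht0 : t0 = T / (64 * K)) (hT0 : 0 ≤ T)
    (hs : 2 / K ≤ |Real.sin (α - β)|) {x z : V3} (hz : z ∈ rgR α T t0)
    (hzx : dist z x < 2 * t0) : T / (8 * K) ≤ |nu β x| := by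
  obtain ⟨h1, h2, h3⟩ := hz
  have a1 := abs_nu_sub_le β z x
  have b1 := abs_sub_abs_le_abs_sub (nu β z) (nu β x)
  have h4 : |Real.sin (α - β) * ta α z| - |Real.cos (α - β) * nu α z| ≤ |nu β z| := by
    rw [nu_change α β z]
    have := abs_sub_abs_le_abs_sub (Real.sin (α - β) * ta α z) (-(Real.cos (α - β) * nu α z))
    rw [abs_neg, sub_neg_eq_add] at this
    rw [add_comm]
    exact this
  have h5 : 2 / K * (T / 8) ≤ |Real.sin (α - β) * ta α z| := by
    rw [abs_mul]
    (clear * - hs h2 hT0; gcongr)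
  have h6 : |Real.cos (α - β) * nu α z| ≤ 3 * t0 := by
    rw [abs_mul]
    calc |Real.cos (α - β)| * |nu α z| ≤ 1 * |nu α z| :=
          mul_le_mul_of_nonneg_right (Real.abs_cos_le_one _) (abs_nonneg _)
      _ ≤ _ := by linarith only [h1]
  have e1 : 2 / K * (T / 8) = 16 * t0 := by
    rw [ht0]
    field_simp
    ring
  have e2 : T / (8 * K) = 8 * t0 := by
    rw [ht0]
    field_simp
    ring
  have ht0' : 0 ≤ t0 := by rw [ht0]; (clear * - hT0 hK; positivity)
  rw [e2]
  linarith only [hzx, a1, b1, h4, h5, h6, e1, ht0']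

end Vale.Agent.P370.GC
end
end

section

section

/-!
Symmetric ring density: normalisation, sup bound, moments.
-/

namespace Vale.Agent.P370.Q

open MeasureTheory Finset ComplexConjugate

theorem fh_sq_le (n : ℕ) (hn : 1 ≤ n) (α : ℝ) (x : R3) : fh n α x ^ 2 ≤ 2 * rho0 n α x := by
  have hn0 : (0 : ℝ) < n := by exact_mod_cast hn
  have hnf : 0 < nf n := by
    unfold nf
    positivity
  have h1 : fh n α x ^ 2 = ((cdot (av α) x ^ (n - 1)).re) ^ 2 *
      Real.exp (-(2 * ‖x‖ / n)) / nf n := by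
    unfold fh fsite
    rw [div_pow, Real.sq_sqrt hnf.le, mul_pow, ← Real.exp_nat_mul]
    congr 3
    push_cast
    ring
  have h2 : 2 * rho0 n α x = (‖cdot (av α) x‖ ^ (n - 1)) ^ 2 *
      Real.exp (-(2 * ‖x‖ / n)) / nf n := by
    unfold rho0
    rw [← pow_mul, mul_comm (n - 1) 2]
    field_simp
  rw [h1, h2]
  gcongr ?_ * _ / _
  rw [← sq_abs]
  gcongr
  rw [← norm_pow]
  exact Complex.abs_re_le_norm _

theorem rho0_nonneg (n : ℕ) (hn : 1 ≤ n) (α : ℝ) (x : R3) : 0 ≤ rho0 n α x := by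
  rw [rho0_eq n hn]
  exact div_nonneg (GC.wd_nonneg _ _ _) (GC.wm_pos _).le

theorem rho0_integral (n : ℕ) (hn : 2 ≤ n) (α : ℝ) :
    Integrable (rho0 n α) ∧ ∫ x, rho0 n α x = 1 := by
  have e : rho0 n α = fun x => GC.wd (n - 1) α x / GC.wm (n - 1) := by
    funext x
    exact rho0_eq n (by omega) α x
  constructor
  · rw [e]
    exact (GC.integrable_wd _ _).div_const _
  · rw [e, integral_div, GC.integral_wd, div_self (GC.wm_pos _).ne']

end Vale.Agent.P370.Q
end
end

section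

section

/-!
Coulomb potential of the ring.
-/

namespace Vale.Agent.P370.Q

open MeasureTheory Finset ComplexConjugate

theorem continuous_rho0 (n : ℕ) (hn : 1 ≤ n) (α : ℝ) : Continuous (rho0 n α) := by
  have e : rho0 n α = fun x => GC.wd (n - 1) α x / GC.wm (n - 1) := by
    funext x
    exact rho0_eq n hn α x
  rw [e]
  exact (GC.continuous_wd _ _).div_const _

theorem rho0_pot_lintegral (n : ℕ) (hn : 2 ≤ n) (α : ℝ) (y : R3) :
    ∫⁻ x, ENNReal.ofReal (rho0 n α x / dist x y) ≤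
      ENNReal.ofReal ((17 + 3 * Real.log n) / (n : ℝ) ^ 2) := by
  obtain ⟨l, rfl⟩ : ∃ l, n = l + 1 := ⟨n - 1, by omega⟩
  have hl : 1 ≤ l := by omega
  have hw := GC.wm_pos l
  have e : ∀ x : R3, ENNReal.ofReal (rho0 (l + 1) α x / dist x y) =
      ENNReal.ofReal (1 / GC.wm l) * ENNReal.ofReal (GC.wd l α x / dist x y) := by
    intro x
    rw [← ENNReal.ofReal_mul (by positivity), rho0_eq _ (by omega), Nat.add_sub_cancel]
    congr 1
    ring
  have hm : Measurable fun x : R3 => ENNReal.ofReal (GC.wd l α x / dist x y) :=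
    ((GC.continuous_wd l α).measurable.div (by fun_prop)).ennreal_ofReal
  simp only [e]
  rw [lintegral_const_mul _ hm]
  calc ENNReal.ofReal (1 / GC.wm l) * ∫⁻ x, ENNReal.ofReal (GC.wd l α x / dist x y)
      ≤ ENNReal.ofReal (1 / GC.wm l) *
        ENNReal.ofReal (GC.wm l * ((17 + 3 * Real.log ((l : ℝ) + 1)) / ((l : ℝ) + 1) ^ 2)) := by
        gcongr
        exact GC.pot_le l hl α y
    _ = _ := by
        rw [← ENNReal.ofReal_mul (by (clear * - hw; positivity))]
        congr 1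
        push_cast
        field_simp

/-- potential of the symmetric density -/
theorem rho0_pot (n : ℕ) (hn : 2 ≤ n) (α : ℝ) (y : R3) :
    Integrable (fun x => rho0 n α x / dist x y) ∧
      ∫ x, rho0 n α x / dist x y ≤ (21 + 3 * Real.log n) / (n : ℝ) ^ 2 := by
  have h := rho0_pot_lintegral n hn α y
  have hn1 : (1 : ℝ) ≤ n := by exact_mod_cast (by omega : 1 ≤ n)
  have hlog : 0 ≤ Real.log n := Real.log_nonneg hn1
  have hnn : ∀ x : R3, 0 ≤ rho0 n α x / dist x y := fun x =>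
    div_nonneg (rho0_nonneg n (by omega) α x) dist_nonneg
  have hm : Measurable fun x : R3 => rho0 n α x / dist x y :=
    (continuous_rho0 n (by omega) α).measurable.div (by fun_prop)
  have hint : Integrable (fun x => rho0 n α x / dist x y) := by
    refine ⟨hm.aestronglyMeasurable, ?_⟩
    rw [hasFiniteIntegral_iff_ofReal (.of_forall hnn)]
    exact h.trans_lt ENNReal.ofReal_lt_top
  refine ⟨hint, ?_⟩
  have h2 : ENNReal.ofReal (∫ x, rho0 n α x / dist x y) ≤
      ENNReal.ofReal ((17 + 3 * Real.log n) / (n : ℝ) ^ 2) := by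
    rw [ofReal_integral_eq_lintegral_ofReal hint (.of_forall hnn)]
    exact h
  rw [ENNReal.ofReal_le_ofReal_iff (by (clear * - hn; positivity))] at h2
  refine h2.trans ?_
  gcongr
  norm_num

end Vale.Agent.P370.Q
end
end

section

section

/-!
L1 bound for products of two great circle functions.
-/

namespace Vale.Agent.P370.GC

open MeasureTheory Set Metric Module

theorem nu_sq_add_ge (α β : ℝ) (x : V3) :
    (1 - |Real.cos (α - β)|) * (x 0 ^ 2 + x 1 ^ 2) ≤ nu α x ^ 2 + nu β x ^ 2 := by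
  set B := (x 0 ^ 2 - x 1 ^ 2) * Real.cos (α + β) + 2 * x 0 * x 1 * Real.sin (α + β) with hB
  have h1 : nu α x ^ 2 + nu β x ^ 2 = (x 0 ^ 2 + x 1 ^ 2) - Real.cos (α - β) * B := by
    rw [hB, Real.cos_add, Real.sin_add, Real.cos_sub]
    unfold nu
    have e1 := Real.sin_sq_add_cos_sq α
    have e2 := Real.sin_sq_add_cos_sq β
    have s1 : Real.sin α ^ 2 = 1 - Real.cos α ^ 2 := by linarith only [e1]
    have s2 : Real.sin β ^ 2 = 1 - Real.cos β ^ 2 := by linarith only [e2]
    ring_nf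
    simp only [s1, s2]
    ring
  have h2 : |B| ≤ x 0 ^ 2 + x 1 ^ 2 := by
    refine abs_le_of_sq_le_sq ?_ (by (clear * -; positivity))
    have h3 : B ^ 2 + ((x 0 ^ 2 - x 1 ^ 2) * Real.sin (α + β) -
        2 * x 0 * x 1 * Real.cos (α + β)) ^ 2 = (x 0 ^ 2 + x 1 ^ 2) ^ 2 := by
      rw [hB]
      linear_combination ((x 0 ^ 2 - x 1 ^ 2) ^ 2 + 4 * x 0 ^ 2 * x 1 ^ 2) *
        Real.sin_sq_add_cos_sq (α + β)
    linarith only [h3, sq_nonneg ((x 0 ^ 2 - x 1 ^ 2) * Real.sin (α + β) - 2 * x 0 * x 1 * Real.cos (α + β))]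
  have h4 : Real.cos (α - β) * B ≤ |Real.cos (α - β)| * (x 0 ^ 2 + x 1 ^ 2) := by
    calc Real.cos (α - β) * B ≤ |Real.cos (α - β) * B| := le_abs_self _
      _ = |Real.cos (α - β)| * |B| := abs_mul _ _
      _ ≤ _ := by gcongr
  rw [h1]
  linarith only [h4]

theorem norm_mul_norm_le (α β : ℝ) (x : V3) :
    ‖lf (av α) x‖ * ‖lf (av β) x‖ ≤
      ‖x‖ ^ 2 - (1 - |Real.cos (α - β)|) / 2 * (x 0 ^ 2 + x 1 ^ 2) := by
  have h1 := norm_sq_eq_add α x
  have h2 := norm_sq_eq_add β x
  have h3 := nu_sq_add_ge α β x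
  linarith only [h1, h2, h3, sq_nonneg (‖lf (av α) x‖ - ‖lf (av β) x‖)]

theorem sphere_prod_le (l : ℕ) (α β : ℝ) (ω : sphere (0 : V3) 1) :
    ‖lf (av α) (ω : V3)‖ ^ l * ‖lf (av β) (ω : V3)‖ ^ l ≤
      Real.exp (-((l : ℝ) * ((1 - |Real.cos (α - β)|) / 2)) *
        ((ω : V3) 0 ^ 2 + (ω : V3) 1 ^ 2)) := by
  have hω : ‖(ω : V3)‖ = 1 := by simp only [norm_eq_of_mem_sphere]
  have h := norm_mul_norm_le α β ω
  rw [hω] at h
  have h0 : 0 ≤ ‖lf (av α) (ω : V3)‖ * ‖lf (av β) (ω : V3)‖ := by positivity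
  set μ := (1 - |Real.cos (α - β)|) / 2 with hμ
  have h1 : ‖lf (av α) (ω : V3)‖ * ‖lf (av β) (ω : V3)‖ ≤
      Real.exp (-(μ * ((ω : V3) 0 ^ 2 + (ω : V3) 1 ^ 2))) := by
    have := Real.add_one_le_exp (-(μ * ((ω : V3) 0 ^ 2 + (ω : V3) 1 ^ 2)))
    linarith only [h, this]
  calc ‖lf (av α) (ω : V3)‖ ^ l * ‖lf (av β) (ω : V3)‖ ^ l
      = (‖lf (av α) (ω : V3)‖ * ‖lf (av β) (ω : V3)‖) ^ l := by rw [mul_pow]
    _ ≤ (Real.exp (-(μ * ((ω : V3) 0 ^ 2 + (ω : V3) 1 ^ 2)))) ^ l := by (clear * - h1; gcongr)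
    _ = _ := by
        rw [← Real.exp_nat_mul]
        congr 1
        ring

theorem integral_gauss_aniso {m : ℝ} (hm : 0 < m) :
    Integrable (fun x : V3 => Real.exp (-m * (x 0 ^ 2 + x 1 ^ 2) - x 2 ^ 2)) ∧
    ∫ x : V3, Real.exp (-m * (x 0 ^ 2 + x 1 ^ 2) - x 2 ^ 2) =
      Real.pi / m * Real.sqrt Real.pi := by
  have hmp := PiLp.volume_preserving_toLp (Fin 3)
  have hme : MeasurableEmbedding (@WithLp.toLp 2 (Fin 3 → ℝ)) :=
    (MeasurableEquiv.toLp 2 (Fin 3 → ℝ)).measurableEmbedding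
  have e : ∀ x : Fin 3 → ℝ, Real.exp (-m * (x 0 ^ 2 + x 1 ^ 2) - x 2 ^ 2) =
      ∏ i : Fin 3, Real.exp (-(![m, m, 1] i) * x i ^ 2) := by
    intro x
    rw [← Real.exp_sum]
    simp only [Fin.sum_univ_three, Matrix.cons_val_zero, Matrix.cons_val_one, Matrix.cons_val]
    congr 1
    ring
  have hi : ∀ i : Fin 3, Integrable (fun t : ℝ => Real.exp (-(![m, m, 1] i) * t ^ 2)) := by
    intro i
    refine integrable_exp_neg_mul_sq ?_
    fin_cases i <;> simp [hm]
  have hint : Integrable (fun x : Fin 3 → ℝ =>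
      Real.exp (-m * (x 0 ^ 2 + x 1 ^ 2) - x 2 ^ 2)) := by
    simp only [e]
    exact Integrable.fintype_prod (f := fun i t => Real.exp (-(![m, m, 1] i) * t ^ 2)) hi
  have hval : ∫ x : Fin 3 → ℝ, Real.exp (-m * (x 0 ^ 2 + x 1 ^ 2) - x 2 ^ 2) =
      Real.pi / m * Real.sqrt Real.pi := by
    simp only [e]
    rw [integral_fintype_prod_volume_eq_prod
      (f := fun (i : Fin 3) t => Real.exp (-(![m, m, 1] i) * t ^ 2))]
    simp only [integral_gaussian]
    simp only [Fin.prod_univ_three, Matrix.cons_val_zero, Matrix.cons_val_one, Matrix.cons_val, div_one]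
    rw [Real.mul_self_sqrt (by positivity)]
  constructor
  · exact (hmp.integrable_comp_emb hme).1 hint
  · rw [← hmp.integral_comp hme]
    exact hval

/-- a sphere integral -/
theorem sphere_exp_le {m : ℝ} (hm : 0 < m) :
    ∫ ω : sphere (0 : V3) 1, Real.exp (-m * ((ω : V3) 0 ^ 2 + (ω : V3) 1 ^ 2))
      ∂(volume : Measure V3).toSphere ≤ 48 / m := by
  set H : V3 → ℝ := fun x => Real.exp (-m * ((x 0 ^ 2 + x 1 ^ 2) / ‖x‖ ^ 2)) with hH
  set g : ℝ → ℝ := (Iio (1 : ℝ)).indicator (fun _ => (1 : ℝ)) with hg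
  have h := integral_homog_mul_radial_real (volume : Measure V3) H 0
    (fun t ht v => by
      simp only [hH, norm_smul, Real.norm_eq_abs, abs_of_pos ht, pow_zero, one_mul]
      congr 2
      have ht' : t ≠ 0 := ht.ne'
      simp only [PiLp.smul_apply, smul_eq_mul]
      rcases eq_or_ne (‖v‖) 0 with h0 | h0
      · simp only [Fin.isValue, h0, mul_zero, ne_eq, OfNat.ofNat_ne_zero, not_false_eq_true, zero_pow, div_zero]
      · field_simp) g
  have hr : ∫ r in Ioi (0 : ℝ), r ^ (0 + (finrank ℝ V3 - 1)) * g r = 1 / 3 := by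
    simp only [finrank_euclideanSpace, Fintype.card_fin, hg]
    have e : ∀ r : ℝ, r ^ (0 + (3 - 1)) * (Iio (1 : ℝ)).indicator (fun _ => (1 : ℝ)) r =
        (Iio (1 : ℝ)).indicator (fun r => r ^ 2) r := by
      intro r
      by_cases hr : r ∈ Iio (1 : ℝ)
      · rw [indicator_of_mem hr, indicator_of_mem hr]
        norm_num
      · rw [indicator_of_notMem hr, indicator_of_notMem hr]
        ring
    simp only [e]
    rw [setIntegral_indicator measurableSet_Iio]
    have e2 : Ioi (0 : ℝ) ∩ Iio 1 = Ioo 0 1 := Ioi_inter_Iio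
    rw [e2, ← integral_Ioc_eq_integral_Ioo, ← intervalIntegral.integral_of_le zero_le_one,
      integral_pow]
    norm_num
  rw [hr] at h
  have hs : ∫ ω : sphere (0 : V3) 1, H ω ∂(volume : Measure V3).toSphere =
      ∫ ω : sphere (0 : V3) 1, Real.exp (-m * ((ω : V3) 0 ^ 2 + (ω : V3) 1 ^ 2))
      ∂(volume : Measure V3).toSphere := by
    refine integral_congr_ae (.of_forall fun ω => ?_)
    have hω : ‖(ω : V3)‖ = 1 := by simp only [norm_eq_of_mem_sphere]
    simp only [hH, hω]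
    norm_num
  rw [hs] at h
  obtain ⟨hi, hv⟩ := integral_gauss_aniso hm
  have hle : ∫ x : V3, H x * g ‖x‖ ≤
      ∫ x : V3, Real.exp 1 * Real.exp (-m * (x 0 ^ 2 + x 1 ^ 2) - x 2 ^ 2) := by
    refine integral_mono_of_nonneg (.of_forall fun x => ?_) (hi.const_mul _)
      (.of_forall fun x => ?_)
    · simp only [hH, hg, Pi.zero_apply]
      exact mul_nonneg (Real.exp_pos _).le (indicator_nonneg (fun _ _ => zero_le_one) _)
    · simp only [hH, hg]
      by_cases hx : ‖x‖ ∈ Iio (1 : ℝ)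
      · rw [indicator_of_mem hx, mul_one, ← Real.exp_add]
        apply Real.exp_le_exp.2
        have hx1 : ‖x‖ < 1 := hx
        have hn := EuclideanSpace.norm_sq_eq x
        rw [Fin.sum_univ_three] at hn
        simp only [Real.norm_eq_abs, sq_abs] at hn
        have hn1 : ‖x‖ ^ 2 ≤ 1 := by
          have := norm_nonneg x
          nlinarith only [hx1, this]
        have h2 : x 2 ^ 2 ≤ 1 := by linarith only [hn, hn1, sq_nonneg (x 0), sq_nonneg (x 1)]
        have h3 : x 0 ^ 2 + x 1 ^ 2 ≤ (x 0 ^ 2 + x 1 ^ 2) / ‖x‖ ^ 2 := by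
          rcases eq_or_ne (‖x‖ ^ 2) 0 with h0 | h0
          · rw [h0, div_zero]
            linarith only [hn, h0, sq_nonneg (x 2)]
          · rw [le_div_iff₀ (lt_of_le_of_ne (by (clear * - h0; positivity)) (Ne.symm h0))]
            have h4 : 0 ≤ x 0 ^ 2 + x 1 ^ 2 := by (clear * -; positivity)
            nlinarith only [hn1]
        linarith only [mul_nonneg_of_nonpos_of_nonpos (le_of_lt (Mathlib.Tactic.Linarith.sub_neg_of_lt hm)) (Mathlib.Tactic.Linarith.sub_nonpos_of_le h3), hn1, hn, sq_nonneg (x.ofLp 1), sq_nonneg (x.ofLp 0)]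
      · rw [indicator_of_notMem hx, mul_zero]
        positivity
  rw [integral_const_mul, hv] at hle
  rw [h] at hle
  have hpi := Real.pi_lt_d2
  have hpi0 := Real.pi_pos
  have he := Real.exp_one_lt_d9
  have hsq : Real.sqrt Real.pi ≤ 1.78 := by
    rw [Real.sqrt_le_left (by norm_num)]
    norm_num
    linarith only [hpi]
  have hfin : 3 * (Real.exp 1 * (Real.pi / m * Real.sqrt Real.pi)) ≤ 48 / m := by
    rw [le_div_iff₀ hm]
    have e3 : 3 * (Real.exp 1 * (Real.pi / m * Real.sqrt Real.pi)) * m =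
        3 * (Real.exp 1 * (Real.pi * Real.sqrt Real.pi)) := by
      field_simp
    rw [e3]
    have h5 : Real.pi * Real.sqrt Real.pi ≤ 3.15 * 1.78 := by
      have := Real.sqrt_nonneg Real.pi
      linarith only [mul_nonneg_of_nonpos_of_nonpos (le_of_lt (Mathlib.Tactic.Linarith.sub_neg_of_lt hpi)) (Mathlib.Tactic.Linarith.sub_nonpos_of_le this), hsq]
    have h6 : Real.exp 1 * (Real.pi * Real.sqrt Real.pi) ≤ 2.7182818286 * (3.15 * 1.78) := by
      have : 0 ≤ Real.pi * Real.sqrt Real.pi := by positivity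
      have := Real.exp_pos 1
      (clear m hm H hH g hg h hr hs hi hv hle e3 h5 this; nlinarith)
    linarith only [h6]
  linarith only [hle, hfin]

/-- the product of two great circle functions is small in `L¹` -/
theorem integral_prod_le (l : ℕ) (hl : 1 ≤ l) (α β : ℝ) (hc : |Real.cos (α - β)| < 1) {κ : ℝ}
    (hκ : 0 < κ) :
    ∫ x : V3, ‖lf (av α) x‖ ^ l * ‖lf (av β) x‖ ^ l * Real.exp (-κ * ‖x‖) ≤
      96 / ((l : ℝ) * (1 - |Real.cos (α - β)|)) *
        (((2 * l + 2).factorial : ℝ) / κ ^ (2 * l + 3)) := by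
  have hl0 : (0 : ℝ) < l := by exact_mod_cast hl
  have h := integral_homog_mul_radial_real (volume : Measure V3)
    (fun x : V3 => ‖lf (av α) x‖ ^ l * ‖lf (av β) x‖ ^ l) (2 * l)
    (fun t ht v => by
      simp only [norm_lf_av_smul, abs_of_pos ht]
      ring) (fun r => Real.exp (-κ * r))
  simp only [finrank_euclideanSpace, Fintype.card_fin] at h
  rw [h, show 2 * l + (3 - 1) = 2 * l + 2 by rfl, integral_pow_mul_exp_neg_mul _ hκ]
  have hm : 0 < (l : ℝ) * ((1 - |Real.cos (α - β)|) / 2) := by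
    have : 0 < 1 - |Real.cos (α - β)| := by linarith only [hc]
    positivity
  have hs : ∫ ω : sphere (0 : V3) 1, ‖lf (av α) (ω : V3)‖ ^ l * ‖lf (av β) (ω : V3)‖ ^ l
      ∂(volume : Measure V3).toSphere ≤ 48 / ((l : ℝ) * ((1 - |Real.cos (α - β)|) / 2)) := by
    refine le_trans ?_ (sphere_exp_le hm)
    refine integral_mono ?_ ?_ fun ω => sphere_prod_le l α β ω
    · refine Continuous.integrable_of_hasCompactSupport ?_ (HasCompactSupport.of_compactSpace _)
      (clear * -; fun_prop)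
    · refine Continuous.integrable_of_hasCompactSupport ?_ (HasCompactSupport.of_compactSpace _)
      fun_prop
  refine mul_le_mul_of_nonneg_right (hs.trans (le_of_eq ?_)) (by positivity)
  have : 1 - |Real.cos (α - β)| ≠ 0 := by linarith only [hc]
  field_simp
  norm_num

theorem fact_sq_le (l : ℕ) :
    ((2 * l + 1).factorial : ℝ) ^ 2 ≤ (2 * l + 1) * (4 ^ l * (l.factorial : ℝ) ^ 2) ^ 2 := by
  induction l with
  | zero => norm_num
  | succ l ih =>
    have e1 : 2 * (l + 1) + 1 = (2 * l + 1) + 1 + 1 := by ring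
    rw [e1, Nat.factorial_succ, Nat.factorial_succ (2 * l + 1), Nat.factorial_succ l]
    push_cast
    have h1 : ((2 * (l : ℝ) + 2 + 1) * ((2 * (l : ℝ) + 1 + 1) *
        ((2 * l + 1).factorial : ℝ))) ^ 2 =
        (2 * (l : ℝ) + 3) ^ 2 * (2 * (l : ℝ) + 2) ^ 2 * ((2 * l + 1).factorial : ℝ) ^ 2 := by ring
    rw [h1]
    calc (2 * (l : ℝ) + 3) ^ 2 * (2 * (l : ℝ) + 2) ^ 2 * ((2 * l + 1).factorial : ℝ) ^ 2
        ≤ (2 * (l : ℝ) + 3) ^ 2 * (2 * (l : ℝ) + 2) ^ 2 *
          ((2 * l + 1) * (4 ^ l * (l.factorial : ℝ) ^ 2) ^ 2) := by (clear * - ih; gcongr)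
      _ = (2 * (l : ℝ) + 3) * (2 * (l : ℝ) + 2) ^ 2 * ((2 * (l : ℝ) + 3) * (2 * l + 1)) *
          (4 ^ l * (l.factorial : ℝ) ^ 2) ^ 2 := by ring
      _ ≤ (2 * (l : ℝ) + 3) * (2 * (l : ℝ) + 2) ^ 2 * (2 * (l : ℝ) + 2) ^ 2 *
          (4 ^ l * (l.factorial : ℝ) ^ 2) ^ 2 := by
          gcongr
          linarith only []
      _ = _ := by ring

end Vale.Agent.P370.GC
end
end

section

section

/-!
Off-diagonal Coulomb integrals are small.
-/

namespace Vale.Agent.P370.Q

open MeasureTheory Finset ComplexConjugate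

theorem continuous_fh (n : ℕ) (α : ℝ) : Continuous (fh n α) := by
  unfold fh fsite
  simp only [cdot_eq_lf]
  (clear * -; fun_prop)

theorem abs_fh_mul_le (n : ℕ) (hn : 1 ≤ n) (α β : ℝ) (x : R3) :
    |fh n α x * fh n β x| ≤ rho0 n α x + rho0 n β x := by
  have h1 := fh_sq_le n hn α x
  have h2 := fh_sq_le n hn β x
  rw [abs_mul]
  linarith only [h1, h2, sq_nonneg (|fh n α x| - |fh n β x|), sq_abs (fh n α x), sq_abs (fh n β x)]

theorem integrable_fh_mul (n : ℕ) (hn : 2 ≤ n) (α β : ℝ) :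
    Integrable (fun x => fh n α x * fh n β x) := by
  refine ((rho0_integral n hn α).1.add (rho0_integral n hn β).1).mono'
    ((continuous_fh n α).mul (continuous_fh n β)).aestronglyMeasurable (.of_forall fun x => ?_)
  exact abs_fh_mul_le n (by omega) α β x

theorem integral_abs_fh_le_two (n : ℕ) (hn : 2 ≤ n) (α β : ℝ) :
    ∫ x, |fh n α x * fh n β x| ≤ 2 := by
  have h1 := rho0_integral n hn α
  have h2 := rho0_integral n hn β
  calc ∫ x, |fh n α x * fh n β x| ≤ ∫ x, (rho0 n α x + rho0 n β x) :=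
        integral_mono (integrable_fh_mul n hn α β).abs (h1.1.add h2.1)
          fun x => abs_fh_mul_le n (by omega) α β x
    _ = 2 := by
        rw [integral_add h1.1 h2.1, h1.2, h2.2]
        norm_num

theorem integral_abs_fh_le (n : ℕ) (hn : 2 ≤ n) (α β : ℝ) (hc : |Real.cos (α - β)| < 1) :
    ∫ x, |fh n α x * fh n β x| ≤
      64 / ((1 - |Real.cos (α - β)|) * Real.sqrt n) := by
  obtain ⟨l, rfl⟩ : ∃ l, n = l + 1 := ⟨n - 1, by omega⟩
  have hl : 1 ≤ l := by omega
  have hl1 : (1 : ℝ) ≤ l := by exact_mod_cast hl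
  have hd : 0 < 1 - |Real.cos (α - β)| := by linarith only [hc]
  have hκ : (0 : ℝ) < 2 / ((l : ℝ) + 1) := by positivity
  have h := GC.integral_prod_le l hl α β hc hκ
  have hnf : 0 < nf (l + 1) := by
    unfold nf
    positivity
  have hI : ∫ x, |fh (l + 1) α x * fh (l + 1) β x| ≤
      (1 / nf (l + 1)) * ∫ x : R3, ‖GC.lf (GC.av α) x‖ ^ l * ‖GC.lf (GC.av β) x‖ ^ l *
        Real.exp (-(2 / ((l : ℝ) + 1)) * ‖x‖) := by
    rw [← integral_const_mul]
    have hint : Integrable (fun x : R3 => ‖GC.lf (GC.av α) x‖ ^ l * ‖GC.lf (GC.av β) x‖ ^ l *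
        Real.exp (-(2 / ((l : ℝ) + 1)) * ‖x‖)) := by
      refine (GC.integrable_norm_pow_mul_exp_neg (2 * l) hκ).mono'
        (Continuous.aestronglyMeasurable (by (clear * -; fun_prop))) (.of_forall fun x => ?_)
      rw [Real.norm_of_nonneg (by (clear * -; positivity))]
      have : ‖GC.lf (GC.av α) x‖ ^ l * ‖GC.lf (GC.av β) x‖ ^ l ≤ ‖x‖ ^ l * ‖x‖ ^ l := by
        gcongr
        · exact GC.norm_lf_av_le α x
        · exact GC.norm_lf_av_le β x
      calc _ ≤ (‖x‖ ^ l * ‖x‖ ^ l) * Real.exp (-(2 / ((l : ℝ) + 1)) * ‖x‖) := by gcongr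
        _ = _ := by ring
    refine integral_mono (integrable_fh_mul _ hn α β).abs (hint.const_mul _) fun x => ?_
    simp only [fh, fsite, av_eq, cdot_eq_lf, Nat.add_sub_cancel]
    have e1 : |((GC.lf (GC.av α) x ^ l).re * Real.exp (-(‖x‖ / ((l + 1 : ℕ) : ℝ))) / √(nf (l + 1))) *
        ((GC.lf (GC.av β) x ^ l).re * Real.exp (-(‖x‖ / ((l + 1 : ℕ) : ℝ))) / √(nf (l + 1)))| =
        1 / nf (l + 1) * (|(GC.lf (GC.av α) x ^ l).re| * |(GC.lf (GC.av β) x ^ l).re| *
          Real.exp (-(2 / ((l : ℝ) + 1)) * ‖x‖)) := by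
      have e2 : Real.exp (-(2 / ((l : ℝ) + 1)) * ‖x‖) =
          Real.exp (-(‖x‖ / ((l + 1 : ℕ) : ℝ))) * Real.exp (-(‖x‖ / ((l + 1 : ℕ) : ℝ))) := by
        rw [← Real.exp_add]
        congr 1
        push_cast
        ring
      have e3 : nf (l + 1) = √(nf (l + 1)) * √(nf (l + 1)) := (Real.mul_self_sqrt hnf.le).symm
      rw [e2, abs_mul, abs_div, abs_div, abs_mul, abs_mul, Real.abs_exp,
        abs_of_nonneg (Real.sqrt_nonneg (nf (l + 1)))]
      have hs : √(nf (l + 1)) ≠ 0 := (Real.sqrt_pos.2 hnf).ne'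
      conv_rhs => rw [e3]
      field_simp
    rw [e1]
    gcongr
    · rw [← norm_pow]
      exact Complex.abs_re_le_norm _
    · rw [← norm_pow]
      exact Complex.abs_re_le_norm _
  refine hI.trans ?_
  calc (1 / nf (l + 1)) * ∫ x : R3, ‖GC.lf (GC.av α) x‖ ^ l * ‖GC.lf (GC.av β) x‖ ^ l *
        Real.exp (-(2 / ((l : ℝ) + 1)) * ‖x‖)
      ≤ (1 / nf (l + 1)) * (96 / ((l : ℝ) * (1 - |Real.cos (α - β)|)) *
        (((2 * l + 2).factorial : ℝ) / (2 / ((l : ℝ) + 1)) ^ (2 * l + 3))) := by (clear * - h hnf; gcongr)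
    _ = 96 / ((l : ℝ) * (1 - |Real.cos (α - β)|)) * (1 / (2 * Real.pi)) *
        (((2 * l + 1).factorial : ℝ) / (4 ^ l * (l.factorial : ℝ) ^ 2)) := by
        have e1 : nf (l + 1) = Real.pi / 2 * ((l : ℝ) + 1) ^ (2 * l + 4) * (l.factorial : ℝ) ^ 2 := by
          unfold nf
          rw [Nat.add_sub_cancel]
          push_cast
          ring
        have e2 : ((2 * l + 2).factorial : ℝ) = (2 * ((l : ℝ) + 1)) *
            ((2 * l + 1).factorial : ℝ) := by
          rw [show 2 * l + 2 = (2 * l + 1) + 1 by ring, Nat.factorial_succ, Nat.cast_mul]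
          congr 1
          push_cast
          ring
        have e3 : (2 : ℝ) ^ (2 * l + 3) = 8 * 4 ^ l := by
          rw [pow_add, pow_mul]
          norm_num
          ring
        rw [e1, e2, div_pow, e3]
        generalize (((2 * l + 1).factorial : ℕ) : ℝ) = F
        have hf : (l.factorial : ℝ) ≠ 0 := by exact_mod_cast l.factorial_ne_zero
        have hpi := Real.pi_pos
        have h4 : (4 : ℝ) ^ l ≠ 0 := by positivity
        field_simp
        ring
    _ ≤ 96 / ((l : ℝ) * (1 - |Real.cos (α - β)|)) * (1 / 6) * Real.sqrt (2 * l + 1) := by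
        have h1 : ((2 * l + 1).factorial : ℝ) / (4 ^ l * (l.factorial : ℝ) ^ 2) ≤
            Real.sqrt (2 * l + 1) := by
          have hf : (0 : ℝ) < (l.factorial : ℝ) := by exact_mod_cast l.factorial_pos
          rw [div_le_iff₀ (by positivity)]
          refine le_of_sq_le_sq ?_ (by positivity)
          rw [mul_pow, Real.sq_sqrt (by positivity)]
          exact GC.fact_sq_le l
        have h2 : 1 / (2 * Real.pi) ≤ 1 / 6 := by
          apply one_div_le_one_div_of_le (by norm_num)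
          linarith only [Real.pi_gt_three]
        gcongr
    _ ≤ _ := by
        have hs0 : 0 < Real.sqrt ((l + 1 : ℕ) : ℝ) := Real.sqrt_pos.2 (by positivity)
        have hs1 : Real.sqrt (2 * l + 1) * Real.sqrt ((l + 1 : ℕ) : ℝ) ≤ 4 * l := by
          rw [← Real.sqrt_mul (by positivity)]
          rw [Real.sqrt_le_left (by positivity)]
          push_cast
          nlinarith only [hl1]
        rw [le_div_iff₀ (by positivity)]
        have e : 96 / ((l : ℝ) * (1 - |Real.cos (α - β)|)) * (1 / 6) * Real.sqrt (2 * l + 1) *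
            ((1 - |Real.cos (α - β)|) * Real.sqrt ((l + 1 : ℕ) : ℝ)) =
            16 / l * (Real.sqrt (2 * l + 1) * Real.sqrt ((l + 1 : ℕ) : ℝ)) := by
          field_simp
          norm_num
        rw [e]
        calc 16 / (l : ℝ) * (Real.sqrt (2 * l + 1) * Real.sqrt ((l + 1 : ℕ) : ℝ))
            ≤ 16 / (l : ℝ) * (4 * l) := by gcongr
          _ = 64 := by field_simp; norm_num

theorem one_sub_abs_cos_ge {K : ℕ} {i j : ℕ} (hi : i < K) (hj : j < K) (hij : i ≠ j) :
    2 / (K : ℝ) ^ 2 ≤ 1 - |Real.cos (Real.pi * i / K - Real.pi * j / K)| := by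
  have h := GC.abs_sin_pi_mul_ge hi hj hij
  have hK : (0 : ℝ) < K := by exact_mod_cast (by omega : 0 < K)
  have e : (2 * Real.pi * i / K - 2 * Real.pi * j / K) / 2 =
      Real.pi * i / K - Real.pi * j / K := by ring
  rw [e] at h
  set θ := Real.pi * i / K - Real.pi * j / K with hθ
  have h1 : (2 / (K : ℝ)) ^ 2 ≤ Real.sin θ ^ 2 := by
    rw [← sq_abs (Real.sin θ)]
    gcongr
  have h2 := Real.sin_sq_add_cos_sq θ
  have h3 : |Real.cos θ| ≤ 1 := Real.abs_cos_le_one θ
  have h4 : |Real.cos θ| ^ 2 = Real.cos θ ^ 2 := sq_abs _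
  have h5 : 1 - Real.cos θ ^ 2 ≤ 2 * (1 - |Real.cos θ|) := by
    rw [← h4]
    nlinarith only [h3]
  have h6 : (2 / (K : ℝ)) ^ 2 = 2 * (2 / (K : ℝ) ^ 2) := by
    field_simp
  linarith only [h1, h2, h5, h6]

/-- `L¹` norm of the cross densities -/
theorem cross_L1 (n K : ℕ) (hK : 2 ≤ K) (hn : 2 ≤ n) (i j : Fin K) (hij : i ≠ j) :
    ∫ x, |fh n (Real.pi * i / K) x * fh n (Real.pi * j / K) x| ≤
      27 * K * (n : ℝ) ^ (-(1 / 4) : ℝ) := by
  have hn0 : (0 : ℝ) < n := by exact_mod_cast (by omega : 0 < n)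
  have hK0 : (0 : ℝ) < K := by exact_mod_cast (by omega : 0 < K)
  have hij' : (i : ℕ) ≠ (j : ℕ) := fun h => hij (Fin.ext h)
  have h1 := one_sub_abs_cos_ge i.2 j.2 hij'
  have hpos : 0 < 2 / (K : ℝ) ^ 2 := by (clear * - hK; positivity)
  have h2 := integral_abs_fh_le n hn (Real.pi * i / K) (Real.pi * j / K) (by linarith only [h1, hpos])
  have h3 := integral_abs_fh_le_two n hn (Real.pi * i / K) (Real.pi * j / K)
  have h4 : 0 ≤ ∫ x, |fh n (Real.pi * i / K) x * fh n (Real.pi * j / K) x| :=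
    integral_nonneg fun x => abs_nonneg _
  set I := ∫ x, |fh n (Real.pi * i / K) x * fh n (Real.pi * j / K) x| with hI
  have hs0 : 0 < Real.sqrt n := Real.sqrt_pos.2 hn0
  have h5 : I ≤ 32 * (K : ℝ) ^ 2 / Real.sqrt n := by
    refine h2.trans ?_
    calc 64 / ((1 - |Real.cos (Real.pi * i / K - Real.pi * j / K)|) * Real.sqrt n)
        ≤ 64 / ((2 / (K : ℝ) ^ 2) * Real.sqrt n) := by gcongr
      _ = 32 * (K : ℝ) ^ 2 / Real.sqrt n := by field_simp; norm_num
  have h6 : I ^ 2 ≤ 64 * (K : ℝ) ^ 2 / Real.sqrt n := by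
    calc I ^ 2 = I * I := sq I
      _ ≤ 2 * (32 * (K : ℝ) ^ 2 / Real.sqrt n) := by (clear * - h3 h5; gcongr)
      _ = _ := by ring
  have h7 : ((n : ℝ) ^ (-(1 / 4) : ℝ)) ^ 2 = 1 / Real.sqrt n := by
    rw [← Real.rpow_natCast, ← Real.rpow_mul hn0.le, Real.sqrt_eq_rpow,
      show (1 : ℝ) / (n : ℝ) ^ (1 / 2 : ℝ) = (n : ℝ) ^ (-(1 / 2) : ℝ) by
        rw [Real.rpow_neg hn0.le, one_div]]
    congr 1
    norm_num
  have hr0 : 0 < (n : ℝ) ^ (-(1 / 4) : ℝ) := Real.rpow_pos_of_pos hn0 _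
  refine le_of_sq_le_sq ?_ (by positivity)
  calc I ^ 2 ≤ 64 * (K : ℝ) ^ 2 / Real.sqrt n := h6
    _ = 64 * (K : ℝ) ^ 2 * ((n : ℝ) ^ (-(1 / 4) : ℝ)) ^ 2 := by rw [h7]; ring
    _ ≤ 27 ^ 2 * (K : ℝ) ^ 2 * ((n : ℝ) ^ (-(1 / 4) : ℝ)) ^ 2 := by
        gcongr
        norm_num
    _ = _ := by ring

/-- the potential of a product of site orbitals -/
theorem abs_nuc_fh_le (n : ℕ) (hn : 2 ≤ n) (α β : ℝ) (y : R3) :
    |nuc y (fh n α) (fh n β)| ≤ (42 + 6 * Real.log n) / (n : ℝ) ^ 2 := by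
  have h1 := rho0_pot n hn α y
  have h2 := rho0_pot n hn β y
  unfold nuc
  calc |∫ x, fh n α x * fh n β x / dist x y|
      ≤ ∫ x, |fh n α x * fh n β x / dist x y| := abs_integral_le_integral_abs
    _ ≤ ∫ x, (rho0 n α x / dist x y + rho0 n β x / dist x y) := by
        refine integral_mono_of_nonneg (.of_forall fun x => abs_nonneg _) (h1.1.add h2.1)
          (.of_forall fun x => ?_)
        show |fh n α x * fh n β x / dist x y| ≤ rho0 n α x / dist x y + rho0 n β x / dist x y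
        rw [abs_div, abs_of_nonneg (dist_nonneg (x := x) (y := y)), ← add_div]
        gcongr
        exact abs_fh_mul_le n (by omega) α β x
    _ = (∫ x, rho0 n α x / dist x y) + ∫ x, rho0 n β x / dist x y := integral_add h1.1 h2.1
    _ ≤ (21 + 3 * Real.log n) / (n : ℝ) ^ 2 + (21 + 3 * Real.log n) / (n : ℝ) ^ 2 :=
        add_le_add h1.2 h2.2
    _ = _ := by ring

theorem coul_fh_le (n : ℕ) (hn : 2 ≤ n) (α β γ δ : ℝ) :
    |coul (fh n α) (fh n β) (fh n γ) (fh n δ)| ≤
      (42 + 6 * Real.log n) / (n : ℝ) ^ 2 * ∫ x, |fh n γ x * fh n δ x| := by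
  unfold coul
  rw [← integral_const_mul]
  calc |∫ y, nuc y (fh n α) (fh n β) * (fh n γ y * fh n δ y)|
      ≤ ∫ y, |nuc y (fh n α) (fh n β) * (fh n γ y * fh n δ y)| := abs_integral_le_integral_abs
    _ ≤ _ := by
        refine integral_mono_of_nonneg (.of_forall fun x => abs_nonneg _)
          ((integrable_fh_mul n hn γ δ).abs.const_mul _) (.of_forall fun y => ?_)
        show |nuc y (fh n α) (fh n β) * (fh n γ y * fh n δ y)| ≤ _
        rw [abs_mul]
        exact mul_le_mul_of_nonneg_right (abs_nuc_fh_le n hn α β y) (abs_nonneg _)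

theorem integrable_coul_fh (n : ℕ) (hn : 2 ≤ n) (α β γ δ : ℝ) :
    Integrable (fun p : R3 × R3 => fh n α p.1 * fh n β p.1 / dist p.1 p.2 *
      (fh n γ p.2 * fh n δ p.2)) (volume.prod volume) := by
  have hmeas : Measurable (fun p : R3 × R3 => fh n α p.1 * fh n β p.1 / dist p.1 p.2 *
      (fh n γ p.2 * fh n δ p.2)) := by
    have m : ∀ ζ : ℝ, Measurable (fh n ζ) := fun ζ => (continuous_fh n ζ).measurable
    exact ((((m α).comp measurable_fst).mul ((m β).comp measurable_fst)).div (by fun_prop)).mul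
      (((m γ).comp measurable_snd).mul ((m δ).comp measurable_snd))
  have hx : ∀ y : R3, Integrable (fun x : R3 => fh n α x * fh n β x / dist x y) := by
    intro y
    have h1 := rho0_pot n hn α y
    have h2 := rho0_pot n hn β y
    refine (h1.1.add h2.1).mono' ?_ (.of_forall fun x => ?_)
    · exact ((((continuous_fh n α).measurable).mul (continuous_fh n β).measurable).div
        (by fun_prop)).aestronglyMeasurable
    · show ‖fh n α x * fh n β x / dist x y‖ ≤ rho0 n α x / dist x y + rho0 n β x / dist x y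
      rw [Real.norm_eq_abs, abs_div, abs_of_nonneg (dist_nonneg (x := x) (y := y)), ← add_div]
      gcongr
      exact abs_fh_mul_le n (by (clear * - hn; omega)) α β x
  rw [integrable_prod_iff' hmeas.aestronglyMeasurable]
  refine ⟨.of_forall fun y => (hx y).mul_const (fh n γ y * fh n δ y), ?_⟩
  have hb : ∀ y : R3, ∫ x : R3, ‖fh n α x * fh n β x / dist x y *
      (fh n γ y * fh n δ y)‖ ≤ (42 + 6 * Real.log n) / (n : ℝ) ^ 2 * |fh n γ y * fh n δ y| := by
    intro y
    simp only [norm_mul (fh n α _ * fh n β _ / dist _ y)]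
    rw [integral_mul_const]
    rw [Real.norm_eq_abs (fh n γ y * fh n δ y)]
    refine mul_le_mul_of_nonneg_right ?_ (abs_nonneg _)
    have h1 := rho0_pot n hn α y
    have h2 := rho0_pot n hn β y
    calc ∫ x, ‖fh n α x * fh n β x / dist x y‖
        ≤ ∫ x, (rho0 n α x / dist x y + rho0 n β x / dist x y) := by
          refine integral_mono_of_nonneg (.of_forall fun x => norm_nonneg _) (h1.1.add h2.1)
            (.of_forall fun x => ?_)
          show ‖fh n α x * fh n β x / dist x y‖ ≤ rho0 n α x / dist x y + rho0 n β x / dist x y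
          rw [Real.norm_eq_abs, abs_div, abs_of_nonneg (dist_nonneg (x := x) (y := y)), ← add_div]
          gcongr
          exact abs_fh_mul_le n (by omega) α β x
      _ = (∫ x, rho0 n α x / dist x y) + ∫ x, rho0 n β x / dist x y := integral_add h1.1 h2.1
      _ ≤ (21 + 3 * Real.log n) / (n : ℝ) ^ 2 + (21 + 3 * Real.log n) / (n : ℝ) ^ 2 :=
          add_le_add h1.2 h2.2
      _ = _ := by ring
  refine ((integrable_fh_mul n hn γ δ).abs.const_mul _).mono' ?_
    (.of_forall fun y => (Real.norm_of_nonneg (integral_nonneg fun x => norm_nonneg _)).le.trans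
      (hb y))
  exact (hmeas.norm.stronglyMeasurable.integral_prod_left'
    (μ := (volume : Measure R3))).aestronglyMeasurable

theorem coul_fh_symm (n : ℕ) (hn : 2 ≤ n) (α β γ δ : ℝ) :
    coul (fh n α) (fh n β) (fh n γ) (fh n δ) = coul (fh n γ) (fh n δ) (fh n α) (fh n β) := by
  have h := integrable_coul_fh n hn α β γ δ
  have e1 : coul (fh n α) (fh n β) (fh n γ) (fh n δ) =
      ∫ y, ∫ x, fh n α x * fh n β x / dist x y * (fh n γ y * fh n δ y) := by
    unfold coul nuc
    refine integral_congr_ae (.of_forall fun y => ?_)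
    simp only
    rw [integral_mul_const]
  have e2 : coul (fh n γ) (fh n δ) (fh n α) (fh n β) =
      ∫ x, ∫ y, fh n α x * fh n β x / dist x y * (fh n γ y * fh n δ y) := by
    unfold coul nuc
    refine integral_congr_ae (.of_forall fun x => ?_)
    simp only
    rw [← integral_mul_const]
    refine integral_congr_ae (.of_forall fun y => ?_)
    simp only
    rw [dist_comm y x]
    ring
  rw [e1, e2]
  exact (integral_integral_swap (f := fun x y => fh n α x * fh n β x / dist x y *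
    (fh n γ y * fh n δ y)) h).symm

/-- Coulomb integrals with an off-diagonal density are small -/
theorem coul_off (n K : ℕ) (hK : 2 ≤ K) (hn : 2 ≤ n) (i j k l : Fin K)
    (h : i ≠ j ∨ k ≠ l) :
    |coul (fh n (Real.pi * i / K)) (fh n (Real.pi * j / K)) (fh n (Real.pi * k / K))
        (fh n (Real.pi * l / K))| ≤
      2 ^ 11 * K * (1 + Real.log n) * (n : ℝ) ^ (-(9 / 4) : ℝ) := by
  have hn0 : (0 : ℝ) < n := by exact_mod_cast (by omega : 0 < n)
  have hlog : 0 ≤ Real.log n := Real.log_nonneg (by exact_mod_cast (by omega : 1 ≤ n))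
  have main : ∀ i j k l : Fin K, k ≠ l →
      |coul (fh n (Real.pi * i / K)) (fh n (Real.pi * j / K)) (fh n (Real.pi * k / K))
        (fh n (Real.pi * l / K))| ≤
      2 ^ 11 * K * (1 + Real.log n) * (n : ℝ) ^ (-(9 / 4) : ℝ) := by
    intro i j k l hkl
    refine (coul_fh_le n hn _ _ _ _).trans ?_
    have h1 := cross_L1 n K hK hn k l hkl
    have hr : (n : ℝ) ^ (-(9 / 4) : ℝ) = (n : ℝ) ^ (-(1 / 4) : ℝ) / (n : ℝ) ^ 2 := by
      rw [← Real.rpow_natCast, ← Real.rpow_sub hn0]
      congr 1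
      norm_num
    have hr0 : 0 < (n : ℝ) ^ (-(1 / 4) : ℝ) := Real.rpow_pos_of_pos hn0 _
    calc (42 + 6 * Real.log n) / (n : ℝ) ^ 2 *
          ∫ x, |fh n (Real.pi * k / K) x * fh n (Real.pi * l / K) x|
        ≤ (42 + 6 * Real.log n) / (n : ℝ) ^ 2 * (27 * K * (n : ℝ) ^ (-(1 / 4) : ℝ)) := by (clear * - h1 hn; gcongr)
      _ = (27 * (42 + 6 * Real.log n)) * (K * (n : ℝ) ^ (-(1 / 4) : ℝ) / (n : ℝ) ^ 2) := by ring
      _ ≤ (2 ^ 11 * (1 + Real.log n)) * (K * (n : ℝ) ^ (-(1 / 4) : ℝ) / (n : ℝ) ^ 2) := by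
          refine mul_le_mul_of_nonneg_right ?_ (by positivity)
          linarith only [hlog]
      _ = _ := by
          rw [hr]
          ring
  rcases h with h | h
  · rw [coul_fh_symm n hn]
    exact main k l i j h
  · exact main i j k l h

end Vale.Agent.P370.Q
end
end

section

section

/-!
Direct Coulomb integrals: symmetries and upper bound.
-/

namespace Vale.Agent.P370.Q

open MeasureTheory Finset ComplexConjugate

/-- rotation about the third axis -/
noncomputable def zrotL (φ : ℝ) : R3 →ₗ[ℝ] R3 where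
  toFun x := !₂[Real.cos φ * x 0 - Real.sin φ * x 1, Real.sin φ * x 0 + Real.cos φ * x 1, x 2]
  map_add' x y := by
    ext i
    fin_cases i <;> simp <;> ring
  map_smul' c x := by
    ext i
    fin_cases i <;> simp <;> ring

theorem norm_zrotL (φ : ℝ) (x : R3) : ‖zrotL φ x‖ = ‖x‖ := by
  have h : ‖zrotL φ x‖ ^ 2 = ‖x‖ ^ 2 := by
    rw [EuclideanSpace.norm_sq_eq, EuclideanSpace.norm_sq_eq, Fin.sum_univ_three,
      Fin.sum_univ_three]
    simp only [Real.norm_eq_abs, sq_abs]
    simp only [zrotL, Fin.isValue, LinearMap.coe_mk, AddHom.coe_mk, Matrix.cons_val_zero, Matrix.cons_val_one, Matrix.cons_val, add_left_inj]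
    linear_combination (x 0 ^ 2 + x 1 ^ 2) * Real.sin_sq_add_cos_sq φ
  exact (sq_eq_sq₀ (norm_nonneg _) (norm_nonneg _)).1 h

/-- rotation about the third axis as a linear isometry equivalence -/
noncomputable def zrot (φ : ℝ) : R3 ≃ₗᵢ[ℝ] R3 :=
  LinearIsometry.toLinearIsometryEquiv ⟨zrotL φ, norm_zrotL φ⟩ rfl

theorem zrot_apply (φ : ℝ) (x : R3) : zrot φ x = zrotL φ x := rfl

theorem cdot_zrot (α φ : ℝ) (x : R3) : cdot (av α) (zrot φ x) = cdot (av (α - φ)) x := by
  rw [cdot_eq_lf, cdot_eq_lf, av_eq, av_eq, GC.lf_av, GC.lf_av, zrot_apply]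
  have e0 : zrotL φ x 0 = Real.cos φ * x 0 - Real.sin φ * x 1 := by simp only [Fin.isValue, zrotL, LinearMap.coe_mk, AddHom.coe_mk, Matrix.cons_val_zero]
  have e1 : zrotL φ x 1 = Real.sin φ * x 0 + Real.cos φ * x 1 := by simp only [Fin.isValue, zrotL, LinearMap.coe_mk, AddHom.coe_mk, Matrix.cons_val_one, Matrix.cons_val_zero]
  have e2 : zrotL φ x 2 = x 2 := by simp [zrotL]
  rw [e0, e1, e2, Real.cos_sub, Real.sin_sub]
  congr 3
  ring

theorem fsite_zrot (n : ℕ) (α φ : ℝ) (x : R3) :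
    fsite n α (zrot φ x) = fsite n (α - φ) x := by
  unfold fsite
  rw [cdot_zrot, LinearIsometryEquiv.norm_map]

theorem fh_zrot (n : ℕ) (α φ : ℝ) (x : R3) : fh n α (zrot φ x) = fh n (α - φ) x := by
  unfold fh
  rw [fsite_zrot]

theorem coul_comp_isometry (g : R3 ≃ₗᵢ[ℝ] R3) (f1 f2 f3 f4 : R3 → ℝ) :
    coul (fun x => f1 (g x)) (fun x => f2 (g x)) (fun x => f3 (g x)) (fun x => f4 (g x)) =
      coul f1 f2 f3 f4 := by
  have hn : ∀ y : R3, nuc y (fun x => f1 (g x)) (fun x => f2 (g x)) = nuc (g y) f1 f2 := by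
    intro y
    unfold nuc
    have := g.measurePreserving.integral_comp g.toHomeomorph.measurableEmbedding
      (fun x => f1 x * f2 x / dist x (g y))
    rw [← this]
    refine integral_congr_ae (.of_forall fun x => ?_)
    simp only
    rw [g.dist_map]
  unfold coul
  simp only [hn]
  exact g.measurePreserving.integral_comp g.toHomeomorph.measurableEmbedding
      (fun y => nuc y f1 f2 * (f3 y * f4 y))

theorem wdir_eq (n : ℕ) (hn : 2 ≤ n) (α β : ℝ) :
    coul (fh n α) (fh n α) (fh n β) (fh n β) = wdir n (α - β) := by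
  have h := coul_comp_isometry (zrot β) (fh n α) (fh n α) (fh n β) (fh n β)
  simp only [fh_zrot, sub_self] at h
  rw [← h]
  rfl

theorem wdir_even (n : ℕ) (hn : 2 ≤ n) (δ : ℝ) : wdir n (-δ) = wdir n δ := by
  have h1 := wdir_eq n hn 0 δ
  rw [zero_sub] at h1
  rw [← h1, coul_fh_symm n hn]
  rfl

theorem wdir_per (n : ℕ) (hn : 2 ≤ n) (δ : ℝ) : wdir n (δ + Real.pi) = wdir n δ := by
  have h : fh n (δ + Real.pi) = fh n δ := by
    funext x
    unfold fh fsite
    have e : cdot (av (δ + Real.pi)) x = (starRingEnd ℂ) (cdot (av δ) x) := by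
      rw [cdot_eq_lf, cdot_eq_lf, av_eq, av_eq, GC.conj_lf_av]
    rw [e, ← map_pow, Complex.conj_re]
  unfold wdir
  rw [h]

theorem wdir_bounds (n : ℕ) (hn : 2 ≤ n) (δ : ℝ) :
    0 ≤ wdir n δ ∧ wdir n δ ≤ (42 + 6 * Real.log n) / (n : ℝ) ^ 2 := by
  constructor
  · unfold wdir coul nuc
    refine integral_nonneg fun y => mul_nonneg (integral_nonneg fun x => ?_) ?_
    · exact div_nonneg (mul_self_nonneg _) dist_nonneg
    · exact mul_self_nonneg _
  · have h := coul_fh_le n hn δ δ 0 0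
    have h1 : ∫ x, |fh n 0 x * fh n 0 x| = 1 := by
      have h2 := ov_fh_self n hn 0
      unfold ov at h2
      rw [← h2]
      refine integral_congr_ae (.of_forall fun x => ?_)
      exact abs_of_nonneg (mul_self_nonneg _)
    rw [h1, mul_one] at h
    exact (le_abs_self _).trans h

end Vale.Agent.P370.Q
end
end

section

section

/-!
Abstract strict positivity of Coulomb quadratic forms.
-/

namespace Vale.Agent.P370.GC

open MeasureTheory Set Metric Module
open scoped ENNReal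

theorem pd_abstract {ι : Type*} [Fintype ι] [DecidableEq ι] {d : ι → V3 → ℝ}
    (hd : ∀ i, Dens (d i)) (h1 : ∀ i, ∫ x, d i x = 1)
    (hI : ∀ i j, Integrable (fun q : V3 × V3 => d i q.1 / dist q.1 q.2 * d j q.2)
      (volume.prod volume)) (v : ι → ℝ) (i0 : ι) (hv0 : |v i0| = 1) (hv : ∀ i, |v i| ≤ 1)
    {t0 : ℝ} (ht0 : 0 < t0) {Rs A : Set V3} {N : ι → Set V3} (hR : MeasurableSet Rs)
    (hA : MeasurableSet A) (hN : ∀ i, MeasurableSet (N i))
    (hAR : ∀ x ∈ A, ∀ z, dist z x < 2 * t0 → z ∈ Rs)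
    (hNR : ∀ i, i ≠ i0 → ∀ z ∈ Rs, ∀ x, dist z x < 2 * t0 → x ∈ N i)
    {V : ℝ} (hV : 0 < V) (hvol : volume Rs ≤ ENNReal.ofReal V)
    {m δ c : ℝ} (hm : m ≤ ∫ x in A, d i0 x)
    (hδ : ∑ i ∈ Finset.univ.erase i0, ∫ x in N i, d i x ≤ δ) (hc : 0 < c) (hmc : c ≤ m - 8 * δ) :
    c ^ 2 * t0 ^ 2 / (2 * V) ≤ kap.toReal * ∑ i, ∑ j, v i * v j * cw (d i) (d j) := by
  obtain ⟨hint, hval⟩ := quad_integral hd hI v
  rw [hval]
  have hpi := Real.pi_gt_three
  -- finiteness of the region measure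
  have hfin : (nur t0 Rs) univ = ENNReal.ofReal t0 * volume Rs := by
    unfold nur
    rw [← univ_prod_univ, Measure.prod_prod, Measure.restrict_apply_univ,
      Measure.restrict_apply_univ, Real.volume_Ioc]
    congr 2
    ring
  have hfin2 : (nur t0 Rs) univ ≤ ENNReal.ofReal (t0 * V) := by
    rw [hfin, ENNReal.ofReal_mul ht0.le]
    (clear * - hvol; gcongr)
  haveI : IsFiniteMeasure (nur t0 Rs) := ⟨hfin2.trans_lt ENNReal.ofReal_lt_top⟩
  have hreal : (nur t0 Rs).real univ ≤ t0 * V := by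
    unfold Measure.real
    exact ENNReal.toReal_le_of_le_ofReal (by (clear * - ht0 hV; positivity)) hfin2
  have hbi : ∀ i, Integrable (bm (d i)) (nur t0 Rs) := by
    intro i
    refine Integrable.of_bound (measurable_bm (hd i).meas (hd i).int (hd i).nn).aestronglyMeasurable
      1 (.of_forall fun p => ?_)
    rw [Real.norm_of_nonneg (bm_nonneg (hd i).nn p)]
    exact bm_le_one (hd i) (h1 i) p
  -- restriction to the region
  set lam : ℝ := 4 * t0 ^ 3 * c / V with hlam
  have hlam0 : 0 < lam := by (clear * - ht0 hc hV; positivity)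
  have step1 : ∫ p, 1 / (32 * t0 ^ 5) * (2 * lam * (bm (d i0) p -
      ∑ i ∈ Finset.univ.erase i0, bm (d i) p) - lam ^ 2) ∂(nur t0 Rs) ≤
      ∫ p, 1 / p.1 ^ 5 * (∑ i, v i * bm (d i) p) ^ 2 ∂nub := by
    have hms : MeasurableSet (Ioc t0 (2 * t0) ×ˢ Rs) := measurableSet_Ioc.prod hR
    calc ∫ p, 1 / (32 * t0 ^ 5) * (2 * lam * (bm (d i0) p -
        ∑ i ∈ Finset.univ.erase i0, bm (d i) p) - lam ^ 2) ∂(nur t0 Rs)
        ≤ ∫ p in Ioc t0 (2 * t0) ×ˢ Rs, 1 / p.1 ^ 5 * (∑ i, v i * bm (d i) p) ^ 2 ∂nub := by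
          rw [← nub_restrict ht0 Rs]
          refine setIntegral_mono_on ?_ hint.integrableOn hms fun p hp => ?_
          · show Integrable _ (nub.restrict (Ioc t0 (2 * t0) ×ˢ Rs))
            rw [nub_restrict ht0 Rs]
            refine Integrable.const_mul ?_ _
            refine Integrable.sub ?_ (integrable_const _)
            refine Integrable.const_mul ?_ _
            exact (hbi i0).sub (integrable_finsetSum _ fun i _ => hbi i)
          · have hp1 : t0 < p.1 := hp.1.1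
            have hp2 : p.1 ≤ 2 * t0 := hp.1.2
            have hp0 : 0 < p.1 := ht0.trans hp1
            have hu : 2 * lam * (bm (d i0) p - ∑ i ∈ Finset.univ.erase i0, bm (d i) p) - lam ^ 2 ≤
                (∑ i, v i * bm (d i) p) ^ 2 := by
              have ha : bm (d i0) p - ∑ i ∈ Finset.univ.erase i0, bm (d i) p ≤
                  |∑ i, v i * bm (d i) p| := by
                have e1 : ∑ i, v i * bm (d i) p = v i0 * bm (d i0) p +
                    ∑ i ∈ Finset.univ.erase i0, v i * bm (d i) p :=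
                  (Finset.add_sum_erase _ _ (Finset.mem_univ i0)).symm
                have e2 : |v i0 * bm (d i0) p| = bm (d i0) p := by
                  rw [abs_mul, hv0, one_mul, abs_of_nonneg (bm_nonneg (hd i0).nn p)]
                have e3 : |∑ i ∈ Finset.univ.erase i0, v i * bm (d i) p| ≤
                    ∑ i ∈ Finset.univ.erase i0, bm (d i) p := by
                  refine (Finset.abs_sum_le_sum_abs _ _).trans (Finset.sum_le_sum fun i _ => ?_)
                  rw [abs_mul, abs_of_nonneg (bm_nonneg (hd i).nn p)]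
                  calc |v i| * bm (d i) p ≤ 1 * bm (d i) p :=
                        mul_le_mul_of_nonneg_right (hv i) (bm_nonneg (hd i).nn p)
                    _ = _ := one_mul _
                rw [e1]
                have e4 := abs_sub_abs_le_abs_sub (v i0 * bm (d i0) p)
                  (-(∑ i ∈ Finset.univ.erase i0, v i * bm (d i) p))
                rw [abs_neg, sub_neg_eq_add, e2] at e4
                linarith only [e3, e4]
              have hsq : |∑ i, v i * bm (d i) p| ^ 2 = (∑ i, v i * bm (d i) p) ^ 2 := sq_abs _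
              exact le_of_not_gt fun hng => by linarith only [hng, Mathlib.Tactic.Linarith.zero_mul_eq (sub_eq_zero_of_eq hsq) (Mathlib.Tactic.Linarith.sub_neg_of_lt hlam0), mul_pos_of_neg_of_neg (Mathlib.Tactic.Linarith.sub_neg_of_lt hng) (Mathlib.Tactic.Linarith.sub_neg_of_lt hlam0), mul_nonneg_of_nonpos_of_nonpos (Mathlib.Tactic.Linarith.sub_nonpos_of_le (sq_nonneg lam)) (Mathlib.Tactic.Linarith.sub_nonpos_of_le ha), mul_nonneg_of_nonpos_of_nonpos (Mathlib.Tactic.Linarith.sub_nonpos_of_le (sq_nonneg (|∑ i, v i * Vale.Agent.P370.GC.bm (d i) p| - lam))) (le_of_lt (Mathlib.Tactic.Linarith.sub_neg_of_lt hlam0))]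
            have hw : 1 / (32 * t0 ^ 5) ≤ 1 / p.1 ^ 5 := by
              apply one_div_le_one_div_of_le (by (clear * - hp0; positivity))
              calc p.1 ^ 5 ≤ (2 * t0) ^ 5 := by (clear * - hp0 hp2; gcongr)
                _ = 32 * t0 ^ 5 := by ring
            calc 1 / (32 * t0 ^ 5) * (2 * lam * (bm (d i0) p -
                ∑ i ∈ Finset.univ.erase i0, bm (d i) p) - lam ^ 2)
                ≤ 1 / (32 * t0 ^ 5) * (∑ i, v i * bm (d i) p) ^ 2 := by (clear * - hu ht0; gcongr)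
              _ ≤ 1 / p.1 ^ 5 * (∑ i, v i * bm (d i) p) ^ 2 := by (clear * - hw; gcongr)
      _ ≤ _ := by
          refine setIntegral_le_integral hint ?_
          filter_upwards [ae_nub_pos] with p hp
          show 0 ≤ 1 / p.1 ^ 5 * (∑ i, v i * bm (d i) p) ^ 2
          (clear * - hp; positivity)
  refine le_trans ?_ step1
  -- evaluation
  have hlow : 4 * t0 ^ 4 * m ≤ ∫ p, bm (d i0) p ∂(nur t0 Rs) ∨ m ≤ 0 := by
    rcases le_or_gt m 0 with hm0 | hm0
    · exact Or.inr hm0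
    · left
      have h2 := bm_nur_lower (hd i0) ht0 hR hA hAR
      rw [← ofReal_integral_eq_lintegral_ofReal (hbi i0)
        (.of_forall fun p => bm_nonneg (hd i0).nn p), ← ENNReal.ofReal_mul (by positivity),
        ENNReal.ofReal_le_ofReal_iff (integral_nonneg fun p => bm_nonneg (hd i0).nn p)] at h2
      refine le_trans ?_ h2
      have h3 : 4 * t0 ^ 4 ≤ 4 * Real.pi / 3 * t0 ^ 4 := by
        have : 0 < t0 ^ 4 := by positivity
        nlinarith only [hpi, this]
      calc 4 * t0 ^ 4 * m ≤ 4 * Real.pi / 3 * t0 ^ 4 * m := by (clear * - h3 hm0; gcongr)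
        _ ≤ _ := by (clear * - hm ht0; gcongr)
  have hup : ∀ i, i ≠ i0 → ∫ p, bm (d i) p ∂(nur t0 Rs) ≤
      32 * Real.pi / 3 * t0 ^ 4 * ∫ x in N i, d i x := by
    intro i hi
    have h2 := bm_nur_upper (hd i) ht0 hR (hN i) (hNR i hi)
    have h3 : 0 ≤ ∫ x in N i, d i x := integral_nonneg (hd i).nn
    rw [← ofReal_integral_eq_lintegral_ofReal (hbi i)
        (.of_forall fun p => bm_nonneg (hd i).nn p), ← ENNReal.ofReal_mul (by positivity),
        ENNReal.ofReal_le_ofReal_iff (by (clear * - ht0 h3; positivity))] at h2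
    exact h2
  have hδ0 : 0 ≤ δ := le_trans (Finset.sum_nonneg fun i _ => integral_nonneg (hd i).nn) hδ
  have hm0 : 0 < m := by linarith only [hc, hmc, hδ0]
  have hlow' : 4 * Real.pi / 3 * t0 ^ 4 * m ≤ ∫ p, bm (d i0) p ∂(nur t0 Rs) := by
    have h2 := bm_nur_lower (hd i0) ht0 hR hA hAR
    rw [← ofReal_integral_eq_lintegral_ofReal (hbi i0)
      (.of_forall fun p => bm_nonneg (hd i0).nn p), ← ENNReal.ofReal_mul (by positivity),
      ENNReal.ofReal_le_ofReal_iff (integral_nonneg fun p => bm_nonneg (hd i0).nn p)] at h2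
    refine le_trans ?_ h2
    (clear * - hm ht0; gcongr)
  have hsum : ∑ i ∈ Finset.univ.erase i0, ∫ p, bm (d i) p ∂(nur t0 Rs) ≤
      32 * Real.pi / 3 * t0 ^ 4 * δ := by
    calc ∑ i ∈ Finset.univ.erase i0, ∫ p, bm (d i) p ∂(nur t0 Rs)
        ≤ ∑ i ∈ Finset.univ.erase i0, 32 * Real.pi / 3 * t0 ^ 4 * ∫ x in N i, d i x :=
          Finset.sum_le_sum fun i hi => hup i (Finset.ne_of_mem_erase hi)
      _ = 32 * Real.pi / 3 * t0 ^ 4 * ∑ i ∈ Finset.univ.erase i0, ∫ x in N i, d i x := by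
          rw [Finset.mul_sum]
      _ ≤ _ := by (clear * - hδ ht0; gcongr)
  have heval : ∫ p, 1 / (32 * t0 ^ 5) * (2 * lam * (bm (d i0) p -
      ∑ i ∈ Finset.univ.erase i0, bm (d i) p) - lam ^ 2) ∂(nur t0 Rs) =
      1 / (32 * t0 ^ 5) * (2 * lam * ((∫ p, bm (d i0) p ∂(nur t0 Rs)) -
      ∑ i ∈ Finset.univ.erase i0, ∫ p, bm (d i) p ∂(nur t0 Rs)) -
        lam ^ 2 * (nur t0 Rs).real univ) := by
    have j1 : Integrable (fun p => ∑ i ∈ Finset.univ.erase i0, bm (d i) p) (nur t0 Rs) :=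
      integrable_finsetSum _ fun i _ => hbi i
    have j2 : Integrable (fun p => bm (d i0) p - ∑ i ∈ Finset.univ.erase i0, bm (d i) p)
        (nur t0 Rs) := (hbi i0).sub j1
    rw [integral_const_mul, integral_sub (j2.const_mul _) (integrable_const _),
      integral_const_mul, integral_sub (hbi i0) j1, integral_finsetSum _ fun i _ => hbi i,
      integral_const, smul_eq_mul, mul_comm ((nur t0 Rs).real univ)]
  rw [heval]
  have hfinal : 4 * t0 ^ 4 * c ≤ (∫ p, bm (d i0) p ∂(nur t0 Rs)) -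
      ∑ i ∈ Finset.univ.erase i0, ∫ p, bm (d i) p ∂(nur t0 Rs) := by
    have h4 : 0 < t0 ^ 4 := by positivity
    have h5 : 4 * Real.pi / 3 * t0 ^ 4 * c ≤ 4 * Real.pi / 3 * t0 ^ 4 * (m - 8 * δ) := by (clear * - hmc ht0; gcongr)
    have h6 : 4 * t0 ^ 4 * c ≤ 4 * Real.pi / 3 * t0 ^ 4 * c := by
      have : 0 < t0 ^ 4 * c := by (clear * - ht0 hc; positivity)
      nlinarith only [hpi, this]
    linarith only [hlow', hsum, h5, h6]
  calc c ^ 2 * t0 ^ 2 / (2 * V)
      = 1 / (32 * t0 ^ 5) * (2 * lam * (4 * t0 ^ 4 * c) - lam ^ 2 * (t0 * V)) := by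
        rw [hlam]
        field_simp
        ring
    _ ≤ _ := by
        (clear * - hfinal ht0 hc hV hreal; gcongr)

end Vale.Agent.P370.GC
end
end

section

section

/-!
Volume of the region of centres, mass of the core.
-/

namespace Vale.Agent.P370.Q

open MeasureTheory Set Metric Module
open scoped ENNReal

theorem nu_zrot (α : ℝ) (x : R3) : GC.nu α x = zrot (-α) x 1 := by
  rw [zrot_apply]
  simp only [GC.nu, Fin.isValue, neg_mul, zrotL, Real.cos_neg, Real.sin_neg, sub_neg_eq_add, LinearMap.coe_mk, AddHom.coe_mk, Matrix.cons_val_one, Matrix.cons_val_zero]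

theorem volume_box (a b : ℝ) (ha : 0 ≤ a) (hb : 0 ≤ b) :
    volume {z : R3 | |z 0| ≤ b ∧ |z 1| ≤ a ∧ |z 2| ≤ b} = ENNReal.ofReal (8 * a * b ^ 2) := by
  have e : {z : R3 | |z 0| ≤ b ∧ |z 1| ≤ a ∧ |z 2| ≤ b} =
      (WithLp.ofLp) ⁻¹' (Icc (![-b, -a, -b] : Fin 3 → ℝ) ![b, a, b]) := by
    ext z
    simp only [abs_le, mem_setOf_eq, mem_preimage, mem_Icc, Pi.le_def, Fin.forall_fin_succ]
    simp only [Fin.isValue, Matrix.cons_val_zero, Nat.succ_eq_add_one, Nat.reduceAdd, Fin.succ_zero_eq_one, Matrix.cons_val_one, Fin.succ_one_eq_two, Matrix.cons_val, Matrix.cons_val_succ, Matrix.cons_val_fin_one, IsEmpty.forall_iff, and_true]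
    (clear * -; tauto)
  rw [e, (PiLp.volume_preserving_ofLp (Fin 3)).measure_preimage measurableSet_Icc.nullMeasurableSet,
    Real.volume_Icc_pi, Fin.prod_univ_three]
  simp only [Matrix.cons_val_zero, Matrix.cons_val_one, Matrix.cons_val]
  rw [← ENNReal.ofReal_mul (by linarith only [hb]), ← ENNReal.ofReal_mul (by nlinarith only [ha, hb])]
  congr 1
  ring

theorem volume_rgR (α : ℝ) {T t0 : ℝ} (hT : 0 ≤ T) (ht0 : 0 ≤ t0) :
    volume (GC.rgR α T t0) ≤ ENNReal.ofReal (1944 * t0 * T ^ 2) := by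
  have h1 : GC.rgR α T t0 ⊆ (zrot (-α)) ⁻¹'
      {z : R3 | |z 0| ≤ 9 * T ∧ |z 1| ≤ 3 * t0 ∧ |z 2| ≤ 9 * T} := by
    intro z hz
    obtain ⟨h1, h2, h3⟩ := hz
    have h4 : ‖zrot (-α) z‖ = ‖z‖ := LinearIsometryEquiv.norm_map _ _
    have h5 : ∀ i, |zrot (-α) z i| ≤ 9 * T := fun i => by
      have := EuclideanSpace.norm_eq (zrot (-α) z)
      have h6 : |zrot (-α) z i| ≤ ‖zrot (-α) z‖ := by
        have := PiLp.norm_apply_le (zrot (-α) z) i
        simpa only [norm_map, ge_iff_le, Real.norm_eq_abs] using this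
      linarith only [h3, h4, h6]
    refine ⟨h5 0, ?_, h5 2⟩
    rw [← nu_zrot]
    exact h1
  refine (measure_mono h1).trans ?_
  rw [(zrot (-α)).measurePreserving.measure_preimage_emb
    (zrot (-α)).toHomeomorph.measurableEmbedding, volume_box _ _ (by linarith only [ht0]) (by linarith only [hT])]
  apply le_of_eq
  congr 1
  ring

end Vale.Agent.P370.Q
end
end

section

section

/-!
Mass of the core.
-/

namespace Vale.Agent.P370.Q

open MeasureTheory Set Metric Module
open scoped ENNReal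

/-- density of the site orbital -/
noncomputable def den (n : ℕ) (α : ℝ) : R3 → ℝ := fun x => fh n α x * fh n α x

theorem den_nonneg (n : ℕ) (α : ℝ) (x : R3) : 0 ≤ den n α x := mul_self_nonneg _

theorem den_dens (n : ℕ) (hn : 2 ≤ n) (α : ℝ) : GC.Dens (den n α) where
  meas := ((continuous_fh n α).mul (continuous_fh n α)).measurable
  int := integrable_fh_mul n hn α α
  nn := den_nonneg n α

theorem integral_den (n : ℕ) (hn : 2 ≤ n) (α : ℝ) : ∫ x, den n α x = 1 := ov_fh_self n hn α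

theorem den_le (n : ℕ) (hn : 1 ≤ n) (α : ℝ) (x : R3) :
    den n α x ≤ 2 * (GC.wd (n - 1) α x / GC.wm (n - 1)) := by
  have h := fh_sq_le n hn α x
  rw [rho0_eq n hn] at h
  unfold den
  rw [← sq]
  exact h

theorem den_set_le (n : ℕ) (hn : 2 ≤ n) (α : ℝ) {S : Set R3} (hS : MeasurableSet S) {e : ℝ}
    (he : ∫ x in S, GC.wd (n - 1) α x ≤ GC.wm (n - 1) * e) : ∫ x in S, den n α x ≤ 2 * e := by
  have hw := GC.wm_pos (n - 1)
  calc ∫ x in S, den n α x ≤ ∫ x in S, 2 * (GC.wd (n - 1) α x / GC.wm (n - 1)) := by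
        refine setIntegral_mono_on (den_dens n hn α).int.integrableOn
          (((GC.integrable_wd (n - 1) α).div_const _).const_mul 2).integrableOn hS fun x _ => ?_
        exact den_le n (by omega) α x
    _ = 2 * ((∫ x in S, GC.wd (n - 1) α x) / GC.wm (n - 1)) := by
        rw [integral_const_mul, integral_div]
    _ ≤ 2 * e := by
        rw [mul_le_mul_iff_right₀ (by norm_num), div_le_iff₀ hw, mul_comm e]
        exact he

theorem fr_rot (l : ℕ) (hl : 1 ≤ l) (α : ℝ) (k : ℕ) (x : R3) :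
    GC.fr l α (GC.rot α (Real.pi * k / l) x) = (-1) ^ k * GC.fr l α x := by
  have hl0 : (l : ℝ) ≠ 0 := by positivity
  unfold GC.fr
  rw [GC.rot_apply, GC.lf_rotL, mul_pow, ← Complex.exp_nat_mul]
  have e : (l : ℂ) * (((Real.pi * k / l : ℝ) : ℂ) * Complex.I) = (k : ℂ) * (Real.pi * Complex.I) := by
    have hl1 : (l : ℂ) ≠ 0 := by exact_mod_cast hl0
    push_cast
    field_simp
  rw [e, Complex.exp_nat_mul, Complex.exp_pi_mul_I]
  have e2 : ((-1 : ℂ)) ^ k = (((-1 : ℝ) ^ k : ℝ) : ℂ) := by push_cast; rfl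
  rw [e2, Complex.re_ofReal_mul]

theorem den_rot (n : ℕ) (hn : 2 ≤ n) (α : ℝ) (k : ℕ) (x : R3) :
    den n α (GC.rot α (Real.pi * k / ((n - 1 : ℕ) : ℝ)) x) = den n α x := by
  unfold den fh
  rw [fsite_eq, fsite_eq, fr_rot (n - 1) (by omega), LinearIsometryEquiv.norm_map]
  have h : ((-1 : ℝ) ^ k) * (-1) ^ k = 1 := by
    rw [← mul_pow]
    norm_num
  have e : ∀ a b c : ℝ, (-1 : ℝ) ^ k * a * b / c * ((-1) ^ k * a * b / c) =
      ((-1) ^ k * (-1) ^ k) * (a * b / c * (a * b / c)) := by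
    intros
    ring
  rw [e, h, one_mul]

theorem den_preimage (n : ℕ) (hn : 2 ≤ n) (α : ℝ) (k : ℕ) (S : Set R3) (hS : MeasurableSet S) :
    ∫ x in (GC.rot α (Real.pi * k / ((n - 1 : ℕ) : ℝ))) ⁻¹' S, den n α x =
      ∫ x in S, den n α x := by
  have h := (GC.rot α (Real.pi * k / ((n - 1 : ℕ) : ℝ))).measurePreserving.setIntegral_preimage_emb
    (GC.rot α (Real.pi * k / ((n - 1 : ℕ) : ℝ))).toHomeomorph.measurableEmbedding (den n α) S
  rw [← h]
  refine setIntegral_congr_fun ?_ fun x _ => ?_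
  · exact (GC.rot α (Real.pi * k / ((n - 1 : ℕ) : ℝ))).continuous.measurable hS
  · exact (den_rot n hn α k x).symm

theorem angle_bounds (l : ℕ) (hl : 999 ≤ l) :
    9 / 10 ≤ Real.sin (Real.pi * ((l / 2 : ℕ) : ℝ) / l) ∧
      |Real.cos (Real.pi * ((l / 2 : ℕ) : ℝ) / l)| ≤ 1 / 10 := by
  have hl1 : (999 : ℝ) ≤ l := by exact_mod_cast hl
  have hpi := Real.pi_pos
  have hpi3 := Real.pi_gt_three
  have hpi4 := Real.pi_lt_d2
  obtain ⟨k, hk⟩ : ∃ k, k = l / 2 := ⟨_, rfl⟩
  rw [← hk]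
  have hk1 : (k : ℝ) ≤ l / 2 := by
    rw [hk]
    exact_mod_cast Nat.cast_div_le
  have hk2 : (l : ℝ) / 2 - 1 / 2 ≤ k := by
    have : l ≤ 2 * k + 1 := by (clear * - hk; omega)
    have : (l : ℝ) ≤ 2 * k + 1 := by exact_mod_cast this
    linarith only [this]
  have hl0 : (0 : ℝ) < l := by linarith only [hl1]
  obtain ⟨ε, hε⟩ : ∃ ε, ε = Real.pi / 2 - Real.pi * (k : ℝ) / l := ⟨_, rfl⟩
  have hφ : Real.pi * (k : ℝ) / l = Real.pi / 2 - ε := by rw [hε]; ring
  have he0 : 0 ≤ ε := by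
    rw [hε, sub_nonneg, div_le_iff₀ hl0]
    have := mul_le_mul_of_nonneg_left hk1 hpi.le
    linarith only [this]
  have he1 : ε ≤ 1 / 100 := by
    have h4 : Real.pi * (l / 2 - 1 / 2) / l ≤ Real.pi * (k : ℝ) / l := by gcongr
    have h5 : Real.pi / 2 - Real.pi * (l / 2 - 1 / 2) / l = Real.pi / (2 * l) := by
      field_simp
      ring
    have h6 : Real.pi / (2 * l) ≤ 1 / 100 := by
      rw [div_le_div_iff₀ (by positivity) (by norm_num)]
      linarith only [hl1, hpi4]
    linarith only [hε, h4, h5, h6]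
  rw [hφ]
  constructor
  · rw [Real.sin_pi_div_two_sub]
    have := Real.one_sub_sq_div_two_le_cos (x := ε)
    linarith only [mul_nonneg_of_nonpos_of_nonpos (Mathlib.Tactic.Linarith.sub_nonpos_of_le he1) (Mathlib.Tactic.Linarith.sub_nonpos_of_le he0), this, he1]
  · rw [Real.cos_pi_div_two_sub]
    have h7 := Real.sin_le he0
    have h8 : 0 ≤ Real.sin ε := Real.sin_nonneg_of_nonneg_of_le_pi he0 (by linarith only [hpi3, he1])
    rw [abs_of_nonneg h8]
    linarith only [he1, h7]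

theorem cover_rot (α φ : ℝ) {T : ℝ} (hT0 : 0 < T) (hsin : 9 / 10 ≤ Real.sin φ)
    (hcos : |Real.cos φ| ≤ 1 / 10) (x : R3) (h1 : 2 * T / 3 < ‖GC.lf (GC.av α) x‖)
    (h2 : |GC.ta α x| < T / 4) : T / 4 ≤ |GC.ta α (GC.rot α φ x)| := by
  have h4 : GC.ta α (GC.rot α φ x) = Real.sin φ * x 2 + Real.cos φ * GC.ta α x := by
    rw [GC.rot_apply, GC.ta_rotL]
  have h5 := GC.normSq_lf_av' α x
  have h6 : (T / 2) ^ 2 < x 2 ^ 2 := by
    have h7 : (2 * T / 3) ^ 2 < ‖GC.lf (GC.av α) x‖ ^ 2 :=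
      pow_lt_pow_left₀ h1 (by positivity) two_ne_zero
    have h8 : GC.ta α x ^ 2 < (T / 4) ^ 2 := sq_lt_sq' (by linarith only [(abs_lt.1 h2).1])
      (abs_lt.1 h2).2
    linarith only [h8, h7, h5, sq_nonneg (Vale.Agent.P370.GC.ta α x)]
  have h7 : T / 2 < |x 2| := by
    rw [← sq_abs (x 2)] at h6
    exact lt_of_pow_lt_pow_left₀ 2 (abs_nonneg _) h6
  have h8 : |Real.sin φ * x 2| - |Real.cos φ * GC.ta α x| ≤ |GC.ta α (GC.rot α φ x)| := by
    rw [h4]
    have := abs_sub_abs_le_abs_sub (Real.sin φ * x 2) (-(Real.cos φ * GC.ta α x))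
    rwa [abs_neg, sub_neg_eq_add] at this
  have h9 : 9 / 10 * (T / 2) ≤ |Real.sin φ * x 2| := by
    rw [abs_mul]
    have h10 : 9 / 10 ≤ |Real.sin φ| := hsin.trans (le_abs_self _)
    exact mul_le_mul h10 h7.le (by positivity) (abs_nonneg _)
  have h10 : |Real.cos φ * GC.ta α x| ≤ 1 / 10 * (T / 4) := by
    rw [abs_mul]
    exact mul_le_mul hcos h2.le (abs_nonneg _) (by norm_num)
  linarith only [hT0, h8, h9, h10]

/-- half of the mass lies away from the axis -/
theorem mass_G (n : ℕ) (hn : 1000 ≤ n) (α : ℝ) :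
    (1 - 30 / (n : ℝ)) / 2 ≤ ∫ x in {x : R3 | (n : ℝ) ^ 2 / 4 ≤ |GC.ta α x|}, den n α x := by
  obtain ⟨l, rfl⟩ : ∃ l, n = l + 1 := ⟨n - 1, by omega⟩
  have hl : 999 ≤ l := by omega
  have hcast : ((l + 1 : ℕ) : ℝ) = (l : ℝ) + 1 := by push_cast; ring
  rw [hcast]
  obtain ⟨T, hT⟩ : ∃ T : ℝ, T = ((l : ℝ) + 1) ^ 2 := ⟨_, rfl⟩
  have hT0 : 0 < T := by rw [hT]; positivity
  rw [← hT]
  obtain ⟨G, hG⟩ : ∃ G : Set R3, G = {x : R3 | T / 4 ≤ |GC.ta α x|} := ⟨_, rfl⟩
  rw [← hG]
  have hGm : MeasurableSet G := by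
    rw [hG]
    exact measurableSet_le measurable_const (GC.continuous_ta α).measurable.abs
  obtain ⟨a1, a2⟩ := angle_bounds l hl
  obtain ⟨φ, hφ⟩ : ∃ φ, φ = Real.pi * ((l / 2 : ℕ) : ℝ) / l := ⟨_, rfl⟩
  rw [← hφ] at a1 a2
  have hpre : ∫ x in (GC.rot α φ) ⁻¹' G, den (l + 1) α x = ∫ x in G, den (l + 1) α x := by
    have := den_preimage (l + 1) (by omega) α (l / 2) G hGm
    rw [Nat.add_sub_cancel, ← hφ] at this
    exact this
  obtain ⟨S, hS⟩ : ∃ S : Set R3, S = {x : R3 | ‖GC.lf (GC.av α) x‖ ≤ 2 * T / 3} := ⟨_, rfl⟩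
  have hSm : MeasurableSet S := by
    rw [hS]
    exact measurableSet_le (by (clear * -; fun_prop)) measurable_const
  have hSmass : ∫ x in S, den (l + 1) α x ≤ 2 * (15 / ((l : ℝ) + 1)) := by
    rw [hS, hT]
    refine den_set_le (l + 1) (by omega) α ?_ (GC.mass_small_s l (by omega) α)
    exact measurableSet_le (by (clear * -; fun_prop)) measurable_const
  have hd := den_dens (l + 1) (by omega) α
  have hRm : MeasurableSet ((GC.rot α φ) ⁻¹' G) := (GC.rot α φ).continuous.measurable hGm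
  have i1 : Integrable (S.indicator (den (l + 1) α)) := hd.int.indicator hSm
  have i2 : Integrable (G.indicator (den (l + 1) α)) := hd.int.indicator hGm
  have i3 : Integrable (((GC.rot α φ) ⁻¹' G).indicator (den (l + 1) α)) := hd.int.indicator hRm
  have key : ∀ x, den (l + 1) α x ≤ S.indicator (den (l + 1) α) x +
      (G.indicator (den (l + 1) α) x + ((GC.rot α φ) ⁻¹' G).indicator (den (l + 1) α) x) := by
    intro x
    have n1 : ∀ A : Set R3, 0 ≤ A.indicator (den (l + 1) α) x := fun A =>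
      indicator_nonneg (fun y _ => hd.nn y) x
    by_cases h1 : x ∈ S
    · have := indicator_of_mem h1 (den (l + 1) α)
      linarith only [this, n1 G, n1 ((GC.rot α φ) ⁻¹' G)]
    by_cases h2 : x ∈ G
    · have := indicator_of_mem h2 (den (l + 1) α)
      linarith only [this, n1 S, n1 ((GC.rot α φ) ⁻¹' G)]
    have h3 : x ∈ (GC.rot α φ) ⁻¹' G := by
      rw [hS] at h1
      rw [hG] at h2
      rw [hG]
      exact cover_rot α φ hT0 a1 a2 x (lt_of_not_ge h1) (lt_of_not_ge h2)
    have := indicator_of_mem h3 (den (l + 1) α)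
    linarith only [this, n1 S, n1 G]
  have htot : (1 : ℝ) ≤ (∫ x in S, den (l + 1) α x) + ((∫ x in G, den (l + 1) α x) +
      ∫ x in (GC.rot α φ) ⁻¹' G, den (l + 1) α x) := by
    have h1 := integral_mono hd.int (i1.add (i2.add i3)) key
    have h2 : ∫ x, (S.indicator (den (l + 1) α) x +
      (G.indicator (den (l + 1) α) x + ((GC.rot α φ) ⁻¹' G).indicator (den (l + 1) α) x)) =
        (∫ x in S, den (l + 1) α x) + ((∫ x in G, den (l + 1) α x) +
      ∫ x in (GC.rot α φ) ⁻¹' G, den (l + 1) α x) := by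
      have i23 : Integrable (fun x => G.indicator (den (l + 1) α) x +
          ((GC.rot α φ) ⁻¹' G).indicator (den (l + 1) α) x) := i2.add i3
      rw [integral_add i1 i23, integral_add i2 i3, integral_indicator hSm, integral_indicator hGm,
        integral_indicator hRm]
    rw [integral_den _ (by omega)] at h1
    exact h1.trans_eq h2
  rw [hpre] at htot
  have e : (30 : ℝ) / ((l : ℝ) + 1) = 2 * (15 / ((l : ℝ) + 1)) := by ring
  rw [e]
  linarith only [hSmass, htot]

end Vale.Agent.P370.Q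
end
end

section

section

/-!
Strict positivity of the direct Coulomb matrix.
-/

namespace Vale.Agent.P370.Q

open MeasureTheory Finset ComplexConjugate

theorem setInt_cover {d : R3 → ℝ} (hd : GC.Dens d) {G A B C : Set R3} (hG : MeasurableSet G)
    (hA : MeasurableSet A) (hB : MeasurableSet B) (hC : MeasurableSet C)
    (h : ∀ x ∈ G, x ∈ A ∨ x ∈ B ∨ x ∈ C) :
    ∫ x in G, d x ≤ (∫ x in A, d x) + ((∫ x in B, d x) + ∫ x in C, d x) := by
  have i0 : Integrable (G.indicator d) := hd.int.indicator hG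
  have i1 : Integrable (A.indicator d) := hd.int.indicator hA
  have i2 : Integrable (B.indicator d) := hd.int.indicator hB
  have i3 : Integrable (C.indicator d) := hd.int.indicator hC
  have i23 : Integrable (fun x => B.indicator d x + C.indicator d x) := i2.add i3
  have i123 : Integrable (fun x => A.indicator d x + (B.indicator d x + C.indicator d x)) :=
    i1.add i23
  rw [← integral_indicator hG, ← integral_indicator hA, ← integral_indicator hB,
    ← integral_indicator hC, ← integral_add i2 i3, ← integral_add i1 i23]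
  refine integral_mono i0 i123 fun x => ?_
  have n1 : ∀ S : Set R3, 0 ≤ S.indicator d x := fun S =>
    Set.indicator_nonneg (fun y _ => hd.nn y) x
  by_cases hx : x ∈ G
  · rw [Set.indicator_of_mem hx]
    rcases h x hx with h | h | h
    · have := Set.indicator_of_mem h d
      linarith only [this, n1 B, n1 C]
    · have := Set.indicator_of_mem h d
      linarith [n1 A, n1 C]
    · have := Set.indicator_of_mem h d
      linarith only [this, n1 A, n1 B]
  · rw [Set.indicator_of_notMem hx]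
    linarith [n1 A, n1 B, n1 C]

theorem large_n {n K : ℕ} (hK : 2 ≤ K) (hn : 2 ^ 30 * K ^ 4 ≤ n) :
    1000 ≤ n ∧ (2 : ℝ) ^ 30 * (K : ℝ) ^ 4 ≤ n ∧ (2 : ℝ) ≤ K := by
  refine ⟨?_, by exact_mod_cast hn, by exact_mod_cast hK⟩
  have : 1 ≤ K ^ 4 := Nat.one_le_pow _ _ (by omega)
  linarith only [hn, this]

theorem mass_core (n K : ℕ) (hK : 2 ≤ K) (hn : 2 ^ 30 * K ^ 4 ≤ n) (α : ℝ) :
    2 / 5 ≤ ∫ x in GC.rgA α ((n : ℝ) ^ 2) ((n : ℝ) ^ 2 / (64 * K)), den n α x := by
  obtain ⟨hn1, hn2, hK2⟩ := large_n hK hn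
  have hn0 : (0 : ℝ) < n := by (clear * - hn1; positivity)
  have hK0 : (0 : ℝ) < K := by linarith only [hK2]
  have hd := den_dens n (by omega) α
  have hcast : ((n - 1 : ℕ) : ℝ) + 1 = n := by
    rw [Nat.cast_sub (by omega)]
    simp only [Nat.cast_one, sub_add_cancel]
  have m1 : MeasurableSet {x : R3 | 1 / (64 * (K : ℝ)) * (n : ℝ) ^ 2 ≤ |GC.nu α x|} :=
    measurableSet_le measurable_const (GC.continuous_nu α).measurable.abs
  have m2 : MeasurableSet {x : R3 | 8 * (n : ℝ) ^ 2 ≤ ‖x‖} :=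
    measurableSet_le measurable_const measurable_norm
  have m3 : MeasurableSet {x : R3 | (n : ℝ) ^ 2 / 4 ≤ |GC.ta α x|} :=
    measurableSet_le measurable_const (GC.continuous_ta α).measurable.abs
  have h1 := GC.mass_large_nu (n - 1) α (θ := 1 / (64 * (K : ℝ))) (by positivity)
  have h2 := GC.mass_large_norm (n - 1) α (M := 8) (by norm_num)
  rw [hcast] at h1 h2
  have h1' := den_set_le n (by omega) α m1 h1
  have h2' := den_set_le n (by omega) α m2 h2
  have h3 := mass_G n hn1 α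
  have h4 := setInt_cover hd m3 (GC.measurableSet_rgA α ((n : ℝ) ^ 2) ((n : ℝ) ^ 2 / (64 * K)))
    m1 m2 (fun x hx => by
      by_cases a1 : |GC.nu α x| ≤ (n : ℝ) ^ 2 / (64 * K)
      · by_cases a2 : ‖x‖ ≤ 8 * (n : ℝ) ^ 2
        · exact Or.inl ⟨a1, hx, a2⟩
        · exact Or.inr (Or.inr (not_le.1 a2).le)
      · refine Or.inr (Or.inl ?_)
        show 1 / (64 * (K : ℝ)) * (n : ℝ) ^ 2 ≤ |GC.nu α x|
        rw [one_div_mul_eq_div]
        exact (not_le.1 a1).le)
  have e1 : 2 * (1 / ((1 / (64 * (K : ℝ))) ^ 2 * (n : ℝ))) ≤ 1 / 1000 := by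
    have : 2 * (1 / ((1 / (64 * (K : ℝ))) ^ 2 * (n : ℝ))) = 8192 * K ^ 2 / n := by
      field_simp
      norm_num
    rw [this, div_le_div_iff₀ hn0 (by norm_num)]
    have : (K : ℝ) ^ 2 ≤ K ^ 4 := pow_le_pow_right₀ (by linarith only [hK2]) (by norm_num)
    linarith only [hn2, this]
  have e2 : (30 : ℝ) / n ≤ 1 / 1000 := by
    rw [div_le_div_iff₀ hn0 (by norm_num)]
    have : (1 : ℝ) ≤ K ^ 4 := one_le_pow₀ (by linarith only [hK2])
    linarith only [hn2, this]
  linarith only [h1', h2', h3, h4, e1, e2]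

theorem mass_far (n K : ℕ) (hK : 2 ≤ K) (hn : 2 ^ 30 * K ^ 4 ≤ n) (α : ℝ) :
    ∫ x in {x : R3 | (n : ℝ) ^ 2 / (8 * K) ≤ |GC.nu α x|}, den n α x ≤
      128 * (K : ℝ) ^ 2 / n := by
  obtain ⟨hn1, hn2, hK2⟩ := large_n hK hn
  have hn0 : (0 : ℝ) < n := by (clear * - hn1; positivity)
  have hK0 : (0 : ℝ) < K := by linarith only [hK2]
  have hcast : ((n - 1 : ℕ) : ℝ) + 1 = n := by
    rw [Nat.cast_sub (by omega)]
    simp only [Nat.cast_one, sub_add_cancel]
  have h1 := GC.mass_large_nu (n - 1) α (θ := 1 / (8 * (K : ℝ))) (by positivity)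
  rw [hcast, one_div_mul_eq_div] at h1
  have m1 : MeasurableSet {x : R3 | (n : ℝ) ^ 2 / (8 * K) ≤ |GC.nu α x|} :=
    measurableSet_le measurable_const (GC.continuous_nu α).measurable.abs
  refine (den_set_le n (by omega) α m1 h1).trans_eq ?_
  field_simp
  norm_num

theorem cw_den (n : ℕ) (hn : 2 ≤ n) (α β : ℝ) : GC.cw (den n α) (den n β) = wdir n (α - β) := by
  rw [← wdir_eq n hn α β]
  rfl

theorem wdir_pd (n K : ℕ) (hK : 2 ≤ K) (hn : 2 ^ 30 * K ^ 4 ≤ n) (x : Fin K → ℤ)
    (hx : ∀ i, |x i| ≤ 1) (hx0 : x ≠ 0) :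
    1 / (2 ^ 30 * (K : ℝ) ^ 2 * (n : ℝ) ^ 2) ≤
      ∑ i, ∑ j, (x i : ℝ) * (x j : ℝ) *
        wdir n (Real.pi * (i : ℕ) / K - Real.pi * (j : ℕ) / K) := by
  obtain ⟨hn1, hn2, hK2⟩ := large_n hK hn
  have hn0 : (0 : ℝ) < n := by (clear * - hn1; positivity)
  have hK0 : (0 : ℝ) < K := by linarith only [hK2]
  have hn2' : 2 ≤ n := by omega
  obtain ⟨i0, hi0⟩ : ∃ i, x i ≠ 0 := Function.ne_iff.1 hx0
  have hv0 : |(x i0 : ℝ)| = 1 := by
    have h1 : |x i0| = 1 := le_antisymm (hx i0) (Int.one_le_abs hi0)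
    exact_mod_cast h1
  have hv : ∀ i, |(x i : ℝ)| ≤ 1 := fun i => by exact_mod_cast hx i
  set al : Fin K → ℝ := fun i => Real.pi * (i : ℕ) / K with hal
  have ht0 : 0 < (n : ℝ) ^ 2 / (64 * K) := by positivity
  have hT : (0 : ℝ) ≤ (n : ℝ) ^ 2 := by positivity
  have hsmall : 2 * ((n : ℝ) ^ 2 / (64 * K)) ≤ (n : ℝ) ^ 2 / 8 := by
    rw [← mul_div_assoc, div_le_div_iff₀ (by positivity) (by norm_num)]
    nlinarith only [hK2]
  have hmain := GC.pd_abstract (d := fun i : Fin K => den n (al i))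
    (fun i => den_dens n hn2' (al i)) (fun i => integral_den n hn2' (al i))
    (fun i j => integrable_coul_fh n hn2' (al i) (al i) (al j) (al j))
    (fun i => (x i : ℝ)) i0 hv0 hv ht0
    (GC.measurableSet_rgR (al i0) ((n : ℝ) ^ 2) ((n : ℝ) ^ 2 / (64 * K)))
    (GC.measurableSet_rgA (al i0) ((n : ℝ) ^ 2) ((n : ℝ) ^ 2 / (64 * K)))
    (N := fun i => {x : R3 | (n : ℝ) ^ 2 / (8 * K) ≤ |GC.nu (al i) x|})
    (fun i => measurableSet_le measurable_const (GC.continuous_nu (al i)).measurable.abs)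
    (fun y hy z hz => GC.rgA_rgR (al i0) hsmall hT hy hz)
    (fun i hi z hz y hy => by
      refine GC.rgR_far (al i0) (al i) hK0 rfl hT ?_ hz hy
      have h := GC.abs_sin_pi_mul_ge i0.2 i.2 (fun h => hi (Fin.ext h.symm))
      have e : (2 * Real.pi * (i0 : ℕ) / K - 2 * Real.pi * (i : ℕ) / K) / 2 =
          al i0 - al i := by
        simp only [hal]
        ring
      rwa [e] at h)
    (V := 1944 * ((n : ℝ) ^ 2 / (64 * K)) * ((n : ℝ) ^ 2) ^ 2) (by positivity)
    (volume_rgR (al i0) hT ht0.le)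
    (m := 2 / 5) (δ := 1 / 1000) (c := 3 / 8) (mass_core n K hK hn (al i0))
    (by
      calc ∑ i ∈ Finset.univ.erase i0,
          ∫ x in {x : R3 | (n : ℝ) ^ 2 / (8 * K) ≤ |GC.nu (al i) x|}, den n (al i) x
          ≤ ∑ i ∈ Finset.univ.erase i0, 128 * (K : ℝ) ^ 2 / n :=
            Finset.sum_le_sum fun i _ => mass_far n K hK hn (al i)
        _ ≤ ∑ _i : Fin K, 128 * (K : ℝ) ^ 2 / n :=
            Finset.sum_le_sum_of_subset_of_nonneg (Finset.erase_subset _ _)
              fun _ _ _ => by positivity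
        _ = 128 * (K : ℝ) ^ 3 / n := by
            rw [Finset.sum_const, Finset.card_univ, Fintype.card_fin, nsmul_eq_mul]
            ring
        _ ≤ 1 / 1000 := by
            rw [div_le_div_iff₀ hn0 (by norm_num)]
            have : (K : ℝ) ^ 3 ≤ K ^ 4 := pow_le_pow_right₀ (by linarith only [hK2]) (by norm_num)
            linarith only [hn2, this])
    (by norm_num) (by norm_num)
  simp only [cw_den n hn2'] at hmain
  set S := ∑ i, ∑ j, (x i : ℝ) * (x j : ℝ) * wdir n (al i - al j) with hS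
  have hkap : GC.kap.toReal ≤ 9 := by
    have h1 : GC.kap.toReal ≤ 8 * Real.pi / 3 :=
      ENNReal.toReal_le_of_le_ofReal (by positivity) GC.kap_le
    have := Real.pi_lt_d2
    linarith only [h1, this]
  have hkap0 : 0 ≤ GC.kap.toReal := ENNReal.toReal_nonneg
  have hpos : 0 < (3 / 8 : ℝ) ^ 2 * ((n : ℝ) ^ 2 / (64 * K)) ^ 2 /
      (2 * (1944 * ((n : ℝ) ^ 2 / (64 * K)) * ((n : ℝ) ^ 2) ^ 2)) := by (clear * - hn1 hK; positivity)
  have hS0 : 0 < S := by
    by_contra hneg
    have := mul_nonpos_of_nonneg_of_nonpos hkap0 (not_lt.1 hneg)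
    linarith only [hmain, hpos, this]
  have h9 : (3 / 8 : ℝ) ^ 2 * ((n : ℝ) ^ 2 / (64 * K)) ^ 2 /
      (2 * (1944 * ((n : ℝ) ^ 2 / (64 * K)) * ((n : ℝ) ^ 2) ^ 2)) ≤ 9 * S :=
    hmain.trans (mul_le_mul_of_nonneg_right hkap hS0.le)
  have h10 : (3 / 8 : ℝ) ^ 2 * ((n : ℝ) ^ 2 / (64 * K)) ^ 2 /
      (2 * (1944 * ((n : ℝ) ^ 2 / (64 * K)) * ((n : ℝ) ^ 2) ^ 2)) =
      9 / (64 * 3888 * 64) / (K * (n : ℝ) ^ 2) := by
    field_simp
    ring
  rw [h10] at h9
  have h11 : 1 / (2 ^ 30 * (K : ℝ) ^ 2 * (n : ℝ) ^ 2) ≤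
      1 / (64 * 3888 * 64) / (K * (n : ℝ) ^ 2) := by
    rw [div_div, div_le_div_iff₀ (by positivity) (by positivity), one_mul, one_mul]
    have h12 : (K : ℝ) ≤ K ^ 2 := by nlinarith only [hK2]
    calc (64 * 3888 * 64 : ℝ) * (K * (n : ℝ) ^ 2) ≤ 2 ^ 30 * (K * (n : ℝ) ^ 2) := by
          gcongr
          norm_num
      _ ≤ 2 ^ 30 * (K ^ 2 * (n : ℝ) ^ 2) := by (clear * - h12 hn1; gcongr)
      _ = _ := by ring
  refine h11.trans ?_
  have h13 : 1 / (64 * 3888 * 64) / (K * (n : ℝ) ^ 2) =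
      (9 / (64 * 3888 * 64) / (K * (n : ℝ) ^ 2)) / 9 := by
    field_simp
  rw [h13]
  linarith only [h9]

end Vale.Agent.P370.Q
end
end

section

section

/-!
Crude Coulomb bounds for shell functions (Hardy inequality).
-/

namespace Vale.Agent.P370.Q

open MeasureTheory Finset ComplexConjugate

theorem bd_shell_nice {k : ℕ} (hk : 1 ≤ k) {φ : R3 → ℝ} (hφ : IsShell k φ) : Nice φ := by
  obtain ⟨P, Q, _, _, _, rfl⟩ := hφ
  exact nice_expPoly (by positivity) P Q

theorem bd_ov_nonneg (f : R3 → ℝ) : 0 ≤ ov f f := integral_nonneg fun x => mul_self_nonneg _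

/-- gradient bound for shell functions -/
theorem shell_dir_le {k : ℕ} (hk : 1 ≤ k) {φ : R3 → ℝ} (hφ : IsShell k φ) :
    dir φ φ ≤ 4 * ov φ φ := by
  have hn := bd_shell_nice hk hφ
  have h1 := shell_form hk hφ hn
  have h2 := bd_ground hn 2
  have h3 : 0 ≤ 1 / (2 * (k : ℝ) ^ 2) * ov φ φ := mul_nonneg (by positivity) (bd_ov_nonneg φ)
  linarith

/-- Hardy inequality -/
theorem hardy_nice {f : R3 → ℝ} (hf : Nice f) (y : R3) :
    Integrable (fun x => f x ^ 2 / dist x y ^ 2) ∧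
      ∫ x, f x ^ 2 / dist x y ^ 2 ≤ 4 * dir f f := by
  have hδ : ∀ n : ℕ, (0 : ℝ) < 1 / ((n : ℝ) + 1) := fun n => by positivity
  refine fatou_real (F := fun (n : ℕ) x => f x ^ 2 * (‖x - y‖ ^ 2 /
    (‖x - y‖ ^ 2 + (1 / ((n : ℝ) + 1)) ^ 2) ^ 2)) ?_ ?_ (fun n => (bd_hardy_reg hf y (hδ n)).1)
    (fun n x => by positivity) ?_ (fun n => (bd_hardy_reg hf y (hδ n)).2)
  · exact (hf.cont.pow 2).measurable.div
      ((by fun_prop : Continuous fun x : R3 => dist x y ^ 2).measurable)
  · intro x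
    positivity
  · intro x
    by_cases hx : x = y
    · left
      rw [hx, dist_self]
      norm_num
    · right
      have hd : 0 < ‖x - y‖ := norm_pos_iff.2 (sub_ne_zero.2 hx)
      have h1 : Filter.Tendsto (fun n : ℕ => 1 / ((n : ℝ) + 1)) Filter.atTop (nhds 0) :=
        tendsto_one_div_add_atTop_nhds_zero_nat
      have h2 : Filter.Tendsto (fun δ : ℝ => f x ^ 2 * (‖x - y‖ ^ 2 / (‖x - y‖ ^ 2 + δ ^ 2) ^ 2))
          (nhds 0) (nhds (f x ^ 2 * (‖x - y‖ ^ 2 / (‖x - y‖ ^ 2 + (0:ℝ) ^ 2) ^ 2))) := by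
        have h3 : Continuous (fun δ : ℝ => f x ^ 2 *
            (‖x - y‖ ^ 2 / (‖x - y‖ ^ 2 + δ ^ 2) ^ 2)) :=
          continuous_const.mul (continuous_const.div (by fun_prop) fun δ => by positivity)
        exact h3.tendsto 0
      have h3 : f x ^ 2 / dist x y ^ 2 =
          f x ^ 2 * (‖x - y‖ ^ 2 / (‖x - y‖ ^ 2 + (0:ℝ) ^ 2) ^ 2) := by
        rw [dist_eq_norm]
        field_simp
        ring
      rw [h3]
      exact h2.comp h1

/-- Cauchy-Schwarz -/
theorem bd_cs {F G : R3 → ℝ} (hFm : AEStronglyMeasurable F) (hGm : AEStronglyMeasurable G)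
    (hF : Integrable (fun x => F x ^ 2)) (hG : Integrable (fun x => G x ^ 2)) :
    Integrable (fun x => F x * G x) ∧
      ∫ x, |F x * G x| ≤ Real.sqrt (∫ x, F x ^ 2) * Real.sqrt (∫ x, G x ^ 2) := by
  have hI : Integrable (fun x => F x * G x) := by
    refine (hF.add hG).mono' (hFm.mul hGm) (Filter.Eventually.of_forall fun x => ?_)
    rw [Real.norm_eq_abs, abs_mul]
    simp only [Pi.add_apply]
    nlinarith only [sq_abs (F x), sq_abs (G x)]
  refine ⟨hI, ?_⟩
  have hI' : Integrable (fun x => |F x * G x|) := hI.norm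
  have hA : 0 ≤ ∫ x, F x ^ 2 := integral_nonneg fun x => sq_nonneg _
  have hB : 0 ≤ ∫ x, G x ^ 2 := integral_nonneg fun x => sq_nonneg _
  have hC : 0 ≤ ∫ x, |F x * G x| := integral_nonneg fun x => abs_nonneg _
  have hq : ∀ t : ℝ, 0 ≤ (∫ x, G x ^ 2) * (t * t) + (-2 * ∫ x, |F x * G x|) * t +
      ∫ x, F x ^ 2 := by
    intro t
    have h1 : 0 ≤ ∫ x, (|F x| - t * |G x|) ^ 2 := integral_nonneg fun x => sq_nonneg _
    have h2 : ∫ x, (|F x| - t * |G x|) ^ 2 =
        (∫ x, F x ^ 2) + (-2 * t) * (∫ x, |F x * G x|) + (t * t) * ∫ x, G x ^ 2 := by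
      have e : ∀ x, (|F x| - t * |G x|) ^ 2 =
          F x ^ 2 + (-2 * t) * |F x * G x| + (t * t) * G x ^ 2 := by
        intro x
        rw [abs_mul]
        linear_combination sq_abs (F x) + t ^ 2 * sq_abs (G x)
      rw [integral_congr_ae (Filter.Eventually.of_forall e)]
      have h3 : Integrable (fun x => F x ^ 2 + (-2 * t) * |F x * G x|) :=
        hF.add (hI'.const_mul _)
      rw [integral_add h3 (hG.const_mul _), integral_add hF (hI'.const_mul _),
        integral_const_mul, integral_const_mul]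
    rw [h2] at h1
    linarith
  have hd := discrim_le_zero hq
  unfold discrim at hd
  rw [← Real.sqrt_mul hA]
  refine Real.le_sqrt_of_sq_le ?_
  linarith only [hd]

theorem bd_dist_meas (y : R3) : Measurable (fun x : R3 => dist x y) :=
  (by fun_prop : Continuous fun x : R3 => dist x y).measurable

theorem bd_div_meas {f : R3 → ℝ} (hf : Nice f) (y : R3) :
    AEStronglyMeasurable (fun x => f x / dist x y) :=
  (hf.cont.measurable.div (bd_dist_meas y)).aestronglyMeasurable

theorem bd_sq_int {f : R3 → ℝ} (hf : Nice f) : Integrable (fun x => f x ^ 2) := by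
  refine (nice_integrable_rinv hf hf).2.congr (Filter.Eventually.of_forall fun x => ?_)
  simp only
  ring

theorem bd_ov_eq (f : R3 → ℝ) : ∫ x, f x ^ 2 = ov f f := by
  unfold ov
  refine integral_congr_ae (Filter.Eventually.of_forall fun x => ?_)
  simp only
  ring

theorem bd_div_sq {f : R3 → ℝ} (hf : Nice f) (y : R3) :
    Integrable (fun x => (f x / dist x y) ^ 2) ∧
      Real.sqrt (∫ x, (f x / dist x y) ^ 2) ≤ 2 * Real.sqrt (dir f f) := by
  have h := hardy_nice hf y
  simp only [← div_pow] at h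
  refine ⟨h.1, ?_⟩
  have e : 2 * Real.sqrt (dir f f) = Real.sqrt (4 * dir f f) := by
    rw [Real.sqrt_mul (by norm_num)]
    congr 1
    rw [show (4 : ℝ) = 2 ^ 2 by norm_num, Real.sqrt_sq (by norm_num)]
  rw [e]
  exact Real.sqrt_le_sqrt h.2

theorem bd_nuc_abs {f g : R3 → ℝ} (hf : Nice f) (hg : Nice g) (y : R3) :
    Integrable (fun x => f x / dist x y * g x) ∧
      ∫ x, |f x / dist x y * g x| ≤ 2 * Real.sqrt (dir f f) * Real.sqrt (ov g g) := by
  have h := bd_cs (bd_div_meas hf y) hg.cont.aestronglyMeasurable (bd_div_sq hf y).1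
    (bd_sq_int hg)
  refine ⟨h.1, h.2.trans ?_⟩
  rw [bd_ov_eq g]
  exact mul_le_mul_of_nonneg_right (bd_div_sq hf y).2 (Real.sqrt_nonneg _)

theorem nice_integrable_nuc {f g : R3 → ℝ} (hf : Nice f) (hg : Nice g) (y : R3) :
    Integrable (fun x => f x * g x / dist x y) := by
  refine (bd_nuc_abs hf hg y).1.congr (Filter.Eventually.of_forall fun x => ?_)
  simp only
  ring

theorem bd_nuc_le {f g : R3 → ℝ} (hf : Nice f) (hg : Nice g) (y : R3) :
    |nuc y f g| ≤ 2 * Real.sqrt (dir f f) * Real.sqrt (ov g g) := by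
  unfold nuc
  rw [← Real.norm_eq_abs]
  refine (norm_integral_le_integral_norm _).trans ?_
  refine le_trans (le_of_eq ?_) (bd_nuc_abs hf hg y).2
  refine integral_congr_ae (Filter.Eventually.of_forall fun x => ?_)
  simp only [Real.norm_eq_abs]
  congr 1
  ring

theorem bd_sqrt_dir_shell {k : ℕ} (hk : 1 ≤ k) {φ : R3 → ℝ} (hφ : IsShell k φ) :
    Real.sqrt (dir φ φ) ≤ 2 * Real.sqrt (ov φ φ) := by
  have e : 2 * Real.sqrt (ov φ φ) = Real.sqrt (4 * ov φ φ) := by
    rw [Real.sqrt_mul (by norm_num)]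
    congr 1
    rw [show (4 : ℝ) = 2 ^ 2 by norm_num, Real.sqrt_sq (by norm_num)]
  rw [e]
  exact Real.sqrt_le_sqrt (shell_dir_le hk hφ)

theorem gm_lip {k k' : ℕ} (hk : 1 ≤ k) (hk' : 1 ≤ k') {φ ψ : R3 → ℝ} (hφ : IsShell k φ)
    (hψ : IsShell k' ψ) (y y' : R3) :
    |gm y φ ψ - gm y' φ ψ| ≤ 16 * ‖y - y'‖ * Real.sqrt (ov φ φ * ov ψ ψ) := by
  have hn := bd_shell_nice hk hφ
  have hn' := bd_shell_nice hk' hψ
  have hr := (nice_integrable_rinv hn hn').1
  have hint : ∀ z : R3, Integrable (fun x => φ x * ψ x * (1 / ‖x‖ - 1 / dist x z)) := by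
    intro z
    refine (hr.sub (nice_integrable_nuc hn hn' z)).congr
      (Filter.Eventually.of_forall fun x => ?_)
    simp only [Pi.sub_apply]
    ring
  have h1 : gm y φ ψ - gm y' φ ψ = ∫ x, φ x * ψ x * (1 / dist x y' - 1 / dist x y) := by
    unfold gm
    rw [← integral_sub (hint y) (hint y')]
    refine integral_congr_ae (Filter.Eventually.of_forall fun x => ?_)
    simp only
    ring
  have hcs := bd_cs (bd_div_meas hn y) (bd_div_meas hn' y') (bd_div_sq hn y).1
    (bd_div_sq hn' y').1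
  have h2 : |∫ x, φ x * ψ x * (1 / dist x y' - 1 / dist x y)| ≤
      ∫ x, ‖y - y'‖ * |φ x / dist x y * (ψ x / dist x y')| := by
    rw [← Real.norm_eq_abs]
    refine norm_integral_le_of_norm_le (hcs.1.norm.const_mul ‖y - y'‖) ?_
    filter_upwards [bd_ae_ne y, bd_ae_ne y'] with x hx hx'
    have hd : 0 < dist x y := dist_pos.2 hx
    have hd' : 0 < dist x y' := dist_pos.2 hx'
    have h3 : |dist x y - dist x y'| ≤ ‖y - y'‖ := by
      rw [← dist_eq_norm, dist_comm x y, dist_comm x y']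
      exact abs_dist_sub_le y y' x
    have h4 : φ x * ψ x * (1 / dist x y' - 1 / dist x y) =
        (dist x y - dist x y') * (φ x / dist x y * (ψ x / dist x y')) := by
      field_simp
    rw [h4, norm_mul, Real.norm_eq_abs, Real.norm_eq_abs]
    exact mul_le_mul_of_nonneg_right h3 (abs_nonneg _)
  rw [h1]
  refine h2.trans ?_
  rw [integral_const_mul]
  have h5 : ∫ x, |φ x / dist x y * (ψ x / dist x y')| ≤ 16 * Real.sqrt (ov φ φ * ov ψ ψ) := by
    refine hcs.2.trans ?_
    have a1 := (bd_div_sq hn y).2.trans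
      (mul_le_mul_of_nonneg_left (bd_sqrt_dir_shell hk hφ) zero_le_two)
    have a2 := (bd_div_sq hn' y').2.trans
      (mul_le_mul_of_nonneg_left (bd_sqrt_dir_shell hk' hψ) zero_le_two)
    calc _ ≤ (2 * (2 * Real.sqrt (ov φ φ))) * (2 * (2 * Real.sqrt (ov ψ ψ))) :=
          mul_le_mul a1 a2 (Real.sqrt_nonneg _) (by positivity)
      _ = 16 * (Real.sqrt (ov φ φ) * Real.sqrt (ov ψ ψ)) := by ring
      _ = _ := by rw [Real.sqrt_mul (bd_ov_nonneg φ)]
  calc ‖y - y'‖ * ∫ x, |φ x / dist x y * (ψ x / dist x y')| ≤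
      ‖y - y'‖ * (16 * Real.sqrt (ov φ φ * ov ψ ψ)) :=
        mul_le_mul_of_nonneg_left h5 (norm_nonneg _)
    _ = _ := by ring

theorem gm_zero (φ ψ : R3 → ℝ) : gm 0 φ ψ = 0 := by
  simp [gm]

theorem gm_bound {k k' : ℕ} (hk : 1 ≤ k) (hk' : 1 ≤ k') {φ ψ : R3 → ℝ} (hφ : IsShell k φ)
    (hψ : IsShell k' ψ) (y : R3) :
    |gm y φ ψ| ≤ 16 * ‖y‖ * Real.sqrt (ov φ φ * ov ψ ψ) := by
  have h := gm_lip hk hk' hφ hψ y 0
  rwa [gm_zero, sub_zero, sub_zero] at h

theorem bd_prod_abs {f g : R3 → ℝ} (hf : Nice f) (hg : Nice g) :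
    ∫ x, |f x * g x| ≤ Real.sqrt (ov f f) * Real.sqrt (ov g g) := by
  have h := (bd_cs hf.cont.aestronglyMeasurable hg.cont.aestronglyMeasurable (bd_sq_int hf)
    (bd_sq_int hg)).2
  rwa [bd_ov_eq, bd_ov_eq] at h

/-- general bounds for Coulomb integrals of shell functions -/
theorem coul_shell {k1 k2 k3 k4 : ℕ} (h1 : 1 ≤ k1) (h2 : 1 ≤ k2) (h3 : 1 ≤ k3) (h4 : 1 ≤ k4)
    {f1 f2 f3 f4 : R3 → ℝ} (H1 : IsShell k1 f1) (H2 : IsShell k2 f2) (H3 : IsShell k3 f3)
    (H4 : IsShell k4 f4) :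
    |coul f1 f2 f3 f4| ≤ 4 * Real.sqrt (ov f1 f1 * ov f2 f2 * ov f3 f3 * ov f4 f4) := by
  have n1 := bd_shell_nice h1 H1
  have n2 := bd_shell_nice h2 H2
  have n3 := bd_shell_nice h3 H3
  have n4 := bd_shell_nice h4 H4
  have hI : Integrable (fun y => f3 y * f4 y) := (nice_integrable_rinv n3 n4).2
  have hb : ∀ y, |nuc y f1 f2| ≤ 4 * Real.sqrt (ov f1 f1) * Real.sqrt (ov f2 f2) := by
    intro y
    refine (bd_nuc_le n1 n2 y).trans (mul_le_mul_of_nonneg_right ?_ (Real.sqrt_nonneg _))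
    have := bd_sqrt_dir_shell h1 H1
    linarith only [this]
  unfold coul
  rw [← Real.norm_eq_abs]
  refine (norm_integral_le_of_norm_le (hI.norm.const_mul
    (4 * Real.sqrt (ov f1 f1) * Real.sqrt (ov f2 f2)))
    (Filter.Eventually.of_forall fun y => ?_)).trans ?_
  · rw [norm_mul]
    exact mul_le_mul_of_nonneg_right (hb y) (norm_nonneg _)
  · rw [integral_const_mul]
    have e : Real.sqrt (ov f1 f1 * ov f2 f2 * ov f3 f3 * ov f4 f4) =
        Real.sqrt (ov f1 f1) * Real.sqrt (ov f2 f2) * (Real.sqrt (ov f3 f3) *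
          Real.sqrt (ov f4 f4)) := by
      rw [Real.sqrt_mul (mul_nonneg (mul_nonneg (bd_ov_nonneg _) (bd_ov_nonneg _))
        (bd_ov_nonneg _)), Real.sqrt_mul (mul_nonneg (bd_ov_nonneg _) (bd_ov_nonneg _)),
        Real.sqrt_mul (bd_ov_nonneg _)]
      ring
    rw [e]
    have h5 := bd_prod_abs n3 n4
    calc 4 * Real.sqrt (ov f1 f1) * Real.sqrt (ov f2 f2) * ∫ y, ‖f3 y * f4 y‖ ≤
        4 * Real.sqrt (ov f1 f1) * Real.sqrt (ov f2 f2) *
          (Real.sqrt (ov f3 f3) * Real.sqrt (ov f4 f4)) :=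
          mul_le_mul_of_nonneg_left h5 (by positivity)
      _ = _ := by ring

theorem bd_nuc_meas {f g : R3 → ℝ} (hf : Nice f) (hg : Nice g) :
    AEStronglyMeasurable (fun y => nuc y f g) := by
  have h1 : Measurable (fun p : R3 × R3 => f p.2 * g p.2 / dist p.2 p.1) :=
    ((hf.cont.comp continuous_snd).mul (hg.cont.comp continuous_snd)).measurable.div
      ((by fun_prop : Continuous fun p : R3 × R3 => dist p.2 p.1).measurable)
  exact (h1.stronglyMeasurable.integral_prod_right).aestronglyMeasurable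

theorem bd_coul_int {f g f' g' : R3 → ℝ} (hf : Nice f) (hg : Nice g) (hf' : Nice f')
    (hg' : Nice g') : Integrable (fun y => nuc y f g * (f' y * g' y)) := by
  refine (nice_integrable_rinv hf' hg').2.bdd_mul (c := 2 * Real.sqrt (dir f f) *
    Real.sqrt (ov g g)) (bd_nuc_meas hf hg) (Filter.Eventually.of_forall fun y => ?_)
  rw [Real.norm_eq_abs]
  exact bd_nuc_le hf hg y

/-- multilinearity in the first argument -/
theorem coul_sum_left {ι : Type} (s : Finset ι) (a : ι → ℝ) (f : ι → R3 → ℝ)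
    (hf : ∀ i ∈ s, Nice (f i)) {g f' g' : R3 → ℝ} (hg : Nice g) (hf' : Nice f') (hg' : Nice g') :
    coul (fun x => ∑ i ∈ s, a i * f i x) g f' g' = ∑ i ∈ s, a i * coul (f i) g f' g' := by
  have h1 : ∀ y, nuc y (fun x => ∑ i ∈ s, a i * f i x) g = ∑ i ∈ s, a i * nuc y (f i) g := by
    intro y
    unfold nuc
    have e : ∀ x, (∑ i ∈ s, a i * f i x) * g x / dist x y =
        ∑ i ∈ s, a i * (f i x * g x / dist x y) := by
      intro x
      rw [sum_mul, sum_div]
      refine sum_congr rfl fun i _ => ?_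
      ring
    rw [integral_congr_ae (Filter.Eventually.of_forall e),
      integral_finset_sum _ fun i hi => (nice_integrable_nuc (hf i hi) hg y).const_mul _]
    refine sum_congr rfl fun i _ => ?_
    rw [integral_const_mul]
  unfold coul
  have e2 : ∀ y, nuc y (fun x => ∑ i ∈ s, a i * f i x) g * (f' y * g' y) =
      ∑ i ∈ s, a i * (nuc y (f i) g * (f' y * g' y)) := by
    intro y
    rw [h1, sum_mul]
    refine sum_congr rfl fun i _ => ?_
    ring
  rw [integral_congr_ae (Filter.Eventually.of_forall e2),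
    integral_finset_sum _ fun i hi => (bd_coul_int (hf i hi) hg hf' hg').const_mul _]
  refine sum_congr rfl fun i _ => ?_
  rw [integral_const_mul]

theorem coul_symm1 (f g f' g' : R3 → ℝ) : coul f g f' g' = coul g f f' g' := by
  unfold coul nuc
  simp only [mul_comm (f _) (g _)]

theorem coul_symm2 {f g f' g' : R3 → ℝ} (hf : Nice f) (hg : Nice g) (hf' : Nice f')
    (hg' : Nice g') : coul f g f' g' = coul f' g' f g := by
  have hm : Measurable (fun p : R3 × R3 => f p.2 * g p.2 / dist p.2 p.1 * (f' p.1 * g' p.1)) :=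
    (((hf.cont.comp continuous_snd).mul (hg.cont.comp continuous_snd)).measurable.div
      ((by fun_prop : Continuous fun p : R3 × R3 => dist p.2 p.1).measurable)).mul
      ((hf'.cont.comp continuous_fst).mul (hg'.cont.comp continuous_fst)).measurable
  have hint : Integrable (fun p : R3 × R3 => f p.2 * g p.2 / dist p.2 p.1 *
      (f' p.1 * g' p.1)) (volume.prod volume) := by
    rw [integrable_prod_iff hm.aestronglyMeasurable]
    refine ⟨Filter.Eventually.of_forall fun y => ?_, ?_⟩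
    · show Integrable (fun x => f x * g x / dist x y * (f' y * g' y))
      exact (nice_integrable_nuc hf hg y).mul_const _
    have hI : Integrable (fun y => f' y * g' y) := (nice_integrable_rinv hf' hg').2
    refine (hI.norm.const_mul (2 * Real.sqrt (dir f f) * Real.sqrt (ov g g))).mono'
      (hm.aestronglyMeasurable.norm.integral_prod_right') (Filter.Eventually.of_forall fun y => ?_)
    rw [Real.norm_of_nonneg (integral_nonneg fun x => norm_nonneg _)]
    have e : ∀ x, ‖f x * g x / dist x y * (f' y * g' y)‖ =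
        |f x / dist x y * g x| * ‖f' y * g' y‖ := by
      intro x
      rw [norm_mul, Real.norm_eq_abs]
      congr 2
      ring
    simp only [e]
    rw [integral_mul_const]
    exact mul_le_mul_of_nonneg_right (bd_nuc_abs hf hg y).2 (norm_nonneg _)
  calc coul f g f' g' = ∫ y, ∫ x, f x * g x / dist x y * (f' y * g' y) := by
        unfold coul nuc
        refine integral_congr_ae (Filter.Eventually.of_forall fun y => ?_)
        simp only
        rw [integral_mul_const]
    _ = ∫ x, ∫ y, f x * g x / dist x y * (f' y * g' y) := integral_integral_swap hint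
    _ = coul f' g' f g := by
        unfold coul nuc
        refine integral_congr_ae (Filter.Eventually.of_forall fun x => ?_)
        simp only
        rw [← integral_mul_const]
        refine integral_congr_ae (Filter.Eventually.of_forall fun y => ?_)
        simp only
        rw [dist_comm x y]
        ring

/-! ### finite combinations -/

theorem bd_nice_zero : Nice (fun _ : R3 => (0 : ℝ)) :=
  nice_test contDiff_const HasCompactSupport.zero

theorem bd_nice_sum {ι : Type} (s : Finset ι) (c : ι → ℝ) {f : ι → R3 → ℝ}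
    (hf : ∀ i, Nice (f i)) : Nice (fun x => ∑ i ∈ s, c i * f i x) := by
  classical
  induction s using Finset.induction_on with
  | empty =>
    simp only [sum_empty]
    exact bd_nice_zero
  | insert i s hi ih =>
    simp only [sum_insert hi]
    exact nice_add (nice_smul (hf i) (c i)) ih

theorem bd_pd_sum {ι : Type} (s : Finset ι) (c : ι → ℝ) {f : ι → R3 → ℝ}
    (hf : ∀ i, Nice (f i)) (k : Fin 3) {x : R3} (hx : x ≠ 0) :
    pd k (fun x => ∑ i ∈ s, c i * f i x) x = ∑ i ∈ s, c i * pd k (f i) x := by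
  have hd : ∀ i, DifferentiableAt ℝ (f i) x := fun i =>
    ((hf i).smooth.contDiffAt (isOpen_compl_singleton.mem_nhds hx)).differentiableAt
      (by norm_num)
  unfold pd
  have h1 : HasFDerivAt (fun x => ∑ i ∈ s, c i * f i x) (∑ i ∈ s, c i • fderiv ℝ (f i) x) x :=
    HasFDerivAt.fun_sum fun i _ => (hd i).hasFDerivAt.const_mul (c i)
  rw [h1.fderiv]
  simp

theorem bd_dir_sum {ι : Type} [Fintype ι] (c : ι → ℝ) {f : ι → R3 → ℝ}
    (hf : ∀ i, Nice (f i)) (hd : ∀ i, dir (f i) (f i) ≤ 4) :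
    dir (fun x => ∑ i, c i * f i x) (fun x => ∑ i, c i * f i x) ≤
      4 * Fintype.card ι * ∑ i, c i ^ 2 := by
  have hI : ∀ i, Integrable (fun x => ∑ k, pd k (f i) x * pd k (f i) x) := fun i =>
    nice_dir_integrable (hf i) (hf i)
  have h1 : dir (fun x => ∑ i, c i * f i x) (fun x => ∑ i, c i * f i x) ≤
      ∫ x, (Fintype.card ι : ℝ) * ∑ i, c i ^ 2 * ∑ k, pd k (f i) x * pd k (f i) x := by
    unfold dir
    refine integral_mono_ae (nice_dir_integrable (bd_nice_sum _ c hf) (bd_nice_sum _ c hf))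
      ((integrable_finset_sum _ fun i _ => (hI i).const_mul _).const_mul _) ?_
    filter_upwards [bd_ae_ne 0] with x hx
    simp only [bd_pd_sum _ c hf _ hx]
    have e3 : (Fintype.card ι : ℝ) * ∑ i, c i ^ 2 * ∑ k, pd k (f i) x * pd k (f i) x =
        ∑ k : Fin 3, (Fintype.card ι : ℝ) * ∑ i, c i ^ 2 * (pd k (f i) x * pd k (f i) x) := by
      simp only [mul_sum]
      rw [sum_comm]
    rw [e3]
    refine sum_le_sum fun k _ => ?_
    have h2 := sq_sum_le_card_mul_sum_sq (s := (univ : Finset ι)) (f := fun i => c i * pd k (f i) x)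
    rw [card_univ] at h2
    calc (∑ i, c i * pd k (f i) x) * ∑ i, c i * pd k (f i) x =
        (∑ i, c i * pd k (f i) x) ^ 2 := by ring
      _ ≤ (Fintype.card ι : ℝ) * ∑ i, (c i * pd k (f i) x) ^ 2 := h2
      _ = _ := by
        congr 1
        refine sum_congr rfl fun i _ => ?_
        ring
  refine h1.trans ?_
  rw [integral_const_mul, integral_finset_sum _ fun i _ => (hI i).const_mul _]
  have h3 : ∑ i, ∫ x, c i ^ 2 * ∑ k, pd k (f i) x * pd k (f i) x ≤ ∑ i, c i ^ 2 * 4 := by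
    refine sum_le_sum fun i _ => ?_
    rw [integral_const_mul]
    exact mul_le_mul_of_nonneg_left (hd i) (sq_nonneg _)
  calc (Fintype.card ι : ℝ) * ∑ i, ∫ x, c i ^ 2 * ∑ k, pd k (f i) x * pd k (f i) x ≤
      (Fintype.card ι : ℝ) * ∑ i, c i ^ 2 * 4 :=
        mul_le_mul_of_nonneg_left h3 (Nat.cast_nonneg _)
    _ = _ := by rw [← sum_mul]; ring

theorem bd_ov_sum {ι : Type} [Fintype ι] [DecidableEq ι] (c : ι → ℝ) {f : ι → R3 → ℝ}
    (hf : ∀ i, Nice (f i)) (ho : ∀ i j, ov (f i) (f j) = if i = j then 1 else 0) :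
    ov (fun x => ∑ i, c i * f i x) (fun x => ∑ i, c i * f i x) = ∑ i, c i ^ 2 := by
  have hI : ∀ i j, Integrable (fun x => f i x * f j x) := fun i j =>
    (nice_integrable_rinv (hf i) (hf j)).2
  unfold ov
  have e : ∀ x, (∑ i, c i * f i x) * (∑ i, c i * f i x) =
      ∑ i, ∑ j, c i * c j * (f i x * f j x) := by
    intro x
    rw [sum_mul_sum]
    refine sum_congr rfl fun i _ => sum_congr rfl fun j _ => ?_
    ring
  rw [integral_congr_ae (Filter.Eventually.of_forall e),
    integral_finset_sum _ fun i _ => integrable_finset_sum _ fun j _ => (hI i j).const_mul _]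
  refine sum_congr rfl fun i _ => ?_
  rw [integral_finset_sum _ fun j _ => (hI i j).const_mul _]
  have h1 : ∀ j, ∫ x, c i * c j * (f i x * f j x) = if i = j then c i * c j else 0 := by
    intro j
    rw [integral_const_mul]
    have := ho i j
    unfold ov at this
    rw [this]
    split_ifs <;> simp
  rw [sum_congr rfl fun j _ => h1 j, sum_ite_eq univ i]
  simp only [mem_univ, if_true]
  ring

/-- pairs: the Coulomb repulsion as a form on pair functions -/
theorem coul_pair_bounds {n : ℕ} {A : Type} [Fintype A] [DecidableEq A] (B : ShellBasis n A)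
    (x : A → A → ℝ) :
    0 ≤ qf2 (coulM B.χ) x ∧ qf2 (coulM B.χ) x ≤ 4 * Fintype.card A * ∑ p, ∑ q, x p q ^ 2 := by
  have hN : ∀ a, Nice (B.χ a) := fun a => bd_shell_nice (B.lev_pos a) (B.mem a)
  have hD : ∀ a, dir (B.χ a) (B.χ a) ≤ 4 := by
    intro a
    have h1 := shell_dir_le (B.lev_pos a) (B.mem a)
    rw [B.ortho a a, if_pos rfl] at h1
    linarith
  -- the coefficients
  set cf : R3 → A → ℝ := fun y p => ∑ q, x p q * B.χ q y with hcf
  have hnuc : ∀ y, ∑ p, ∑ a, nuc y (B.χ p) (B.χ a) * (cf y p * cf y a) =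
      nuc y (fun z => ∑ p, cf y p * B.χ p z) (fun z => ∑ p, cf y p * B.χ p z) := by
    intro y
    unfold nuc
    have e : ∀ z, (∑ p, cf y p * B.χ p z) * (∑ p, cf y p * B.χ p z) / dist z y =
        ∑ p, ∑ a, B.χ p z * B.χ a z / dist z y * (cf y p * cf y a) := by
      intro z
      rw [sum_mul_sum, sum_div]
      refine sum_congr rfl fun p _ => ?_
      rw [sum_div]
      refine sum_congr rfl fun a _ => ?_
      ring
    rw [integral_congr_ae (Filter.Eventually.of_forall e), integral_finset_sum _ fun p _ =>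
      integrable_finset_sum _ fun a _ => (nice_integrable_nuc (hN p) (hN a) y).mul_const _]
    refine sum_congr rfl fun p _ => ?_
    rw [integral_finset_sum _ fun a _ => (nice_integrable_nuc (hN p) (hN a) y).mul_const _]
    refine sum_congr rfl fun a _ => ?_
    rw [integral_mul_const]
  -- the form as an integral
  have hqf : qf2 (coulM B.χ) x = ∫ y, ∑ p, ∑ a, nuc y (B.χ p) (B.χ a) * (cf y p * cf y a) := by
    have hI : ∀ p a q b, Integrable (fun y => nuc y (B.χ p) (B.χ a) * (B.χ q y * B.χ b y) *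
        x p q * x a b) := fun p a q b =>
      ((bd_coul_int (hN p) (hN a) (hN q) (hN b)).mul_const _).mul_const _
    have e : ∀ y, ∑ p, ∑ a, nuc y (B.χ p) (B.χ a) * (cf y p * cf y a) =
        ∑ p, ∑ a, ∑ q, ∑ b, nuc y (B.χ p) (B.χ a) * (B.χ q y * B.χ b y) * x p q * x a b := by
      intro y
      refine sum_congr rfl fun p _ => sum_congr rfl fun a _ => ?_
      simp only [hcf]
      rw [sum_mul_sum, mul_sum]
      refine sum_congr rfl fun q _ => ?_
      rw [mul_sum]
      refine sum_congr rfl fun b _ => ?_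
      ring
    rw [integral_congr_ae (Filter.Eventually.of_forall e), integral_finset_sum _ fun p _ =>
      integrable_finset_sum _ fun a _ => integrable_finset_sum _ fun q _ =>
        integrable_finset_sum _ fun b _ => hI p a q b]
    unfold qf2
    refine sum_congr rfl fun p _ => ?_
    rw [integral_finset_sum _ fun a _ => integrable_finset_sum _ fun q _ =>
        integrable_finset_sum _ fun b _ => hI p a q b]
    refine sum_congr rfl fun a _ => ?_
    rw [integral_finset_sum _ fun q _ => integrable_finset_sum _ fun b _ => hI p a q b]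
    refine sum_congr rfl fun q _ => ?_
    rw [integral_finset_sum _ fun b _ => hI p a q b]
    refine sum_congr rfl fun b _ => ?_
    rw [integral_mul_const, integral_mul_const]
    rfl
  rw [hqf]
  constructor
  · refine integral_nonneg fun y => ?_
    simp only [Pi.zero_apply]
    rw [hnuc]
    exact integral_nonneg fun z => div_nonneg (mul_self_nonneg _) dist_nonneg
  · -- upper bound
    have hcI : Integrable (fun y => ∑ p, cf y p ^ 2) :=
      integrable_finset_sum _ fun p _ => bd_sq_int (bd_nice_sum univ (x p) hN)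
    have hup : ∀ y, ∑ p, ∑ a, nuc y (B.χ p) (B.χ a) * (cf y p * cf y a) ≤
        4 * Fintype.card A * ∑ p, cf y p ^ 2 := by
      intro y
      rw [hnuc]
      have hu := bd_nice_sum univ (cf y) hN
      have h1 := (le_abs_self _).trans (bd_nuc_le hu hu y)
      refine h1.trans ?_
      rw [bd_ov_sum (cf y) hN B.ortho]
      have h2 := bd_dir_sum (cf y) hN hD
      have hS : 0 ≤ ∑ p, cf y p ^ 2 := sum_nonneg fun p _ => sq_nonneg _
      have h3 : Real.sqrt (dir (fun z => ∑ p, cf y p * B.χ p z)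
          (fun z => ∑ p, cf y p * B.χ p z)) ≤
          2 * (Fintype.card A : ℝ) * Real.sqrt (∑ p, cf y p ^ 2) := by
        refine Real.sqrt_le_iff.2 ⟨by positivity, h2.trans ?_⟩
        rw [mul_pow, Real.sq_sqrt hS]
        refine mul_le_mul_of_nonneg_right ?_ hS
        have h4 : (Fintype.card A : ℝ) ≤ (Fintype.card A : ℝ) ^ 2 := by
          exact_mod_cast Nat.le_self_pow (by norm_num) _
        linarith only [h4]
      calc 2 * Real.sqrt (dir (fun z => ∑ p, cf y p * B.χ p z)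
            (fun z => ∑ p, cf y p * B.χ p z)) * Real.sqrt (∑ p, cf y p ^ 2) ≤
          2 * (2 * (Fintype.card A : ℝ) * Real.sqrt (∑ p, cf y p ^ 2)) *
            Real.sqrt (∑ p, cf y p ^ 2) :=
            mul_le_mul_of_nonneg_right (mul_le_mul_of_nonneg_left h3 zero_le_two)
              (Real.sqrt_nonneg _)
        _ = 4 * Fintype.card A * (Real.sqrt (∑ p, cf y p ^ 2) *
            Real.sqrt (∑ p, cf y p ^ 2)) := by ring
        _ = _ := by rw [Real.mul_self_sqrt hS]
    have hLI : Integrable (fun y => ∑ p, ∑ a, nuc y (B.χ p) (B.χ a) * (cf y p * cf y a)) := by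
      refine integrable_finset_sum _ fun p _ => integrable_finset_sum _ fun a _ => ?_
      exact bd_coul_int (hN p) (hN a) (bd_nice_sum univ (x p) hN) (bd_nice_sum univ (x a) hN)
    refine (integral_mono hLI (hcI.const_mul _) hup).trans ?_
    rw [integral_const_mul, integral_finset_sum _ fun p _ =>
      bd_sq_int (bd_nice_sum univ (x p) hN)]
    refine mul_le_mul_of_nonneg_left (le_of_eq ?_) (by positivity)
    refine sum_congr rfl fun p _ => ?_
    have := bd_ov_sum (x p) hN B.ortho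
    rw [← this]
    exact bd_ov_eq _

end Vale.Agent.P370.Q
end
end

section

section

/-! Completeness of the explicit orbitals of one shell, isolation of the top subshell. -/

namespace Vale.Agent.P370.Hyd

open MeasureTheory Filter Topology MvPolynomial

theorem kap_eq (k : ℕ) : kap k = 1 / ((k + 1 : ℕ) : ℝ) := by
  unfold kap
  push_cast
  rfl

theorem pw_mem_E {k l : ℕ} {h : Pl} (hh : h.IsHomogeneous l) {j : ℕ} (hj : j + l ≤ k) :
    pw h j ∈ E (k + 1) := by
  unfold pw
  have h1 := isHomogeneous_nsq_pow_mul hh (j / 2)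
  by_cases he : Even j
  · rw [if_pos he]
    refine ⟨isHomogeneous_mem_lt h1 ?_, Submodule.zero_mem _⟩
    omega
  · rw [if_neg he]
    refine ⟨Submodule.zero_mem _, isHomogeneous_mem_lt h1 ?_⟩
    rw [Nat.not_even_iff_odd] at he
    obtain ⟨i, rfl⟩ := he
    omega

theorem zf_mem_E {k l : ℕ} (κ : ℝ) {h : Pl} (hh : h.IsHomogeneous l) :
    zf κ l (k + 1 - l) h ∈ E (k + 1) := by
  unfold zf
  refine Submodule.sum_mem _ fun j hj => Submodule.smul_mem _ _ (pw_mem_E hh ?_)
  have := Finset.mem_range.1 hj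
  omega

theorem zf_mem_Eig {k l : ℕ} (hl : l ≤ k) {h : Pl} (hh : h ∈ Harm l) :
    zf (kap k) l (k + 1 - l) h ∈ Eig (k + 1) := by
  rw [mem_Eig, ← kap_eq]
  exact ⟨zf_mem_E _ (mem_Harm.1 hh).1, TL_zf' hl hh⟩

/-- labels of the orbitals of shell `k + 1` -/
abbrev Sub (k : ℕ) : Type := (l : Fin (k + 1)) × Fin (2 * l.1 + 1)

theorem card_Sub (k : ℕ) : Fintype.card (Sub k) = (k + 1) ^ 2 := by
  have h1 : ∀ k : ℕ, ∑ l ∈ Finset.range (k + 1), (2 * l + 1) = (k + 1) ^ 2 := by
    intro k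
    induction k with
    | zero => simp
    | succ k ih =>
      rw [Finset.sum_range_succ, ih]
      ring
  rw [Fintype.card_sigma, ← h1, ← Fin.sum_univ_eq_sum_range]
  simp

variable {p : (l : ℕ) → Fin (2 * l + 1) → Pl}

/-- coefficient pairs of the normalised orbitals -/
noncomputable def zo (p : (l : ℕ) → Fin (2 * l + 1) → Pl) (k : ℕ) (a : Sub k) : Pl × Pl :=
  (Real.sqrt (radN k a.1))⁻¹ • zf (kap k) a.1 (k + 1 - a.1) (p a.1 a.2)

theorem zo_mem (hp : HarmFam p) (k : ℕ) (a : Sub k) : zo p k a ∈ Eig (k + 1) :=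
  Submodule.smul_mem _ _ (zf_mem_Eig (by have := a.1.2; omega) (hp.mem _ _))

/-- the normalised orbitals -/
noncomputable def go (p : (l : ℕ) → Fin (2 * l + 1) → Pl) (k : ℕ) (a : Sub k) : AdmS :=
  toAdm (kap_pos k) (zo p k a)

theorem go_eq (k : ℕ) (a : Sub k) :
    go p k a = (Real.sqrt (radN k a.1))⁻¹ • gS k a.1 (p a.1 a.2) := by
  unfold go zo
  rw [map_smul]
  rfl

theorem bil_go (B : AdmS →ₗ[ℝ] AdmS →ₗ[ℝ] ℝ) (w : ℕ → ℕ → ℝ)
    (h1 : ∀ {k l : ℕ} {h h' : Pl}, h.IsHomogeneous l → h'.IsHomogeneous l →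
      B (gS k l h) (gS k l h') = sph h h' * w k l)
    (h2 : ∀ {k l l' : ℕ} {h h' : Pl}, l ≠ l' → h ∈ Harm l → h' ∈ Harm l' →
      B (gS k l h) (gS k l' h') = 0) (hp : HarmFam p) (k : ℕ) (a b : Sub k) :
    B (go p k a) (go p k b) = if a = b then w k a.1 / radN k a.1 else 0 := by
  obtain ⟨l, i⟩ := a
  obtain ⟨l', i'⟩ := b
  rw [go_eq, go_eq, map_smul, map_smul, LinearMap.smul_apply, smul_eq_mul, smul_eq_mul]
  simp only
  by_cases hl : l = l'
  · subst hl
    rw [h1 (mem_Harm.1 (hp.mem _ _)).1 (mem_Harm.1 (hp.mem _ _)).1, hp.orth]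
    have h3 := radN_pos (k := k) (l := l) (by omega)
    by_cases hi : i = i'
    · subst hi
      rw [if_pos rfl, if_pos rfl, one_mul]
      have h4 := Real.mul_self_sqrt h3.le
      have h5 : Real.sqrt (radN k l) ≠ 0 := (Real.sqrt_pos.2 h3).ne'
      have h6 : (Real.sqrt (radN k l))⁻¹ * ((Real.sqrt (radN k l))⁻¹ * w k l)
          = w k l / (Real.sqrt (radN k l) * Real.sqrt (radN k l)) := by
        field_simp
      rw [h6, h4]
    · rw [if_neg hi, if_neg, zero_mul, mul_zero, mul_zero]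
      intro h
      apply hi
      simpa using h
  · rw [h2 (fun h => hl (Fin.ext h)) (hp.mem _ _) (hp.mem _ _), mul_zero, mul_zero, if_neg]
    intro h
    apply hl
    exact (Sigma.mk.inj_iff.1 h).1

theorem ipB_go (hp : HarmFam p) (k : ℕ) (a b : Sub k) :
    ipB (go p k a) (go p k b) = if a = b then 1 else 0 := by
  rw [bil_go ipB radN (fun hh hh' => ipB_gS_self hh hh') (fun hl hh hh' => by
    rw [ipB_gS (mem_Harm.1 hh).1 (mem_Harm.1 hh').1, sph_orth hl hh hh', zero_mul]) hp]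
  by_cases h : a = b
  · rw [if_pos h, if_pos h, div_self]
    exact (radN_pos (by have := a.1.2; omega)).ne'
  · rw [if_neg h, if_neg h]

theorem VB_go {ρ : ℝ} (hρ : 0 < ρ) (hp : HarmFam p) (k : ℕ) (a b : Sub k) :
    VB hρ (go p k a) (go p k b) = if a = b then beta ρ k a.1 / radN k a.1 else 0 :=
  bil_go (VB hρ) (beta ρ) (fun hh hh' => VB_gS_self hρ hh hh') (fun hl hh hh' => by
    rw [VB_gS hρ (mem_Harm.1 hh).1 (mem_Harm.1 hh').1, sph_orth hl hh hh', zero_mul]) hp k a b

/-- completeness of the orbitals in their shell -/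
theorem Eig_expand (hp : HarmFam p) (k : ℕ) {z : Pl × Pl} (hz : z ∈ Eig (k + 1)) :
    z = ∑ a, ipB (go p k a) (toAdm (kap_pos k) z) • zo p k a := by
  classical
  let B : Eig (k + 1) →ₗ[ℝ] Eig (k + 1) →ₗ[ℝ] ℝ :=
    ipB.compl₁₂ ((toAdm (kap_pos k)).comp (Eig (k + 1)).subtype)
      ((toAdm (kap_pos k)).comp (Eig (k + 1)).subtype)
  have hB : ∀ v w : Eig (k + 1), B v w = ipB (toAdm (kap_pos k) v) (toAdm (kap_pos k) w) :=
    fun _ _ => rfl
  have horth : ∀ a b : Sub k, B ⟨zo p k a, zo_mem hp k a⟩ ⟨zo p k b, zo_mem hp k b⟩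
      = if a = b then 1 else 0 := fun a b => ipB_go hp k a b
  let v : Eig (k + 1) := ⟨z, hz⟩ - ∑ a : Sub k,
    (ipB (go p k a) (toAdm (kap_pos k) z)) • (⟨zo p k a, zo_mem hp k a⟩ : Eig (k + 1))
  have hv : v = 0 := by
    refine orthonormal_complete B (fun a : Sub k => (⟨zo p k a, zo_mem hp k a⟩ : Eig (k + 1)))
      horth ?_ fun a => ?_
    · rw [finrank_Eig, card_Sub]
    · show B ⟨zo p k a, zo_mem hp k a⟩ (⟨z, hz⟩ - ∑ a : Sub k,
        (ipB (go p k a) (toAdm (kap_pos k) z)) • (⟨zo p k a, zo_mem hp k a⟩ : Eig (k + 1))) = 0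
      rw [map_sub, map_sum, Finset.sum_eq_single a]
      · rw [map_smul, horth, if_pos rfl, smul_eq_mul, mul_one]
        exact sub_self _
      · intro b _ hb
        rw [map_smul, horth, if_neg hb.symm, smul_zero]
      · intro h
        exact absurd (Finset.mem_univ a) h
  have h1 := congrArg (Submodule.subtype (Eig (k + 1))) hv
  rw [map_sub, map_sum, map_zero, sub_eq_zero] at h1
  exact h1

theorem harm_cast {l k : ℕ} (h : l = k) {P : Pl} (hP : P ∈ Harm l) : P ∈ Harm k := h ▸ hP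

/-- quadratic forms on combinations of orbitals -/
theorem bil_comb (B : AdmS →ₗ[ℝ] AdmS →ₗ[ℝ] ℝ) (k : ℕ) (w : Sub k → ℝ)
    (h : ∀ a b : Sub k, B (go p k a) (go p k b) = if a = b then w a else 0)
    (s : Finset (Sub k)) (c : Sub k → ℝ) :
    B (∑ a ∈ s, c a • go p k a) (∑ a ∈ s, c a • go p k a) = ∑ a ∈ s, c a ^ 2 * w a := by
  classical
  have e : B (∑ a ∈ s, c a • go p k a) = ∑ a ∈ s, B (c a • go p k a) := map_sum _ _ _
  rw [e, LinearMap.sum_apply]
  refine Finset.sum_congr rfl fun a ha => ?_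
  rw [map_smul, LinearMap.smul_apply, map_sum, Finset.sum_eq_single a]
  · rw [map_smul, h, if_pos rfl, smul_eq_mul, smul_eq_mul]
    ring
  · intro b _ hb
    rw [map_smul, h, if_neg hb.symm, smul_zero]
  · intro h'
    exact absurd ha h'

/-- **Isolation of the top subshell.** -/
theorem isolation_aux {k : ℕ} {ρ : ℝ} (hρ : 0 < ρ) (hρ2 : ρ ≤ 1 / 2 ^ (8 * (k + 1) ^ 2))
    {z : Pl × Pl} (hz : z ∈ Eig (k + 1)) :
    ∃ (P : Pl) (z2 : Pl × Pl), P ∈ Harm k ∧ z2 ∈ Eig (k + 1) ∧ z = (P, 0) + z2 ∧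
      (∀ P' ∈ Harm k, ipB (toAdm (kap_pos k) z2) (toAdm (kap_pos k) (P', 0)) = 0) ∧
      (∀ P' ∈ Harm k, VB hρ (toAdm (kap_pos k) z2) (toAdm (kap_pos k) (P', 0)) = 0) ∧
      2 * (ρ ^ (2 * k) / 2 ^ (16 * (k + 1) ^ 2)) *
        ipB (toAdm (kap_pos k) z2) (toAdm (kap_pos k) z2)
        ≤ VB hρ (toAdm (kap_pos k) z2) (toAdm (kap_pos k) z2) := by
  classical
  obtain ⟨p, hp⟩ := exists_harmFam
  have hexp := Eig_expand hp k hz
  obtain ⟨c, hc⟩ : ∃ c : Sub k → ℝ, ∀ a, c a = ipB (go p k a) (toAdm (kap_pos k) z) :=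
    ⟨_, fun _ => rfl⟩
  simp only [← hc] at hexp
  have htop : ∀ P' : Pl, gS k k P' = toAdm (kap_pos k) (P', 0) := by
    intro P'
    have e : k + 1 - k = 1 := by omega
    have e2 : zf (kap k) k (k + 1 - k) P' = (P', 0) := by
      unfold zf pw
      rw [e, Finset.sum_range_one]
      simp [cf]
    have e3 : gS k k P' = toAdm (kap_pos k) (zf (kap k) k (k + 1 - k) P') := rfl
    rw [e3, e2]
  -- top part
  have htopz : ∀ a : Sub k, a.1.1 = k → zo p k a
      = ((Real.sqrt (radN k a.1))⁻¹ • p a.1 a.2, 0) := by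
    intro a ha
    unfold zo
    have e2 : zf (kap k) a.1.1 (k + 1 - a.1.1) (p a.1 a.2) = (p a.1 a.2, 0) := by
      have e : k + 1 - a.1.1 = 1 := by omega
      unfold zf pw
      rw [e, Finset.sum_range_one]
      simp [cf]
    rw [e2]
    simp
  let top : Finset (Sub k) := Finset.univ.filter fun a => a.1.1 = k
  let low : Finset (Sub k) := Finset.univ.filter fun a => ¬ a.1.1 = k
  let P : Pl := ∑ a ∈ top, c a • ((Real.sqrt (radN k a.1))⁻¹ • p a.1 a.2)
  let z2 : Pl × Pl := ∑ a ∈ low, c a • zo p k a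
  have hP : P ∈ Harm k := by
    refine Submodule.sum_mem _ fun a ha => Submodule.smul_mem _ _ (Submodule.smul_mem _ _ ?_)
    exact harm_cast (Finset.mem_filter.1 ha).2 (hp.mem a.1 a.2)
  have hz2 : z2 ∈ Eig (k + 1) :=
    Submodule.sum_mem _ fun a _ => Submodule.smul_mem _ _ (zo_mem hp k a)
  have hsplit : z = (P, 0) + z2 := by
    have h1 : ((P, 0) : Pl × Pl) = ∑ a ∈ top, c a • zo p k a := by
      have h2 : ∀ a ∈ top, c a • zo p k a
          = (c a • ((Real.sqrt (radN k a.1))⁻¹ • p a.1 a.2), (0 : Pl)) := by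
        intro a ha
        rw [htopz a (Finset.mem_filter.1 ha).2]
        simp
      rw [Finset.sum_congr rfl h2]
      refine Prod.ext ?_ ?_
      · rw [Prod.fst_sum]
      · rw [Prod.snd_sum]
        simp
    rw [h1, hexp]
    exact (Finset.sum_filter_add_sum_filter_not _ _ _).symm
  have hA : toAdm (kap_pos k) z2 = ∑ a ∈ low, c a • go p k a := by
    show toAdm (kap_pos k) (∑ a ∈ low, c a • zo p k a) = _
    rw [map_sum]
    exact Finset.sum_congr rfl fun a _ => by rw [map_smul]; rfl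
  refine ⟨P, z2, hP, hz2, hsplit, ?_, ?_, ?_⟩
  · intro P' hP'
    rw [hA, map_sum, LinearMap.sum_apply, ← htop]
    refine Finset.sum_eq_zero fun a ha => ?_
    have hne : a.1.1 ≠ k := (Finset.mem_filter.1 ha).2
    rw [map_smul, LinearMap.smul_apply, go_eq, map_smul, LinearMap.smul_apply,
      ipB_gS (mem_Harm.1 (hp.mem _ _)).1 (mem_Harm.1 hP').1, sph_orth hne (hp.mem _ _) hP',
      zero_mul, smul_zero, smul_zero]
  · intro P' hP'
    rw [hA, map_sum, LinearMap.sum_apply, ← htop]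
    refine Finset.sum_eq_zero fun a ha => ?_
    have hne : a.1.1 ≠ k := (Finset.mem_filter.1 ha).2
    rw [map_smul, LinearMap.smul_apply, go_eq, map_smul, LinearMap.smul_apply,
      VB_gS hρ (mem_Harm.1 (hp.mem _ _)).1 (mem_Harm.1 hP').1, sph_orth hne (hp.mem _ _) hP',
      zero_mul, smul_zero, smul_zero]
  · rw [hA, bil_comb ipB k (fun _ => 1) (fun a b => ipB_go hp k a b) low c,
      bil_comb (VB hρ) k (fun a => beta ρ k a.1 / radN k a.1) (fun a b => VB_go hρ hp k a b) low c,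
      Finset.mul_sum]
    refine Finset.sum_le_sum fun a ha => ?_
    have hne : a.1.1 ≠ k := (Finset.mem_filter.1 ha).2
    have hlt : a.1.1 < k := by
      have := a.1.2
      omega
    rw [mul_one, mul_comm]
    exact mul_le_mul_of_nonneg_left (beta_div_radN hlt hρ hρ2) (sq_nonneg _)

end Vale.Agent.P370.Hyd
end
end

section

section

/-!
The word `build k s th` encodes the instance `inst k s th`; validity; ground energy.
-/

namespace Vale.Agent.P370.Q.Alg

open MeasureTheory Finset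

theorem encRat_dyadic (m : ℤ) (e : ℕ) (hm : m % 2 = 1) :
    encRat ((m : ℚ) / 2 ^ e) = encDy m e := by
  have hpos : (0 : ℤ) < ((2 ^ e : ℕ) : ℤ) := by positivity
  have hcop : Nat.Coprime m.natAbs ((2 ^ e : ℕ) : ℤ).natAbs := by
    rw [Int.natAbs_natCast]
    apply Nat.Coprime.pow_right
    rw [Nat.coprime_two_right]
    rw [Int.natAbs_odd]
    exact Int.odd_iff.2 hm
  have h1 : ((m : ℚ) / 2 ^ e) = (m : ℚ) / (((2 ^ e : ℕ) : ℤ) : ℚ) := by push_cast; rfl
  have hnum : ((m : ℚ) / 2 ^ e).num = m := by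
    rw [h1]
    exact Rat.num_div_eq_of_coprime hpos hcop
  have hden : ((m : ℚ) / 2 ^ e).den = 2 ^ e := by
    rw [h1]
    have h2 := Rat.den_div_eq_of_coprime hpos hcop
    exact_mod_cast h2
  have hlt : decide ((m : ℚ) / 2 ^ e < 0) = decide (m < 0) := by
    apply decide_eq_decide.2
    rw [← Rat.num_neg, hnum]
  unfold encRat encDy
  rw [hnum, hden, hlt]

theorem encRat_int (m : ℤ) : encRat (m : ℚ) = encZ m := by
  have hlt : decide ((m : ℚ) < 0) = decide (m < 0) := by
    apply decide_eq_decide.2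
    exact_mod_cast Iff.rfl
  unfold encRat encZ
  rw [Rat.num_intCast, Rat.den_intCast, hlt]

theorem finRange_flatMap {γ : Type} (n : ℕ) (F : ℕ → List γ) :
    (List.finRange n).flatMap (fun β : Fin n => F (β : ℕ)) = (List.range n).flatMap F := by
  rw [← List.map_coe_finRange_eq_range, List.flatMap_map]

theorem finRange_succ_flatMap {γ : Type} (n : ℕ) (P : Fin (n + 1) → List γ) :
    (List.finRange (n + 1)).flatMap P = P 0 ++ (List.finRange n).flatMap (fun β => P β.succ) := by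
  rw [List.finRange_succ, List.flatMap_cons, List.flatMap_map]

theorem numer_odd (k a b c : ℕ) : numer k a b c % 2 = 1 := by
  unfold numer
  omega

theorem encInstance_inst (k : ℕ) (s : List ℕ) (th : ℤ) :
    encInstance (inst k s th) = build k s th := by
  have h0 : encRat 0 = encZ 0 := by
    have := encRat_int 0
    simpa using this
  have h1 : encRat (inst k s th).a = encZ th := encRat_int th
  have h2 : encRat (inst k s th).b = encZ (th + 1) := by
    have := encRat_int (th + 1)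
    rw [← this]
    show encRat ((th : ℚ) + 1) = _
    push_cast
    rfl
  have h3 : (List.finRange (inst k s th).M).flatMap (fun α => true ::
      (encRat ((inst k s th).pos α 0) ++ encRat ((inst k s th).pos α 1) ++
        encRat ((inst k s th).pos α 2) ++ encNat ((inst k s th).charge α))) =
      (true :: (encZ 0 ++ encZ 0 ++ encZ 0 ++ encNat (aT k - chgSum k s))) ++
      ((List.range (aD k * aD k)).flatMap fun β =>
        true :: (encDy (numer k (β / aD k) (β % aD k) 0) (bexp k) ++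
          encDy (numer k (β / aD k) (β % aD k) 1) (bexp k) ++
          encDy (numer k (β / aD k) (β % aD k) 2) (bexp k) ++
          encNat (chg k s (β / aD k) (β % aD k)))) := by
    refine (finRange_succ_flatMap (aD k * aD k) _).trans ?_
    refine congrArg₂ (· ++ ·) ?_ ?_
    · show true :: (encRat 0 ++ encRat 0 ++ encRat 0 ++ encNat (aT k - chgSum k s)) = _
      rw [h0]
    · rw [← finRange_flatMap]
      congr 1
      funext β
      show true :: (encRat ((numer k (β / aD k) (β % aD k) ((0 : Fin 3) : ℕ) : ℚ) / 2 ^ bexp k) ++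
        encRat ((numer k (β / aD k) (β % aD k) ((1 : Fin 3) : ℕ) : ℚ) / 2 ^ bexp k) ++
        encRat ((numer k (β / aD k) (β % aD k) ((2 : Fin 3) : ℕ) : ℚ) / 2 ^ bexp k) ++
        encNat (chg k s (β / aD k) (β % aD k))) = _
      rw [encRat_dyadic _ _ (numer_odd _ _ _ _), encRat_dyadic _ _ (numer_odd _ _ _ _),
        encRat_dyadic _ _ (numer_odd _ _ _ _)]
      rfl
  unfold encInstance build
  rw [h1, h2, h3]
  rfl

theorem aD_pos (k : ℕ) : 0 < aD k := by
  unfold aD an
  positivity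

theorem numer_inj (k a b a' b' c : ℕ) (h1 : a * aD k + b < aD k * aD k)
    (h2 : a' * aD k + b' < aD k * aD k) (h : numer k a b c = numer k a' b' c) :
    a * aD k + b = a' * aD k + b' := by
  unfold numer at h
  have h3 : crd k a b c * (aD k : ℤ) ^ 2 + (a * aD k + b) =
      crd k a' b' c * (aD k : ℤ) ^ 2 + (a' * aD k + b') := by omega
  have h4 : (crd k a b c * (aD k : ℤ) ^ 2 + (a * aD k + b)) % (aD k : ℤ) ^ 2 =
      (crd k a' b' c * (aD k : ℤ) ^ 2 + (a' * aD k + b')) % (aD k : ℤ) ^ 2 := by rw [h3]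
  have h5 : ∀ x y D : ℤ, (x * D + y) % D = y % D := fun x y D => by
    rw [add_comm, Int.add_mul_emod_self_right]
  rw [h5, h5, Int.emod_eq_of_lt (by positivity) (by rw [pow_two]; exact_mod_cast h1),
    Int.emod_eq_of_lt (by positivity) (by rw [pow_two]; exact_mod_cast h2)] at h4
  exact_mod_cast h4

theorem inst_valid (k : ℕ) (hk : 1 ≤ k) (s : List ℕ) (th : ℤ)
    (h1 : ∀ a b, a < aD k → b < aD k → 1 ≤ chg k s a b) (h2 : chgSum k s < aT k) :
    (inst k s th).Valid := by
  have hD := aD_pos k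
  refine ⟨?_, ?_, ?_, ?_, ?_⟩
  · show 1 ≤ aD k * aD k + 1
    omega
  · show Function.Injective (Fin.cons 0 (fun (β : Fin (aD k * aD k)) (c : Fin 3) =>
      (numer k (β / aD k) (β % aD k) c : ℚ) / 2 ^ bexp k) :
        Fin (aD k * aD k + 1) → Fin 3 → ℚ)
    rw [Fin.cons_injective_iff]
    constructor
    · rintro ⟨β, hβ⟩
      have h3 := congrFun hβ 0
      simp only [Pi.zero_apply] at h3
      rw [div_eq_zero_iff] at h3
      rcases h3 with h3 | h3
      · have h4 : numer k (β / aD k) (β % aD k) ((0 : Fin 3) : ℕ) = 0 := by exact_mod_cast h3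
        have h5 := numer_odd k (β / aD k) (β % aD k) ((0 : Fin 3) : ℕ)
        rw [h4] at h5
        omega
      · exact absurd h3 (by positivity)
    · intro β β' hβ
      have h3 := congrFun hβ 0
      simp only at h3
      rw [div_left_inj' (by positivity)] at h3
      have h4 : numer k (β / aD k) (β % aD k) ((0 : Fin 3) : ℕ) =
          numer k (β' / aD k) (β' % aD k) ((0 : Fin 3) : ℕ) := by exact_mod_cast h3
      have e1 : (β : ℕ) / aD k * aD k + β % aD k = β := Nat.div_add_mod' _ _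
      have e2 : (β' : ℕ) / aD k * aD k + β' % aD k = β' := Nat.div_add_mod' _ _
      have h5 := numer_inj k _ _ _ _ _ (by rw [e1]; exact β.2) (by rw [e2]; exact β'.2) h4
      rw [e1, e2] at h5
      exact Fin.ext h5
  · intro α
    refine Fin.cases ?_ (fun β => ?_) α
    · show 1 ≤ aT k - chgSum k s
      omega
    · show 1 ≤ chg k s (β / aD k) (β % aD k)
      exact h1 _ _ (Nat.div_lt_of_lt_mul β.2) (Nat.mod_lt _ hD)
  · show 1 ≤ aN k
    unfold aN aK
    have : 0 < 2 ^ k := by positivity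
    omega
  · show (th : ℚ) < (th : ℚ) + 1
    linarith

theorem listSum_range_eq (n : ℕ) (f : ℕ → ℕ) :
    ((List.range n).map f).sum = ∑ i ∈ range n, f i := by
  induction n with
  | zero => simp
  | succ n ih => rw [List.range_succ, List.map_append, List.sum_append, ih, sum_range_succ]; simp

theorem chgSum_eq (k : ℕ) (s : List ℕ) :
    chgSum k s = ∑ β : Fin (pD k * pD k), chg k s (β / aD k) (β % aD k) := by
  unfold chgSum
  rw [listSum_range_eq]
  exact Finset.sum_range (fun β => chg k s (β / aD k) (β % aD k))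

/-- the ground energy in terms of the scaled positions -/
theorem inst_E0 (k : ℕ) (s : List ℕ) (th : ℤ) (hN : aN k = pN k) :
    (inst k s th).E0 = groundEnergy (M := pD k * pD k + 1)
      (Fin.cons 0 (fun β : Fin (pD k * pD k) => (1 / (pT k : ℝ)) •
        (WithLp.toLp 2 (fun c : Fin 3 =>
          (pT k : ℝ) * ((numer k (β / aD k) (β % aD k) c : ℝ) / 2 ^ bexp k)) : R3)))
      (Fin.cons (pT k - ∑ β : Fin (pD k * pD k), chg k s (β / aD k) (β % aD k))
        (fun β => chg k s (β / aD k) (β % aD k))) (pN k) := by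
  have hT : (pT k : ℝ) ≠ 0 := by
    have : 0 < pT k := by unfold pT; positivity
    positivity
  have e1 : (fun α => WithLp.toLp 2 (fun c => (((inst k s th).pos α c : ℚ) : ℝ)) :
      Fin (pD k * pD k + 1) → R3) =
      (Fin.cons 0 (fun β : Fin (pD k * pD k) => (1 / (pT k : ℝ)) •
        (WithLp.toLp 2 (fun c : Fin 3 =>
          (pT k : ℝ) * ((numer k (β / aD k) (β % aD k) c : ℝ) / 2 ^ bexp k)) : R3))) := by
    funext α
    refine Fin.cases ?_ (fun β => ?_) α
    · rw [Fin.cons_zero]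
      ext c
      show (((0 : ℚ)) : ℝ) = 0
      simp
    · rw [Fin.cons_succ]
      ext c
      show ((((numer k (β / aD k) (β % aD k) c : ℤ) : ℚ) / 2 ^ bexp k : ℚ) : ℝ) =
        (1 / (pT k : ℝ)) * ((pT k : ℝ) * ((numer k (β / aD k) (β % aD k) c : ℝ) / 2 ^ bexp k))
      push_cast
      field_simp
  have e2 : (inst k s th).charge = (Fin.cons (pT k - ∑ β : Fin (pD k * pD k),
      chg k s (β / aD k) (β % aD k)) (fun β => chg k s (β / aD k) (β % aD k)) :
        Fin (pD k * pD k + 1) → ℕ) := by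
    rw [← chgSum_eq]
    rfl
  rw [← hN, ← e1, ← e2]
  rfl

theorem build_length (k : ℕ) (s : List ℕ) (th : ℤ) : 1 ≤ (build k s th).length := by
  simp [build]

/-- the queried word is a yes or no instance of the promise problem -/
theorem build_promise (k : ℕ) (hk : 1 ≤ k) (s : List ℕ) (th : ℤ) (c : ℕ)
    (h1 : ∀ a b, a < aD k → b < aD k → 1 ≤ chg k s a b) (h2 : chgSum k s < aT k) (E : ℝ)
    (hE : (inst k s th).E0 = (E : EReal)) :
    (E ≤ th → build k s th ∈ (electronicStructure c).yes) ∧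
    ((th : ℝ) + 1 ≤ E → build k s th ∈ (electronicStructure c).no) := by
  have hv := inst_valid k hk s th h1 h2
  have he := encInstance_inst k s th
  have hgap : 1 / ((build k s th).length : ℚ) ^ c ≤ (inst k s th).b - (inst k s th).a := by
    have e1 : (inst k s th).b - (inst k s th).a = 1 := by
      show ((th : ℚ) + 1) - (th : ℚ) = 1
      ring
    rw [e1]
    have h3 : (1 : ℚ) ≤ (build k s th).length := by exact_mod_cast build_length k s th
    have h4 : (1 : ℚ) ≤ ((build k s th).length : ℚ) ^ c := one_le_pow₀ h3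
    rw [div_le_one (by positivity)]
    exact h4
  constructor
  · intro h
    refine ⟨inst k s th, hv, he, hgap, ?_⟩
    rw [hE]
    have e2 : (((inst k s th).a : ℚ) : ℝ) = (th : ℝ) := by
      show (((th : ℤ) : ℚ) : ℝ) = (th : ℝ)
      push_cast
      rfl
    rw [e2]
    exact_mod_cast h
  · intro h
    refine ⟨inst k s th, hv, he, hgap, ?_⟩
    rw [hE]
    have e2 : (((inst k s th).b : ℚ) : ℝ) = (th : ℝ) + 1 := by
      show ((((th : ℤ) : ℚ) + 1 : ℚ) : ℝ) = (th : ℝ) + 1
      push_cast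
      rfl
    rw [e2]
    exact_mod_cast h

end Vale.Agent.P370.Q.Alg
end
end

section

section

set_option exponentiation.threshold 10000

namespace Vale.Agent.P370.Red

open Chains Finset

/-! ### integer approximations -/

variable {w : List Bool} {B : ℕ}

end Vale.Agent.P370.Red
end
end

section

section

/-!
The space of block singlets as a space of qubits (H6), part A.
-/

namespace Vale.Agent.P370.H

open Finset ComplexConjugate

variable {B : Type} [Fintype B] [DecidableEq B]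

/-- integer version of `eb` -/
def ebi (x : Bool) (s : Fin 4 → Fin 2) : ℤ :=
  if x then
    (if s 0 = s 1 ∧ s 2 = s 3 ∧ s 0 ≠ s 2 then 2
      else if s 0 ≠ s 1 ∧ s 2 ≠ s 3 then -1 else 0)
  else
    (if s 0 ≠ s 1 ∧ s 2 ≠ s 3 then (if s 0 = s 2 then 1 else -1) else 0)

/-- normalisation -/
noncomputable def nb (x : Bool) : ℝ := if x then (√12)⁻¹ else 1 / 2

theorem eb_eq (x : Bool) (s : Fin 4 → Fin 2) : eb x s = (ebi x s : ℝ) * nb x := by
  unfold eb ebi nb
  cases x
  · simp only [Bool.false_eq_true, if_false]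
    split_ifs <;> norm_num
  · simp only [if_true]
    split_ifs <;> simp [div_eq_mul_inv]

theorem ebi_orth : ∀ x y : Bool, ∑ s : Fin 4 → Fin 2, ebi x s * ebi y s =
    if x = y then (if x then 12 else 4) else 0 := by
  (clear * -; decide)

theorem ebi_bs : ∀ (y : Bool) (σ : Fin 4 → Fin 2),
    ∑ g : Fin 4, ∑ k : Fin 4, (if g = k then 0 else ebi y (σ ∘ Equiv.swap g k)) = 0 := by
  decide

theorem ebi_swap1 : ∀ (y : Bool) (σ : Fin 4 → Fin 2),
    ebi y (σ ∘ Equiv.swap 0 1) = (if y then 1 else -1) * ebi y σ := by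
  decide

theorem ebi_swap2 : ∀ (y : Bool) (σ : Fin 4 → Fin 2),
    2 * ebi y (σ ∘ Equiv.swap 0 2) = (if y then -ebi true σ - 3 * ebi false σ
      else ebi false σ - ebi true σ) := by
  (clear * -; decide)

theorem ebi_swap3 : ∀ (y : Bool) (σ : Fin 4 → Fin 2),
    2 * ebi y (σ ∘ Equiv.swap 0 3) = (if y then -ebi true σ + 3 * ebi false σ
      else ebi false σ + ebi true σ) := by
  decide

/-- one block: orthonormality -/
theorem eb_orth (x y : Bool) : ∑ s : Fin 4 → Fin 2, eb x s * eb y s =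
    if x = y then (1 : ℝ) else 0 := by
  have h : ∑ s : Fin 4 → Fin 2, eb x s * eb y s =
      ((∑ s : Fin 4 → Fin 2, ebi x s * ebi y s : ℤ) : ℝ) * (nb x * nb y) := by
    push_cast
    rw [Finset.sum_mul]
    refine Finset.sum_congr rfl fun s _ => ?_
    rw [eb_eq, eb_eq]
    ring
  have h12 : (√12 : ℝ)⁻¹ * (√12)⁻¹ = 1 / 12 := by
    rw [← mul_inv, Real.mul_self_sqrt (by norm_num)]
    norm_num
  rw [h, ebi_orth]
  by_cases hxy : x = y
  · subst hxy
    cases x
    · simp only [↓reduceIte, Bool.false_eq_true, Int.cast_ofNat, nb, one_div]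
      norm_num
    · simp only [if_true, nb]
      rw [h12]
      norm_num
  · simp [hxy]

/-- sums over configurations of products over blocks -/
theorem sum_blocks (F : B → (Fin 4 → Fin 2) → ℂ) :
    ∑ s : B × Fin 4 → Fin 2, ∏ b, F b (fun g => s (b, g)) = ∏ b, ∑ σ : Fin 4 → Fin 2, F b σ := by
  rw [Finset.prod_univ_sum, Fintype.piFinset_univ]
  exact Fintype.sum_equiv (Equiv.curry B (Fin 4) (Fin 2)) _ _ (fun s => rfl)

/-- the factor of the other blocks -/
noncomputable def rest (b : B) (x : B → Bool) (s : B × Fin 4 → Fin 2) : ℂ :=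
  ∏ b' ∈ univ.erase b, (eb (x b') (fun g => s (b', g)) : ℂ)

theorem prod_split (b : B) (x : B → Bool) (s : B × Fin 4 → Fin 2) :
    ∏ b', (eb (x b') (fun g => s (b', g)) : ℂ) = (eb (x b) (fun g => s (b, g)) : ℂ) * rest b x s :=
  (Finset.mul_prod_erase univ _ (mem_univ b)).symm

theorem iota_split (b : B) (u : (B → Bool) → ℂ) (s : B × Fin 4 → Fin 2) :
    iota u s = ∑ x, u x * ((eb (x b) (fun g => s (b, g)) : ℂ) * rest b x s) := by
  unfold iota
  exact Finset.sum_congr rfl fun x _ => by rw [prod_split b]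

theorem rest_swap (b : B) (g k : Fin 4) (x : B → Bool) (s : B × Fin 4 → Fin 2) :
    rest b x (s ∘ Equiv.swap (b, g) (b, k)) = rest b x s := by
  unfold rest
  refine Finset.prod_congr rfl fun b' hb' => ?_
  have hne : b' ≠ b := (Finset.mem_erase.mp hb').1
  congr 2
  funext j
  show s (Equiv.swap (b, g) (b, k) (b', j)) = s (b', j)
  rw [Equiv.swap_apply_of_ne_of_ne]
  · exact fun h => hne (congrArg Prod.fst h)
  · exact fun h => hne (congrArg Prod.fst h)

omit [Fintype B] in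
theorem block_swap (b : B) (g k : Fin 4) (s : B × Fin 4 → Fin 2) :
    (fun j => (s ∘ Equiv.swap (b, g) (b, k)) (b, j)) = (fun j => s (b, j)) ∘ Equiv.swap g k := by
  funext j
  show s (Equiv.swap (b, g) (b, k) (b, j)) = s (b, Equiv.swap g k j)
  congr 1
  by_cases h1 : j = g
  · subst h1
    rw [Equiv.swap_apply_left, Equiv.swap_apply_left]
  · by_cases h2 : j = k
    · subst h2
      rw [Equiv.swap_apply_right, Equiv.swap_apply_right]
    · rw [Equiv.swap_apply_of_ne_of_ne h1 h2, Equiv.swap_apply_of_ne_of_ne]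
      · exact fun h => h1 (congrArg Prod.snd h)
      · exact fun h => h2 (congrArg Prod.snd h)

theorem iota_swap (b : B) (g k : Fin 4) (u : (B → Bool) → ℂ) (s : B × Fin 4 → Fin 2) :
    iota u (s ∘ Equiv.swap (b, g) (b, k)) =
      ∑ x, u x * ((eb (x b) ((fun j => s (b, j)) ∘ Equiv.swap g k) : ℂ) * rest b x s) := by
  rw [iota_split b]
  refine Finset.sum_congr rfl fun x _ => ?_
  rw [rest_swap, block_swap]

/-- one block: total spin zero -/
theorem eb_bs (y : Bool) (σ : Fin 4 → Fin 2) :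
    ∑ g : Fin 4, ∑ k : Fin 4, (if g = k then 3 / 4 * (eb y σ : ℂ) else
      1 / 2 * (eb y (σ ∘ Equiv.swap g k) : ℂ) - 1 / 4 * (eb y σ : ℂ)) = 0 := by
  have h1 : ∑ g : Fin 4, ∑ k : Fin 4, (if g = k then 3 / 4 * (eb y σ : ℂ) else
      1 / 2 * (eb y (σ ∘ Equiv.swap g k) : ℂ) - 1 / 4 * (eb y σ : ℂ)) =
      (∑ g : Fin 4, ∑ k : Fin 4, if g = k then 3 / 4 * (eb y σ : ℂ) else - (1 / 4) * (eb y σ : ℂ)) +
      1 / 2 * (nb y : ℂ) * ((∑ g : Fin 4, ∑ k : Fin 4,
        (if g = k then 0 else ebi y (σ ∘ Equiv.swap g k)) : ℤ) : ℂ) := by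
    push_cast
    rw [Finset.mul_sum, ← Finset.sum_add_distrib]
    refine Finset.sum_congr rfl fun g _ => ?_
    rw [Finset.mul_sum, ← Finset.sum_add_distrib]
    refine Finset.sum_congr rfl fun k _ => ?_
    by_cases hgk : g = k
    · simp only [hgk, ↓reduceIte, one_div, mul_zero, add_zero]
    · simp only [hgk, if_false]
      rw [eb_eq y (σ ∘ Equiv.swap g k)]
      push_cast
      ring
  rw [h1, ebi_bs]
  have h2 : ∑ g : Fin 4, ∑ k : Fin 4,
      (if g = k then 3 / 4 * (eb y σ : ℂ) else - (1 / 4) * (eb y σ : ℂ)) = 0 := by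
    simp only [Fin.sum_univ_four]
    simp only [↓reduceIte, Fin.isValue, zero_ne_one, one_div, neg_mul, Fin.reduceEq, one_ne_zero]
    ring
  rw [h2]
  simp only [one_div, Int.cast_zero, mul_zero, add_zero]

theorem iota_bs (u : (B → Bool) → ℂ) : IsBS (iota u) := by
  intro b
  funext s
  have h1 : ∀ g k : Fin 4, (if g = k then (3 / 4 : ℂ) • iota u else
      dotS (b, g) (b, k) (iota u)) s = ∑ x, u x * rest b x s *
        (if g = k then 3 / 4 * (eb (x b) (fun j => s (b, j)) : ℂ) else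
          1 / 2 * (eb (x b) ((fun j => s (b, j)) ∘ Equiv.swap g k) : ℂ) -
            1 / 4 * (eb (x b) (fun j => s (b, j)) : ℂ)) := by
    intro g k
    by_cases hgk : g = k
    · simp only [hgk, if_true]
      rw [Pi.smul_apply, iota_split b, smul_eq_mul, Finset.mul_sum]
      exact Finset.sum_congr rfl fun x _ => by ring
    · simp only [hgk, if_false]
      unfold dotS
      rw [iota_swap, iota_split b, Finset.mul_sum, Finset.mul_sum, ← Finset.sum_sub_distrib]
      exact Finset.sum_congr rfl fun x _ => by ring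
  rw [Finset.sum_apply]
  simp only [Finset.sum_apply, h1]
  rw [Finset.sum_congr rfl fun g _ => Finset.sum_comm, Finset.sum_comm]
  simp only [← Finset.mul_sum, eb_bs, mul_zero, Finset.sum_const_zero]
  rfl

theorem iotaA_iota (u : (B → Bool) → ℂ) : iotaA (iota u) = u := by
  funext x
  unfold iotaA iota
  have h1 : ∀ y : B → Bool, ∑ s : B × Fin 4 → Fin 2,
      (∏ b, (eb (x b) (fun g => s (b, g)) : ℂ)) * (u y * ∏ b, (eb (y b) (fun g => s (b, g)) : ℂ)) =
      if x = y then u y else 0 := by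
    intro y
    have h2 : ∑ s : B × Fin 4 → Fin 2,
      (∏ b, (eb (x b) (fun g => s (b, g)) : ℂ)) * (u y * ∏ b, (eb (y b) (fun g => s (b, g)) : ℂ)) =
      u y * ∑ s : B × Fin 4 → Fin 2, ∏ b, ((eb (x b) (fun g => s (b, g)) : ℂ) *
        (eb (y b) (fun g => s (b, g)) : ℂ)) := by
      rw [Finset.mul_sum]
      refine Finset.sum_congr rfl fun s _ => ?_
      rw [Finset.prod_mul_distrib]
      ring
    rw [h2, sum_blocks (fun b σ => (eb (x b) σ : ℂ) * (eb (y b) σ : ℂ))]
    have h3 : ∀ b, ∑ σ : Fin 4 → Fin 2, (eb (x b) σ : ℂ) * (eb (y b) σ : ℂ) =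
        if x b = y b then 1 else 0 := by
      intro b
      have := congrArg (fun r : ℝ => (r : ℂ)) (eb_orth (x b) (y b))
      push_cast at this
      rw [this]
      split_ifs <;> simp
    rw [Finset.prod_congr rfl fun b _ => h3 b]
    by_cases hxy : x = y
    · subst hxy; simp only [↓reduceIte, prod_const_one, mul_one]
    · obtain ⟨b, hb⟩ := Function.ne_iff.mp hxy
      rw [Finset.prod_eq_zero (mem_univ b) (by simp [hb])]
      simp [hxy]
  calc ∑ s : B × Fin 4 → Fin 2, (∏ b, (eb (x b) (fun g => s (b, g)) : ℂ)) *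
        ∑ y : B → Bool, u y * ∏ b, (eb (y b) (fun g => s (b, g)) : ℂ)
      = ∑ s : B × Fin 4 → Fin 2, ∑ y : B → Bool, (∏ b, (eb (x b) (fun g => s (b, g)) : ℂ)) *
        (u y * ∏ b, (eb (y b) (fun g => s (b, g)) : ℂ)) :=
          Finset.sum_congr rfl fun s _ => Finset.mul_sum _ _ _
    _ = ∑ y : B → Bool, if x = y then u y else 0 := by
        rw [Finset.sum_comm]
        exact Finset.sum_congr rfl fun y _ => h1 y
    _ = u x := by simp only [sum_ite_eq, mem_univ, ↓reduceIte]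

theorem sip_iota (u : (B → Bool) → ℂ) (Φ : SSt (B × Fin 4)) :
    sip (iota u) Φ = ∑ x, conj (u x) * iotaA Φ x := by
  unfold sip iota iotaA
  calc ∑ s : B × Fin 4 → Fin 2,
        conj (∑ x : B → Bool, u x * ∏ b, (eb (x b) (fun g => s (b, g)) : ℂ)) * Φ s
      = ∑ s : B × Fin 4 → Fin 2, ∑ x : B → Bool,
        conj (u x) * ((∏ b, (eb (x b) (fun g => s (b, g)) : ℂ)) * Φ s) := by
          refine Finset.sum_congr rfl fun s _ => ?_
          rw [map_sum, Finset.sum_mul]
          refine Finset.sum_congr rfl fun x _ => ?_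
          rw [map_mul, map_prod]
          simp only [Complex.conj_ofReal]
          ring
    _ = _ := by
          rw [Finset.sum_comm]
          exact Finset.sum_congr rfl fun x _ => (Finset.mul_sum _ _ _).symm

theorem snorm2_eq_sip {I : Type} [Fintype I] [DecidableEq I] (Φ : SSt I) :
    (snorm2 Φ : ℂ) = sip Φ Φ := by
  unfold snorm2 sip
  push_cast
  exact Finset.sum_congr rfl fun s _ => (Complex.conj_mul' (Φ s)).symm

theorem snorm2_iota (u : (B → Bool) → ℂ) : snorm2 (iota u) = ∑ x, ‖u x‖ ^ 2 := by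
  have h : (snorm2 (iota u) : ℂ) = ((∑ x, ‖u x‖ ^ 2 : ℝ) : ℂ) := by
    rw [snorm2_eq_sip, sip_iota, iotaA_iota]
    push_cast
    exact Finset.sum_congr rfl fun x _ => Complex.conj_mul' (u x)
  exact_mod_cast h

/-- one block: the pair operators -/
theorem eb_swap (y : Bool) (g : Fin 4) (hg : g ≠ 0) (σ : Fin 4 → Fin 2) :
    (eb y (σ ∘ Equiv.swap 0 g) : ℂ) =
      -((if g.pred hg = 0 then 1 else -(1 / 2) : ℂ) * ((if y then -1 else 1) * (eb y σ : ℂ))) -
      (if g.pred hg = 0 then 0 else if g.pred hg = 1 then ((√3 : ℝ) : ℂ) / 2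
        else -((√3 : ℝ) : ℂ) / 2) * (eb (!y) σ : ℂ) := by
  have h3 : (√3 : ℝ) * √3 = 3 := Real.mul_self_sqrt (by norm_num)
  have nbt : nb true = √3 / 6 := by
    have h12 : (√12 : ℝ) = 2 * √3 := by
      rw [show (12 : ℝ) = 2 ^ 2 * 3 by norm_num, Real.sqrt_mul (by norm_num),
        Real.sqrt_sq (by norm_num)]
    have h30 : (√3 : ℝ) ≠ 0 := by positivity
    simp only [nb, if_true, h12]
    field_simp
    linarith [h3]
  have nbf : nb false = 1 / 2 := by simp only [nb, Bool.false_eq_true, ↓reduceIte, one_div]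
  have key : eb y (σ ∘ Equiv.swap 0 g) =
      -((if g.pred hg = 0 then 1 else -(1 / 2) : ℝ) * ((if y then -1 else 1) * eb y σ)) -
      (if g.pred hg = 0 then 0 else if g.pred hg = 1 then √3 / 2
        else -√3 / 2) * eb (!y) σ := by
    simp only [eb_eq]
    fin_cases g
    · exact absurd rfl hg
    · have e := ebi_swap1 y σ
      have e' : (ebi y (σ ∘ Equiv.swap 0 1) : ℝ) = (if y then 1 else -1) * ebi y σ := by
        rw [e]; cases y <;> simp
      show (ebi y (σ ∘ Equiv.swap 0 1) : ℝ) * nb y = _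
      rw [e']
      cases y <;> simp
    · have e := ebi_swap2 y σ
      have e' : 2 * (ebi y (σ ∘ Equiv.swap 0 2) : ℝ) =
          (if y then -(ebi true σ : ℝ) - 3 * ebi false σ else ebi false σ - ebi true σ) := by
        have := congrArg (fun r : ℤ => (r : ℝ)) e
        cases y <;> simpa using this
      show (ebi y (σ ∘ Equiv.swap 0 2) : ℝ) * nb y =
        -((-(1 / 2) : ℝ) * ((if y then -1 else 1) * ((ebi y σ : ℝ) * nb y))) -
          √3 / 2 * ((ebi (!y) σ : ℝ) * nb (!y))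
      cases y
      · simp only [Bool.false_eq_true, if_false, Bool.not_false, nbt, nbf] at e' ⊢
        linear_combination (1 / 4) * e' + (1 / 12) * (ebi true σ : ℝ) * h3
      · simp only [if_true, Bool.not_true, nbt, nbf] at e' ⊢
        linear_combination (√3 / 12) * e'
    · have e := ebi_swap3 y σ
      have e' : 2 * (ebi y (σ ∘ Equiv.swap 0 3) : ℝ) =
          (if y then -(ebi true σ : ℝ) + 3 * ebi false σ else ebi false σ + ebi true σ) := by
        have := congrArg (fun r : ℤ => (r : ℝ)) e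
        cases y <;> simpa using this
      show (ebi y (σ ∘ Equiv.swap 0 3) : ℝ) * nb y =
        -((-(1 / 2) : ℝ) * ((if y then -1 else 1) * ((ebi y σ : ℝ) * nb y))) -
          -√3 / 2 * ((ebi (!y) σ : ℝ) * nb (!y))
      cases y
      · simp only [Bool.false_eq_true, if_false, Bool.not_false, nbt, nbf] at e' ⊢
        linear_combination (1 / 4) * e' - (1 / 12) * (ebi true σ : ℝ) * h3
      · simp only [if_true, nbt, Bool.not_true, nbf] at e' ⊢
        linear_combination (√3 / 12) * e'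
  rw [key]
  cases y <;> push_cast <;> split_ifs <;> simp

theorem rest_update (b : B) (x : B → Bool) (c : Bool) (s : B × Fin 4 → Fin 2) :
    rest b (Function.update x b c) s = rest b x s := by
  unfold rest
  refine Finset.prod_congr rfl fun b' hb' => ?_
  rw [Function.update_of_ne (Finset.mem_erase.mp hb').1]

/-- flipping one qubit -/
theorem sum_flip (b : B) (f : (B → Bool) → ℂ) :
    ∑ x : B → Bool, f (Function.update x b (!x b)) = ∑ x, f x := by
  have hinv : Function.Involutive (fun x : B → Bool => Function.update x b (!x b)) := by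
    intro x
    funext b'
    by_cases h : b' = b
    · subst h; simp
    · simp [Function.update_of_ne h]
  exact Equiv.sum_comp (hinv.toPerm _) f

/-- pair operators on block singlets -/
theorem dotS_iota (b : B) (g : Fin 4) (hg : g ≠ 0) (u : (B → Bool) → ℂ) :
    dotS (b, 0) (b, g) (iota u) =
      iota (fun x => -(1 / 4) * u x - 1 / 2 * sgm (g.pred hg) b u x) := by
  funext s
  set σ : Fin 4 → Fin 2 := fun j => s (b, j) with hσ
  set c0 : ℂ := (if g.pred hg = 0 then 1 else -(1 / 2) : ℂ) with hc0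
  set c1 : ℂ := (if g.pred hg = 0 then 0 else if g.pred hg = 1 then ((√3 : ℝ) : ℂ) / 2
        else -((√3 : ℝ) : ℂ) / 2) with hc1
  have hl : dotS (b, 0) (b, g) (iota u) s = ∑ x, u x * rest b x s *
      (1 / 2 * (-(c0 * ((if x b then -1 else 1) * (eb (x b) σ : ℂ))) - c1 * (eb (!x b) σ : ℂ)) -
        1 / 4 * (eb (x b) σ : ℂ)) := by
    unfold dotS
    rw [iota_swap, iota_split b, Finset.mul_sum, Finset.mul_sum, ← Finset.sum_sub_distrib]
    refine Finset.sum_congr rfl fun x _ => ?_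
    rw [eb_swap (x b) g hg]
    ring
  have hr : iota (fun x => -(1 / 4) * u x - 1 / 2 * sgm (g.pred hg) b u x) s =
      ∑ x, u x * rest b x s * (-(1 / 4) * (eb (x b) σ : ℂ) -
        1 / 2 * (c0 * ((if x b then -1 else 1) * (eb (x b) σ : ℂ)))) -
      1 / 2 * c1 * ∑ x, u (Function.update x b (!x b)) * ((eb (x b) σ : ℂ) * rest b x s) := by
    rw [iota_split b, Finset.mul_sum, ← Finset.sum_sub_distrib]
    refine Finset.sum_congr rfl fun x _ => ?_
    unfold sgm
    ring
  have hf : ∑ x : B → Bool, u (Function.update x b (!x b)) * ((eb (x b) σ : ℂ) * rest b x s) =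
      ∑ x, u x * ((eb (!x b) σ : ℂ) * rest b x s) := by
    rw [← sum_flip b (fun x => u x * ((eb (!x b) σ : ℂ) * rest b x s))]
    refine Finset.sum_congr rfl fun x _ => ?_
    rw [rest_update, Function.update_self, Bool.not_not]
  rw [hl, hr, hf, Finset.mul_sum, ← Finset.sum_sub_distrib]
  refine Finset.sum_congr rfl fun x _ => ?_
  ring

end Vale.Agent.P370.H
end
end

section

section

/-!
KC4: radial integrals.
-/

namespace Vale.Agent.P370.KC

open Finset MeasureTheory Set Vale.Agent.P370.Q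

theorem rad_int (m : ℕ) {α : ℝ} (hα : 0 < α) :
    IntegrableOn (fun r => r ^ m * Real.exp (-(α * r))) (Ioi 0) ∧
      ∫ r in Ioi (0 : ℝ), r ^ m * Real.exp (-(α * r)) = (m.factorial : ℝ) / α ^ (m + 1) := by
  constructor
  · have hm : (-1 : ℝ) < m := by
      have : (0 : ℝ) ≤ m := Nat.cast_nonneg m
      linarith
    have h := integrableOn_rpow_mul_exp_neg_mul_rpow (p := 1) (s := m) (b := α) hm one_pos hα
    refine h.congr_fun (fun r _ => ?_) measurableSet_Ioi
    simp only [Real.rpow_natCast, Real.rpow_one, neg_mul]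
  · have h := Real.integral_rpow_mul_exp_neg_mul_Ioi (a := (m : ℝ) + 1) (r := α) (by (clear * -; positivity)) hα
    rw [Real.Gamma_nat_eq_factorial, add_sub_cancel_right, ← Nat.cast_succ,
      Real.rpow_natCast] at h
    simp only [Real.rpow_natCast] at h
    rw [h, one_div, inv_pow, mul_comm, div_eq_mul_inv]

/-- `∫_r^∞ s^q e^{-β s} ds` -/
private noncomputable def gq (q : ℕ) (β r : ℝ) : ℝ :=
  Real.exp (-(β * r)) * ∑ i ∈ range (q + 1),
    (q.factorial : ℝ) / (i.factorial : ℝ) / β ^ (q + 1 - i) * r ^ i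

private theorem gq_zero (q : ℕ) (β : ℝ) : gq q β 0 = (q.factorial : ℝ) / β ^ (q + 1) := by
  unfold gq
  rw [mul_zero, neg_zero, Real.exp_zero, one_mul, Finset.sum_range_succ', Finset.sum_eq_zero]
  · simp only [Nat.factorial_zero, Nat.cast_one, div_one, tsub_zero, pow_zero, mul_one, zero_add]
  · intro i _
    simp only [Nat.reduceSubDiff, ne_eq, Nat.add_eq_zero_iff, one_ne_zero, and_false, not_false_eq_true, zero_pow, mul_zero]

private theorem gq_poly_deriv (q : ℕ) {β : ℝ} (hβ : 0 < β) (r : ℝ) :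
    ∑ i ∈ range (q + 1), (q.factorial : ℝ) / (i.factorial : ℝ) / β ^ (q + 1 - i) *
      ((i : ℝ) * r ^ (i - 1)) =
    β * (∑ i ∈ range (q + 1), (q.factorial : ℝ) / (i.factorial : ℝ) / β ^ (q + 1 - i) * r ^ i) -
      r ^ q := by
  rw [Finset.sum_range_succ' (fun i => (q.factorial : ℝ) / (i.factorial : ℝ) / β ^ (q + 1 - i) *
      ((i : ℝ) * r ^ (i - 1))),
    Finset.sum_range_succ (fun i => (q.factorial : ℝ) / (i.factorial : ℝ) / β ^ (q + 1 - i) *
      r ^ i), mul_add, Finset.mul_sum]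
  have h1 : β * ((q.factorial : ℝ) / (q.factorial : ℝ) / β ^ (q + 1 - q) * r ^ q) = r ^ q := by
    rw [Nat.add_sub_cancel_left, pow_one, div_self (by (clear * -; positivity))]
    (clear * - hβ; field_simp)
  rw [h1]
  simp only [Nat.cast_zero, zero_mul, mul_zero, add_zero, add_sub_cancel_right]
  apply Finset.sum_congr rfl
  intro i hi
  have hi' : i < q := Finset.mem_range.mp hi
  have e1 : q + 1 - (i + 1) = q - i := by (clear * - hi'; omega)
  have e2 : q + 1 - i = (q - i) + 1 := by omega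
  rw [e1, e2, Nat.factorial_succ, pow_succ, Nat.add_sub_cancel]
  push_cast
  field_simp

private theorem gq_deriv (q : ℕ) {β : ℝ} (hβ : 0 < β) (r : ℝ) :
    HasDerivAt (gq q β) (-(r ^ q * Real.exp (-(β * r)))) r := by
  have h1 : HasDerivAt (fun r => Real.exp (-(β * r))) (-β * Real.exp (-(β * r))) r := by
    have h := ((hasDerivAt_id r).const_mul β).neg.exp
    simp only [id, mul_one] at h
    rw [mul_comm]
    exact h
  have h2 : HasDerivAt (fun r : ℝ => ∑ i ∈ range (q + 1),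
      (q.factorial : ℝ) / (i.factorial : ℝ) / β ^ (q + 1 - i) * r ^ i)
      (∑ i ∈ range (q + 1), (q.factorial : ℝ) / (i.factorial : ℝ) / β ^ (q + 1 - i) *
      ((i : ℝ) * r ^ (i - 1))) r := by
    apply HasDerivAt.fun_sum
    intro i _
    exact (hasDerivAt_pow i r).const_mul _
  have h3 := h1.mul h2
  refine h3.congr_deriv ?_
  rw [gq_poly_deriv q hβ]
  ring

private theorem gq_tendsto (q : ℕ) {β : ℝ} (hβ : 0 < β) :
    Filter.Tendsto (gq q β) Filter.atTop (nhds 0) := by
  have h0 : ∀ i : ℕ, Filter.Tendsto (fun r : ℝ => r ^ i * Real.exp (-(β * r)))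
      Filter.atTop (nhds 0) := by
    intro i
    have h := Real.tendsto_pow_mul_exp_neg_atTop_nhds_zero i
    have h2 : Filter.Tendsto (fun r : ℝ => β * r) Filter.atTop Filter.atTop :=
      Filter.tendsto_id.const_mul_atTop hβ
    have h3 := (h.comp h2).const_mul ((1 / β) ^ i)
    rw [mul_zero] at h3
    refine h3.congr fun r => ?_
    have e : (1 / β) ^ i * β ^ i = 1 := by
      rw [← mul_pow, one_div_mul_cancel hβ.ne', one_pow]
    simp only [Function.comp]
    rw [mul_pow, ← mul_assoc, ← mul_assoc, e, one_mul]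
  have h1 : Filter.Tendsto (fun r : ℝ => ∑ i ∈ range (q + 1),
      (q.factorial : ℝ) / (i.factorial : ℝ) / β ^ (q + 1 - i) * (r ^ i * Real.exp (-(β * r))))
      Filter.atTop (nhds (∑ i ∈ range (q + 1),
      (q.factorial : ℝ) / (i.factorial : ℝ) / β ^ (q + 1 - i) * 0)) := by
    apply tendsto_finsetSum
    intro i _
    exact (h0 i).const_mul _
  simp only [mul_zero, Finset.sum_const_zero] at h1
  refine h1.congr fun r => ?_
  unfold gq
  rw [Finset.mul_sum]
  apply Finset.sum_congr rfl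
  intro i _
  ring

private theorem gq_int (q : ℕ) {β : ℝ} (hβ : 0 < β) {r : ℝ} (hr : 0 ≤ r) :
    IntegrableOn (fun s => s ^ q * Real.exp (-(β * s))) (Ioi r) ∧
    ∫ s in Ioi r, s ^ q * Real.exp (-(β * s)) = gq q β r := by
  have hI : IntegrableOn (fun s => s ^ q * Real.exp (-(β * s))) (Ioi r) :=
    (rad_int q hβ).1.mono_set (Ioi_subset_Ioi hr)
  refine ⟨hI, ?_⟩
  have h := integral_Ioi_of_hasDerivAt_of_tendsto' (a := r) (f := gq q β)
    (f' := fun s => -(s ^ q * Real.exp (-(β * s)))) (m := 0)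
    (fun x _ => gq_deriv q hβ x) hI.neg (gq_tendsto q hβ)
  rw [integral_neg] at h
  linarith

private theorem gq_mul (p q : ℕ) (α β r : ℝ) :
    r ^ p * Real.exp (-(α * r)) * gq q β r =
      ∑ i ∈ range (q + 1), (q.factorial : ℝ) / (i.factorial : ℝ) / β ^ (q + 1 - i) *
        (r ^ (p + i) * Real.exp (-((α + β) * r))) := by
  unfold gq
  rw [Finset.mul_sum, Finset.mul_sum]
  apply Finset.sum_congr rfl
  intro i _
  have : Real.exp (-((α + β) * r)) = Real.exp (-(α * r)) * Real.exp (-(β * r)) := by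
    rw [← Real.exp_add]
    congr 1
    ring
  rw [this, pow_add]
  ring

private theorem gq_Jf (p q : ℕ) {α β : ℝ} (hα : 0 < α) (hβ : 0 < β) :
    IntegrableOn (fun r => r ^ p * Real.exp (-(α * r)) * gq q β r) (Ioi 0) ∧
    ∫ r in Ioi (0 : ℝ), r ^ p * Real.exp (-(α * r)) * gq q β r = Jf p q α β := by
  have hI : ∀ i ∈ range (q + 1), IntegrableOn (fun r : ℝ =>
      (q.factorial : ℝ) / (i.factorial : ℝ) / β ^ (q + 1 - i) *
        (r ^ (p + i) * Real.exp (-((α + β) * r)))) (Ioi 0) := fun i _ =>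
    ((rad_int (p + i) (add_pos hα hβ)).1).const_mul _
  simp only [gq_mul]
  constructor
  · exact integrable_finsetSum _ hI
  · rw [integral_finsetSum _ hI]
    unfold Jf
    apply Finset.sum_congr rfl
    intro i _
    rw [integral_const_mul, (rad_int (p + i) (add_pos hα hβ)).2]
    (clear * - hα hβ; field_simp)

/-- the two triangles make up the quadrant -/
private theorem Jf_add (p q : ℕ) {α β : ℝ} (hα : 0 < α) (hβ : 0 < β) :
    Jf p q α β + Jf q p β α = (p.factorial : ℝ) / α ^ (p + 1) * ((q.factorial : ℝ) / β ^ (q + 1)) := by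
  obtain ⟨h1, h2⟩ := gq_Jf p q hα hβ
  obtain ⟨h3, h4⟩ := gq_Jf q p hβ hα
  have hd : ∀ x ∈ Ici (0 : ℝ), HasDerivAt (fun x => gq p α x * gq q β x)
      (-(x ^ p * Real.exp (-(α * x)) * gq q β x + x ^ q * Real.exp (-(β * x)) * gq p α x)) x := by
    intro x _
    have := (gq_deriv p hα x).mul (gq_deriv q hβ x)
    refine this.congr_deriv ?_
    ring
  have ht : Filter.Tendsto (fun x => gq p α x * gq q β x) Filter.atTop (nhds 0) := by
    have := (gq_tendsto p hα).mul (gq_tendsto q hβ)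
    rwa [mul_zero] at this
  have h := integral_Ioi_of_hasDerivAt_of_tendsto' hd (h1.add h3).neg ht
  rw [integral_neg, integral_add h1 h3, h2, h4, gq_zero, gq_zero] at h
  linarith

private theorem inner_eq (a L : ℕ) {α : ℝ} (hα : 0 < α) (ha : L + 1 ≤ a) {s : ℝ} (hs : 0 < s) :
    IntegrableOn (fun r => r ^ a * Real.exp (-(α * r)) *
      (min r s ^ L / max r s ^ (L + 1))) (Ioi 0) ∧
    ∫ r in Ioi (0 : ℝ), r ^ a * Real.exp (-(α * r)) *
      (min r s ^ L / max r s ^ (L + 1)) =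
    (((a + L).factorial : ℝ) / α ^ (a + L + 1) - gq (a + L) α s) / s ^ (L + 1) +
      s ^ L * gq (a - L - 1) α s := by
  have hA := (rad_int (a + L) hα).1
  have hB := gq_int (a - L - 1) hα hs.le
  have hC := gq_int (a + L) hα hs.le
  have hsub : Ioc (0 : ℝ) s ⊆ Ioi 0 := Ioc_subset_Ioi_self
  have hU : Ioi (0 : ℝ) = Ioc 0 s ∪ Ioi s := (Ioc_union_Ioi_eq_Ioi hs.le).symm
  have hdis : Disjoint (Ioc (0 : ℝ) s) (Ioi s) := by
    rw [Set.disjoint_left]
    intro x hx hx'
    exact absurd hx.2 (not_le.mpr hx')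
  -- the two pieces
  have e1 : ∀ r ∈ Ioc (0 : ℝ) s, r ^ (a + L) * Real.exp (-(α * r)) / s ^ (L + 1) =
      r ^ a * Real.exp (-(α * r)) * (min r s ^ L / max r s ^ (L + 1)) := by
    intro r hr
    rw [min_eq_left hr.2, max_eq_right hr.2, pow_add]
    ring
  have e2 : ∀ r ∈ Ioi s, s ^ L * (r ^ (a - L - 1) * Real.exp (-(α * r))) =
      r ^ a * Real.exp (-(α * r)) * (min r s ^ L / max r s ^ (L + 1)) := by
    intro r hr
    have hr' : s < r := hr
    have hr0 : 0 < r := hs.trans hr'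
    rw [min_eq_right hr'.le, max_eq_left hr'.le]
    have : r ^ a = r ^ (a - L - 1) * r ^ (L + 1) := by
      rw [← pow_add]
      congr 1
      omega
    rw [this]
    field_simp
  have i1 : IntegrableOn (fun r : ℝ => r ^ (a + L) * Real.exp (-(α * r)) / s ^ (L + 1))
      (Ioc 0 s) := (hA.mono_set hsub).div_const _
  have i2 : IntegrableOn (fun r : ℝ => s ^ L * (r ^ (a - L - 1) * Real.exp (-(α * r))))
      (Ioi s) := hB.1.const_mul _
  have j1 := i1.congr_fun e1 measurableSet_Ioc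
  have j2 := i2.congr_fun e2 measurableSet_Ioi
  have k1 : ∫ r in Ioc (0 : ℝ) s, r ^ (a + L) * Real.exp (-(α * r)) =
      ((a + L).factorial : ℝ) / α ^ (a + L + 1) - gq (a + L) α s := by
    have h := (rad_int (a + L) hα).2
    rw [hU, setIntegral_union hdis measurableSet_Ioi (hA.mono_set hsub) hC.1, hC.2] at h
    linarith only [h]
  constructor
  · rw [hU]
    exact j1.union j2
  · rw [hU, setIntegral_union hdis measurableSet_Ioi j1 j2,
      ← setIntegral_congr_fun measurableSet_Ioc e1, ← setIntegral_congr_fun measurableSet_Ioi e2,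
      integral_div, integral_const_mul, k1, hB.2]

theorem Phi_eq (a b L : ℕ) {α β : ℝ} (hα : 0 < α) (hβ : 0 < β) (ha : L + 1 ≤ a)
    (hb : L + 1 ≤ b) :
    (∀ s : ℝ, 0 < s → IntegrableOn (fun r => r ^ a * Real.exp (-(α * r)) *
      (min r s ^ L / max r s ^ (L + 1))) (Ioi 0)) ∧
    IntegrableOn (fun s => s ^ b * Real.exp (-(β * s)) * ∫ r in Ioi (0 : ℝ),
      r ^ a * Real.exp (-(α * r)) * (min r s ^ L / max r s ^ (L + 1))) (Ioi 0) ∧
    ∫ s in Ioi (0 : ℝ), s ^ b * Real.exp (-(β * s)) * ∫ r in Ioi (0 : ℝ),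
      r ^ a * Real.exp (-(α * r)) * (min r s ^ L / max r s ^ (L + 1)) = Phi a b L α β := by
  refine ⟨fun s hs => (inner_eq a L hα ha hs).1, ?_⟩
  obtain ⟨h1, h2⟩ := gq_Jf (b - L - 1) (a + L) hβ hα
  obtain ⟨h3, h4⟩ := gq_Jf (b + L) (a - L - 1) hβ hα
  obtain ⟨h5, h6⟩ := rad_int (b - L - 1) hβ
  have h5' := h5.const_mul (((a + L).factorial : ℝ) / α ^ (a + L + 1))
  have e : ∀ s ∈ Ioi (0 : ℝ),
      (((a + L).factorial : ℝ) / α ^ (a + L + 1) * (s ^ (b - L - 1) * Real.exp (-(β * s))) -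
        s ^ (b - L - 1) * Real.exp (-(β * s)) * gq (a + L) α s) +
        s ^ (b + L) * Real.exp (-(β * s)) * gq (a - L - 1) α s =
      s ^ b * Real.exp (-(β * s)) * ∫ r in Ioi (0 : ℝ),
      r ^ a * Real.exp (-(α * r)) * (min r s ^ L / max r s ^ (L + 1)) := by
    intro s hs
    have hs' : (0 : ℝ) < s := hs
    rw [(inner_eq a L hα ha hs).2]
    have : s ^ b = s ^ (b - L - 1) * s ^ (L + 1) := by
      rw [← pow_add]
      congr 1
      (clear * - hb; omega)
    rw [pow_add s b L, mul_add]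
    have e2 : s ^ b * Real.exp (-(β * s)) *
        ((((a + L).factorial : ℝ) / α ^ (a + L + 1) - gq (a + L) α s) / s ^ (L + 1)) =
        s ^ (b - L - 1) * Real.exp (-(β * s)) *
          (((a + L).factorial : ℝ) / α ^ (a + L + 1) - gq (a + L) α s) := by
      rw [this]
      (clear * - hα hs'; field_simp)
    rw [e2]
    ring
  have h8 : IntegrableOn (fun s : ℝ =>
      ((a + L).factorial : ℝ) / α ^ (a + L + 1) * (s ^ (b - L - 1) * Real.exp (-(β * s))) -
        s ^ (b - L - 1) * Real.exp (-(β * s)) * gq (a + L) α s) (Ioi 0) := h5'.sub h1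
  have h9 : IntegrableOn (fun s : ℝ =>
      (((a + L).factorial : ℝ) / α ^ (a + L + 1) * (s ^ (b - L - 1) * Real.exp (-(β * s))) -
        s ^ (b - L - 1) * Real.exp (-(β * s)) * gq (a + L) α s) +
        s ^ (b + L) * Real.exp (-(β * s)) * gq (a - L - 1) α s) (Ioi 0) := h8.add h3
  constructor
  · exact h9.congr_fun e measurableSet_Ioi
  · rw [← setIntegral_congr_fun measurableSet_Ioi e]
    rw [integral_add h8 h3, integral_sub h5' h1, integral_const_mul, h6, h2, h4]
    unfold Phi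
    have h7 := Jf_add (a + L) (b - L - 1) hα hβ
    linarith only [h7]

private theorem Jf_nonneg (p q : ℕ) {α β : ℝ} (hα : 0 < α) (hβ : 0 < β) : 0 ≤ Jf p q α β := by
  unfold Jf
  apply Finset.sum_nonneg
  intro i _
  (clear * - hβ hα; positivity)

theorem Phi_nonneg (a b L : ℕ) {α β : ℝ} (hα : 0 < α) (hβ : 0 < β) : 0 ≤ Phi a b L α β :=
  add_nonneg (Jf_nonneg _ _ hα hβ) (Jf_nonneg _ _ hβ hα)

theorem kp_eq (k : ℕ) : Hyd.kap k = kp k := rfl

theorem lc_eq (k l j : ℕ) : Hyd.cf (Hyd.kap k) l j = lag k l j := by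
  induction j with
  | zero =>
    unfold lag
    rw [Finset.range_zero, Finset.prod_empty]
    rfl
  | succ j ih =>
    unfold lag at ih ⊢
    rw [Finset.prod_range_succ, ← ih, Hyd.cf, kp_eq, mul_comm]

theorem rad_eq (k l : ℕ) (r : ℝ) :
    Hyd.rad k l r = (∑ j ∈ Finset.range (k + 1 - l), lag k l j * r ^ j) *
      Real.exp (-(kp k * r)) := by
  unfold Hyd.rad Hyd.Lr
  simp only [lc_eq]
  rw [kp_eq, neg_mul]

theorem nrm_eq (k l : ℕ) : Hyd.radN k l = nrm k l := by
  have hk : 0 < 2 * kp k := mul_pos two_pos (Hyd.kap_pos k)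
  have hI : ∀ i ∈ Finset.range (k + 1 - l), ∀ j ∈ Finset.range (k + 1 - l),
      IntegrableOn (fun r : ℝ => lag k l i * lag k l j *
        (r ^ (2 * l + 2 + i + j) * Real.exp (-(2 * kp k * r)))) (Ioi 0) := fun i _ j _ =>
    ((rad_int (2 * l + 2 + i + j) hk).1).const_mul _
  have e : ∀ r : ℝ, r ^ (2 * l + 2) * Hyd.rad k l r ^ 2 =
      ∑ i ∈ Finset.range (k + 1 - l), ∑ j ∈ Finset.range (k + 1 - l), lag k l i * lag k l j *
        (r ^ (2 * l + 2 + i + j) * Real.exp (-(2 * kp k * r))) := by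
    intro r
    rw [rad_eq, mul_pow, sq (∑ j ∈ Finset.range (k + 1 - l), lag k l j * r ^ j),
      Finset.sum_mul_sum]
    have e1 : Real.exp (-(kp k * r)) ^ 2 = Real.exp (-(2 * kp k * r)) := by
      rw [sq, ← Real.exp_add]
      congr 1
      ring
    rw [e1, Finset.sum_mul, Finset.mul_sum]
    apply Finset.sum_congr rfl
    intro i _
    rw [Finset.sum_mul, Finset.mul_sum]
    apply Finset.sum_congr rfl
    intro j _
    rw [pow_add r (2 * l + 2 + i) j, pow_add r (2 * l + 2) i]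
    ring
  unfold Hyd.radN nrm
  simp only [e]
  rw [integral_finsetSum _ fun i hi => integrable_finsetSum _ (hI i hi)]
  apply Finset.sum_congr rfl
  intro i hi
  rw [integral_finsetSum _ (hI i hi)]
  apply Finset.sum_congr rfl
  intro j _
  rw [integral_const_mul, (rad_int (2 * l + 2 + i + j) hk).2]
  congr 3
  ring

theorem nrm_pos (k l : ℕ) (hl : l ≤ k) : 0 < nrm k l := by
  rw [← nrm_eq]
  exact Hyd.radN_pos hl

end Vale.Agent.P370.KC
end
end

section

section

/-!
Radial integrals of the potential `(1/r - 1/ρ)_+`.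
-/

namespace Vale.Agent.P370.Q

open MeasureTheory Finset ComplexConjugate Hyd

theorem I0_ge (n : ℕ) (hn : 1 ≤ n) : 1 / 4 ≤ I0 n := by
  have hn0 : (0 : ℝ) < n := by exact_mod_cast hn
  have h : I0 n = ((2 * n).factorial : ℝ) / (2 / (n : ℝ)) ^ (2 * n + 1) := by
    rw [← integral_pow_exp (2 * n) (b := 2 / (n : ℝ)) (by (clear * - hn; positivity))]
    unfold I0
    refine setIntegral_congr_fun measurableSet_Ioi fun r _ => ?_
    congr 2
    ring
  rw [h]
  rcases Nat.eq_or_lt_of_le hn with h1 | h1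
  · rw [← h1]
    norm_num [Nat.factorial]
  · have h2 : (2 / (n : ℝ)) ^ (2 * n + 1) ≤ 1 := by
      apply pow_le_one₀ (by positivity)
      rw [div_le_one hn0]
      exact_mod_cast h1
    have h3 : (1 : ℝ) ≤ ((2 * n).factorial : ℝ) := by
      exact_mod_cast Nat.one_le_iff_ne_zero.2 (Nat.factorial_ne_zero _)
    rw [le_div_iff₀ (by positivity)]
    nlinarith only [h2, h3]

/-- the numerator of `xr` -/
theorem xr_num_eq (n : ℕ) (hn : 1 ≤ n) {ρ : ℝ} (hρ : 0 < ρ) :
    ∫ r in Set.Ioi (0 : ℝ), r ^ (2 * n) * Real.exp (-(2 * r / n)) * Vr ρ r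
      = ∫ r in (0 : ℝ)..ρ, r ^ (2 * n) * Real.exp (-(2 * r / n)) * (1 / r - 1 / ρ) := by
  rw [intervalIntegral.integral_of_le hρ.le]
  have h1 : ∫ r in Set.Ioc (0 : ℝ) ρ, r ^ (2 * n) * Real.exp (-(2 * r / n)) * (1 / r - 1 / ρ)
      = ∫ r in Set.Ioc (0 : ℝ) ρ, r ^ (2 * n) * Real.exp (-(2 * r / n)) * Vr ρ r := by
    refine setIntegral_congr_fun measurableSet_Ioc fun r hr => ?_
    have h2 : Vr ρ r = 1 / r - 1 / ρ := by
      unfold Vr
      rw [max_eq_left]
      rw [sub_nonneg]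
      exact one_div_le_one_div_of_le hr.1 hr.2
    rw [h2]
  rw [h1]
  refine setIntegral_eq_of_subset_of_forall_sdiff_eq_zero measurableSet_Ioi
    (fun r hr => hr.1) fun r hr => ?_
  have hr1 : (0 : ℝ) < r := hr.1
  have hr2 : ρ < r := by
    by_contra hcon
    exact hr.2 ⟨hr1, not_lt.1 hcon⟩
  have h2 : Vr ρ r = 0 := by
    unfold Vr
    rw [max_eq_right]
    rw [sub_nonpos]
    exact one_div_le_one_div_of_le hρ hr2.le
  rw [h2, mul_zero]

theorem xr_bounds (n : ℕ) (hn : 1 ≤ n) (ρ : ℝ) (hρ : 0 < ρ) (_hρ2 : ρ ≤ 1) :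
    0 ≤ xr n ρ ∧ xr n ρ ≤ ρ ^ (2 * n) := by
  have hI := I0_ge n hn
  have hI0 : 0 < I0 n := by linarith only [hI]
  have hn0 : (0 : ℝ) < n := by exact_mod_cast hn
  have hpt : ∀ r ∈ Set.Ioc (0 : ℝ) ρ, r ^ (2 * n) * Real.exp (-(2 * r / n)) * (1 / r - 1 / ρ)
      = r ^ (2 * n - 1) * (1 - r / ρ) * Real.exp (-(2 * r / n)) := by
    intro r hr
    have hr0 := hr.1
    obtain ⟨m, hm⟩ : ∃ m, 2 * n = m + 1 := ⟨2 * n - 1, by omega⟩
    rw [hm, Nat.add_sub_cancel, pow_succ]
    (clear * - hρ hr0; field_simp)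
  have hcont : Continuous fun r : ℝ => r ^ (2 * n - 1) * (1 - r / ρ) * Real.exp (-(2 * r / n)) := by
    (clear * -; fun_prop)
  have hnum0 : 0 ≤ ∫ r in (0 : ℝ)..ρ, r ^ (2 * n) * Real.exp (-(2 * r / n)) * (1 / r - 1 / ρ) := by
    rw [intervalIntegral.integral_of_le hρ.le]
    refine setIntegral_nonneg measurableSet_Ioc fun r hr => ?_
    have h1 : 0 ≤ 1 / r - 1 / ρ := by
      rw [sub_nonneg]
      exact one_div_le_one_div_of_le hr.1 hr.2
    have := hr.1
    (clear * - this h1; positivity)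
  have hnum1 : ∫ r in (0 : ℝ)..ρ, r ^ (2 * n) * Real.exp (-(2 * r / n)) * (1 / r - 1 / ρ)
      ≤ ρ ^ (2 * n) / (2 * n * (2 * n + 1)) := by
    have h1 : ∫ r in (0 : ℝ)..ρ, r ^ (2 * n - 1) * (1 - r / ρ)
        = ρ ^ (2 * n) / (2 * n * (2 * n + 1)) := by
      have h2 : ∀ r : ℝ, r ^ (2 * n - 1) * (1 - r / ρ)
          = r ^ (2 * n - 1) - 1 / ρ * r ^ (2 * n) := by
        intro r
        obtain ⟨m, hm⟩ : ∃ m, 2 * n = m + 1 := ⟨2 * n - 1, by (clear * - hn; omega)⟩
        rw [hm, Nat.add_sub_cancel, pow_succ]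
        (clear * - hρ; field_simp)
      simp only [h2]
      rw [intervalIntegral.integral_sub (Continuous.intervalIntegrable (by (clear * -; fun_prop)) _ _)
        (Continuous.intervalIntegrable (by fun_prop) _ _), intervalIntegral.integral_const_mul,
        integral_pow, integral_pow]
      obtain ⟨m, hm⟩ : ∃ m, 2 * n = m + 1 := ⟨2 * n - 1, by (clear * - hn; omega)⟩
      have hm' : 2 * (n : ℝ) = m + 1 := by exact_mod_cast hm
      rw [hm, Nat.add_sub_cancel, hm', zero_pow (Nat.succ_ne_zero _),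
        zero_pow (Nat.succ_ne_zero _), sub_zero, sub_zero]
      push_cast
      field_simp
      ring
    rw [← h1, intervalIntegral.integral_of_le hρ.le, intervalIntegral.integral_of_le hρ.le,
      setIntegral_congr_fun measurableSet_Ioc hpt]
    refine setIntegral_mono_on ?_ ?_ measurableSet_Ioc fun r hr => ?_
    · exact (hcont.continuousOn.integrableOn_Icc (a := 0) (b := ρ)).mono_set
        Set.Ioc_subset_Icc_self
    · have hc : Continuous fun r : ℝ => r ^ (2 * n - 1) * (1 - r / ρ) := by (clear * -; fun_prop)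
      exact (hc.continuousOn.integrableOn_Icc (a := 0) (b := ρ)).mono_set
        Set.Ioc_subset_Icc_self
    · have h3 : 0 ≤ 1 - r / ρ := by
        rw [sub_nonneg, div_le_one hρ]
        exact hr.2
      have h4 : Real.exp (-(2 * r / n)) ≤ 1 := by
        rw [Real.exp_le_one_iff, neg_nonpos]
        have := hr.1.le
        (clear * - this hn; positivity)
      have h5 : 0 ≤ r ^ (2 * n - 1) * (1 - r / ρ) := mul_nonneg (pow_nonneg hr.1.le _) h3
      exact mul_le_of_le_one_right h5 h4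
  unfold xr
  refine ⟨div_nonneg hnum0 hI0.le, ?_⟩
  rw [div_le_iff₀ hI0]
  refine hnum1.trans ?_
  have h6 : (6 : ℝ) ≤ 2 * n * (2 * n + 1) := by
    have : (1 : ℝ) ≤ n := by exact_mod_cast hn
    nlinarith only [this]
  calc ρ ^ (2 * n) / (2 * n * (2 * n + 1)) ≤ ρ ^ (2 * n) / 6 := by
        gcongr
    _ ≤ ρ ^ (2 * n) * (1 / 4) := by
        have : 0 ≤ ρ ^ (2 * n) := by (clear * - hρ; positivity)
        (clear * - this; linarith)
    _ ≤ ρ ^ (2 * n) * I0 n := by
        gcongr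

theorem vfun_eq_prod (n : ℕ) (P : Poly3) (x : R3) :
    vfun n P x = ev P x * Real.exp (-(‖x‖ / n)) := rfl

theorem bform_top (n : ℕ) (hn : 1 ≤ n) {φ ψ : R3 → ℝ} (hφ : InV n φ) (hψ : InV n ψ) (ρ : ℝ)
    (hρ : 0 < ρ) : bform ρ φ ψ = xr n ρ * ov φ ψ := by
  obtain ⟨P, hP, rfl⟩ := hφ
  obtain ⟨P', hP', rfl⟩ := hψ
  have hI := I0_ge n hn
  have hI0 : I0 n ≠ 0 := by linarith only [hI]
  have hdeg : n - 1 + (n - 1) + 2 = 2 * n := by omega
  have hexp : ∀ r : ℝ, Real.exp (-(r / n)) * Real.exp (-(r / n)) = Real.exp (-(2 * r / n)) := by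
    intro r
    rw [← Real.exp_add]
    congr 1
    ring
  have h1 := integral_homog hP.1 hP'.1 fun r => Real.exp (-(2 * r / n)) * Vr ρ r
  have h2 := integral_homog hP.1 hP'.1 fun r => Real.exp (-(2 * r / n))
  rw [hdeg] at h1 h2
  have e1 : bform ρ (vfun n P) (vfun n P')
      = ∫ x : R3, ev P x * ev P' x * (Real.exp (-(2 * ‖x‖ / n)) * Vr ρ ‖x‖) := by
    unfold bform
    refine integral_congr_ae (Filter.Eventually.of_forall fun x => ?_)
    simp only
    rw [vfun_eq_prod, vfun_eq_prod, ← hexp]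
    unfold Vr
    ring
  have e2 : ov (vfun n P) (vfun n P')
      = ∫ x : R3, ev P x * ev P' x * Real.exp (-(2 * ‖x‖ / n)) := by
    unfold ov
    refine integral_congr_ae (Filter.Eventually.of_forall fun x => ?_)
    simp only
    rw [vfun_eq_prod, vfun_eq_prod, ← hexp]
    ring
  rw [e1, e2]
  refine h1.trans ?_
  have h3 : ∫ x : R3, ev P x * ev P' x * Real.exp (-(2 * ‖x‖ / n)) = Hyd.sph P P' * I0 n := h2
  rw [h3]
  have h4 : ∫ r in Set.Ioi (0 : ℝ), r ^ (2 * n) * (Real.exp (-(2 * r / n)) * Vr ρ r)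
      = xr n ρ * I0 n := by
    unfold xr
    rw [div_mul_cancel₀ _ hI0, ← xr_num_eq n hn hρ]
    refine setIntegral_congr_fun measurableSet_Ioi fun r _ => ?_
    ring
  rw [h4]
  ring

end Vale.Agent.P370.Q
end
end

section

section

/-!
Isolation of the top subspace.
-/

namespace Vale.Agent.P370.Q

open MeasureTheory Finset ComplexConjugate Hyd

theorem top_mem_Eig {k : ℕ} {P : Pl} (hP : P ∈ Hyd.Harm k) : (P, (0 : Pl)) ∈ Eig (k + 1) := by
  have h1 := zf_mem_Eig le_rfl hP
  have e : k + 1 - k = 1 := by omega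
  have e2 : zf (Hyd.kap k) k (k + 1 - k) P = (P, 0) := by
    unfold zf pw
    rw [e, Finset.sum_range_one]
    simp only [cf, Even.zero, ↓reduceIte, Nat.zero_div, pow_zero, one_mul, one_smul]
  rwa [e2] at h1

theorem vfun_eq_xp (k : ℕ) (P : Poly3) : vfun (k + 1) P = xp (Hyd.kap k) P 0 := by
  funext x
  have h0 : ev (0 : Pl) x = 0 := by simp only [ev, map_zero]
  unfold vfun xp Hyd.kap
  rw [h0, mul_zero, add_zero]
  show ev P x * _ = _
  congr 2
  push_cast
  ring

theorem InV.isShell {n : ℕ} (hn : 1 ≤ n) {φ : R3 → ℝ} (hφ : InV n φ) : IsShell n φ := by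
  obtain ⟨k, rfl⟩ : ∃ k, n = k + 1 := ⟨n - 1, by omega⟩
  obtain ⟨P, hP, rfl⟩ := hφ
  rw [Nat.add_sub_cancel] at hP
  refine (isShell_iff hn).2 ⟨(P, 0), top_mem_Eig (mem_Harm.2 hP), ?_⟩
  rw [vfun_eq_xp, kap_eq]

/-- isolation of the top subspace -/
theorem isolation (n : ℕ) (hn : 2 ≤ n) (ρ : ℝ) (hρ : 0 < ρ) (hρ2 : ρ ≤ 1 / 2 ^ (8 * n ^ 2))
    (φ : R3 → ℝ) (hφ : IsShell n φ) :
    ∃ φ1 φ2 : R3 → ℝ, φ = φ1 + φ2 ∧ InV n φ1 ∧ IsShell n φ2 ∧ (∀ ψ, InV n ψ → ov φ2 ψ = 0) ∧
      (∀ ψ, InV n ψ → bform ρ φ2 ψ = 0) ∧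
      (xr n ρ + ρ ^ (2 * n - 2) / 2 ^ (16 * n ^ 2)) * ov φ2 φ2 ≤ bform ρ φ2 φ2 := by
  obtain ⟨k, rfl⟩ : ∃ k, n = k + 1 := ⟨n - 1, by omega⟩
  obtain ⟨z, hz, rfl⟩ := (isShell_iff (by omega)).1 hφ
  obtain ⟨P, z2, hP, hz2, hsplit, h1, h2, h3⟩ := isolation_aux hρ hρ2 hz
  have hvP : ∀ P' : Pl, vfun (k + 1) P' = (toAdm (kap_pos k) (P', 0)).1.1 := fun P' =>
    vfun_eq_xp k P'
  refine ⟨vfun (k + 1) P, xp (Hyd.kap k) z2.1 z2.2, ?_, ⟨P, ?_, rfl⟩, ?_, ?_, ?_, ?_⟩
  · rw [← kap_eq]
    have h4 := congrArg (fun u : AdmS => u.1.1) (map_add (toAdm (kap_pos k)) (P, 0) z2)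
    rw [← hsplit] at h4
    rw [hvP]
    exact h4
  · rw [Nat.add_sub_cancel]
    exact mem_Harm.1 hP
  · rw [kap_eq]
    exact (isShell_iff (by omega)).2 ⟨z2, hz2, rfl⟩
  · rintro ψ ⟨P', hP', rfl⟩
    rw [Nat.add_sub_cancel] at hP'
    rw [hvP]
    exact h1 P' (mem_Harm.2 hP')
  · rintro ψ ⟨P', hP', rfl⟩
    rw [Nat.add_sub_cancel] at hP'
    rw [hvP]
    exact h2 P' (mem_Harm.2 hP')
  · have h4 : ov (xp (Hyd.kap k) z2.1 z2.2) (xp (Hyd.kap k) z2.1 z2.2)
        = ipB (toAdm (kap_pos k) z2) (toAdm (kap_pos k) z2) := rfl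
    have h5 : bform ρ (xp (Hyd.kap k) z2.1 z2.2) (xp (Hyd.kap k) z2.1 z2.2)
        = VB hρ (toAdm (kap_pos k) z2) (toAdm (kap_pos k) z2) := rfl
    rw [h4, h5]
    refine le_trans ?_ h3
    have h6 : 0 ≤ ipB (toAdm (kap_pos k) z2) (toAdm (kap_pos k) z2) := ip_nonneg _
    refine mul_le_mul_of_nonneg_right ?_ h6
    have hρ1 : ρ ≤ 1 := hρ2.trans (by
      rw [div_le_one (by positivity)]
      exact one_le_pow₀ (by norm_num))
    have h7 := (xr_bounds (k + 1) (by omega) ρ hρ hρ1).2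
    have e1 : 2 * (k + 1) - 2 = 2 * k := by omega
    have e2 : 2 * (k + 1) = 2 * k + 2 := by ring
    rw [e1]
    rw [e2, pow_add] at h7
    have h8 : ρ ^ 2 ≤ 1 / 2 ^ (16 * (k + 1) ^ 2) := by
      have h9 := pow_le_pow_left₀ hρ.le hρ2 2
      refine h9.trans (le_of_eq ?_)
      rw [div_pow, one_pow, ← pow_mul]
      congr 2
      ring
    have h10 : ρ ^ (2 * k) * ρ ^ 2 ≤ ρ ^ (2 * k) / 2 ^ (16 * (k + 1) ^ 2) := by
      rw [div_eq_mul_one_div]
      exact mul_le_mul_of_nonneg_left h8 (by positivity)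
    linarith only [h7, h10]

end Vale.Agent.P370.Q
end
end

section

section

set_option exponentiation.threshold 10000

namespace Vale.Agent.P370.Chains

open Finset

variable {n B : ℕ} {A : Fin n → Fin (n ^ 2) → ℤ}

/-! ### chain-cell -/

end Vale.Agent.P370.Chains
end
end

section

section

set_option exponentiation.threshold 10000

namespace Vale.Agent.P370.Chains

open Finset

variable {n B : ℕ} {A : Fin n → Fin (n ^ 2) → ℤ}

end Vale.Agent.P370.Chains
end
end

section

section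

set_option exponentiation.threshold 10000

namespace Vale.Agent.P370.Chains

open Finset

variable {n B : ℕ} {A : Fin n → Fin (n ^ 2) → ℤ}

end Vale.Agent.P370.Chains
end
end

section

section

/-!
Great circle orbitals: the sites belong to the top subspace, top device, contraction.
-/

namespace Vale.Agent.P370.Q

open MeasureTheory Finset ComplexConjugate

/-! ### real and imaginary parts of null powers -/

/-- real part of the linear form -/
noncomputable def c1u : Poly3 := MvPolynomial.X 2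

/-- imaginary part of the linear form -/
noncomputable def c1v (α : ℝ) : Poly3 :=
  MvPolynomial.C (Real.cos α) * MvPolynomial.X 0 + MvPolynomial.C (Real.sin α) * MvPolynomial.X 1

/-- real and imaginary part of the powers of the linear form -/
noncomputable def c1AB (α : ℝ) : ℕ → Poly3 × Poly3
  | 0 => (1, 0)
  | l + 1 => ((c1AB α l).1 * c1u - (c1AB α l).2 * c1v α, (c1AB α l).1 * c1v α + (c1AB α l).2 * c1u)

noncomputable def c1A (α : ℝ) (l : ℕ) : Poly3 := (c1AB α l).1
noncomputable def c1B (α : ℝ) (l : ℕ) : Poly3 := (c1AB α l).2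

theorem c1A_zero (α : ℝ) : c1A α 0 = 1 := rfl
theorem c1B_zero (α : ℝ) : c1B α 0 = 0 := rfl
theorem c1A_succ (α : ℝ) (l : ℕ) : c1A α (l + 1) = c1A α l * c1u - c1B α l * c1v α := rfl
theorem c1B_succ (α : ℝ) (l : ℕ) : c1B α (l + 1) = c1A α l * c1v α + c1B α l * c1u := rfl

theorem c1u_hom : c1u.IsHomogeneous 1 := MvPolynomial.isHomogeneous_X ℝ 2

theorem c1v_hom (α : ℝ) : (c1v α).IsHomogeneous 1 := by
  unfold c1v
  refine MvPolynomial.IsHomogeneous.add ?_ ?_
  · simpa using (MvPolynomial.isHomogeneous_C (Fin 3) (Real.cos α)).mul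
      (MvPolynomial.isHomogeneous_X ℝ (0 : Fin 3))
  · simpa using (MvPolynomial.isHomogeneous_C (Fin 3) (Real.sin α)).mul
      (MvPolynomial.isHomogeneous_X ℝ (1 : Fin 3))

theorem c1AB_hom (α : ℝ) (l : ℕ) :
    (c1A α l).IsHomogeneous l ∧ (c1B α l).IsHomogeneous l := by
  induction l with
  | zero =>
    exact ⟨MvPolynomial.isHomogeneous_one _ _, MvPolynomial.isHomogeneous_zero _ _ _⟩
  | succ l ih =>
    rw [c1A_succ, c1B_succ]
    exact ⟨(ih.1.mul c1u_hom).sub (ih.2.mul (c1v_hom α)),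
      (ih.1.mul (c1v_hom α)).add (ih.2.mul c1u_hom)⟩

/-- gradient of the real part -/
noncomputable def c1uk (k : Fin 3) : ℝ := if k = 2 then 1 else 0

/-- gradient of the imaginary part -/
noncomputable def c1vk (α : ℝ) (k : Fin 3) : ℝ := ![Real.cos α, Real.sin α, 0] k

theorem c1u_pd (k : Fin 3) : MvPolynomial.pderiv k c1u = MvPolynomial.C (c1uk k) := by
  unfold c1u c1uk
  fin_cases k <;> simp [MvPolynomial.pderiv_X]

theorem c1v_pd (α : ℝ) (k : Fin 3) : MvPolynomial.pderiv k (c1v α) = MvPolynomial.C (c1vk α k) := by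
  unfold c1v c1vk
  fin_cases k <;> simp [MvPolynomial.pderiv_X]

theorem c1_pd (α : ℝ) (k : Fin 3) (l : ℕ) :
    MvPolynomial.pderiv k (c1A α (l + 1)) = ((l : Poly3) + 1) *
        (c1A α l * MvPolynomial.C (c1uk k) - c1B α l * MvPolynomial.C (c1vk α k)) ∧
    MvPolynomial.pderiv k (c1B α (l + 1)) = ((l : Poly3) + 1) *
        (c1A α l * MvPolynomial.C (c1vk α k) + c1B α l * MvPolynomial.C (c1uk k)) := by
  induction l with
  | zero =>
    rw [c1A_succ, c1B_succ, c1A_zero, c1B_zero]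
    simp [c1u_pd, c1v_pd]
  | succ l ih =>
    constructor
    · rw [c1A_succ α (l + 1)]
      rw [map_sub, Derivation.leibniz, Derivation.leibniz, ih.1, ih.2, c1u_pd, c1v_pd]
      simp only [smul_eq_mul]
      rw [c1A_succ α l, c1B_succ α l]
      push_cast
      ring
    · rw [c1B_succ α (l + 1)]
      rw [map_add, Derivation.leibniz, Derivation.leibniz, ih.1, ih.2, c1u_pd, c1v_pd]
      simp only [smul_eq_mul]
      rw [c1A_succ α l, c1B_succ α l]
      push_cast
      ring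

theorem c1_uv (α : ℝ) : ∑ k, (c1uk k * c1uk k - c1vk α k * c1vk α k) = 0 ∧
    ∑ k, c1uk k * c1vk α k = 0 := by
  constructor
  · simp [Fin.sum_univ_three, c1uk, c1vk]
    have := Real.sin_sq_add_cos_sq α
    linarith only [this]
  · simp [c1uk, c1vk]

theorem c1_pd_zero (α : ℝ) (k : Fin 3) :
    MvPolynomial.pderiv k (c1A α 0) = 0 ∧ MvPolynomial.pderiv k (c1B α 0) = 0 := by
  rw [c1A_zero, c1B_zero]
  simp

theorem c1_lap (α : ℝ) (l : ℕ) : lap (c1A α l) = 0 ∧ lap (c1B α l) = 0 := by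
  have hC1 : ∑ k, (MvPolynomial.C (c1uk k) * MvPolynomial.C (c1uk k) -
      MvPolynomial.C (c1vk α k) * MvPolynomial.C (c1vk α k) : Poly3) = 0 := by
    have h := congrArg (MvPolynomial.C (σ := Fin 3)) (c1_uv α).1
    simpa [map_sum] using h
  have hC2 : ∑ k, (MvPolynomial.C (c1uk k) * MvPolynomial.C (c1vk α k) : Poly3) = 0 := by
    have h := congrArg (MvPolynomial.C (σ := Fin 3)) (c1_uv α).2
    simpa [map_sum] using h
  cases l with
  | zero =>
    unfold lap
    constructor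
    · refine Finset.sum_eq_zero fun k _ => ?_
      rw [(c1_pd_zero α k).1, map_zero]
    · refine Finset.sum_eq_zero fun k _ => ?_
      rw [(c1_pd_zero α k).2, map_zero]
  | succ l =>
    have hcast : ∀ k : Fin 3, MvPolynomial.pderiv k ((l : Poly3) + 1) = 0 := by
      intro k
      have : ((l : Poly3) + 1) = MvPolynomial.C ((l : ℝ) + 1) := by simp
      rw [this, MvPolynomial.pderiv_C]
    cases l with
    | zero =>
      unfold lap
      constructor
      · refine Finset.sum_eq_zero fun k _ => ?_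
        rw [(c1_pd α k 0).1, Derivation.leibniz, hcast, map_sub, Derivation.leibniz,
          Derivation.leibniz, MvPolynomial.pderiv_C, MvPolynomial.pderiv_C, (c1_pd_zero α k).1,
          (c1_pd_zero α k).2]
        simp
      · refine Finset.sum_eq_zero fun k _ => ?_
        rw [(c1_pd α k 0).2, Derivation.leibniz, hcast, map_add, Derivation.leibniz,
          Derivation.leibniz, MvPolynomial.pderiv_C, MvPolynomial.pderiv_C, (c1_pd_zero α k).1,
          (c1_pd_zero α k).2]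
        simp
    | succ m =>
      unfold lap
      constructor
      · have h : ∀ k : Fin 3, MvPolynomial.pderiv k (MvPolynomial.pderiv k (c1A α (m + 1 + 1))) =
            ((((m + 1 : ℕ) : Poly3) + 1) * ((m : Poly3) + 1) * c1A α m) *
              (MvPolynomial.C (c1uk k) * MvPolynomial.C (c1uk k) -
                MvPolynomial.C (c1vk α k) * MvPolynomial.C (c1vk α k)) -
            (2 * (((m + 1 : ℕ) : Poly3) + 1) * ((m : Poly3) + 1) * c1B α m) *
              (MvPolynomial.C (c1uk k) * MvPolynomial.C (c1vk α k)) := by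
          intro k
          rw [(c1_pd α k (m + 1)).1, Derivation.leibniz, hcast, map_sub, Derivation.leibniz,
            Derivation.leibniz, MvPolynomial.pderiv_C, MvPolynomial.pderiv_C, (c1_pd α k m).1,
            (c1_pd α k m).2]
          simp only [smul_eq_mul]
          ring
        rw [Finset.sum_congr rfl (fun k _ => h k), Finset.sum_sub_distrib, ← Finset.mul_sum,
          ← Finset.mul_sum, hC1, hC2, mul_zero, mul_zero, sub_zero]
      · have h : ∀ k : Fin 3, MvPolynomial.pderiv k (MvPolynomial.pderiv k (c1B α (m + 1 + 1))) =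
            ((((m + 1 : ℕ) : Poly3) + 1) * ((m : Poly3) + 1) * c1B α m) *
              (MvPolynomial.C (c1uk k) * MvPolynomial.C (c1uk k) -
                MvPolynomial.C (c1vk α k) * MvPolynomial.C (c1vk α k)) +
            (2 * (((m + 1 : ℕ) : Poly3) + 1) * ((m : Poly3) + 1) * c1A α m) *
              (MvPolynomial.C (c1uk k) * MvPolynomial.C (c1vk α k)) := by
          intro k
          rw [(c1_pd α k (m + 1)).2, Derivation.leibniz, hcast, map_add, Derivation.leibniz,
            Derivation.leibniz, MvPolynomial.pderiv_C, MvPolynomial.pderiv_C, (c1_pd α k m).1,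
            (c1_pd α k m).2]
          simp only [smul_eq_mul]
          ring
        rw [Finset.sum_congr rfl (fun k _ => h k), Finset.sum_add_distrib, ← Finset.mul_sum,
          ← Finset.mul_sum, hC1, hC2, mul_zero, mul_zero, add_zero]

theorem c1_cdot (α : ℝ) (x : R3) :
    (cdot (av α) x).re = x 2 ∧ (cdot (av α) x).im = Real.cos α * x 0 + Real.sin α * x 1 := by
  unfold cdot av
  rw [Fin.sum_univ_three]
  simp only [Matrix.cons_val_zero, Matrix.cons_val_one, Matrix.cons_val]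
  constructor
  · simp
  · simp [-Complex.ofReal_cos, -Complex.ofReal_sin]

theorem c1_pe (α : ℝ) (l : ℕ) (x : R3) :
    pe (c1A α l) x = (cdot (av α) x ^ l).re ∧ pe (c1B α l) x = (cdot (av α) x ^ l).im := by
  have hu : pe c1u x = x 2 := by simp [pe, c1u]
  have hv : pe (c1v α) x = Real.cos α * x 0 + Real.sin α * x 1 := by simp [pe, c1v]
  induction l with
  | zero =>
    rw [c1A_zero, c1B_zero]
    simp [pe]
  | succ l ih =>
    have hA : pe (c1A α (l + 1)) x = pe (c1A α l) x * pe c1u x - pe (c1B α l) x * pe (c1v α) x := by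
      rw [c1A_succ]; simp [pe]
    have hB : pe (c1B α (l + 1)) x = pe (c1A α l) x * pe (c1v α) x + pe (c1B α l) x * pe c1u x := by
      rw [c1B_succ]; simp [pe]
    rw [hA, hB, hu, hv, ih.1, ih.2, pow_succ, Complex.mul_re, Complex.mul_im, (c1_cdot α x).1,
      (c1_cdot α x).2]
    exact ⟨rfl, rfl⟩

theorem c1_harm (α : ℝ) (l : ℕ) : Harm l (c1A α l) ∧ Harm l (c1B α l) :=
  ⟨⟨(c1AB_hom α l).1, (c1_lap α l).1⟩, ⟨(c1AB_hom α l).2, (c1_lap α l).2⟩⟩

theorem c1_fsite (n : ℕ) (α : ℝ) : fsite n α = vfun n (c1A α (n - 1)) := by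
  funext x
  unfold fsite vfun
  rw [(c1_pe α (n - 1) x).1]

theorem c1_gsite (n : ℕ) (α : ℝ) : gsite n α = vfun n (c1B α (n - 1)) := by
  funext x
  unfold gsite vfun
  rw [(c1_pe α (n - 1) x).2]

theorem fsite_InV' (n : ℕ) (α : ℝ) : InV n (fsite n α) :=
  ⟨c1A α (n - 1), (c1_harm α (n - 1)).1, c1_fsite n α⟩

/-! ### sphere averages and continuous linear maps -/

theorem continuous_sp : Continuous (fun p : ℝ × ℝ => sp p.1 p.2) := by
  unfold sp
  refine (PiLp.continuous_toLp 2 _).comp ?_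
  refine continuous_pi fun i => ?_
  fin_cases i
  · exact (Real.continuous_sin.comp continuous_fst).mul (Real.continuous_cos.comp continuous_snd)
  · exact (Real.continuous_sin.comp continuous_fst).mul (Real.continuous_sin.comp continuous_snd)
  · exact Real.continuous_cos.comp continuous_fst

theorem sph_clm {E F : Type} [NormedAddCommGroup E] [NormedSpace ℝ E] [CompleteSpace E]
    [NormedAddCommGroup F] [NormedSpace ℝ F] [CompleteSpace F] (L : E →L[ℝ] F) (f : R3 → E)
    (hf : Continuous f) : sph (fun u => L (f u)) = L (sph f) := by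
  unfold sph
  have h0 : Continuous (fun p : ℝ × ℝ => Real.sin p.1 • f (sp p.1 p.2)) :=
    (Real.continuous_sin.comp continuous_fst).smul (hf.comp continuous_sp)
  have h1 : ∀ θ : ℝ, ∫ φ in (0 : ℝ)..(2 * Real.pi), Real.sin θ • L (f (sp θ φ)) =
      L (∫ φ in (0 : ℝ)..(2 * Real.pi), Real.sin θ • f (sp θ φ)) := by
    intro θ
    rw [← ContinuousLinearMap.intervalIntegral_comp_comm]
    · refine intervalIntegral.integral_congr fun φ _ => ?_
      simp
    · exact (h0.comp (Continuous.prodMk_right θ)).intervalIntegrable _ _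
  simp only [h1]
  rw [map_smul]
  congr 1
  refine ContinuousLinearMap.intervalIntegral_comp_comm L ?_
  exact (intervalIntegral.continuous_parametric_intervalIntegral_of_continuous'
    (f := fun θ φ => Real.sin θ • f (sp θ φ)) h0 0 (2 * Real.pi)).intervalIntegrable _ _

theorem sph_re (f : R3 → ℂ) (hf : Continuous f) : sph (fun u => (f u).re) = (sph f).re :=
  sph_clm Complex.reCLM f hf

theorem sph_im (f : R3 → ℂ) (hf : Continuous f) : sph (fun u => (f u).im) = (sph f).im :=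
  sph_clm Complex.imCLM f hf

theorem continuous_pe' (P : Poly3) : Continuous (pe P) := by
  unfold pe
  exact (MvPolynomial.continuous_eval P).comp (continuous_pi fun i => by fun_prop)

theorem continuous_cdot' (c : C3) : Continuous (cdot c) := by
  unfold cdot
  exact continuous_finsetSum _ fun k _ => continuous_const.mul
    (Complex.continuous_ofReal.comp (by fun_prop))

/-! ### the top device -/

theorem c1_null (α : ℝ) : cc (av α) (av α) = 0 := by
  simp only [cc, av, Fin.sum_univ_three, Matrix.cons_val_zero, Matrix.cons_val_one,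
    Matrix.cons_val]
  have h : (Real.cos α : ℂ) ^ 2 + (Real.sin α : ℂ) ^ 2 = 1 := by
    exact_mod_cast congrArg ((↑) : ℝ → ℂ) (Real.cos_sq_add_sin_sq α)
  linear_combination (-1 : ℂ) * h + ((Real.cos α : ℂ) ^ 2 + (Real.sin α : ℂ) ^ 2) *
    Complex.I_sq

theorem c1_pc_mul (P P' : Poly3) (c : C3) : pc (P * P') c = pc P c * pc P' c := by
  unfold pc; simp

theorem c1_ov_f (n : ℕ) (hn : 1 ≤ n) (α : ℝ) {P : Poly3} (hP : Harm (n - 1) P) :
    ov (vfun n P) (fsite n α) = 4 * Real.pi * I0 n * (Am (n - 1) * (pc P (av α)).re) ∧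
    ov (vfun n P) (gsite n α) = 4 * Real.pi * I0 n * (Am (n - 1) * (pc P (av α)).im) := by
  have hcont : Continuous (fun u : R3 => cdot (av α) u ^ (n - 1) * (pe P u : ℂ)) :=
    ((continuous_cdot' _).pow _).mul (Complex.continuous_ofReal.comp (continuous_pe' P))
  have hE := sph_eval (av α) (c1_null α) (n - 1) P hP.1
  constructor
  · rw [c1_fsite, vfun_ov n hn hP (c1_harm α (n - 1)).1]
    congr 1
    have h1 : sph (fun u => pe P u * pe (c1A α (n - 1)) u) =
        sph (fun u => (cdot (av α) u ^ (n - 1) * (pe P u : ℂ)).re) := by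
      refine sph_congr fun u _ => ?_
      rw [(c1_pe α (n - 1) u).1, Complex.mul_re, Complex.ofReal_re, Complex.ofReal_im]
      ring
    rw [h1, sph_re _ hcont, hE, Complex.mul_re, Complex.ofReal_re, Complex.ofReal_im]
    ring
  · rw [c1_gsite, vfun_ov n hn hP (c1_harm α (n - 1)).2]
    congr 1
    have h1 : sph (fun u => pe P u * pe (c1B α (n - 1)) u) =
        sph (fun u => (cdot (av α) u ^ (n - 1) * (pe P u : ℂ)).im) := by
      refine sph_congr fun u _ => ?_
      rw [(c1_pe α (n - 1) u).2, Complex.mul_im, Complex.ofReal_re, Complex.ofReal_im]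
      ring
    rw [h1, sph_im _ hcont, hE, Complex.mul_im, Complex.ofReal_re, Complex.ofReal_im]
    ring

theorem c1_nf (n : ℕ) (hn : 1 ≤ n) :
    nf n = 2 * Real.pi * 2 ^ (n - 1) * I0 n * Am (n - 1) := by
  obtain ⟨m, rfl⟩ : ∃ m, n = m + 1 := ⟨n - 1, by omega⟩
  rw [I0_eq (m + 1) hn]
  unfold nf Am
  have e1 : m + 1 - 1 = m := by omega
  rw [e1]
  have h1 : ((2 * (m + 1)).factorial : ℝ) = (2 * m + 2) * ((2 * m + 1).factorial : ℝ) := by
    have : 2 * (m + 1) = (2 * m + 1) + 1 := by ring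
    rw [this, Nat.factorial_succ]
    push_cast
    ring
  rw [h1]
  have h2 : ((2 * m + 1).factorial : ℝ) ≠ 0 := by positivity
  have h3 : (((m + 1 : ℕ) : ℝ) / 2) ^ (2 * (m + 1) + 1) =
      ((m + 1 : ℕ) : ℝ) ^ (2 * (m + 1) + 1) / (2 ^ m * 2 ^ m * 8) := by
    rw [div_pow]
    congr 1
    rw [← pow_add]
    have : (8 : ℝ) = 2 ^ 3 := by norm_num
    rw [this, ← pow_add]
    congr 1
    ring
  rw [h3]
  field_simp
  push_cast
  ring

/-- the top multipole is a rank two form on the top subspace -/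
theorem top_rank_two' (n : ℕ) (hn : 2 ≤ n) (α : ℝ) {P P' : Poly3} (hP : Harm (n - 1) P)
    (hP' : Harm (n - 1) P') :
    4 * Real.pi * I0 n *
        sph (fun u => (cdot (av α) u ^ (2 * (n - 1))).re * (pe P u * pe P' u)) =
      gam n / nf n * (ov (vfun n P) (fsite n α) * ov (vfun n P') (fsite n α) -
        ov (vfun n P) (gsite n α) * ov (vfun n P') (gsite n α)) := by
  have hn1 : 1 ≤ n := by omega
  have hcont : Continuous (fun u : R3 => cdot (av α) u ^ (2 * (n - 1)) * (pe (P * P') u : ℂ)) :=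
    ((continuous_cdot' _).pow _).mul (Complex.continuous_ofReal.comp (continuous_pe' _))
  have hE := sph_eval (av α) (c1_null α) (2 * (n - 1)) (P * P')
    (by rw [two_mul]; exact hP.1.mul hP'.1)
  have h1 : sph (fun u => (cdot (av α) u ^ (2 * (n - 1))).re * (pe P u * pe P' u)) =
      sph (fun u => (cdot (av α) u ^ (2 * (n - 1)) * (pe (P * P') u : ℂ)).re) := by
    refine sph_congr fun u _ => ?_
    rw [Complex.mul_re, Complex.ofReal_re, Complex.ofReal_im]
    have : pe (P * P') u = pe P u * pe P' u := by simp [pe]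
    rw [this]
    ring
  rw [h1, sph_re _ hcont, hE, (c1_ov_f n hn1 α hP).1, (c1_ov_f n hn1 α hP).2,
    (c1_ov_f n hn1 α hP').1, (c1_ov_f n hn1 α hP').2, c1_pc_mul, Complex.mul_re,
    Complex.ofReal_re, Complex.ofReal_im, Complex.mul_re]
  rw [c1_nf n hn1]
  unfold gam
  have hA : Am (n - 1) ≠ 0 := by unfold Am; positivity
  have hI : I0 n ≠ 0 := by
    rw [I0_eq n hn1]
    have : (0 : ℝ) < n := by exact_mod_cast hn1
    positivity
  have hpi := Real.pi_ne_zero
  have h2 : (2 : ℝ) ^ (n - 1) ≠ 0 := by positivity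
  field_simp
  ring

/-! ### contraction -/

theorem c1_norm_cdot_le (γ : ℝ) (u : R3) (hu : ‖u‖ = 1) : ‖cdot (av γ) u‖ ≤ 1 := by
  have h0 : ‖u‖ ^ 2 = u 0 ^ 2 + u 1 ^ 2 + u 2 ^ 2 := by
    rw [EuclideanSpace.norm_sq_eq, Fin.sum_univ_three]
    simp
  rw [hu] at h0
  have h1 : ‖cdot (av γ) u‖ ^ 2 ≤ 1 := by
    rw [← Complex.normSq_eq_norm_sq, Complex.normSq_apply, (c1_cdot γ u).1, (c1_cdot γ u).2]
    have := Real.sin_sq_add_cos_sq γ
    have h2 : (Real.cos γ * u 0 + Real.sin γ * u 1) ^ 2 +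
        (Real.sin γ * u 0 - Real.cos γ * u 1) ^ 2 = u 0 ^ 2 + u 1 ^ 2 := by
      linear_combination (u 0 ^ 2 + u 1 ^ 2) * this
    linarith only [h0, h2, sq_nonneg (Real.sin γ * u 0 - Real.cos γ * u 1)]
  nlinarith only [h1]

/-- devices are contractions on the top subspace -/
theorem dev_contr' (n q : ℕ) (hn : 2 ≤ n) (γ : ℝ) {P P' : Poly3} (hP : Harm (n - 1) P)
    (hP' : Harm (n - 1) P') :
    |4 * Real.pi * I0 n * sph (fun u => (cdot (av γ) u ^ (2 * q)).re * (pe P u * pe P' u))| ≤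
      Real.sqrt (ov (vfun n P) (vfun n P) * ov (vfun n P') (vfun n P')) := by
  have hn1 : 1 ≤ n := by omega
  rw [vfun_ov n hn1 hP hP, vfun_ov n hn1 hP' hP']
  set w : R3 → ℝ := fun u => (cdot (av γ) u ^ (2 * q)).re with hw
  set a := sph (fun u => pe P u * pe P u) with ha
  set b := sph (fun u => pe P' u * pe P' u) with hb
  set c := sph (fun u => w u * (pe P u * pe P' u)) with hc
  have hI : 0 < I0 n := by
    rw [I0_eq n hn1]
    have : (0 : ℝ) < n := by exact_mod_cast hn1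
    positivity
  have hw1 : ∀ u, ‖u‖ = 1 → |w u| ≤ 1 := by
    intro u hu
    refine (Complex.abs_re_le_norm _).trans ?_
    rw [norm_pow]
    exact pow_le_one₀ (norm_nonneg _) (c1_norm_cdot_le γ u hu)
  have hcP := continuous_pe' P
  have hcP' := continuous_pe' P'
  have hcw : Continuous w := Complex.continuous_re.comp ((continuous_cdot' _).pow _)
  have key : ∀ t : ℝ, 0 ≤ a * (t * t) + (-2 * c) * t + b := by
    intro t
    have h1 : sph (fun u => (2 * t) • (w u * (pe P u * pe P' u))) ≤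
        sph (fun u => (t * t) • (pe P u * pe P u) + pe P' u * pe P' u) := by
      refine sph_mono (by fun_prop) (by fun_prop) fun u hu => ?_
      have h2 := abs_le.1 (hw1 u hu)
      simp only [smul_eq_mul]
      have h3 : w u * w u ≤ 1 := by linarith only [mul_nonneg_of_nonpos_of_nonpos (Mathlib.Tactic.Linarith.sub_nonpos_of_le h2.left) (Mathlib.Tactic.Linarith.sub_nonpos_of_le h2.right)]
      linarith only [sq_nonneg (t * pe P u - w u * pe P' u), mul_nonneg (sub_nonneg.2 h3) (mul_self_nonneg (pe P' u))]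
    rw [sph_smul, sph_add (by fun_prop) (by fun_prop), sph_smul] at h1
    simp only [smul_eq_mul] at h1
    linarith
  have hd := discrim_le_zero key
  unfold discrim at hd
  have hc2 : c ^ 2 ≤ a * b := by linarith only [hd]
  have hab : 0 ≤ 4 * Real.pi * I0 n := by positivity
  rw [show 4 * Real.pi * I0 n * a * (4 * Real.pi * I0 n * b) =
    (4 * Real.pi * I0 n) ^ 2 * (a * b) by ring, Real.sqrt_mul (by positivity),
    Real.sqrt_sq hab, abs_mul, abs_of_nonneg hab]
  exact mul_le_mul_of_nonneg_left (Real.abs_le_sqrt hc2) hab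

end Vale.Agent.P370.Q
end
end

section

section

/-!
Rotation invariance of the closed shells.
-/

namespace Vale.Agent.P370.Q

open MeasureTheory Finset ComplexConjugate Hyd

theorem IsShell.one_le {n : ℕ} {φ : R3 → ℝ} (hφ : IsShell n φ) : 1 ≤ n := by
  obtain ⟨P, Q, h, -⟩ := hφ
  have := h.1
  omega

theorem IsShell.comp_isometry {n : ℕ} {φ : R3 → ℝ} (hφ : IsShell n φ) (g : R3 ≃ₗᵢ[ℝ] R3) :
    IsShell n (fun x => φ (g x)) := by
  have hn := hφ.one_le
  obtain ⟨z, hz, rfl⟩ := (isShell_iff hn).1 hφ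
  refine (isShell_iff hn).2 ⟨rpair g z, rpair_mem_Eig g hz, ?_⟩
  funext x
  exact (xp_rpair g _ z x).symm

theorem integral_comp_isometry (g : R3 ≃ₗᵢ[ℝ] R3) (F : R3 → ℝ) :
    ∫ x, F (g x) = ∫ x, F x :=
  g.measurePreserving.integral_comp g.toHomeomorph.measurableEmbedding F

theorem ov_comp_isometry (g : R3 ≃ₗᵢ[ℝ] R3) (f h : R3 → ℝ) :
    ov (fun x => f (g x)) (fun x => h (g x)) = ov f h :=
  integral_comp_isometry g fun x => f x * h x

theorem m1_ov_comm (f h : R3 → ℝ) : ov f h = ov h f := by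
  unfold ov
  simp only [mul_comm]

theorem m1_ov_sum_left {ι : Type*} (s : Finset ι) (a : ι → ℝ) {f : ι → R3 → ℝ}
    (hf : ∀ i ∈ s, Nice (f i)) {h : R3 → ℝ} (hh : Nice h) :
    ov (fun x => ∑ i ∈ s, a i * f i x) h = ∑ i ∈ s, a i * ov (f i) h := by
  unfold ov
  rw [show (fun x => (∑ i ∈ s, a i * f i x) * h x) = fun x => ∑ i ∈ s, a i * (f i x * h x) by
    funext x
    rw [Finset.sum_mul]
    exact Finset.sum_congr rfl fun i _ => mul_assoc _ _ _]
  rw [integral_finsetSum _ fun i hi => ((nice_integrable_rinv (hf i hi) hh).2).const_mul (a i)]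
  exact Finset.sum_congr rfl fun i _ => integral_const_mul _ _

/-- the kernel of the closed shells is rotation invariant -/
theorem closed_kernel {n : ℕ} {C O : Type} [Fintype C] [DecidableEq C] [Fintype O]
    [DecidableEq O] (B : ShellBasis n (C ⊕ O)) (hC : ∀ c, B.lev (Sum.inl c) < n)
    (hO : ∀ o, B.lev (Sum.inr o) = n) (g : R3 ≃ₗᵢ[ℝ] R3) (x y : R3) :
    ∑ c : C, B.χ (Sum.inl c) (g x) * B.χ (Sum.inl c) (g y) =
      ∑ c : C, B.χ (Sum.inl c) x * B.χ (Sum.inl c) y := by
  -- notation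
  obtain ⟨χ, hχ⟩ : ∃ χ : C → R3 → ℝ, ∀ c, χ c = B.χ (Sum.inl c) := ⟨_, fun _ => rfl⟩
  have hχS : ∀ c, IsShell (B.lev (Sum.inl c)) (χ c) := fun c => by
    rw [hχ]
    exact B.mem _
  have hnice : ∀ c, Nice (χ c) := fun c => (hχS c).nice (B.lev_pos _)
  have hort : ∀ c d, ov (χ c) (χ d) = if c = d then 1 else 0 := by
    intro c d
    rw [hχ, hχ, B.ortho]
    by_cases h : c = d
    · subst h
      rw [if_pos rfl, if_pos rfl]
    · rw [if_neg h, if_neg]
      intro h'
      exact h (Sum.inl_injective h')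
  -- expansion of the rotated functions
  obtain ⟨u, hu⟩ : ∃ u : C → C → ℝ, ∀ c d, u c d = ov (χ d) (fun x => χ c (g x)) :=
    ⟨_, fun _ _ => rfl⟩
  let U : Matrix C C ℝ := Matrix.of u
  have hexp : ∀ c, (fun x => χ c (g x)) = fun x => ∑ d, u c d * χ d x := by
    intro c
    have h1 := shell_expand (B.lev_pos (Sum.inl c) |>.trans (hC c).le) B (B.lev_pos (Sum.inl c))
      (hC c).le ((hχS c).comp_isometry g)
    rw [h1]
    funext x
    rw [Fintype.sum_sum_type]
    have h2 : ∑ o : O, (if B.lev (Sum.inr o) = B.lev (Sum.inl c) then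
        ov (B.χ (Sum.inr o)) (fun x => χ c (g x)) else 0) * B.χ (Sum.inr o) x = 0 := by
      refine Finset.sum_eq_zero fun o _ => ?_
      rw [if_neg, zero_mul]
      rw [hO o]
      exact (hC c).ne'
    rw [h2, add_zero]
    refine Finset.sum_congr rfl fun d _ => ?_
    rw [hu, ← hχ d]
    by_cases hd : B.lev (Sum.inl d) = B.lev (Sum.inl c)
    · rw [if_pos hd]
    · rw [if_neg hd, shell_ortho (B.lev_pos _) (B.lev_pos _) hd (hχS d)
        ((hχS c).comp_isometry g)]
  have hUU : U * U.transpose = 1 := by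
    ext c d
    rw [Matrix.mul_apply, Matrix.one_apply]
    have h1 : ov (fun x => χ c (g x)) (fun x => χ d (g x)) = if c = d then 1 else 0 := by
      rw [ov_comp_isometry, hort]
    rw [← h1]
    conv_rhs => rw [hexp c]
    rw [m1_ov_sum_left _ _ (fun i _ => hnice i)
      (((hχS d).comp_isometry g).nice (B.lev_pos _))]
    refine Finset.sum_congr rfl fun e _ => ?_
    rw [← hu]
    rfl
  have hUU' : U.transpose * U = 1 := mul_eq_one_comm.1 hUU
  have hcol : ∀ d e, ∑ c, u c d * u c e = if d = e then 1 else 0 := by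
    intro d e
    have := congrFun (congrFun hUU' d) e
    rw [Matrix.mul_apply, Matrix.one_apply] at this
    exact this
  simp only [← hχ]
  have h3 : ∀ c, χ c (g x) * χ c (g y) = ∑ d, ∑ e, (u c d * u c e) * (χ d x * χ e y) := by
    intro c
    have h4 : χ c (g x) = ∑ d, u c d * χ d x := congrFun (hexp c) x
    have h5 : χ c (g y) = ∑ d, u c d * χ d y := congrFun (hexp c) y
    rw [h4, h5, Finset.sum_mul_sum]
    exact Finset.sum_congr rfl fun d _ => Finset.sum_congr rfl fun e _ => by ring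
  rw [Finset.sum_congr rfl fun c _ => h3 c, Finset.sum_comm]
  refine Finset.sum_congr rfl fun d _ => ?_
  rw [Finset.sum_comm, Finset.sum_eq_single d]
  · rw [← Finset.sum_mul, hcol, if_pos rfl, one_mul]
  · intro e _ he
    rw [← Finset.sum_mul, hcol, if_neg he.symm, zero_mul]
  · intro h
    exact absurd (Finset.mem_univ d) h

theorem integrable_gm {f h : R3 → ℝ} (hf : Nice f) (hh : Nice h) (y : R3) :
    Integrable fun x => f x * h x * (1 / ‖x‖ - 1 / dist x y) := by
  have h1 := (nice_integrable_rinv hf hh).1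
  have h2 := nice_integrable_nuc hf hh y
  refine (h1.sub h2).congr (Filter.Eventually.of_forall fun x => ?_)
  simp only [Pi.sub_apply]
  ring

/-- the one-body trace of the closed shells only depends on the distance from the origin -/
theorem closed_gm {n : ℕ} {C O : Type} [Fintype C] [DecidableEq C] [Fintype O]
    [DecidableEq O] (B : ShellBasis n (C ⊕ O)) (hC : ∀ c, B.lev (Sum.inl c) < n)
    (hO : ∀ o, B.lev (Sum.inr o) = n) (y y' : R3) (hy : ‖y‖ = ‖y'‖) :
    ∑ c : C, gm y (B.χ (Sum.inl c)) (B.χ (Sum.inl c)) =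
      ∑ c : C, gm y' (B.χ (Sum.inl c)) (B.χ (Sum.inl c)) := by
  have hnice : ∀ c, Nice (B.χ (Sum.inl c)) := fun c => (B.mem _).nice (B.lev_pos _)
  obtain ⟨g, hg⟩ : ∃ g : R3 ≃ₗᵢ[ℝ] R3, g y' = y :=
    ⟨_, Submodule.reflection_sub (v := y') (w := y) hy.symm⟩
  have hsum : ∀ w : R3, ∑ c : C, gm w (B.χ (Sum.inl c)) (B.χ (Sum.inl c))
      = ∫ x, (∑ c : C, B.χ (Sum.inl c) x * B.χ (Sum.inl c) x) * (1 / ‖x‖ - 1 / dist x w) := by
    intro w
    unfold gm
    rw [← integral_finsetSum _ fun c _ => integrable_gm (hnice c) (hnice c) w]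
    refine integral_congr_ae (Filter.Eventually.of_forall fun x => ?_)
    simp only
    rw [Finset.sum_mul]
  rw [hsum, hsum, ← integral_comp_isometry g]
  refine integral_congr_ae (Filter.Eventually.of_forall fun x => ?_)
  simp only
  rw [closed_kernel B hC hO g x x, g.norm_map, ← hg, g.dist_map]

end Vale.Agent.P370.Q
end
end

section

section

/-!
Auxiliary results for `Mean2`: isometries, finite Fourier sums, invariance of the mean field.
-/

namespace Vale.Agent.P370.Q

open MeasureTheory Finset ComplexConjugate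

/-! ### isometries of space -/

theorem mean2_norm_sq (x : R3) : ‖x‖ ^ 2 = x 0 ^ 2 + x 1 ^ 2 + x 2 ^ 2 := by
  rw [EuclideanSpace.norm_sq_eq, Fin.sum_univ_three]
  simp only [Real.norm_eq_abs, sq_abs]

/-- linear map given by a matrix -/
noncomputable def m2lin (A : Fin 3 → Fin 3 → ℝ) : R3 →ₗ[ℝ] R3 where
  toFun x := WithLp.toLp 2 fun i => ∑ j, A i j * x j
  map_add' x y := by
    ext i
    simp only [PiLp.add_apply, mul_add, Finset.sum_add_distrib]
  map_smul' c x := by
    ext i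
    simp only [PiLp.smul_apply, smul_eq_mul, RingHom.id_apply, Finset.mul_sum]
    exact Finset.sum_congr rfl fun j _ => by ring

theorem m2lin_apply (A : Fin 3 → Fin 3 → ℝ) (x : R3) (i : Fin 3) :
    m2lin A x i = A i 0 * x 0 + A i 1 * x 1 + A i 2 * x 2 := by
  show ∑ j, A i j * x j = _
  rw [Fin.sum_univ_three]

/-- a norm preserving linear map is an isometry -/
noncomputable def m2iso (A : Fin 3 → Fin 3 → ℝ) (h : ∀ x : R3, ‖m2lin A x‖ ^ 2 = ‖x‖ ^ 2) :
    R3 ≃ₗᵢ[ℝ] R3 :=
  LinearIsometry.toLinearIsometryEquiv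
    ⟨m2lin A, fun x => by
      have h1 := h x
      exact (sq_eq_sq₀ (norm_nonneg _) (norm_nonneg _)).1 h1⟩ rfl

theorem m2iso_apply (A : Fin 3 → Fin 3 → ℝ) (h : ∀ x : R3, ‖m2lin A x‖ ^ 2 = ‖x‖ ^ 2) (x : R3)
    (i : Fin 3) : m2iso A h x i = A i 0 * x 0 + A i 1 * x 1 + A i 2 * x 2 :=
  m2lin_apply A x i

/-- matrix of the rotation about `nuv α` by `θ` -/
noncomputable def rotA (α θ : ℝ) : Fin 3 → Fin 3 → ℝ :=
  ![![Real.cos α ^ 2 * Real.cos θ + Real.sin α ^ 2,
      Real.cos α * Real.sin α * Real.cos θ - Real.sin α * Real.cos α,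
      Real.cos α * Real.sin θ],
    ![Real.sin α * Real.cos α * Real.cos θ - Real.cos α * Real.sin α,
      Real.sin α ^ 2 * Real.cos θ + Real.cos α ^ 2,
      Real.sin α * Real.sin θ],
    ![-(Real.sin θ * Real.cos α), -(Real.sin θ * Real.sin α), Real.cos θ]]

theorem rotA_norm (α θ : ℝ) (x : R3) : ‖m2lin (rotA α θ) x‖ ^ 2 = ‖x‖ ^ 2 := by
  rw [mean2_norm_sq, mean2_norm_sq, m2lin_apply, m2lin_apply, m2lin_apply]
  simp only [rotA, Matrix.cons_val_zero, Matrix.cons_val_one, Matrix.cons_val]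
  have h1 := Real.sin_sq_add_cos_sq α
  have h2 := Real.sin_sq_add_cos_sq θ
  set s := Real.sin α
  set c := Real.cos α
  set S := Real.sin θ
  set C := Real.cos θ
  -- components along the frame
  have e0 : (c ^ 2 * C + s ^ 2) * x 0 + (c * s * C - s * c) * x 1 + c * S * x 2 =
      c * (S * x 2 + C * (c * x 0 + s * x 1)) - s * (-s * x 0 + c * x 1) := by ring
  have e1 : (s * c * C - c * s) * x 0 + (s ^ 2 * C + c ^ 2) * x 1 + s * S * x 2 =
      s * (S * x 2 + C * (c * x 0 + s * x 1)) + c * (-s * x 0 + c * x 1) := by ring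
  have e2 : -(S * c) * x 0 + -(S * s) * x 1 + C * x 2 = C * x 2 - S * (c * x 0 + s * x 1) := by
    ring
  rw [e0, e1, e2]
  linear_combination ((S * x 2 + C * (c * x 0 + s * x 1)) ^ 2 + (-s * x 0 + c * x 1) ^ 2 +
    x 0 ^ 2 + x 1 ^ 2) * h1 + (x 2 ^ 2 + (c * x 0 + s * x 1) ^ 2) * h2

/-- the rotation about `nuv α` by `θ` -/
noncomputable def rotR (α θ : ℝ) : R3 ≃ₗᵢ[ℝ] R3 := m2iso (rotA α θ) (rotA_norm α θ)

/-- matrix of the rotation about the third axis -/
noncomputable def zrotA (α : ℝ) : Fin 3 → Fin 3 → ℝ :=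
  ![![Real.cos α, Real.sin α, 0], ![-Real.sin α, Real.cos α, 0], ![0, 0, 1]]

theorem zrotA_norm (α : ℝ) (x : R3) : ‖m2lin (zrotA α) x‖ ^ 2 = ‖x‖ ^ 2 := by
  rw [mean2_norm_sq, mean2_norm_sq, m2lin_apply, m2lin_apply, m2lin_apply]
  simp only [zrotA, Matrix.cons_val_zero, Matrix.cons_val_one, Matrix.cons_val]
  have h1 := Real.sin_sq_add_cos_sq α
  linear_combination (x 0 ^ 2 + x 1 ^ 2) * h1

/-- the rotation about the third axis -/
noncomputable def zrotR (α : ℝ) : R3 ≃ₗᵢ[ℝ] R3 := m2iso (zrotA α) (zrotA_norm α)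

theorem cdot_av (α : ℝ) (x : R3) :
    cdot (av α) x = (x 2 : ℂ) + Complex.I * ((Real.cos α * x 0 + Real.sin α * x 1 : ℝ) : ℂ) := by
  simp only [cdot, av, Fin.sum_univ_three, Matrix.cons_val_zero, Matrix.cons_val_one,
    Matrix.cons_val]
  push_cast
  ring

theorem cdot_av_zrot (α : ℝ) (x : R3) : cdot (av 0) (zrotR α x) = cdot (av α) x := by
  rw [cdot_av, cdot_av]
  unfold zrotR
  rw [m2iso_apply, m2iso_apply, m2iso_apply]
  simp only [zrotA, Matrix.cons_val_zero, Matrix.cons_val_one, Matrix.cons_val, Real.cos_zero,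
    Real.sin_zero]
  push_cast
  ring

/-- the wave vector of the circle `β` on the rotated point -/
theorem cdot_av_rot (α β θ : ℝ) (x : R3) :
    cdot (av β) (rotR α θ x) =
      ((1 + Real.cos (β - α)) / 2 : ℝ) * (Complex.exp (Complex.I * θ) * cdot (av α) x) +
      ((1 - Real.cos (β - α)) / 2 : ℝ) * (Complex.exp (-(Complex.I * θ)) * conj (cdot (av α) x)) +
      Complex.I * ((Real.sin (β - α) * (-Real.sin α * x 0 + Real.cos α * x 1) : ℝ) : ℂ) := by
  have h1 : Complex.exp (Complex.I * θ) = (Real.cos θ : ℂ) + Complex.I * (Real.sin θ : ℂ) := by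
    rw [mul_comm, Complex.exp_mul_I, Complex.ofReal_cos, Complex.ofReal_sin, mul_comm]
  have h2 : Complex.exp (-(Complex.I * θ)) =
      (Real.cos θ : ℂ) - Complex.I * (Real.sin θ : ℂ) := by
    have h3 : -(Complex.I * (θ : ℂ)) = ((-θ : ℝ) : ℂ) * Complex.I := by push_cast; ring
    rw [h3, Complex.exp_mul_I, ← Complex.ofReal_cos, ← Complex.ofReal_sin, Real.cos_neg,
      Real.sin_neg]
    push_cast
    ring
  rw [h1, h2]
  apply Complex.ext
  · rw [cdot_av, cdot_av]
    unfold rotR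
    rw [m2iso_apply, m2iso_apply, m2iso_apply]
    simp only [rotA, Matrix.cons_val_zero, Matrix.cons_val_one, Matrix.cons_val]
    simp only [map_add, map_mul, Complex.conj_ofReal, Complex.conj_I, Complex.add_re,
      Complex.mul_re, Complex.ofReal_re, Complex.I_re, Complex.ofReal_im, Complex.I_im,
      Complex.sub_re, Complex.sub_im, Complex.mul_im, Complex.add_im, Complex.neg_re,
      Complex.neg_im]
    ring
  · rw [cdot_av, cdot_av]
    unfold rotR
    rw [m2iso_apply, m2iso_apply, m2iso_apply]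
    simp only [rotA, Matrix.cons_val_zero, Matrix.cons_val_one, Matrix.cons_val]
    simp only [map_add, map_mul, Complex.conj_ofReal, Complex.conj_I, Complex.add_re,
      Complex.mul_re, Complex.ofReal_re, Complex.I_re, Complex.ofReal_im, Complex.I_im,
      Complex.sub_re, Complex.sub_im, Complex.mul_im, Complex.add_im, Complex.neg_re,
      Complex.neg_im]
    rw [Real.cos_sub, Real.sin_sub]
    have h4 := Real.sin_sq_add_cos_sq α
    set s := Real.sin α
    set c := Real.cos α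
    set s' := Real.sin β
    set c' := Real.cos β
    set S := Real.sin θ
    set C := Real.cos θ
    ring

/-! ### finite Fourier sums -/

/-- averaging a polynomial of small degree over roots of unity gives the constant term -/
theorem avg_poly {M : ℕ} {ω : ℂ} (hω : IsPrimitiveRoot ω M) (T : Polynomial ℂ)
    (hT : T.natDegree < M) : ∑ j ∈ range M, T.eval (ω ^ j) = M * T.eval 0 := by
  have h1 : ∀ z : ℂ, T.eval z = ∑ k ∈ range M, T.coeff k * z ^ k := fun z =>
    Polynomial.eval_eq_sum_range' hT z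
  have h2 : ∀ k ∈ range M, ∑ j ∈ range M, T.coeff k * (ω ^ j) ^ k =
      if k = 0 then M * T.coeff 0 else 0 := by
    intro k hk
    rw [mem_range] at hk
    rw [← Finset.mul_sum]
    split_ifs with h0
    · subst h0
      simp [mul_comm]
    · have h3 : ∑ j ∈ range M, (ω ^ j) ^ k = ∑ j ∈ range M, (ω ^ k) ^ j :=
        Finset.sum_congr rfl fun j _ => by rw [← pow_mul, ← pow_mul, mul_comm]
      have h4 : ω ^ k ≠ 1 := fun h => by
        have := hω.dvd_of_pow_eq_one k h
        exact absurd (Nat.le_of_dvd (Nat.pos_of_ne_zero h0) this) (not_le.2 hk)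
      have h5 : (ω ^ k) ^ M = 1 := by rw [← pow_mul, mul_comm, pow_mul, hω.pow_eq_one, one_pow]
      rw [h3, geom_sum_eq h4, h5, sub_self, zero_div, mul_zero]
  have hM : 0 < M := lt_of_le_of_lt (Nat.zero_le _) hT
  calc ∑ j ∈ range M, T.eval (ω ^ j)
      = ∑ j ∈ range M, ∑ k ∈ range M, T.coeff k * (ω ^ j) ^ k :=
        Finset.sum_congr rfl fun j _ => h1 _
    _ = ∑ k ∈ range M, ∑ j ∈ range M, T.coeff k * (ω ^ j) ^ k := Finset.sum_comm
    _ = ∑ k ∈ range M, (if k = 0 then (M : ℂ) * T.coeff 0 else 0) := Finset.sum_congr rfl h2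
    _ = M * T.coeff 0 := by
        rw [Finset.sum_ite_eq' (range M) 0 fun _ => (M : ℂ) * T.coeff 0]
        simp [hM]
    _ = M * T.eval 0 := by rw [Polynomial.coeff_zero_eq_eval_zero]

theorem avg_quad {M l : ℕ} (hM : 2 * l < M) {ω : ℂ} (hω : IsPrimitiveRoot ω M) (A B C : ℂ) :
    ∑ j ∈ range M, (A + B * ω ^ j + C * (ω ^ j) ^ 2) ^ l = M * A ^ l := by
  open Polynomial in
  have h1 := avg_poly hω ((Polynomial.C A + Polynomial.C B * X + Polynomial.C C * X ^ 2) ^ l) (by
    have h2 : (Polynomial.C A + Polynomial.C B * X + Polynomial.C C * X ^ 2).natDegree ≤ 2 := by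
      compute_degree
    have h3 := Polynomial.natDegree_pow_le_of_le l h2
    omega)
  simpa using h1

/-! ### invariance of the Coulomb integrals -/

theorem nuc_iso (g : R3 ≃ₗᵢ[ℝ] R3) (f1 f2 : R3 → ℝ) (y : R3) :
    nuc y (fun x => f1 (g x)) (fun x => f2 (g x)) = nuc (g y) f1 f2 := by
  unfold nuc
  have h1 : (fun x => f1 (g x) * f2 (g x) / dist x y) =
      fun x => (fun z => f1 z * f2 z / dist z (g y)) (g x) := by
    funext x
    show _ = f1 (g x) * f2 (g x) / dist (g x) (g y)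
    rw [g.dist_map]
  rw [h1]
  exact g.measurePreserving.integral_comp' (f := g.toMeasurableEquiv)
    (fun z => f1 z * f2 z / dist z (g y))

theorem coul_iso (g : R3 ≃ₗᵢ[ℝ] R3) (f1 f2 f3 f4 : R3 → ℝ) :
    coul (fun x => f1 (g x)) (fun x => f2 (g x)) (fun x => f3 (g x)) (fun x => f4 (g x)) =
      coul f1 f2 f3 f4 := by
  unfold coul
  simp only [nuc_iso]
  exact g.measurePreserving.integral_comp' (f := g.toMeasurableEquiv)
    (fun w => nuc w f1 f2 * (f3 w * f4 w))

theorem nuc_bound {f1 f2 : R3 → ℝ} (h1 : Nice f1) (h2 : Nice f2) (y : R3) :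
    |nuc y f1 f2| ≤ (4 * dir f1 f1 + ov f2 f2) / 2 := by
  obtain ⟨hi, hb⟩ := hardy_nice h1 y
  have hi2 : Integrable (fun x => f2 x * f2 x) := (nice_integrable_rinv h2 h2).2
  unfold nuc ov
  calc |∫ x, f1 x * f2 x / dist x y| ≤ ∫ x, |f1 x * f2 x / dist x y| := abs_integral_le_integral_abs
    _ ≤ ∫ x, (f1 x ^ 2 / dist x y ^ 2 + f2 x * f2 x) / 2 := by
        apply integral_mono (nice_integrable_nuc h1 h2 y).abs ((hi.add hi2).div_const 2)
        intro x
        show |f1 x * f2 x / dist x y| ≤ (f1 x ^ 2 / dist x y ^ 2 + f2 x * f2 x) / 2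
        have e1 : f1 x * f2 x / dist x y = (f1 x / dist x y) * f2 x := by ring
        have e2 : f1 x ^ 2 / dist x y ^ 2 = (f1 x / dist x y) ^ 2 := by rw [div_pow]
        rw [e1, e2, abs_le]
        constructor
        · nlinarith [sq_nonneg (f1 x / dist x y + f2 x)]
        · nlinarith [sq_nonneg (f1 x / dist x y - f2 x)]
    _ = ((∫ x, f1 x ^ 2 / dist x y ^ 2) + ∫ x, f2 x * f2 x) / 2 := by
        rw [integral_div, integral_add hi hi2]
    _ ≤ (4 * dir f1 f1 + ∫ x, f2 x * f2 x) / 2 := by linarith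

theorem nuc_meas {f1 f2 : R3 → ℝ} (h1 : Continuous f1) (h2 : Continuous f2) :
    StronglyMeasurable (fun y => nuc y f1 f2) := by
  have h3 : StronglyMeasurable (fun q : R3 × R3 => f1 q.2 * f2 q.2 / dist q.2 q.1) := by
    apply Measurable.stronglyMeasurable
    have e1 : Measurable fun q : R3 × R3 => f1 q.2 := h1.measurable.comp measurable_snd
    have e2 : Measurable fun q : R3 × R3 => f2 q.2 := h2.measurable.comp measurable_snd
    have e3 : Measurable fun q : R3 × R3 => dist q.2 q.1 :=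
      (continuous_snd.dist continuous_fst).measurable
    exact (e1.mul e2).div e3
  exact h3.integral_prod_right'

theorem coul_integrable {f1 f2 f3 f4 : R3 → ℝ} (h1 : Nice f1) (h2 : Nice f2) (h3 : Nice f3)
    (h4 : Nice f4) : Integrable (fun y => nuc y f1 f2 * (f3 y * f4 y)) :=
  Integrable.bdd_mul (nice_integrable_rinv h3 h4).2 (nuc_meas h1.cont h2.cont).aestronglyMeasurable
    (Filter.Eventually.of_forall fun y => nuc_bound h1 h2 y)

/-! ### dependence on the kernel -/

theorem kernel_direct {C : Type} [Fintype C] {χ : C → R3 → ℝ} (hχ : ∀ c, Nice (χ c))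
    {F G : R3 → ℝ} (hF : Nice F) (hG : Nice G) :
    ∑ c, coul F G (χ c) (χ c) = ∫ y, nuc y F G * ∑ c, χ c y * χ c y := by
  unfold coul
  rw [← integral_finsetSum _ fun c _ => coul_integrable hF hG (hχ c) (hχ c)]
  congr 1
  funext y
  rw [Finset.mul_sum]

theorem kernel_exch {C : Type} [Fintype C] {χ : C → R3 → ℝ} (hχ : ∀ c, Nice (χ c))
    {F G : R3 → ℝ} (hF : Nice F) (hG : Nice G) :
    ∑ c, coul F (χ c) (χ c) G =
      ∫ y, (∫ x, F x * (∑ c, χ c x * χ c y) / dist x y) * G y := by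
  unfold coul
  rw [← integral_finsetSum _ fun c _ => coul_integrable hF (hχ c) (hχ c) hG]
  congr 1
  funext y
  have h1 : ∫ x, F x * (∑ c, χ c x * χ c y) / dist x y = ∑ c, nuc y F (χ c) * χ c y := by
    unfold nuc
    have h2 : ∀ c, (∫ x, F x * χ c x / dist x y) * χ c y =
        ∫ x, F x * χ c x / dist x y * χ c y := fun c => (integral_mul_const _ _).symm
    simp only [h2]
    rw [← integral_finsetSum _ fun c _ => (nice_integrable_nuc hF (hχ c) y).mul_const _]
    congr 1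
    funext x
    rw [Finset.mul_sum, Finset.sum_div]
    exact Finset.sum_congr rfl fun c _ => by ring
  rw [h1, Finset.sum_mul]
  exact Finset.sum_congr rfl fun c _ => by ring

/-! ### polynomials and isometries -/

theorem expPoly_iso (κ : ℝ) (P Q : Poly3) (A : Fin 3 → Fin 3 → ℝ)
    (h : ∀ x : R3, ‖m2lin A x‖ ^ 2 = ‖x‖ ^ 2) :
    ∃ P' Q' : Poly3, ∀ x, expPoly κ P Q (m2iso A h x) = expPoly κ P' Q' x := by
  let T : Fin 3 → Poly3 := fun i => ∑ j, MvPolynomial.C (A i j) * MvPolynomial.X j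
  have hT : ∀ (P : Poly3) (x : R3), pe (MvPolynomial.bind₁ T P) x = pe P (m2iso A h x) := by
    intro P x
    have h1 := MvPolynomial.eval₂Hom_bind₁ (RingHom.id ℝ) (fun i => x i) T P
    have h2 : (fun i => MvPolynomial.eval₂Hom (RingHom.id ℝ) (fun i => x i) (T i)) =
        fun i => m2iso A h x i := by
      funext i
      rw [m2iso_apply]
      show MvPolynomial.eval (fun i => x i) (T i) = _
      simp only [T, Fin.sum_univ_three, map_add, map_mul, MvPolynomial.eval_C,
        MvPolynomial.eval_X]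
    rw [h2] at h1
    exact h1
  refine ⟨MvPolynomial.bind₁ T P, MvPolynomial.bind₁ T Q, fun x => ?_⟩
  unfold expPoly
  rw [hT, hT, LinearIsometryEquiv.norm_map]

theorem nice_shell {n : ℕ} (hn : 1 ≤ n) {φ : R3 → ℝ} (hφ : IsShell n φ) : Nice φ := by
  obtain ⟨P, Q, -, -, -, rfl⟩ := hφ
  have : (0 : ℝ) < 1 / n := by
    have : (0 : ℝ) < n := by exact_mod_cast hn
    positivity
  exact nice_expPoly this P Q

theorem nice_shell_iso {n : ℕ} (hn : 1 ≤ n) {φ : R3 → ℝ} (hφ : IsShell n φ)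
    (A : Fin 3 → Fin 3 → ℝ) (h : ∀ x : R3, ‖m2lin A x‖ ^ 2 = ‖x‖ ^ 2) :
    Nice (fun x => φ (m2iso A h x)) := by
  obtain ⟨P, Q, -, -, -, rfl⟩ := hφ
  have h0 : (0 : ℝ) < 1 / n := by
    have : (0 : ℝ) < n := by exact_mod_cast hn
    positivity
  obtain ⟨P', Q', h1⟩ := expPoly_iso (1 / n) P Q A h
  have h2 : (fun x => expPoly (1 / n) P Q (m2iso A h x)) = expPoly (1 / n) P' Q' := funext h1
  rw [h2]
  exact nice_expPoly h0 P' Q'

theorem vfun_eq (n : ℕ) (P : Poly3) : vfun n P = expPoly (1 / n) P 0 := by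
  funext x
  unfold vfun expPoly pe
  rw [map_zero, mul_zero, add_zero]
  congr 2
  ring

theorem nice_vfun {n : ℕ} (hn : 1 ≤ n) (P : Poly3) : Nice (vfun n P) := by
  have h0 : (0 : ℝ) < 1 / n := by
    have : (0 : ℝ) < n := by exact_mod_cast hn
    positivity
  rw [vfun_eq]
  exact nice_expPoly h0 P 0

theorem nice_vfun_iso {n : ℕ} (hn : 1 ≤ n) (P : Poly3)
    (A : Fin 3 → Fin 3 → ℝ) (h : ∀ x : R3, ‖m2lin A x‖ ^ 2 = ‖x‖ ^ 2) :
    Nice (fun x => vfun n P (m2iso A h x)) := by
  have h0 : (0 : ℝ) < 1 / n := by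
    have : (0 : ℝ) < n := by exact_mod_cast hn
    positivity
  obtain ⟨P', Q', h1⟩ := expPoly_iso (1 / n) P 0 A h
  have h2 : (fun x => vfun n P (m2iso A h x)) = expPoly (1 / n) P' Q' := by
    rw [vfun_eq]
    exact funext h1
  rw [h2]
  exact nice_expPoly h0 P' Q'

/-- real and imaginary parts of powers of linear forms are polynomials -/
theorem exists_poly_pow (v : C3) (l : ℕ) : ∃ P Q : Poly3,
    (∀ x, pe P x = (cdot v x ^ l).re) ∧ ∀ x, pe Q x = (cdot v x ^ l).im := by
  let Lr : Poly3 := ∑ k, MvPolynomial.C (v k).re * MvPolynomial.X k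
  let Li : Poly3 := ∑ k, MvPolynomial.C (v k).im * MvPolynomial.X k
  have hr : ∀ x, pe Lr x = (cdot v x).re := by
    intro x
    simp only [Lr, pe, cdot, map_sum, map_mul, MvPolynomial.eval_C, MvPolynomial.eval_X,
      Complex.re_sum, Complex.mul_re, Complex.ofReal_re, Complex.ofReal_im, mul_zero, sub_zero]
  have hi : ∀ x, pe Li x = (cdot v x).im := by
    intro x
    simp only [Li, pe, cdot, map_sum, map_mul, MvPolynomial.eval_C, MvPolynomial.eval_X,
      Complex.im_sum, Complex.mul_im, Complex.ofReal_re, Complex.ofReal_im, mul_zero, zero_add]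
  induction l with
  | zero => exact ⟨1, 0, fun x => by simp [pe], fun x => by simp [pe]⟩
  | succ l ih =>
    obtain ⟨P, Q, hP, hQ⟩ := ih
    refine ⟨P * Lr - Q * Li, P * Li + Q * Lr, fun x => ?_, fun x => ?_⟩
    · rw [pow_succ, Complex.mul_re, ← hP, ← hQ, ← hr, ← hi]
      simp only [pe, map_sub, map_mul]
    · rw [pow_succ, Complex.mul_im, ← hP, ← hQ, ← hr, ← hi]
      simp only [pe, map_add, map_mul]

theorem fsite_vfun (n : ℕ) (α : ℝ) : ∃ P : Poly3, fsite n α = vfun n P := by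
  obtain ⟨P, -, hP, -⟩ := exists_poly_pow (av α) (n - 1)
  refine ⟨P, ?_⟩
  funext x
  unfold fsite vfun
  rw [hP]

theorem gsite_vfun (n : ℕ) (α : ℝ) : ∃ P : Poly3, gsite n α = vfun n P := by
  obtain ⟨-, Q, -, hQ⟩ := exists_poly_pow (av α) (n - 1)
  refine ⟨Q, ?_⟩
  funext x
  unfold gsite vfun
  rw [hQ]

/-! ### the mean field as a symmetric bilinear form -/

theorem coul_symm3 (f g f' g' : R3 → ℝ) : coul f g f' g' = coul f g g' f' := by
  unfold coul
  congr 1
  funext y
  rw [mul_comm (f' y)]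

section mf

variable {n : ℕ} {C O : Type} [Fintype C] [DecidableEq C] [Fintype O] [DecidableEq O]
  (B : ShellBasis n (C ⊕ O))

theorem nice_basis (a : C ⊕ O) : Nice (B.χ a) := nice_shell (B.lev_pos a) (B.mem a)

theorem mfield_symm {f g : R3 → ℝ} (hf : Nice f) (hg : Nice g) :
    mfield B f g = mfield B g f := by
  unfold mfield
  refine Finset.sum_congr rfl fun c _ => ?_
  rw [coul_symm1 f g, coul_symm2 hf (nice_basis B _) (nice_basis B _) hg,
    coul_symm1 (B.χ (Sum.inl c)) g, coul_symm3 g (B.χ (Sum.inl c)) f]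

theorem mfield_sum_left {ι : Type} (s : Finset ι) (a : ι → ℝ) (f : ι → R3 → ℝ)
    (hf : ∀ i ∈ s, Nice (f i)) {g : R3 → ℝ} (hg : Nice g) :
    mfield B (fun x => ∑ i ∈ s, a i * f i x) g = ∑ i ∈ s, a i * mfield B (f i) g := by
  unfold mfield
  have h1 : ∀ c : C, coul (fun x => ∑ i ∈ s, a i * f i x) g (B.χ (Sum.inl c))
      (B.χ (Sum.inl c)) = ∑ i ∈ s, a i * coul (f i) g (B.χ (Sum.inl c)) (B.χ (Sum.inl c)) :=
    fun c => coul_sum_left s a f hf hg (nice_basis B _) (nice_basis B _)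
  have h2 : ∀ c : C, coul (fun x => ∑ i ∈ s, a i * f i x) (B.χ (Sum.inl c))
      (B.χ (Sum.inl c)) g = ∑ i ∈ s, a i * coul (f i) (B.χ (Sum.inl c)) (B.χ (Sum.inl c)) g :=
    fun c => coul_sum_left s a f hf (nice_basis B _) (nice_basis B _) hg
  simp only [h1, h2, Finset.mul_sum]
  rw [Finset.sum_comm]
  refine Finset.sum_congr rfl fun c _ => ?_
  rw [← Finset.sum_sub_distrib]
  exact Finset.sum_congr rfl fun i _ => by ring

theorem mfield_sum_right {ι : Type} (s : Finset ι) (a : ι → ℝ) (f : ι → R3 → ℝ)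
    (hf : ∀ i ∈ s, Nice (f i)) {g : R3 → ℝ} (hg : Nice g)
    (hs : Nice (fun x => ∑ i ∈ s, a i * f i x)) :
    mfield B g (fun x => ∑ i ∈ s, a i * f i x) = ∑ i ∈ s, a i * mfield B g (f i) := by
  rw [mfield_symm B hg hs, mfield_sum_left B s a f hf hg]
  exact Finset.sum_congr rfl fun i hi => by rw [mfield_symm B (hf i hi) hg]

theorem mfield_comb_left (a b : ℝ) {f f' g : R3 → ℝ} (hf : Nice f) (hf' : Nice f')
    (hg : Nice g) :
    mfield B (fun x => a * f x + b * f' x) g = a * mfield B f g + b * mfield B f' g := by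
  have h := mfield_sum_left B (Finset.univ : Finset (Fin 2)) ![a, b] ![f, f']
    (fun i _ => by
      fin_cases i
      · exact hf
      · exact hf') hg
  simpa [Fin.sum_univ_two] using h

theorem mfield_smul_right (a : ℝ) {f g : R3 → ℝ} (hf : Nice f) (hg : Nice g) :
    mfield B g (fun x => a * f x) = a * mfield B g f := by
  have h1 : Nice (fun x => a * f x) := nice_smul hf a
  rw [mfield_symm B hg h1, mfield_symm B hg hf]
  have h := mfield_comb_left B a 0 hf hf hg
  simpa using h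

theorem mfield_iso (R : R3 ≃ₗᵢ[ℝ] R3)
    (hk : ∀ x y, ∑ c : C, B.χ (Sum.inl c) (R x) * B.χ (Sum.inl c) (R y) =
      ∑ c : C, B.χ (Sum.inl c) x * B.χ (Sum.inl c) y)
    (hR : ∀ c : C, Nice (fun x => B.χ (Sum.inl c) (R x)))
    {f g : R3 → ℝ} (hf : Nice fun x => f (R x)) (hg : Nice fun x => g (R x)) :
    mfield B (fun x => f (R x)) (fun x => g (R x)) = mfield B f g := by
  have hm : ∀ F G : R3 → ℝ, mfield B F G =
      2 * ∑ c : C, coul F G (B.χ (Sum.inl c)) (B.χ (Sum.inl c)) -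
        ∑ c : C, coul F (B.χ (Sum.inl c)) (B.χ (Sum.inl c)) G := by
    intro F G
    unfold mfield
    rw [Finset.sum_sub_distrib, Finset.mul_sum]
  have h1 : ∑ c : C, coul (fun x => f (R x)) (fun x => g (R x)) (B.χ (Sum.inl c))
      (B.χ (Sum.inl c)) = ∑ c : C, coul f g (B.χ (Sum.inl c)) (B.χ (Sum.inl c)) := by
    rw [kernel_direct (χ := fun c => B.χ (Sum.inl c)) (fun c => nice_basis B _) hf hg]
    have h2 : ∀ c : C, coul f g (B.χ (Sum.inl c)) (B.χ (Sum.inl c)) =
        coul (fun x => f (R x)) (fun x => g (R x)) (fun x => B.χ (Sum.inl c) (R x))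
          (fun x => B.χ (Sum.inl c) (R x)) := fun c => (coul_iso R _ _ _ _).symm
    simp only [h2]
    rw [kernel_direct (χ := fun c x => B.χ (Sum.inl c) (R x)) hR hf hg]
    congr 1
    funext y
    rw [hk y y]
  have h3 : ∑ c : C, coul (fun x => f (R x)) (B.χ (Sum.inl c)) (B.χ (Sum.inl c))
      (fun x => g (R x)) = ∑ c : C, coul f (B.χ (Sum.inl c)) (B.χ (Sum.inl c)) g := by
    rw [kernel_exch (χ := fun c => B.χ (Sum.inl c)) (fun c => nice_basis B _) hf hg]
    have h2 : ∀ c : C, coul f (B.χ (Sum.inl c)) (B.χ (Sum.inl c)) g =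
        coul (fun x => f (R x)) (fun x => B.χ (Sum.inl c) (R x))
          (fun x => B.χ (Sum.inl c) (R x)) (fun x => g (R x)) :=
      fun c => (coul_iso R _ _ _ _).symm
    simp only [h2]
    rw [kernel_exch (χ := fun c x => B.χ (Sum.inl c) (R x)) hR hf hg]
    congr 1
    funext y
    congr 2
    funext x
    rw [hk x y]
  rw [hm, hm, h1, h3]

end mf

/-! ### the averaged site functions -/

theorem exp_theta (M : ℕ) (j : ℕ) :
    Complex.exp (Complex.I * ((2 * Real.pi * j / M : ℝ) : ℂ)) =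
      Complex.exp (2 * Real.pi * Complex.I / M) ^ j := by
  rw [← Complex.exp_nat_mul]
  congr 1
  push_cast
  ring

theorem site_sum {M l : ℕ} (hM : 2 * l < M) (p q : ℝ) (z R : ℂ) :
    (∑ j ∈ range M, Complex.exp (Complex.I * ((2 * Real.pi * j / M : ℝ) : ℂ)) ^ l *
      ((p : ℂ) * (Complex.exp (Complex.I * ((2 * Real.pi * j / M : ℝ) : ℂ)) * z) +
        (q : ℂ) * (Complex.exp (-(Complex.I * ((2 * Real.pi * j / M : ℝ) : ℂ))) * conj z) +
        R) ^ l = M * ((q : ℂ) * conj z) ^ l) ∧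
    (∑ j ∈ range M, Complex.exp (-(Complex.I * ((2 * Real.pi * j / M : ℝ) : ℂ))) ^ l *
      ((p : ℂ) * (Complex.exp (Complex.I * ((2 * Real.pi * j / M : ℝ) : ℂ)) * z) +
        (q : ℂ) * (Complex.exp (-(Complex.I * ((2 * Real.pi * j / M : ℝ) : ℂ))) * conj z) +
        R) ^ l = M * ((p : ℂ) * z) ^ l) := by
  have hM0 : M ≠ 0 := by omega
  have hω : IsPrimitiveRoot (Complex.exp (2 * Real.pi * Complex.I / M)) M :=
    Complex.isPrimitiveRoot_exp M hM0
  set ω := Complex.exp (2 * Real.pi * Complex.I / M) with hωd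
  have hω0 : ω ≠ 0 := Complex.exp_ne_zero _
  have e1 : ∀ j : ℕ, Complex.exp (-(Complex.I * ((2 * Real.pi * j / M : ℝ) : ℂ))) =
      (ω⁻¹) ^ j := by
    intro j
    rw [Complex.exp_neg, exp_theta M, inv_pow]
  constructor
  · rw [← avg_quad hM hω ((q : ℂ) * conj z) R ((p : ℂ) * z)]
    refine Finset.sum_congr rfl fun j _ => ?_
    rw [e1, exp_theta M, ← hωd, ← mul_pow, inv_pow]
    congr 1
    have : ω ^ j ≠ 0 := pow_ne_zero _ hω0
    field_simp
    ring
  · rw [← avg_quad hM hω.inv ((p : ℂ) * z) R ((q : ℂ) * conj z)]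
    refine Finset.sum_congr rfl fun j _ => ?_
    rw [e1, exp_theta M, ← hωd, ← mul_pow, inv_pow]
    congr 1
    have : ω ^ j ≠ 0 := pow_ne_zero _ hω0
    field_simp
    ring

theorem cos_mul_exp (l : ℕ) (θ : ℝ) : ((Real.cos (l * θ) : ℝ) : ℂ) =
    (Complex.exp (Complex.I * (θ : ℂ)) ^ l + Complex.exp (-(Complex.I * (θ : ℂ))) ^ l) / 2 := by
  rw [Complex.ofReal_cos, Complex.cos, ← Complex.exp_nat_mul, ← Complex.exp_nat_mul]
  congr 3
  · push_cast
    ring
  · push_cast
    ring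

theorem sin_mul_exp (l : ℕ) (θ : ℝ) : ((Real.sin (l * θ) : ℝ) : ℂ) =
    (Complex.exp (-(Complex.I * (θ : ℂ))) ^ l - Complex.exp (Complex.I * (θ : ℂ)) ^ l) *
      Complex.I / 2 := by
  rw [Complex.ofReal_sin, Complex.sin, ← Complex.exp_nat_mul, ← Complex.exp_nat_mul]
  congr 4
  · push_cast
    ring
  · push_cast
    ring

/-- weight of the contraction -/
noncomputable def wpq (n : ℕ) (α β : ℝ) : ℝ :=
  ((1 + Real.cos (β - α)) / 2) ^ (n - 1) + ((1 - Real.cos (β - α)) / 2) ^ (n - 1)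

theorem site_avg {n M : ℕ} (hM : 2 * (n - 1) < M) (α β : ℝ) (x : R3) :
    (∑ j ∈ range M, Real.cos (((n - 1 : ℕ) : ℝ) * (2 * Real.pi * j / M)) *
      fsite n β (rotR α (2 * Real.pi * j / M) x) = (M / 2 * wpq n α β) * fsite n α x) ∧
    (∑ j ∈ range M, Real.sin (((n - 1 : ℕ) : ℝ) * (2 * Real.pi * j / M)) *
      fsite n β (rotR α (2 * Real.pi * j / M) x) = -(M / 2 * wpq n α β) * gsite n α x) := by
  set l := n - 1 with hl
  set z := cdot (av α) x with hz
  set p : ℝ := (1 + Real.cos (β - α)) / 2 with hp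
  set q : ℝ := (1 - Real.cos (β - α)) / 2 with hq
  set R : ℂ := Complex.I * ((Real.sin (β - α) * (-Real.sin α * x 0 + Real.cos α * x 1) : ℝ) : ℂ)
    with hR
  obtain ⟨hS1, hS2⟩ := site_sum hM p q z R
  have hw : ∀ j : ℕ, (cdot (av β) (rotR α (2 * Real.pi * j / M) x)) ^ l =
      ((p : ℂ) * (Complex.exp (Complex.I * ((2 * Real.pi * j / M : ℝ) : ℂ)) * z) +
        (q : ℂ) * (Complex.exp (-(Complex.I * ((2 * Real.pi * j / M : ℝ) : ℂ))) * conj z) +
        R) ^ l := fun j => by rw [cdot_av_rot]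
  simp only [← hw] at hS1 hS2
  have hzc : (conj z ^ l).re = (z ^ l).re ∧ (conj z ^ l).im = -(z ^ l).im := by
    rw [← map_pow]
    exact ⟨Complex.conj_re _, Complex.conj_im _⟩
  have hq1 : ((q : ℂ) * conj z) ^ l = ((q ^ l : ℝ) : ℂ) * conj z ^ l := by
    rw [mul_pow]; push_cast; ring
  have hp1 : ((p : ℂ) * z) ^ l = ((p ^ l : ℝ) : ℂ) * z ^ l := by
    rw [mul_pow]; push_cast; ring
  have hfs : ∀ j : ℕ, fsite n β (rotR α (2 * Real.pi * j / M) x) =
      (cdot (av β) (rotR α (2 * Real.pi * j / M) x) ^ l).re * Real.exp (-(‖x‖ / n)) := by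
    intro j
    unfold fsite
    rw [LinearIsometryEquiv.norm_map]
  constructor
  · have h1 : ∑ j ∈ range M, Real.cos ((l : ℝ) * (2 * Real.pi * j / M)) *
        fsite n β (rotR α (2 * Real.pi * j / M) x) =
        (∑ j ∈ range M, ((Real.cos ((l : ℝ) * (2 * Real.pi * j / M)) : ℝ) : ℂ) *
          cdot (av β) (rotR α (2 * Real.pi * j / M) x) ^ l).re * Real.exp (-(‖x‖ / n)) := by
      rw [Complex.re_sum, Finset.sum_mul]
      refine Finset.sum_congr rfl fun j _ => ?_
      rw [hfs, Complex.re_ofReal_mul]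
      ring
    have h2 : ∑ j ∈ range M, ((Real.cos ((l : ℝ) * (2 * Real.pi * j / M)) : ℝ) : ℂ) *
        cdot (av β) (rotR α (2 * Real.pi * j / M) x) ^ l =
        (M * ((q : ℂ) * conj z) ^ l + M * ((p : ℂ) * z) ^ l) / 2 := by
      rw [← hS1, ← hS2, ← Finset.sum_add_distrib, Finset.sum_div]
      refine Finset.sum_congr rfl fun j _ => ?_
      rw [cos_mul_exp]
      ring
    rw [h1, h2]
    have h3 : ((M : ℂ) * ((q : ℂ) * conj z) ^ l + M * ((p : ℂ) * z) ^ l) / 2 =
        ((M / 2 : ℝ) : ℂ) * (((q ^ l : ℝ) : ℂ) * conj z ^ l + ((p ^ l : ℝ) : ℂ) * z ^ l) := by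
      rw [hq1, hp1]; push_cast; ring
    rw [h3, Complex.re_ofReal_mul, Complex.add_re, Complex.re_ofReal_mul, Complex.re_ofReal_mul,
      hzc.1]
    unfold fsite wpq
    rw [← hz, ← hl, ← hp, ← hq]
    ring
  · have h1 : ∑ j ∈ range M, Real.sin ((l : ℝ) * (2 * Real.pi * j / M)) *
        fsite n β (rotR α (2 * Real.pi * j / M) x) =
        (∑ j ∈ range M, ((Real.sin ((l : ℝ) * (2 * Real.pi * j / M)) : ℝ) : ℂ) *
          cdot (av β) (rotR α (2 * Real.pi * j / M) x) ^ l).re * Real.exp (-(‖x‖ / n)) := by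
      rw [Complex.re_sum, Finset.sum_mul]
      refine Finset.sum_congr rfl fun j _ => ?_
      rw [hfs, Complex.re_ofReal_mul]
      ring
    have h2 : ∑ j ∈ range M, ((Real.sin ((l : ℝ) * (2 * Real.pi * j / M)) : ℝ) : ℂ) *
        cdot (av β) (rotR α (2 * Real.pi * j / M) x) ^ l =
        (M * ((p : ℂ) * z) ^ l - M * ((q : ℂ) * conj z) ^ l) * Complex.I / 2 := by
      rw [← hS1, ← hS2, ← Finset.sum_sub_distrib, Finset.sum_mul, Finset.sum_div]
      refine Finset.sum_congr rfl fun j _ => ?_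
      rw [sin_mul_exp]
      ring
    rw [h1, h2]
    have h3 : ((M : ℂ) * ((p : ℂ) * z) ^ l - M * ((q : ℂ) * conj z) ^ l) * Complex.I / 2 =
        ((M / 2 : ℝ) : ℂ) * ((((p ^ l : ℝ) : ℂ) * z ^ l - ((q ^ l : ℝ) : ℂ) * conj z ^ l) *
          Complex.I) := by
      rw [hq1, hp1]; push_cast; ring
    rw [h3, Complex.re_ofReal_mul, Complex.mul_I_re, Complex.sub_im, Complex.im_ofReal_mul,
      Complex.im_ofReal_mul, hzc.2]
    unfold gsite wpq
    rw [← hz, ← hl, ← hp, ← hq]
    ring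

theorem fsite_rot_self (n : ℕ) (α θ : ℝ) (x : R3) :
    fsite n α (rotR α θ x) = Real.cos (((n - 1 : ℕ) : ℝ) * θ) * fsite n α x +
      -Real.sin (((n - 1 : ℕ) : ℝ) * θ) * gsite n α x := by
  have h1 : cdot (av α) (rotR α θ x) = Complex.exp (Complex.I * θ) * cdot (av α) x := by
    rw [cdot_av_rot]
    simp
  have h2 : Complex.exp (Complex.I * (θ : ℂ)) ^ (n - 1) =
      ((Real.cos (((n - 1 : ℕ) : ℝ) * θ) : ℝ) : ℂ) +
        ((Real.sin (((n - 1 : ℕ) : ℝ) * θ) : ℝ) : ℂ) * Complex.I := by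
    rw [← Complex.exp_nat_mul, Complex.ofReal_cos, Complex.ofReal_sin, ← Complex.exp_mul_I]
    congr 1
    push_cast
    ring
  unfold fsite gsite
  rw [LinearIsometryEquiv.norm_map, h1, mul_pow, h2, add_mul, Complex.add_re,
    Complex.re_ofReal_mul, mul_assoc, Complex.re_ofReal_mul, mul_comm Complex.I,
    Complex.mul_I_re]
  ring

end Vale.Agent.P370.Q
end
end

section

section

/-!
Overlaps of the site orbitals (imaginary parts), strength of the top device.
-/

namespace Vale.Agent.P370.Q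

open MeasureTheory Finset ComplexConjugate

/-- reflection in the horizontal plane -/
noncomputable def zreflL : R3 →ₗ[ℝ] R3 where
  toFun x := !₂[x 0, x 1, -x 2]
  map_add' x y := by
    ext i
    fin_cases i <;> simp
    ring
  map_smul' c x := by
    ext i
    fin_cases i <;> simp

theorem norm_zreflL (x : R3) : ‖zreflL x‖ = ‖x‖ := by
  have h : ‖zreflL x‖ ^ 2 = ‖x‖ ^ 2 := by
    rw [EuclideanSpace.norm_sq_eq, EuclideanSpace.norm_sq_eq, Fin.sum_univ_three,
      Fin.sum_univ_three]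
    simp only [Real.norm_eq_abs, sq_abs]
    simp [zreflL]
  exact (sq_eq_sq₀ (norm_nonneg _) (norm_nonneg _)).1 h

noncomputable def zrefl : R3 ≃ₗᵢ[ℝ] R3 :=
  LinearIsometry.toLinearIsometryEquiv ⟨zreflL, norm_zreflL⟩ rfl

theorem zrefl_apply (x : R3) : zrefl x = zreflL x := rfl

theorem cdot_zrefl (α : ℝ) (x : R3) :
    cdot (av α) (zrefl x) = -conj (cdot (av α) x) := by
  rw [cdot_eq_lf, cdot_eq_lf, av_eq, GC.lf_av, GC.lf_av, zrefl_apply]
  have e0 : zreflL x 0 = x 0 := by simp [zreflL]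
  have e1 : zreflL x 1 = x 1 := by simp [zreflL]
  have e2 : zreflL x 2 = -x 2 := by simp [zreflL]
  rw [e0, e1, e2, map_add, map_mul, Complex.conj_ofReal, Complex.conj_ofReal, Complex.conj_I]
  push_cast
  ring

theorem site_ov_fg_aux (n : ℕ) (α β : ℝ) : ov (fsite n α) (gsite n β) = 0 := by
  have h := zrefl.measurePreserving.integral_comp zrefl.toHomeomorph.measurableEmbedding
    (fun x => fsite n α x * gsite n β x)
  have e : ∀ x, fsite n α (zrefl x) * gsite n β (zrefl x) = -(fsite n α x * gsite n β x) := by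
    intro x
    unfold fsite gsite
    rw [cdot_zrefl, cdot_zrefl, LinearIsometryEquiv.norm_map, neg_pow, neg_pow (conj _),
      ← map_pow, ← map_pow]
    have e2 : ((-1 : ℂ)) ^ (n - 1) = (((-1 : ℝ) ^ (n - 1) : ℝ) : ℂ) := by push_cast; rfl
    rw [e2, Complex.re_ofReal_mul, Complex.im_ofReal_mul, Complex.conj_re, Complex.conj_im]
    have h1 : ((-1 : ℝ) ^ (n - 1)) * (-1) ^ (n - 1) = 1 := by
      rw [← mul_pow]
      norm_num
    have e3 : ∀ a b c : ℝ, (-1 : ℝ) ^ (n - 1) * a * c * ((-1) ^ (n - 1) * -b * c) =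
      ((-1) ^ (n - 1) * (-1) ^ (n - 1)) * (-(a * c * (b * c))) := by
      intros
      ring
    rw [e3, h1, one_mul]
  simp only [e] at h
  rw [integral_neg] at h
  unfold ov
  linarith

theorem four_pow_mul_centralBinom_le (l : ℕ) :
    4 ^ l * l.centralBinom ≤ (2 * l + 1).centralBinom := by
  induction l with
  | zero => simp [Nat.centralBinom]
  | succ l ih =>
    have h1 := Nat.succ_mul_centralBinom_succ l
    have h2 := Nat.succ_mul_centralBinom_succ (2 * l + 1)
    have h3 := Nat.succ_mul_centralBinom_succ (2 * l + 2)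
    have e : 2 * (l + 1) + 1 = 2 * l + 2 + 1 := by ring
    rw [e]
    have e4 : 2 * l + 1 + 1 = 2 * l + 2 := rfl
    rw [e4] at h2
    -- multiply everything out
    have key : (l + 1) * (2 * l + 2) * (2 * l + 3) * (4 ^ (l + 1) * (l + 1).centralBinom) ≤
        (l + 1) * (2 * l + 2) * (2 * l + 3) * (2 * l + 2 + 1).centralBinom := by
      have a1 : (l + 1) * (2 * l + 2) * (2 * l + 3) * (4 ^ (l + 1) * (l + 1).centralBinom) =
          (2 * l + 2) * (2 * l + 3) * (8 * (2 * l + 1)) * (4 ^ l * l.centralBinom) := by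
        calc (l + 1) * (2 * l + 2) * (2 * l + 3) * (4 ^ (l + 1) * (l + 1).centralBinom)
            = (2 * l + 2) * (2 * l + 3) * 4 ^ (l + 1) * ((l + 1) * (l + 1).centralBinom) := by ring
          _ = _ := by rw [h1]; ring
      have a2 : (l + 1) * (2 * l + 2) * (2 * l + 3) * (2 * l + 2 + 1).centralBinom =
          (l + 1) * (2 * (4 * l + 5)) * (2 * (4 * l + 3)) * (2 * l + 1).centralBinom := by
        calc (l + 1) * (2 * l + 2) * (2 * l + 3) * (2 * l + 2 + 1).centralBinom
            = (l + 1) * (2 * l + 2) * ((2 * l + 2 + 1) * (2 * l + 2 + 1).centralBinom) := by ring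
          _ = (l + 1) * (2 * (2 * (2 * l + 2) + 1)) * ((2 * l + 2) * (2 * l + 2).centralBinom) := by
              rw [h3]; ring
          _ = _ := by rw [h2]; ring
      rw [a1, a2]
      calc (2 * l + 2) * (2 * l + 3) * (8 * (2 * l + 1)) * (4 ^ l * l.centralBinom)
          ≤ (2 * l + 2) * (2 * l + 3) * (8 * (2 * l + 1)) * (2 * l + 1).centralBinom :=
            Nat.mul_le_mul_left _ ih
        _ ≤ _ := by
            apply Nat.mul_le_mul_right
            nlinarith
    exact Nat.le_of_mul_le_mul_left key (by positivity)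

theorem gam_eq (n : ℕ) (hn : 1 ≤ n) :
    gam n = 4 ^ (n - 1) * ((n - 1).centralBinom : ℝ) / ((2 * (n - 1) + 1).centralBinom : ℝ) := by
  obtain ⟨l, rfl⟩ : ∃ l, n = l + 1 := ⟨n - 1, by omega⟩
  rw [Nat.add_sub_cancel]
  unfold gam Am
  rw [Nat.add_sub_cancel]
  have h1 : (l.centralBinom : ℝ) = ((2 * l).factorial : ℝ) / ((l.factorial : ℝ) ^ 2) := by
    rw [Nat.centralBinom, Nat.cast_choose ℝ (by omega : l ≤ 2 * l)]
    rw [show 2 * l - l = l by omega]
    ring
  have h2 : ((2 * l + 1).centralBinom : ℝ) = ((2 * (2 * l) + 1).factorial : ℝ) * 2 /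
      (((2 * l + 1).factorial : ℝ) * ((2 * l).factorial : ℝ)) := by
    rw [Nat.centralBinom, Nat.cast_choose ℝ (by omega : 2 * l + 1 ≤ 2 * (2 * l + 1))]
    rw [show 2 * (2 * l + 1) - (2 * l + 1) = 2 * l + 1 by omega,
      show 2 * (2 * l + 1) = (2 * (2 * l) + 1) + 1 by ring, Nat.factorial_succ (2 * (2 * l) + 1)]
    have e : ((2 * l + 1).factorial : ℝ) = (2 * (l : ℝ) + 1) * ((2 * l).factorial : ℝ) := by
      rw [Nat.factorial_succ]
      push_cast
      ring
    have f1 : ((2 * l).factorial : ℝ) ≠ 0 := by positivity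
    push_cast
    rw [e]
    field_simp
    ring
  rw [h1, h2]
  have f1 : (l.factorial : ℝ) ≠ 0 := by positivity
  have f2 : ((2 * l).factorial : ℝ) ≠ 0 := by positivity
  have f3 : ((2 * l + 1).factorial : ℝ) ≠ 0 := by positivity
  have f4 : ((2 * (2 * l) + 1).factorial : ℝ) ≠ 0 := by positivity
  have e4 : (4 : ℝ) ^ l = 2 ^ (2 * l) := by rw [pow_mul]; norm_num
  rw [e4]
  field_simp

theorem gam_bounds_aux (n : ℕ) (hn : 2 ≤ n) : 1 / (8 * (n : ℝ)) ≤ gam n ∧ gam n ≤ 1 := by
  rw [gam_eq n (by omega)]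
  obtain ⟨l, rfl⟩ : ∃ l, n = l + 1 := ⟨n - 1, by omega⟩
  rw [Nat.add_sub_cancel]
  have hpos : (0 : ℝ) < ((2 * l + 1).centralBinom : ℝ) := by
    exact_mod_cast Nat.centralBinom_pos _
  constructor
  · rw [div_le_div_iff₀ (by positivity) hpos, one_mul]
    have h1 : (2 * l + 1).centralBinom ≤ 4 ^ (2 * l + 1) := by
      rw [Nat.centralBinom]
      calc (2 * (2 * l + 1)).choose (2 * l + 1) ≤ 2 ^ (2 * (2 * l + 1)) := Nat.choose_le_two_pow _ _
        _ = 4 ^ (2 * l + 1) := by rw [pow_mul]; norm_num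
    have h2 := Nat.four_pow_le_two_mul_self_mul_centralBinom l (by omega)
    have h3 : (2 * l + 1).centralBinom ≤ 4 ^ l * l.centralBinom * (8 * (l + 1)) := by
      calc (2 * l + 1).centralBinom ≤ 4 ^ (2 * l + 1) := h1
        _ = 4 * 4 ^ l * 4 ^ l := by ring
        _ ≤ 4 * 4 ^ l * (2 * l * l.centralBinom) := Nat.mul_le_mul_left _ h2
        _ = 4 ^ l * l.centralBinom * (8 * l) := by ring
        _ ≤ _ := Nat.mul_le_mul_left _ (by omega)
    exact_mod_cast h3
  · rw [div_le_one hpos]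
    exact_mod_cast four_pow_mul_centralBinom_le l

end Vale.Agent.P370.Q
end
end

section

section

/-!
Great circle orbitals: norms, overlaps, top device, contraction.
-/

namespace Vale.Agent.P370.Q

open MeasureTheory Finset ComplexConjugate

theorem av_null (α : ℝ) : cc (av α) (av α) = 0 := by
  simp only [cc, av, Fin.sum_univ_three, Matrix.cons_val_zero, Matrix.cons_val_one,
    Matrix.cons_val]
  have h : (Real.cos α : ℂ) ^ 2 + (Real.sin α : ℂ) ^ 2 = 1 := by
    exact_mod_cast congrArg ((↑) : ℝ → ℂ) (Real.cos_sq_add_sin_sq α)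
  linear_combination (-1 : ℂ) * h + ((Real.cos α : ℂ) ^ 2 + (Real.sin α : ℂ) ^ 2) *
    Complex.I_sq

theorem fsite_InV (n : ℕ) (hn : 1 ≤ n) (α : ℝ) : InV n (fsite n α) := fsite_InV' n α

theorem nf_pos (n : ℕ) (hn : 1 ≤ n) : 0 < nf n := by
  have : (0 : ℝ) < n := by exact_mod_cast hn
  unfold nf
  positivity

theorem site_ov_ff (n : ℕ) (hn : 2 ≤ n) (α β : ℝ) :
    ov (fsite n α) (fsite n β) =
      nf n * (((1 + Real.cos (α - β)) / 2) ^ (n - 1) + ((1 - Real.cos (α - β)) / 2) ^ (n - 1)) :=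
  site_ov_aux n hn α β

theorem site_ov_fg (n : ℕ) (hn : 2 ≤ n) (α β : ℝ) : ov (fsite n α) (gsite n β) = 0 :=
  site_ov_fg_aux n α β

theorem gam_bounds (n : ℕ) (hn : 2 ≤ n) : 1 / (8 * (n : ℝ)) ≤ gam n ∧ gam n ≤ 1 :=
  gam_bounds_aux n hn

/-- the top multipole is a rank two form on the top subspace -/
theorem top_rank_two (n : ℕ) (hn : 2 ≤ n) (α : ℝ) {P P' : Poly3} (hP : Harm (n - 1) P)
    (hP' : Harm (n - 1) P') :
    4 * Real.pi * I0 n *
        sph (fun u => (cdot (av α) u ^ (2 * (n - 1))).re * (pe P u * pe P' u)) =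
      gam n / nf n * (ov (vfun n P) (fsite n α) * ov (vfun n P') (fsite n α) -
        ov (vfun n P) (gsite n α) * ov (vfun n P') (gsite n α)) :=
  top_rank_two' n hn α hP hP'

/-- devices are contractions on the top subspace -/
theorem dev_contr (n q : ℕ) (hn : 2 ≤ n) (γ : ℝ) {P P' : Poly3} (hP : Harm (n - 1) P)
    (hP' : Harm (n - 1) P') :
    |4 * Real.pi * I0 n * sph (fun u => (cdot (av γ) u ^ (2 * q)).re * (pe P u * pe P' u))| ≤
      Real.sqrt (ov (vfun n P) (vfun n P) * ov (vfun n P') (vfun n P')) :=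
  dev_contr' n q hn γ hP hP'

end Vale.Agent.P370.Q
end
end

section

section

/-!
Hopping amplitudes: closed form, selectivity.
-/

namespace Vale.Agent.P370.Q

open MeasureTheory Finset ComplexConjugate

theorem hopA_symm (n q : ℕ) (γ α β : ℝ) : hopA n q γ α β = hopA n q γ β α := by
  simp only [hopA, mul_comm (cdot (av α) _ ^ (n - 1)).re]

theorem c2_sph_ofReal (f : R3 → ℝ) : sph (fun u => (f u : ℂ)) = ((sph f : ℝ) : ℂ) := by
  unfold sph
  rw [Complex.real_smul, smul_eq_mul, Complex.ofReal_mul, ← intervalIntegral.integral_ofReal]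
  congr 1
  refine intervalIntegral.integral_congr fun θ _ => ?_
  rw [← intervalIntegral.integral_ofReal]
  refine intervalIntegral.integral_congr fun φ _ => ?_
  rw [Complex.real_smul, smul_eq_mul, Complex.ofReal_mul]

theorem c2_conj_cdot (α : ℝ) (x : R3) :
    conj (cdot (av α) x) = cdot (av (α + Real.pi)) x := by
  simp only [cdot, av, Fin.sum_univ_three, Matrix.cons_val_zero, Matrix.cons_val_one,
    Matrix.cons_val, map_add, map_mul, Complex.conj_ofReal, Complex.conj_I, map_one,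
    Real.cos_add_pi, Real.sin_add_pi, Complex.ofReal_neg]
  ring

theorem c2_cc_av (α β : ℝ) : cc (av α) (av β) = ((1 - Real.cos (α - β) : ℝ) : ℂ) := by
  simp only [cc, av, Fin.sum_univ_three, Matrix.cons_val_zero, Matrix.cons_val_one,
    Matrix.cons_val]
  rw [Real.cos_sub, Complex.ofReal_sub, Complex.ofReal_add, Complex.ofReal_mul,
    Complex.ofReal_mul, Complex.ofReal_one]
  linear_combination ((Real.cos α : ℂ) * (Real.cos β : ℂ) + (Real.sin α : ℂ) * (Real.sin β : ℂ)) *
    Complex.I_sq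

theorem c2_cont (v : C3) : Continuous (fun u : R3 => cdot v u) := by
  unfold cdot
  fun_prop

theorem c2_re_pow (α : ℝ) (m : ℕ) (u : R3) :
    (((cdot (av α) u ^ m).re : ℝ) : ℂ) =
      (1 / 2) * (cdot (av α) u ^ m + cdot (av (α + Real.pi)) u ^ m) := by
  rw [Complex.re_eq_add_conj, map_pow, c2_conj_cdot]
  ring

theorem c2_sph_sum {ι : Type} (s : Finset ι) (f : ι → R3 → ℂ) (hf : ∀ i, Continuous (f i)) :
    sph (fun u => ∑ i ∈ s, f i u) = ∑ i ∈ s, sph (f i) := by
  classical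
  induction s using Finset.induction_on with
  | empty => simp only [Finset.sum_empty]; exact sph_const 0
  | insert a s ha ih =>
    simp only [Finset.sum_insert ha]
    rw [sph_add (hf a).continuousOn (continuous_finsetSum _ fun i _ => hf i).continuousOn, ih]

/-- the constant of the triple products -/
noncomputable def c2K (l q : ℕ) : ℝ :=
  2 ^ (l + q) * ((l + q).factorial : ℝ) * (l.factorial : ℝ) ^ 2 * ((2 * q).factorial : ℝ) /
    (((2 * l + 2 * q + 1).factorial : ℝ) * ((l - q).factorial : ℝ) * (q.factorial : ℝ) ^ 2)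

/-- one of the four terms -/
noncomputable def c2T (l q : ℕ) (γ α β : ℝ) : ℝ :=
  (1 - Real.cos (α - β)) ^ (l - q) * (1 - Real.cos (α - γ)) ^ q * (1 - Real.cos (β - γ)) ^ q

theorem c2_triple (l q : ℕ) (hq : q ≤ l) (γ α β : ℝ) :
    sph (fun u => cdot (av α) u ^ l * cdot (av β) u ^ l * cdot (av γ) u ^ (2 * q)) =
      ((c2K l q * c2T l q γ α β : ℝ) : ℂ) := by
  rw [sph_triple (av α) (av β) (av γ) (av_null α) (av_null β) (av_null γ) l q hq, c2_cc_av,
    c2_cc_av, c2_cc_av]
  unfold c2K c2T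
  push_cast
  ring

/-- shift of an angle by `π` -/
noncomputable def c2shp (b : Bool) : ℝ := if b then Real.pi else 0

theorem c2_closed (l q : ℕ) (hq : q ≤ l) (γ α β : ℝ) :
    sph (fun u => (cdot (av γ) u ^ (2 * q)).re * ((cdot (av α) u ^ l).re * (cdot (av β) u ^ l).re))
      = c2K l q / 8 * ∑ b : Bool × Bool × Bool, c2T l q (γ + c2shp b.1) (α + c2shp b.2.1) (β + c2shp b.2.2) := by
  apply Complex.ofReal_injective
  rw [← c2_sph_ofReal]
  have e : ∀ u : R3, (((cdot (av γ) u ^ (2 * q)).re * ((cdot (av α) u ^ l).re *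
      (cdot (av β) u ^ l).re) : ℝ) : ℂ) =
      (1 / 8 : ℝ) • ∑ b : Bool × Bool × Bool, cdot (av (α + c2shp b.2.1)) u ^ l *
        cdot (av (β + c2shp b.2.2)) u ^ l * cdot (av (γ + c2shp b.1)) u ^ (2 * q) := by
    intro u
    rw [Complex.ofReal_mul, Complex.ofReal_mul, c2_re_pow, c2_re_pow, c2_re_pow]
    simp only [Fintype.sum_prod_type, Fintype.sum_bool, c2shp, Complex.real_smul]
    push_cast
    simp only [add_zero]
    ring
  simp only [e]
  rw [sph_smul, c2_sph_sum]
  · simp only [c2_triple l q hq]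
    rw [Complex.real_smul]
    push_cast
    rw [Finset.mul_sum, Finset.mul_sum]
    refine Finset.sum_congr rfl fun b _ => ?_
    ring
  · intro b
    have := c2_cont
    fun_prop

theorem hopA_closed (n q : ℕ) (hq : q ≤ n - 1) (γ α β : ℝ) :
    hopA n q γ α β = 4 * Real.pi * I0 n / nf n * (c2K (n - 1) q / 8) *
      ∑ b : Bool × Bool × Bool, c2T (n - 1) q (γ + c2shp b.1) (α + c2shp b.2.1) (β + c2shp b.2.2) := by
  unfold hopA
  rw [c2_closed (n - 1) q hq]
  ring

theorem c2K_pos (l q : ℕ) : 0 < c2K l q := by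
  unfold c2K
  positivity

theorem c2T_nonneg (l q : ℕ) (γ α β : ℝ) : 0 ≤ c2T l q γ α β := by
  unfold c2T
  have h1 := Real.cos_le_one (α - β)
  have h2 := Real.cos_le_one (α - γ)
  have h3 := Real.cos_le_one (β - γ)
  have h1' : 0 ≤ 1 - Real.cos (α - β) := by linarith
  have h2' : 0 ≤ 1 - Real.cos (α - γ) := by linarith only [h2]
  have h3' : 0 ≤ 1 - Real.cos (β - γ) := by linarith
  (clear * - h1 h2 h3; positivity)

/-- `hopA` depends on the angles modulo rotations -/
theorem hopA_shift (n q : ℕ) (hn : 2 ≤ n) (hq : q ≤ n - 1) (γ α β δ : ℝ) :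
    hopA n q (γ + δ) (α + δ) (β + δ) = hopA n q γ α β := by
  rw [hopA_closed n q hq, hopA_closed n q hq]
  congr 1
  refine Finset.sum_congr rfl fun b _ => ?_
  have e1 : α + δ + c2shp b.2.1 - (β + δ + c2shp b.2.2) = α + c2shp b.2.1 - (β + c2shp b.2.2) := by ring
  have e2 : α + δ + c2shp b.2.1 - (γ + δ + c2shp b.1) = α + c2shp b.2.1 - (γ + c2shp b.1) := by ring
  have e3 : β + δ + c2shp b.2.2 - (γ + δ + c2shp b.1) = β + c2shp b.2.2 - (γ + c2shp b.1) := by ring
  unfold c2T
  rw [e1, e2, e3]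

theorem c2_I0_pos (n : ℕ) (hn : 1 ≤ n) : 0 < I0 n := by
  rw [I0_eq n hn]
  have : (0 : ℝ) < n := by exact_mod_cast hn
  positivity

theorem hopA_nonneg (n q : ℕ) (hn : 2 ≤ n) (hq : q ≤ n - 1) (γ α β : ℝ) :
    0 ≤ hopA n q γ α β := by
  rw [hopA_closed n q hq]
  have h1 := c2_I0_pos n (by omega)
  have h2 := nf_pos n (by omega)
  have h3 := c2K_pos (n - 1) q
  have h4 := Real.pi_pos
  refine mul_nonneg (by positivity) (Finset.sum_nonneg fun b _ => c2T_nonneg _ _ _ _ _)

theorem c2_T_sum (l q : ℕ) (γ α β : ℝ) :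
    ∑ b : Bool × Bool × Bool, c2T l q (γ + c2shp b.1) (α + c2shp b.2.1) (β + c2shp b.2.2) =
      2 * ((2 * Real.sin ((α - β) / 2) ^ 2) ^ (l - q) *
        ((Real.cos ((α - β) / 2) - Real.cos ((α + β) / 2 - γ)) ^ (2 * q) +
          (Real.cos ((α - β) / 2) + Real.cos ((α + β) / 2 - γ)) ^ (2 * q)) +
      (2 * Real.cos ((α - β) / 2) ^ 2) ^ (l - q) *
        ((Real.sin ((α + β) / 2 - γ) - Real.sin ((α - β) / 2)) ^ (2 * q) +
          (Real.sin ((α + β) / 2 - γ) + Real.sin ((α - β) / 2)) ^ (2 * q))) := by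
  set P := (α - β) / 2 with hP
  set M := (α + β) / 2 - γ with hM
  have hα : α = M + P + γ := by rw [hP, hM]; ring
  have hβ : β = M - P + γ := by rw [hP, hM]; ring
  have a1 : ∀ s t : ℝ, Real.cos (s + Real.pi - t) = -Real.cos (s - t) := by
    intro s t
    rw [show s + Real.pi - t = (s - t) + Real.pi by ring, Real.cos_add_pi]
  have a2 : ∀ s t : ℝ, Real.cos (s - (t + Real.pi)) = -Real.cos (s - t) := by
    intro s t
    rw [show s - (t + Real.pi) = (s - t) - Real.pi by ring, Real.cos_sub_pi]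
  have e1 : Real.cos (α - β) = 1 - 2 * Real.sin P ^ 2 := by
    rw [hα, hβ, show M + P + γ - (M - P + γ) = 2 * P by ring, Real.cos_two_mul]
    linarith only [Real.sin_sq_add_cos_sq P]
  have e1' : Real.cos (α - β) = 2 * Real.cos P ^ 2 - 1 := by
    rw [hα, hβ, show M + P + γ - (M - P + γ) = 2 * P by ring, Real.cos_two_mul]
  have e2 : Real.cos (α - γ) = Real.cos M * Real.cos P - Real.sin M * Real.sin P := by
    rw [hα, show M + P + γ - γ = M + P by ring, Real.cos_add]
  have e3 : Real.cos (β - γ) = Real.cos M * Real.cos P + Real.sin M * Real.sin P := by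
    rw [hβ, show M - P + γ - γ = M - P by ring, Real.cos_sub]
  have hsM := Real.sin_sq_add_cos_sq M
  have hsP := Real.sin_sq_add_cos_sq P
  have f1 : (1 - Real.cos (α - γ)) * (1 - Real.cos (β - γ)) = (Real.cos P - Real.cos M) ^ 2 := by
    rw [e2, e3]
    have h1 : Real.sin M ^ 2 = 1 - Real.cos M ^ 2 := by linarith only [hsM]
    have h2 : Real.sin P ^ 2 = 1 - Real.cos P ^ 2 := by linarith only [e1, e1']
    linear_combination (-(Real.sin P ^ 2)) * h1 - (1 - Real.cos M ^ 2) * h2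
  have f2 : (1 + Real.cos (α - γ)) * (1 + Real.cos (β - γ)) = (Real.cos P + Real.cos M) ^ 2 := by
    rw [e2, e3]
    have h1 : Real.sin M ^ 2 = 1 - Real.cos M ^ 2 := by linarith only [hsM]
    have h2 : Real.sin P ^ 2 = 1 - Real.cos P ^ 2 := by linarith only [e1, e1']
    linear_combination (-(Real.sin P ^ 2)) * h1 - (1 - Real.cos M ^ 2) * h2
  have f3 : (1 + Real.cos (α - γ)) * (1 - Real.cos (β - γ)) = (Real.sin M - Real.sin P) ^ 2 := by
    rw [e2, e3]
    have h1 : Real.cos M ^ 2 = 1 - Real.sin M ^ 2 := by linarith only [hsM]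
    have h2 : Real.cos P ^ 2 = 1 - Real.sin P ^ 2 := by linarith only [e1, e1']
    linear_combination (-(Real.cos P ^ 2)) * h1 - (1 - Real.sin M ^ 2) * h2
  have f4 : (1 - Real.cos (α - γ)) * (1 + Real.cos (β - γ)) = (Real.sin M + Real.sin P) ^ 2 := by
    rw [e2, e3]
    have h1 : Real.cos M ^ 2 = 1 - Real.sin M ^ 2 := by linarith only [hsM]
    have h2 : Real.cos P ^ 2 = 1 - Real.sin P ^ 2 := by linarith only [e1, e1']
    linear_combination (-(Real.cos P ^ 2)) * h1 - (1 - Real.sin M ^ 2) * h2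
  have g1 : 1 - Real.cos (α - β) = 2 * Real.sin P ^ 2 := by rw [e1]; ring
  have g2 : 1 + Real.cos (α - β) = 2 * Real.cos P ^ 2 := by rw [e1']; ring
  simp only [Fintype.sum_prod_type, Fintype.sum_bool, c2shp, if_true, Bool.false_eq_true, if_false,
    add_zero, c2T, a1, a2, sub_neg_eq_add]
  simp only [pow_mul (_ : ℝ) 2 q, ← f1, ← f2, ← f3, ← f4, mul_pow _ _ q, ← g1, ← g2]
  ring

/-- the prefactor -/
noncomputable def c2Ch (l q : ℕ) : ℝ :=
  1 / 2 * (((2 * l + 1).factorial : ℝ) * ((l + q).factorial : ℝ) * ((2 * q).factorial : ℝ)) /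
    (((2 * l + 2 * q + 1).factorial : ℝ) * ((l - q).factorial : ℝ) * (q.factorial : ℝ) ^ 2)

theorem c2_const (l q : ℕ) (hq : q ≤ l) :
    4 * Real.pi * I0 (l + 1) / nf (l + 1) * (c2K l q / 8) * 2 * 2 ^ (l - q) = c2Ch l q := by
  rw [I0_eq (l + 1) (by omega)]
  unfold nf c2K c2Ch
  obtain ⟨m, rfl⟩ : ∃ m, l = q + m := ⟨l - q, by omega⟩
  have h1 : ((2 * (q + m + 1)).factorial : ℝ) =
      2 * ((q : ℝ) + m + 1) * ((2 * (q + m) + 1).factorial : ℝ) := by
    rw [show 2 * (q + m + 1) = (2 * (q + m) + 1) + 1 by ring, Nat.factorial_succ]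
    push_cast
    ring
  rw [h1, Nat.add_sub_cancel, Nat.add_sub_cancel_left]
  have h2 : ((q + m).factorial : ℝ) ≠ 0 := by positivity
  have h3 : (((q + m + 1 : ℕ) : ℝ) / 2) ^ (2 * (q + m + 1) + 1) =
      ((q : ℝ) + m + 1) ^ (2 * (q + m + 1) + 2) / (((q : ℝ) + m + 1) * 2 * (4 * 4 ^ (q + m))) := by
    rw [div_pow, show (2 : ℝ) ^ (2 * (q + m + 1) + 1) = 2 * (4 * 4 ^ (q + m)) by
      rw [pow_succ, pow_mul]; norm_num; ring]
    push_cast
    have : (q : ℝ) + m + 1 ≠ 0 := by (clear * -; positivity)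
    field_simp
    ring
  rw [h3]
  have h4 : (4 : ℝ) ^ (q + m) = 2 ^ (q + m + q) * 2 ^ m := by
    rw [← pow_add, show (4 : ℝ) = 2 ^ 2 by norm_num, ← pow_mul]
    congr 1
    ring
  rw [h4]
  have h5 : (q : ℝ) + m + 1 ≠ 0 := by (clear * -; positivity)
  push_cast
  field_simp
  ring

/-- Stirling model -/
noncomputable def c2g (n : ℕ) : ℝ := Real.sqrt n * (n : ℝ) ^ n

theorem c2g_pos (n : ℕ) (hn : 1 ≤ n) : 0 < c2g n := by
  unfold c2g
  have : (0 : ℝ) < n := by exact_mod_cast hn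
  positivity

theorem c2_fac_low (n : ℕ) (hn : 1 ≤ n) : 5 / 2 * c2g n ≤ (n.factorial : ℝ) * Real.exp 1 ^ n := by
  have h := Stirling.le_factorial_stirling n
  have hn' : (0 : ℝ) < n := by exact_mod_cast hn
  have h1 : (5 / 2 : ℝ) * Real.sqrt n ≤ Real.sqrt (2 * Real.pi * n) := by
    apply Real.le_sqrt_of_sq_le
    rw [mul_pow, Real.sq_sqrt hn'.le]
    linarith only [mul_nonneg_of_nonpos_of_nonpos (Mathlib.Tactic.Linarith.sub_nonpos_of_le (Mathlib.Tactic.Linarith.natCast_nonneg ℝ n)) (le_of_lt (Mathlib.Tactic.Linarith.sub_neg_of_lt Real.pi_gt_d2)), Mathlib.Tactic.Linarith.natCast_nonneg ℝ n]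
  rw [div_pow] at h
  have h2 : 0 < Real.exp 1 ^ n := by positivity
  have h3 := mul_le_mul_of_nonneg_right h h2.le
  rw [mul_assoc, div_mul_cancel₀ _ h2.ne'] at h3
  refine le_trans ?_ h3
  unfold c2g
  rw [← mul_assoc]
  exact mul_le_mul_of_nonneg_right h1 (by positivity)

theorem c2_fac_up (n : ℕ) (hn : 1 ≤ n) : (n.factorial : ℝ) * Real.exp 1 ^ n ≤ Real.exp 1 * c2g n := by
  have hn' : (0 : ℝ) < n := by exact_mod_cast hn
  have h : Stirling.stirlingSeq n ≤ Real.exp 1 / Real.sqrt 2 := by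
    obtain ⟨m, rfl⟩ : ∃ m, n = m + 1 := ⟨n - 1, by omega⟩
    rw [← Stirling.stirlingSeq_one]
    exact Stirling.stirlingSeq'_antitone (Nat.zero_le m)
  unfold Stirling.stirlingSeq at h
  have h2 : 0 < Real.exp 1 ^ n := by positivity
  have h3 : 0 < Real.sqrt (2 * (n : ℝ)) * ((n : ℝ) / Real.exp 1) ^ n := by positivity
  rw [div_le_iff₀ h3] at h
  have h4 := mul_le_mul_of_nonneg_right h h2.le
  refine h4.trans (le_of_eq ?_)
  unfold c2g
  rw [div_pow, Real.sqrt_mul (by norm_num : (0 : ℝ) ≤ 2)]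
  field_simp

/-- the exponential factor -/
noncomputable def c2X (l q : ℕ) : ℝ :=
  (l : ℝ) ^ (2 * l) / (((l + q : ℕ) : ℝ) ^ (l + q) * ((l - q : ℕ) : ℝ) ^ (l - q))

theorem c2g_ratio (m q : ℕ) (hm : 1 ≤ m) (hq : 1 ≤ q) :
    c2g (2 * (m + q)) * c2g (m + 2 * q) * c2g (2 * q) =
      (Real.sqrt (4 * q * (m + q) * (m + 2 * q)) / (Real.sqrt (2 * m * (m + 2 * q)) * q)) *
        c2X (m + q) q * (c2g (2 * (m + 2 * q)) * c2g m * c2g q ^ 2) := by
  have hm' : (0 : ℝ) < m := by exact_mod_cast hm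
  have hq' : (0 : ℝ) < q := by exact_mod_cast hq
  unfold c2g c2X
  rw [show m + q + q = m + 2 * q by ring, Nat.add_sub_cancel]
  have s1 : Real.sqrt ((2 * (m + q) : ℕ) : ℝ) * Real.sqrt ((m + 2 * q : ℕ) : ℝ) *
      Real.sqrt ((2 * q : ℕ) : ℝ) = Real.sqrt (4 * q * (m + q) * (m + 2 * q)) := by
    rw [← Real.sqrt_mul (by positivity), ← Real.sqrt_mul (by positivity)]
    congr 1
    push_cast
    ring
  have s2 : Real.sqrt ((2 * (m + 2 * q) : ℕ) : ℝ) * Real.sqrt ((m : ℕ) : ℝ) *
      (Real.sqrt ((q : ℕ) : ℝ)) ^ 2 = Real.sqrt (2 * m * (m + 2 * q)) * q := by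
    rw [← Real.sqrt_mul (by positivity), Real.sq_sqrt (by positivity)]
    congr 2
    push_cast
    ring
  have p1 : ((2 * (m + q) : ℕ) : ℝ) ^ (2 * (m + q)) * ((m + 2 * q : ℕ) : ℝ) ^ (m + 2 * q) *
      ((2 * q : ℕ) : ℝ) ^ (2 * q) * (((m + 2 * q : ℕ) : ℝ) ^ (m + 2 * q) * (m : ℝ) ^ m) =
      ((m + q : ℕ) : ℝ) ^ (2 * (m + q)) *
        (((2 * (m + 2 * q) : ℕ) : ℝ) ^ (2 * (m + 2 * q)) * (m : ℝ) ^ m * ((q : ℝ) ^ q) ^ 2) := by
    push_cast
    rw [mul_pow, mul_pow, mul_pow]
    rw [show 2 * (m + 2 * q) = (m + 2 * q) + (m + 2 * q) by ring, pow_add ((m : ℝ) + 2 * q)]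
    rw [show ((q : ℝ) ^ q) ^ 2 = (q : ℝ) ^ (2 * q) by rw [← pow_mul]; congr 1; ring]
    rw [show (2 : ℝ) ^ ((m + 2 * q) + (m + 2 * q)) = 2 ^ (2 * (m + q)) * 2 ^ (2 * q) by
      rw [← pow_add]; congr 1; ring]
    ring
  have hX : ((m + 2 * q : ℕ) : ℝ) ^ (m + 2 * q) * (m : ℝ) ^ m ≠ 0 := by positivity
  have hS : Real.sqrt (2 * m * (m + 2 * q)) * (q : ℝ) ≠ 0 := by positivity
  calc _ = (Real.sqrt ((2 * (m + q) : ℕ) : ℝ) * Real.sqrt ((m + 2 * q : ℕ) : ℝ) *
      Real.sqrt ((2 * q : ℕ) : ℝ)) * (((2 * (m + q) : ℕ) : ℝ) ^ (2 * (m + q)) *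
      ((m + 2 * q : ℕ) : ℝ) ^ (m + 2 * q) * ((2 * q : ℕ) : ℝ) ^ (2 * q)) := by ring
    _ = Real.sqrt (4 * q * (m + q) * (m + 2 * q)) * (((m + q : ℕ) : ℝ) ^ (2 * (m + q)) *
        (((2 * (m + 2 * q) : ℕ) : ℝ) ^ (2 * (m + 2 * q)) * (m : ℝ) ^ m * ((q : ℝ) ^ q) ^ 2) /
        (((m + 2 * q : ℕ) : ℝ) ^ (m + 2 * q) * (m : ℝ) ^ m)) := by
      rw [s1, ← p1, mul_div_cancel_right₀ _ hX]
    _ = Real.sqrt (4 * q * (m + q) * (m + 2 * q)) / (Real.sqrt (2 * m * (m + 2 * q)) * q) *
        (((m + q : ℕ) : ℝ) ^ (2 * (m + q)) / (((m + 2 * q : ℕ) : ℝ) ^ (m + 2 * q) * (m : ℝ) ^ m)) *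
        ((Real.sqrt (2 * m * (m + 2 * q)) * q) * (((2 * (m + 2 * q) : ℕ) : ℝ) ^ (2 * (m + 2 * q)) *
          (m : ℝ) ^ m * ((q : ℝ) ^ q) ^ 2)) := by
      field_simp
    _ = _ := by
      rw [← s2]
      ring

theorem c2X_pos (m q : ℕ) (hm : 1 ≤ m) : 0 < c2X (m + q) q := by
  have hm' : (0 : ℝ) < m := by exact_mod_cast hm
  unfold c2X
  rw [Nat.add_sub_cancel]
  positivity

theorem c2_sqrt_ratio (m q : ℕ) (hm : 1 ≤ m) (hq : 1 ≤ q) :
    1 / (q : ℝ) ≤ Real.sqrt (4 * q * (m + q) * (m + 2 * q)) / (Real.sqrt (2 * m * (m + 2 * q)) * q)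
    ∧ Real.sqrt (4 * q * (m + q) * (m + 2 * q)) / (Real.sqrt (2 * m * (m + 2 * q)) * q) ≤ 2 := by
  have hm' : (1 : ℝ) ≤ m := by exact_mod_cast hm
  have hq' : (1 : ℝ) ≤ q := by exact_mod_cast hq
  have hS : 0 < Real.sqrt (2 * m * (m + 2 * q)) * (q : ℝ) := by positivity
  constructor
  · rw [div_le_div_iff₀ (by positivity) hS, one_mul]
    refine mul_le_mul_of_nonneg_right (Real.sqrt_le_sqrt ?_) (by positivity)
    have h1 : 2 * (m : ℝ) ≤ 4 * q * (m + q) := by linarith only [mul_nonneg_of_nonpos_of_nonpos (Mathlib.Tactic.Linarith.sub_nonpos_of_le (Mathlib.Tactic.Linarith.natCast_nonneg ℝ m)) (Mathlib.Tactic.Linarith.sub_nonpos_of_le hq'), mul_nonneg_of_nonpos_of_nonpos (Mathlib.Tactic.Linarith.sub_nonpos_of_le (Mathlib.Tactic.Linarith.natCast_nonneg ℝ q)) (Mathlib.Tactic.Linarith.sub_nonpos_of_le hq')]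
    exact mul_le_mul_of_nonneg_right h1 (by positivity)
  · rw [div_le_iff₀ hS]
    rw [show 2 * (Real.sqrt (2 * m * (m + 2 * q)) * (q : ℝ)) =
      Real.sqrt ((2 * q) ^ 2 * (2 * m * (m + 2 * q))) by
      rw [Real.sqrt_mul (x := (2 * (q : ℝ)) ^ 2) (by positivity) (2 * m * (m + 2 * q)),
        Real.sqrt_sq (by positivity)]; ring]
    refine Real.sqrt_le_sqrt ?_
    have h1 : (m : ℝ) + q ≤ 2 * (m * q) := by nlinarith only [hq', hm']
    have h2 : (0 : ℝ) ≤ 4 * q * (m + 2 * q) := by positivity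
    linarith only [mul_le_mul_of_nonneg_left h1 h2]

theorem c2Ch_eq (m q : ℕ) : c2Ch (m + q) q = 1 / 2 * ((2 * (m + q) + 1) / (2 * (m + 2 * q) + 1)) *
    ((((2 * (m + q)).factorial : ℝ) * ((m + 2 * q).factorial : ℝ) * ((2 * q).factorial : ℝ)) /
      (((2 * (m + 2 * q)).factorial : ℝ) * (m.factorial : ℝ) * (q.factorial : ℝ) ^ 2)) := by
  unfold c2Ch
  rw [Nat.add_sub_cancel, show m + q + q = m + 2 * q by ring,
    show 2 * (m + q) + 2 * q + 1 = 2 * (m + 2 * q) + 1 by ring, Nat.factorial_succ,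
    Nat.factorial_succ]
  push_cast
  field_simp

theorem c2_mul3_le {a b c a' b' c' : ℝ} (ha : a ≤ a') (hb : b ≤ b') (hc : c ≤ c') (h0 : 0 ≤ a)
    (h1 : 0 ≤ b) (h2 : 0 ≤ c) : a * b * c ≤ a' * b' * c' :=
  mul_le_mul (mul_le_mul ha hb h1 (h0.trans ha)) hc h2
    (mul_nonneg (h0.trans ha) (h1.trans hb))

theorem c2Ch_bounds (m q : ℕ) (hm : 1 ≤ m) (hq : 1 ≤ q) :
    c2X (m + q) q / (16 * q) ≤ c2Ch (m + q) q ∧ c2Ch (m + q) q ≤ c2X (m + q) q := by
  have hm' : (1 : ℝ) ≤ m := by exact_mod_cast hm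
  have hq' : (1 : ℝ) ≤ q := by exact_mod_cast hq
  have hX := c2X_pos m q hm
  obtain ⟨hs1, hs2⟩ := c2_sqrt_ratio m q hm hq
  have hr := c2g_ratio m q hm hq
  set Y := Real.sqrt (4 * q * (m + q) * (m + 2 * q)) / (Real.sqrt (2 * m * (m + 2 * q)) * q)
  set E := Real.exp 1 with hE
  have hE0 : 0 < E := Real.exp_pos 1
  have hE1 : E ≤ 2.72 := by have := Real.exp_one_lt_d9; rw [hE]; linarith only [this]
  set R := (((2 * (m + q)).factorial : ℝ) * ((m + 2 * q).factorial : ℝ) *
      ((2 * q).factorial : ℝ)) /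
      (((2 * (m + 2 * q)).factorial : ℝ) * (m.factorial : ℝ) * (q.factorial : ℝ) ^ 2) with hR
  set N := ((2 * (m + q)).factorial * E ^ (2 * (m + q))) * ((m + 2 * q).factorial * E ^ (m + 2 * q))
    * ((2 * q).factorial * E ^ (2 * q)) with hN
  set D := ((2 * (m + 2 * q)).factorial * E ^ (2 * (m + 2 * q))) * (m.factorial * E ^ m) *
    (q.factorial * E ^ q) ^ 2 with hD
  have hRN : R = N / D := by
    rw [hR, hN, hD]
    have e1 : E ^ (2 * (m + q)) * E ^ (m + 2 * q) * E ^ (2 * q) =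
        E ^ (2 * (m + 2 * q)) * E ^ m * (E ^ q) ^ 2 := by
      rw [← pow_mul, ← pow_add, ← pow_add, ← pow_add, ← pow_add]
      congr 1
      ring
    rw [div_eq_div_iff (by positivity) (by positivity)]
    linear_combination (-(((2 * (m + q)).factorial : ℝ) * ((m + 2 * q).factorial : ℝ) *
      ((2 * q).factorial : ℝ) * ((2 * (m + 2 * q)).factorial : ℝ) * (m.factorial : ℝ) *
      (q.factorial : ℝ) ^ 2)) * e1
  set G := c2g (2 * (m + q)) * c2g (m + 2 * q) * c2g (2 * q) with hG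
  set H := c2g (2 * (m + 2 * q)) * c2g m * c2g q ^ 2 with hH
  have hG0 : 0 < G := by
    have := c2g_pos (2 * (m + q)) (by omega)
    have := c2g_pos (m + 2 * q) (by omega)
    have := c2g_pos (2 * q) (by omega)
    positivity
  have hH0 : 0 < H := by
    have := c2g_pos (2 * (m + 2 * q)) (by omega)
    have := c2g_pos m (by omega)
    have := c2g_pos q (by omega)
    positivity
  have hD0 : 0 < D := by positivity
  have n1 : N ≤ E ^ 3 * G := by
    calc N ≤ (E * c2g (2 * (m + q))) * (E * c2g (m + 2 * q)) * (E * c2g (2 * q)) := by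
          exact c2_mul3_le (c2_fac_up _ (by omega)) (c2_fac_up _ (by omega)) (c2_fac_up _ (by omega))
            (by positivity) (by positivity) (by positivity)
      _ = E ^ 3 * G := by rw [hG]; ring
  have n2 : (5 / 2) ^ 3 * G ≤ N := by
    calc (5 / 2) ^ 3 * G = (5 / 2 * c2g (2 * (m + q))) * (5 / 2 * c2g (m + 2 * q)) *
          (5 / 2 * c2g (2 * q)) := by rw [hG]; ring
      _ ≤ N := by
          have := c2g_pos (2 * (m + q)) (by omega)
          have := c2g_pos (m + 2 * q) (by omega)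
          have := c2g_pos (2 * q) (by omega)
          exact c2_mul3_le (c2_fac_low _ (by omega)) (c2_fac_low _ (by omega)) (c2_fac_low _ (by omega))
            (by positivity) (by positivity) (by positivity)
  have d1 : D ≤ E ^ 4 * H := by
    calc D ≤ (E * c2g (2 * (m + 2 * q))) * (E * c2g m) * (E * c2g q) ^ 2 := by
          exact c2_mul3_le (c2_fac_up _ (by omega)) (c2_fac_up _ (by omega))
            (pow_le_pow_left₀ (by positivity) (c2_fac_up _ (by omega)) 2)
            (by positivity) (by positivity) (by positivity)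
      _ = E ^ 4 * H := by rw [hH]; ring
  have d2 : (5 / 2) ^ 4 * H ≤ D := by
    calc (5 / 2) ^ 4 * H = (5 / 2 * c2g (2 * (m + 2 * q))) * (5 / 2 * c2g m) *
          (5 / 2 * c2g q) ^ 2 := by rw [hH]; ring
      _ ≤ D := by
          have := c2g_pos (2 * (m + 2 * q)) (by omega)
          have := c2g_pos m (by omega)
          have := c2g_pos q (by omega)
          exact c2_mul3_le (c2_fac_low _ (by omega)) (c2_fac_low _ (by omega))
            (pow_le_pow_left₀ (by (clear * - this; positivity)) (c2_fac_low _ (by omega)) 2)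
            (by positivity) (by positivity) (by positivity)
  have hGH : G = Y * c2X (m + q) q * H := hr
  have hY0 : 0 < Y := lt_of_lt_of_le (by positivity) hs1
  have r1 : R ≤ 2 * c2X (m + q) q := by
    rw [hRN, div_le_iff₀ hD0]
    have h1 : E ^ 3 ≤ (5 / 2) ^ 4 := by
      calc E ^ 3 ≤ 2.72 ^ 3 := by gcongr
        _ ≤ (5 / 2) ^ 4 := by norm_num
    calc N ≤ E ^ 3 * G := n1
      _ ≤ (5 / 2) ^ 4 * G := by gcongr
      _ = Y * c2X (m + q) q * ((5 / 2) ^ 4 * H) := by rw [hGH]; ring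
      _ ≤ Y * c2X (m + q) q * D := by gcongr
      _ ≤ 2 * c2X (m + q) q * D := by gcongr
  have r2 : c2X (m + q) q / (4 * q) ≤ R := by
    rw [hRN, le_div_iff₀ hD0]
    have h1 : E ^ 4 ≤ 4 * (5 / 2) ^ 3 := by
      calc E ^ 4 ≤ 2.72 ^ 4 := by gcongr
        _ ≤ 4 * (5 / 2) ^ 3 := by norm_num
    calc c2X (m + q) q / (4 * q) * D ≤ c2X (m + q) q / (4 * q) * (E ^ 4 * H) := by gcongr
      _ ≤ c2X (m + q) q / (4 * q) * ((4 * (5 / 2) ^ 3) * H) := by gcongr
      _ = (5 / 2) ^ 3 * ((1 / q) * c2X (m + q) q * H) := by field_simp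
      _ ≤ (5 / 2) ^ 3 * (Y * c2X (m + q) q * H) := by gcongr
      _ = (5 / 2) ^ 3 * G := by rw [hGH]
      _ ≤ N := n2
  rw [c2Ch_eq]
  have hR0 : 0 < R := lt_of_lt_of_le (by positivity) r2
  have hf1 : (1 / 2 : ℝ) ≤ (2 * (m + q) + 1) / (2 * (m + 2 * q) + 1) := by
    rw [div_le_div_iff₀ (by norm_num) (by positivity)]
    linarith only []
  have hf2 : (2 * ((m : ℝ) + q) + 1) / (2 * (m + 2 * q) + 1) ≤ 1 := by
    rw [div_le_one (by positivity)]
    linarith only []
  constructor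
  · calc c2X (m + q) q / (16 * q) = 1 / 2 * (1 / 2) * (c2X (m + q) q / (4 * q)) := by
          field_simp
          norm_num
      _ ≤ 1 / 2 * ((2 * (m + q) + 1) / (2 * (m + 2 * q) + 1)) * R := by gcongr
  · calc 1 / 2 * ((2 * ((m : ℝ) + q) + 1) / (2 * (m + 2 * q) + 1)) * R ≤ 1 / 2 * 1 *
          (2 * c2X (m + q) q) := by gcongr
      _ = c2X (m + q) q := by ring

/-- the product of the exponential factor and the geometric factor -/
noncomputable def c2E (l q : ℕ) (c : ℝ) : ℝ := c2X l q * ((1 - c) ^ (l - q) * (1 + c) ^ (l + q))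

theorem c2E_eq (m q : ℕ) (hm : 1 ≤ m) (c : ℝ) : c2E (m + q) q c =
    (((m : ℝ) + q) * (1 + c) / (m + 2 * q)) ^ (m + 2 * q) * (((m : ℝ) + q) * (1 - c) / m) ^ m := by
  have hm' : (0 : ℝ) < m := by exact_mod_cast hm
  unfold c2E c2X
  rw [Nat.add_sub_cancel, show m + q + q = m + 2 * q by ring, div_pow, div_pow, mul_pow, mul_pow]
  have h1 : ((m : ℝ) + q) ^ (2 * (m + q)) = ((m : ℝ) + q) ^ (m + 2 * q) * ((m : ℝ) + q) ^ m := by
    rw [← pow_add]; congr 1; ring
  push_cast
  rw [h1]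
  field_simp

theorem c2E_low (m q : ℕ) (hm : 1 ≤ m) (c : ℝ) (hc0 : 0 ≤ c) (hc1 : c < 1)
    (h : |(q : ℝ) - (m + q) * c| ≤ 1) (hl : 64 ≤ ((m : ℝ) + q) * (1 - c ^ 2)) :
    1 / 2 ≤ c2E (m + q) q c := by
  have hm' : (0 : ℝ) < m := by exact_mod_cast hm
  have hq' : (0 : ℝ) ≤ q := by positivity
  have key : ∀ (t : ℝ) (N : ℕ), 0 < t → Real.exp (N * (1 - 1 / t)) ≤ t ^ N := by
    intro t N ht
    rw [Real.exp_nat_mul]
    refine pow_le_pow_left₀ (Real.exp_pos _).le ?_ N
    rw [← Real.le_log_iff_exp_le ht]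
    have := Real.one_sub_inv_le_log_of_pos ht
    rwa [one_div]
  have hl0 : (0 : ℝ) < m + q := by positivity
  have hc' : 0 < 1 - c := by linarith only [hc1]
  have hc'' : 0 < 1 + c := by linarith only [hc0]
  rw [c2E_eq m q hm]
  have h1 := key (((m : ℝ) + q) * (1 + c) / (m + 2 * q)) (m + 2 * q) (by (clear * - hm hc0; positivity))
  have h2 := key (((m : ℝ) + q) * (1 - c) / m) m (by positivity)
  refine le_trans ?_ (mul_le_mul h1 h2 (Real.exp_pos _).le (by positivity))
  rw [← Real.exp_add]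
  have h3 : (((m + 2 * q : ℕ) : ℝ) * (1 - 1 / (((m : ℝ) + q) * (1 + c) / (m + 2 * q))) +
      (m : ℝ) * (1 - 1 / (((m : ℝ) + q) * (1 - c) / m))) =
      -(2 * ((q : ℝ) - (m + q) * c) ^ 2 / ((m + q) * (1 - c ^ 2))) := by
    have : 1 - c ^ 2 = (1 - c) * (1 + c) := by ring
    rw [this]
    push_cast
    field_simp
    ring
  rw [h3]
  have h4 : 2 * ((q : ℝ) - (m + q) * c) ^ 2 / ((m + q) * (1 - c ^ 2)) ≤ 1 / 2 := by
    rw [div_le_iff₀ (by linarith only [hl])]
    have := sq_abs ((q : ℝ) - (m + q) * c)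
    have h5 := abs_nonneg ((q : ℝ) - (m + q) * c)
    linarith only [mul_nonneg_of_nonpos_of_nonpos (Mathlib.Tactic.Linarith.sub_nonpos_of_le h) (Mathlib.Tactic.Linarith.sub_nonpos_of_le h5), this, hl, h]
  have h5 := Real.add_one_le_exp (-(2 * ((q : ℝ) - (m + q) * c) ^ 2 / ((m + q) * (1 - c ^ 2))))
  linarith only [h4, h5]

theorem c2_gm {a b : ℝ} (ha : 0 ≤ a) (ha1 : a ≤ 1) (hb : 0 ≤ b) (hb1 : b ≤ 1) :
    Real.sqrt (a * b) ≤ (a + b) / 2 - (a - b) ^ 2 / 8 := by
  rw [Real.sqrt_mul ha]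
  have hA0 := Real.sqrt_nonneg a
  have hB0 := Real.sqrt_nonneg b
  have hA1 : Real.sqrt a ≤ 1 := by rw [Real.sqrt_le_one]; exact ha1
  have hB1 : Real.sqrt b ≤ 1 := by rw [Real.sqrt_le_one]; exact hb1
  have hA := Real.sq_sqrt ha
  have hB := Real.sq_sqrt hb
  generalize Real.sqrt a = A at *
  generalize Real.sqrt b = B at *
  subst hA hB
  have h1 : (A + B) ^ 2 ≤ 4 := by nlinarith only [ha1, hb1]
  have h2 : (A ^ 2 - B ^ 2) ^ 2 ≤ 4 * (A - B) ^ 2 := by
    have : (A ^ 2 - B ^ 2) ^ 2 = (A - B) ^ 2 * (A + B) ^ 2 := by ring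
    rw [this, mul_comm 4]
    exact mul_le_mul_of_nonneg_left h1 (sq_nonneg _)
  linarith only [h2]

theorem c2E_up (m q : ℕ) (hm : 1 ≤ m) (c : ℝ) (hc0 : 0 ≤ c) (hc1 : c ≤ 1) :
    c2E (m + q) q c ≤ Real.exp (-(((m : ℝ) + q) * (((q : ℝ) / (m + q) - c) ^ 2 / 4))) := by
  have hm' : (0 : ℝ) < m := by exact_mod_cast hm
  have hq' : (0 : ℝ) ≤ q := by positivity
  have hl0 : (0 : ℝ) < m + q := by positivity
  have key : ∀ (t : ℝ) (N : ℕ), 0 ≤ t → t ^ N ≤ Real.exp (N * (2 * (Real.sqrt t - 1))) := by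
    intro t N ht
    rw [Real.exp_nat_mul]
    refine pow_le_pow_left₀ ht ?_ N
    have h1 := Real.add_one_le_exp (Real.sqrt t - 1)
    rw [sub_add_cancel] at h1
    calc t = Real.sqrt t ^ 2 := (Real.sq_sqrt ht).symm
      _ ≤ Real.exp (Real.sqrt t - 1) ^ 2 := pow_le_pow_left₀ (Real.sqrt_nonneg _) h1 2
      _ = Real.exp (2 * (Real.sqrt t - 1)) := by rw [← Real.exp_nat_mul]; norm_num
  have hc' : 0 ≤ 1 - c := by linarith only [hc1]
  have hc'' : 0 < 1 + c := by linarith only [hc0]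
  rw [c2E_eq m q hm]
  have h1 := key (((m : ℝ) + q) * (1 + c) / (m + 2 * q)) (m + 2 * q) (by (clear * - hm hc0; positivity))
  have h2 := key (((m : ℝ) + q) * (1 - c) / m) m (by positivity)
  refine (mul_le_mul h1 h2 (by positivity) (Real.exp_pos _).le).trans ?_
  rw [← Real.exp_add, Real.exp_le_exp]
  set x : ℝ := (q : ℝ) / (m + q) with hx
  have hx0 : 0 ≤ x := by positivity
  have hx1 : x < 1 := by rw [hx, div_lt_one hl0]; linarith only [hm']
  have hxq : (q : ℝ) = (m + q) * x := by rw [hx]; field_simp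
  have hxm : (m : ℝ) = (m + q) * (1 - x) := by rw [hx]; field_simp; ring
  have e1 : ((m : ℝ) + q) * (1 + c) / (m + 2 * q) = (1 + c) / (1 + x) := by
    rw [hx]; field_simp; ring
  have e2 : ((m : ℝ) + q) * (1 - c) / m = (1 - c) / (1 - x) := by
    have : 1 - x = m / (m + q) := by rw [hx]; field_simp; ring
    rw [this]
    field_simp
  have e3 : ((m + 2 * q : ℕ) : ℝ) = (m + q) * (1 + x) := by
    push_cast
    rw [hx]; field_simp; ring
  rw [e1, e2, e3]
  have f1 : (1 + x) * Real.sqrt ((1 + c) / (1 + x)) = Real.sqrt ((1 + c) * (1 + x)) := by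
    rw [show (1 + c) * (1 + x) = (1 + x) ^ 2 * ((1 + c) / (1 + x)) by field_simp,
      Real.sqrt_mul (by (clear * - hm; positivity)), Real.sqrt_sq (by (clear * - hm; positivity))]
  have hx1' : 0 < 1 - x := by linarith only [hx1]
  have f2 : (1 - x) * Real.sqrt ((1 - c) / (1 - x)) = Real.sqrt ((1 - c) * (1 - x)) := by
    rw [show (1 - c) * (1 - x) = (1 - x) ^ 2 * ((1 - c) / (1 - x)) by field_simp,
      Real.sqrt_mul (by positivity), Real.sqrt_sq (by positivity)]
  have g1 : Real.sqrt ((1 + c) * (1 + x)) ≤ ((1 + c) + (1 + x)) / 2 := by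
    rw [Real.sqrt_le_left (by (clear * - hc0 hm; positivity))]
    linarith only [sq_nonneg (c - x)]
  have g2 : Real.sqrt ((1 - c) * (1 - x)) ≤ ((1 - c) + (1 - x)) / 2 - (x - c) ^ 2 / 8 := by
    have := c2_gm hc' (by linarith only [hc0] : 1 - c ≤ 1) hx1'.le (by linarith only [hx0] : 1 - x ≤ 1)
    rw [show (1 - c) - (1 - x) = x - c by ring] at this
    exact this
  have hm2 : (m : ℝ) * (2 * (Real.sqrt ((1 - c) / (1 - x)) - 1)) =
      (m + q) * (2 * (Real.sqrt ((1 - c) * (1 - x)) - (1 - x))) := by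
    rw [← f2]
    nth_rewrite 1 [hxm]
    ring
  have hm3 : (m + q) * (1 + x) * (2 * (Real.sqrt ((1 + c) / (1 + x)) - 1)) =
      (m + q) * (2 * (Real.sqrt ((1 + c) * (1 + x)) - (1 + x))) := by
    rw [← f1]
    ring
  rw [hm2, hm3, ← mul_add, ← mul_neg]
  refine mul_le_mul_of_nonneg_left ?_ hl0.le
  linarith only [g1, g2]

/-- upper bound for one term -/
theorem c2_term_up (m q : ℕ) (hm : 1 ≤ m) (c k η : ℝ) (hc : |c| ≤ 1) (hk : |k| ≤ 1)
    (h : η ≤ ((q : ℝ) / (m + q) - |c|) ^ 2 / 4 ∨ η ≤ (q : ℝ) / (m + q) * (1 - |k|)) :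
    c2X (m + q) q * ((1 - c ^ 2) ^ m * (|c| + |k|) ^ (2 * q)) ≤
      Real.exp (-(((m : ℝ) + q) * η)) := by
  have hm' : (0 : ℝ) < m := by exact_mod_cast hm
  have hq' : (0 : ℝ) ≤ q := by (clear * -; positivity)
  have hl0 : (0 : ℝ) < m + q := by positivity
  have hX := c2X_pos m q hm
  have hc0 := abs_nonneg c
  have hk0 := abs_nonneg k
  have h1 : |c| + |k| ≤ (1 + |c|) * Real.exp (-((1 - |k|) / 2)) := by
    have h2 := Real.add_one_le_exp (-((1 - |k|) / 2))
    have h3 : (1 + |c|) * (-((1 - |k|) / 2) + 1) ≤ (1 + |c|) * Real.exp (-((1 - |k|) / 2)) :=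
      mul_le_mul_of_nonneg_left h2 (by positivity)
    linarith only [mul_nonneg_of_nonpos_of_nonpos (Mathlib.Tactic.Linarith.sub_nonpos_of_le hc) (Mathlib.Tactic.Linarith.sub_nonpos_of_le hk), h3]
  have h2 : (|c| + |k|) ^ (2 * q) ≤ (1 + |c|) ^ (2 * q) * Real.exp (-(q * (1 - |k|))) := by
    refine (pow_le_pow_left₀ (by (clear * -; positivity)) h1 (2 * q)).trans (le_of_eq ?_)
    rw [mul_pow, ← Real.exp_nat_mul]
    congr 2
    push_cast
    ring
  have hsq : 1 - c ^ 2 = (1 - |c|) * (1 + |c|) := by rw [← sq_abs c]; ring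
  have h1c : 0 ≤ 1 - |c| := by linarith only [hc]
  have h3 : c2X (m + q) q * ((1 - c ^ 2) ^ m * (|c| + |k|) ^ (2 * q)) ≤
      c2E (m + q) q |c| * Real.exp (-(q * (1 - |k|))) := by
    unfold c2E
    rw [hsq, mul_pow, Nat.add_sub_cancel, show m + q + q = m + 2 * q by ring, pow_add (1 + |c|)]
    calc c2X (m + q) q * ((1 - |c|) ^ m * (1 + |c|) ^ m * (|c| + |k|) ^ (2 * q))
        ≤ c2X (m + q) q * ((1 - |c|) ^ m * (1 + |c|) ^ m *
          ((1 + |c|) ^ (2 * q) * Real.exp (-(q * (1 - |k|))))) := by gcongr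
      _ = _ := by ring
  have h4 := c2E_up m q hm |c| hc0 hc
  refine h3.trans ((mul_le_mul_of_nonneg_right h4 (Real.exp_pos _).le).trans ?_)
  rw [← Real.exp_add, Real.exp_le_exp]
  have h5 : 0 ≤ ((m : ℝ) + q) * (((q : ℝ) / (m + q) - |c|) ^ 2 / 4) := by (clear * - hm; positivity)
  have h6 : 0 ≤ (q : ℝ) * (1 - |k|) := mul_nonneg hq' (by linarith only [hk])
  rcases h with h | h
  · have := mul_le_mul_of_nonneg_left h hl0.le
    linarith only [h6, this]
  · have := mul_le_mul_of_nonneg_left h hl0.le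
    have e : ((m : ℝ) + q) * ((q : ℝ) / (m + q) * (1 - |k|)) = q * (1 - |k|) := by field_simp
    rw [e] at this
    linarith only [h5, this]

theorem hopA_form (m q : ℕ) (γ α β : ℝ) :
    hopA (m + q + 1) q γ α β = c2Ch (m + q) q *
      ((Real.sin ((α - β) / 2) ^ 2) ^ m *
        ((Real.cos ((α - β) / 2) - Real.cos ((α + β) / 2 - γ)) ^ (2 * q) +
          (Real.cos ((α - β) / 2) + Real.cos ((α + β) / 2 - γ)) ^ (2 * q)) +
      (Real.cos ((α - β) / 2) ^ 2) ^ m *
        ((Real.sin ((α + β) / 2 - γ) - Real.sin ((α - β) / 2)) ^ (2 * q) +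
          (Real.sin ((α + β) / 2 - γ) + Real.sin ((α - β) / 2)) ^ (2 * q))) := by
  rw [hopA_closed (m + q + 1) q (by omega), Nat.add_sub_cancel, c2_T_sum,
    ← c2_const (m + q) q (by omega), Nat.add_sub_cancel, mul_pow, mul_pow]
  ring

theorem c2_even_pow_le {a b : ℝ} (q : ℕ) :
    (a - b) ^ (2 * q) + (a + b) ^ (2 * q) ≤ 2 * (|a| + |b|) ^ (2 * q) := by
  have h : ∀ t : ℝ, |t| ≤ |a| + |b| → t ^ (2 * q) ≤ (|a| + |b|) ^ (2 * q) := by
    intro t ht
    rw [pow_mul, ← sq_abs t, ← pow_mul]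
    exact pow_le_pow_left₀ (abs_nonneg _) ht _
  have h1 := h (a - b) (abs_sub _ _)
  have h2 := h (a + b) (abs_add_le _ _)
  linarith

/-- lower bound for the hopping amplitude of a matched device -/
theorem hopA_lower (n q : ℕ) (hn : 2 ≤ n) (δ : ℝ) (hδ0 : 0 < δ) (hδ1 : δ < Real.pi / 2)
    (hq1 : 1 ≤ q) (hq2 : q ≤ n - 2)
    (hq : |(q : ℝ) - ((n : ℝ) - 1) * Real.cos δ| ≤ 1)
    (hlarge : 64 ≤ ((n : ℝ) - 1) * Real.cos δ ^ 2 * Real.sin δ ^ 2) (γ : ℝ) :
    1 / (64 * (n : ℝ) ^ 4) ≤ hopA n q γ (γ + δ) (γ - δ) := by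
  obtain ⟨m, rfl⟩ : ∃ m, n = m + q + 1 := ⟨n - 1 - q, by omega⟩
  have hm : 1 ≤ m := by omega
  have hm' : (1 : ℝ) ≤ m := by exact_mod_cast hm
  have hq' : (1 : ℝ) ≤ q := by exact_mod_cast hq1
  rw [hopA_form, show (γ + δ - (γ - δ)) / 2 = δ by ring,
    show (γ + δ + (γ - δ)) / 2 - γ = 0 by ring, Real.cos_zero, Real.sin_zero]
  have hc0 : 0 < Real.cos δ := Real.cos_pos_of_mem_Ioo ⟨by linarith only [hδ0, Real.pi_pos], hδ1⟩
  have hs0 : 0 < Real.sin δ := Real.sin_pos_of_pos_of_lt_pi hδ0 (by linarith only [hδ1, Real.pi_pos])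
  have hsc := Real.sin_sq_add_cos_sq δ
  have hc1 : Real.cos δ < 1 := by nlinarith only [hsc, hs0]
  have hsq : 1 - Real.cos δ ^ 2 = Real.sin δ ^ 2 := by linarith only [hsc]
  push_cast at hq hlarge ⊢
  rw [show (m : ℝ) + q + 1 - 1 = m + q by ring] at hq hlarge
  have hl : 64 ≤ ((m : ℝ) + q) * (1 - Real.cos δ ^ 2) := by
    rw [hsq]
    refine hlarge.trans ?_
    have h1 : Real.cos δ ^ 2 ≤ 1 := by linarith only [hsc, sq_nonneg (Real.sin δ)]
    have h2 : 0 ≤ ((m : ℝ) + q) * Real.sin δ ^ 2 := by positivity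
    exact le_of_not_gt fun hng => by linarith only [Mathlib.Tactic.Linarith.mul_zero_eq (Mathlib.Tactic.Linarith.sub_nonpos_of_le hlarge) (sub_eq_zero_of_eq hsc), mul_pos_of_neg_of_neg (Mathlib.Tactic.Linarith.sub_neg_of_lt hc1) (Mathlib.Tactic.Linarith.sub_neg_of_lt hc0), mul_pos_of_neg_of_neg (Mathlib.Tactic.Linarith.sub_neg_of_lt hc1) (Mathlib.Tactic.Linarith.sub_neg_of_lt hc1), mul_nonneg_of_nonpos_of_nonpos (Mathlib.Tactic.Linarith.sub_nonpos_of_le (sq_nonneg (Real.cos δ))) (le_of_lt (Mathlib.Tactic.Linarith.sub_neg_of_lt hng)), mul_nonneg_of_nonpos_of_nonpos (Mathlib.Tactic.Linarith.sub_nonpos_of_le (sq_nonneg (Real.sin δ))) (Mathlib.Tactic.Linarith.sub_nonpos_of_le hlarge)]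
  have hE := c2E_low m q hm (Real.cos δ) hc0.le hc1 hq hl
  obtain ⟨hCh, -⟩ := c2Ch_bounds m q hm hq1
  have hX := c2X_pos m q hm
  have hCh0 : 0 < c2Ch (m + q) q := lt_of_lt_of_le (by positivity) hCh
  have hEf : c2E (m + q) q (Real.cos δ) =
      c2X (m + q) q * ((Real.sin δ ^ 2) ^ m * (1 + Real.cos δ) ^ (2 * q)) := by
    unfold c2E
    rw [← hsq, show 1 - Real.cos δ ^ 2 = (1 - Real.cos δ) * (1 + Real.cos δ) by ring, mul_pow,
      Nat.add_sub_cancel, show m + q + q = m + 2 * q by ring, pow_add (1 + Real.cos δ)]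
    ring
  rw [hEf] at hE
  have h1 : 0 ≤ (Real.cos δ - 1) ^ (2 * q) := by rw [pow_mul]; (clear * -; positivity)
  have h2 : 0 ≤ (0 - Real.sin δ) ^ (2 * q) := by rw [pow_mul]; (clear * -; positivity)
  have h3 : 0 ≤ (0 + Real.sin δ) ^ (2 * q) := by positivity
  have h4 : (Real.sin δ ^ 2) ^ m * (1 + Real.cos δ) ^ (2 * q) ≤
      (Real.sin δ ^ 2) ^ m * ((Real.cos δ - 1) ^ (2 * q) + (Real.cos δ + 1) ^ (2 * q)) +
      (Real.cos δ ^ 2) ^ m * ((0 - Real.sin δ) ^ (2 * q) + (0 + Real.sin δ) ^ (2 * q)) := by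
    rw [add_comm 1 (Real.cos δ)]
    have h5 : 0 ≤ (Real.sin δ ^ 2) ^ m := by positivity
    have h6 : 0 ≤ (Real.cos δ ^ 2) ^ m := by positivity
    have h7 := mul_nonneg h5 h1
    have h8 := mul_nonneg h6 (add_nonneg h2 h3)
    linarith only [h7, h8]
  refine le_trans ?_ (mul_le_mul_of_nonneg_left h4 hCh0.le)
  calc 1 / (64 * ((m : ℝ) + q + 1) ^ 4) ≤ 1 / (16 * q) * (1 / 2) := by
        rw [one_div_mul_one_div, div_le_div_iff₀ (by positivity) (by positivity)]
        have h9 : (q : ℝ) ≤ (m + q + 1) ^ 4 := by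
          have h10 : (1 : ℝ) ≤ m + q + 1 := by linarith only []
          calc (q : ℝ) ≤ m + q + 1 := by linarith only []
            _ = (m + q + 1) ^ 1 := (pow_one _).symm
            _ ≤ (m + q + 1) ^ 4 := pow_le_pow_right₀ h10 (by norm_num)
        linarith only [h9]
    _ ≤ 1 / (16 * q) * (c2X (m + q) q * ((Real.sin δ ^ 2) ^ m *
        (1 + Real.cos δ) ^ (2 * q))) := by gcongr
    _ = c2X (m + q) q / (16 * q) * ((Real.sin δ ^ 2) ^ m * (1 + Real.cos δ) ^ (2 * q)) := by ring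
    _ ≤ c2Ch (m + q) q * ((Real.sin δ ^ 2) ^ m * (1 + Real.cos δ) ^ (2 * q)) := by gcongr

/-- selectivity -/
theorem hopA_upper (n q : ℕ) (hn : 2 ≤ n) (hq1 : 1 ≤ q) (hq2 : q ≤ n - 2) (γ α β η : ℝ)
    (hη : 0 ≤ η)
    (h1 : η ≤ ((q : ℝ) / ((n : ℝ) - 1) - |Real.cos ((α - β) / 2)|) ^ 2 / 4 ∨
      η ≤ (q : ℝ) / ((n : ℝ) - 1) * (1 - |Real.cos ((α + β) / 2 - γ)|))
    (h2 : η ≤ ((q : ℝ) / ((n : ℝ) - 1) - |Real.sin ((α - β) / 2)|) ^ 2 / 4 ∨
      η ≤ (q : ℝ) / ((n : ℝ) - 1) * (1 - |Real.sin ((α + β) / 2 - γ)|)) :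
    hopA n q γ α β ≤ 8 * Real.exp (-(((n : ℝ) - 1) * η)) := by
  obtain ⟨m, rfl⟩ : ∃ m, n = m + q + 1 := ⟨n - 1 - q, by omega⟩
  have hm : 1 ≤ m := by omega
  rw [hopA_form]
  have e0 : ((m + q + 1 : ℕ) : ℝ) - 1 = m + q := by push_cast; ring
  rw [e0] at h1 h2 ⊢
  set P := (α - β) / 2
  set M := (α + β) / 2 - γ
  obtain ⟨-, hCh⟩ := c2Ch_bounds m q hm hq1
  have hX := c2X_pos m q hm
  have t1 := c2_term_up m q hm (Real.cos P) (Real.cos M) η (Real.abs_cos_le_one _)
    (Real.abs_cos_le_one _) h1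
  have t2 := c2_term_up m q hm (Real.sin P) (Real.sin M) η (Real.abs_sin_le_one _)
    (Real.abs_sin_le_one _) h2
  have hsc := Real.sin_sq_add_cos_sq P
  rw [show 1 - Real.cos P ^ 2 = Real.sin P ^ 2 by linarith only [hsc]] at t1
  rw [show 1 - Real.sin P ^ 2 = Real.cos P ^ 2 by linarith only [hsc]] at t2
  have u1 := c2_even_pow_le (a := Real.cos P) (b := Real.cos M) q
  have u2 := c2_even_pow_le (a := Real.sin M) (b := Real.sin P) q
  rw [add_comm |Real.sin M|] at u2
  have v1 : 0 ≤ (Real.sin P ^ 2) ^ m := by (clear * -; positivity)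
  have v2 : 0 ≤ (Real.cos P ^ 2) ^ m := by (clear * -; positivity)
  have w1 := mul_le_mul_of_nonneg_left u1 v1
  have w2 := mul_le_mul_of_nonneg_left u2 v2
  have w0 : 0 ≤ (Real.sin P ^ 2) ^ m * ((Real.cos P - Real.cos M) ^ (2 * q) +
      (Real.cos P + Real.cos M) ^ (2 * q)) + (Real.cos P ^ 2) ^ m *
      ((Real.sin M - Real.sin P) ^ (2 * q) + (Real.sin M + Real.sin P) ^ (2 * q)) := by
    simp only [pow_mul _ 2 q]
    (clear * -; positivity)
  calc _ ≤ c2X (m + q) q * ((Real.sin P ^ 2) ^ m * ((Real.cos P - Real.cos M) ^ (2 * q) +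
      (Real.cos P + Real.cos M) ^ (2 * q)) + (Real.cos P ^ 2) ^ m *
      ((Real.sin M - Real.sin P) ^ (2 * q) + (Real.sin M + Real.sin P) ^ (2 * q))) :=
        mul_le_mul_of_nonneg_right hCh w0
    _ ≤ c2X (m + q) q * ((Real.sin P ^ 2) ^ m * (2 * (|Real.cos P| + |Real.cos M|) ^ (2 * q)) +
        (Real.cos P ^ 2) ^ m * (2 * (|Real.sin P| + |Real.sin M|) ^ (2 * q))) :=
        mul_le_mul_of_nonneg_left (add_le_add w1 w2) hX.le
    _ = 2 * (c2X (m + q) q * ((Real.sin P ^ 2) ^ m * (|Real.cos P| + |Real.cos M|) ^ (2 * q))) +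
        2 * (c2X (m + q) q * ((Real.cos P ^ 2) ^ m * (|Real.sin P| + |Real.sin M|) ^ (2 * q))) := by
        ring
    _ ≤ 8 * Real.exp (-(((m : ℝ) + q) * η)) := by
        have := Real.exp_pos (-(((m : ℝ) + q) * η))
        linarith only [t1, t2, this]

end Vale.Agent.P370.Q
end
end

section

section

/-!
The occupation number inequality for test states.
-/

namespace Vale.Agent.P370.NB

open MeasureTheory Function ComplexConjugate Finset Vale.Agent.P370.Q

variable {N : ℕ} {n : ℕ} {A : Type} [Fintype A] [DecidableEq A] (B : ShellBasis n A)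
  {κ : ℝ} (hκ : 0 < κ) (hB : ∀ a, ∃ C : ℝ, 0 ≤ C ∧ ∀ x, |B.χ a x| ≤ C * Real.exp (-κ * ‖x‖))

theorem wsp_μ : (wsp κ hκ).μ = μY := rfl

include B in
theorem SB_nonempty (hn : 1 ≤ n) : Nonempty A := by
  have h := B.card 1 le_rfl hn
  rw [one_pow] at h
  obtain ⟨a, ha⟩ := Finset.card_eq_one.1 h
  exact ⟨a⟩

/-- amplitude of an orbital in a slice -/
theorem amp_eq {ψ : Wave N} (hψ : IsTestState ψ) (i : Fin N) (w : Fin N → YS) (b : A × Fin 2) :
    ∫ y, (so B.χ b y : ℂ) * toY ψ (update w i y) ∂μY =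
      ∫ z, (B.χ b.1 z : ℂ) * sl ψ (fun l => (w l).1) (update (fun l => (w l).2) i b.2) i z := by
  obtain ⟨κ, hκ, hB⟩ := SB_exists_kappa B
  have h1 : Integrable (fun y => (so B.χ b y : ℂ) * toY ψ (update w i y)) μY :=
    (toY_dm hψ hκ).slice_integrable i ((SBFam B hκ hB).orb b) w
  rw [integral_Y h1, Finset.sum_eq_single b.2]
  · refine integral_congr_ae (Filter.Eventually.of_forall fun z => ?_)
    simp only [toY_update]
    unfold so
    rw [if_pos rfl]
  · intro τ _ hτ
    have : ∀ z, (so B.χ b (z, τ) : ℂ) * toY ψ (update w i (z, τ)) = 0 := by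
      intro z
      unfold so
      rw [if_neg hτ]
      simp
    simp only [this]
    simp
  · simp only [mem_univ, not_true_eq_false, IsEmpty.forall_iff]

/-- energies of the orbitals -/
noncomputable def eb (b : A × Fin 2) : ℝ := -(1 / (2 * (B.lev b.1 : ℝ) ^ 2))

noncomputable def eo (n : ℕ) : ℝ := -(1 / (2 * ((n : ℝ) + 1) ^ 2))

include hB in
theorem slot_ineq (hn : 1 ≤ n) {ψ : Wave N} (hψ : IsTestState ψ) (i : Fin N) :
    eo n * (∫ w, ‖toY ψ w‖ ^ 2 ∂(pm (Fin N) μY)) -
      ∑ b, (eo n - eb B b) * ∫ w, ‖op (wsp κ hκ) i (so B.χ b) (so B.χ b) (toY ψ) w‖ ^ 2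
        ∂(pm (Fin N) μY) ≤
    ∫ w, ofS (hd ψ i) w ∂(pm (Fin N) μY) := by
  obtain ⟨a₀⟩ := SB_nonempty B hn
  have hdm := toY_dm hψ hκ
  have hop : ∀ b, Dm (wsp κ hκ) (op (wsp κ hκ) i (so B.χ b) (so B.χ b) (toY ψ)) := fun b =>
    hdm.op i ((SBFam B hκ hB).orb b) ((SBFam B hκ hB).orb b)
  have i1 : Integrable (fun w => ‖toY ψ w‖ ^ 2) (pm (Fin N) μY) := hdm.norm_sq_integrable
  have i2 : ∀ b, Integrable (fun w => ‖op (wsp κ hκ) i (so B.χ b) (so B.χ b) (toY ψ) w‖ ^ 2)
    (pm (Fin N) μY) := fun b => (hop b).norm_sq_integrable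
  have e1 : eo n * (∫ w, ‖toY ψ w‖ ^ 2 ∂(pm (Fin N) μY)) -
      ∑ b, (eo n - eb B b) * ∫ w, ‖op (wsp κ hκ) i (so B.χ b) (so B.χ b) (toY ψ) w‖ ^ 2
        ∂(pm (Fin N) μY) = ∫ w, (eo n * ‖toY ψ w‖ ^ 2 - ∑ b, (eo n - eb B b) *
        ‖op (wsp κ hκ) i (so B.χ b) (so B.χ b) (toY ψ) w‖ ^ 2) ∂(pm (Fin N) μY) := by
    rw [integral_sub (i1.const_mul _) (integrable_finsetSum _ fun b _ => (i2 b).const_mul _),
      integral_const_mul, integral_finsetSum _ fun b _ => (i2 b).const_mul _]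
    simp only [integral_const_mul]
  rw [e1]
  have hθ := (SBFam B hκ hB).orb (a₀, 0)
  refine integral_le_of_slices μY i (h := fun y => so B.χ (a₀, 0) y * so B.χ (a₀, 0) y)
    ((i1.const_mul _).sub (integrable_finsetSum _ fun b _ => (i2 b).const_mul _))
    (ofS_hd_integrable hψ i) (hθ.mul hθ).integrable (fun y => mul_self_nonneg _)
    (((SBFam B hκ hB).ortho (a₀, 0) (a₀, 0)).trans (if_pos rfl)) ?_
  intro w
  obtain ⟨h1, h2⟩ := integral_sq_slice hψ i w
  have h3 : ∀ b, ∀ y, ‖op (wsp κ hκ) i (so B.χ b) (so B.χ b) (toY ψ) (update w i y)‖ ^ 2 =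
      (so B.χ b y * so B.χ b y) * ‖∫ z, (B.χ b.1 z : ℂ) *
        sl ψ (fun l => (w l).1) (update (fun l => (w l).2) i b.2) i z‖ ^ 2 := by
    intro b y
    rw [op_update, wsp_μ, amp_eq B hψ i w b, norm_mul, mul_pow, Complex.norm_real,
      Real.norm_eq_abs, sq_abs, sq (so B.χ b y)]
  have h4 : ∀ b, Integrable (fun y => so B.χ b y * so B.χ b y) μY := fun b =>
    (((SBFam B hκ hB).orb b).mul ((SBFam B hκ hB).orb b)).integrable
  have h5 : ∀ b, ∫ y, so B.χ b y * so B.χ b y ∂μY = 1 := fun b =>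
    ((SBFam B hκ hB).ortho b b).trans (if_pos rfl)
  simp only [h3]
  rw [integral_sub (h1.const_mul _) (integrable_finsetSum _ fun b _ =>
    ((h4 b).mul_const _).const_mul _), integral_const_mul,
    integral_finsetSum _ fun b _ => ((h4 b).mul_const _).const_mul _]
  simp only [integral_const_mul, integral_mul_const, h5, one_mul]
  rw [h2, integral_hd_slice hψ, Fintype.sum_prod_type_right, Finset.mul_sum,
    ← Finset.sum_sub_distrib]
  refine Finset.sum_le_sum fun τ _ => ?_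
  have h6 := hydrogen_ineq hn B (sl ψ (fun l => (w l).1) (update (fun l => (w l).2) i τ) i)
    (sl_smooth hψ _ _ _) (sl_compact hψ _ _ _)
  refine le_trans (le_of_eq ?_) h6
  unfold eo eb
  rw [sub_eq_add_neg, ← Finset.sum_neg_distrib]
  congr 1
  refine Finset.sum_congr rfl fun a _ => ?_
  ring

/-- unperturbed energy -/
noncomputable def H0 (ψ : Wave N) : ℝ := ∑ i, ∫ w, ofS (hd ψ i) w ∂(pm (Fin N) μY)

include hB in
theorem H0_ge (hn : 1 ≤ n) (Cl : Finset (A × Fin 2)) (K : ℕ) (hN : N = Cl.card + K)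
    (hcl : ∀ b ∈ Cl, B.lev b.1 < n) (hop : ∀ b ∉ Cl, B.lev b.1 = n)
    {ψ : Wave N} (hψ : IsTestState ψ) :
    (∑ b ∈ Cl, eb B b + K * (-(1 / (2 * (n : ℝ) ^ 2)))) * normSq ψ +
      (1 / (2 * (n : ℝ) ^ 2) - 1 / (2 * ((n : ℝ) + 1) ^ 2)) *
        (normSq ψ - ∑ I ∈ PreSlots.good (N := N) Cl, ‖(SBFam B hκ hB).coef I (toY ψ)‖ ^ 2) ≤
    H0 ψ := by
  have hn0 : (0 : ℝ) < n := by exact_mod_cast hn
  have hg : 0 ≤ 1 / (2 * (n : ℝ) ^ 2) - 1 / (2 * ((n : ℝ) + 1) ^ 2) := by
    rw [sub_nonneg]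
    apply one_div_le_one_div_of_le (by (clear * - hn; positivity))
    gcongr
    linarith only []
  have h := (SBFam B hκ hB).energy_ge Cl K hN (eb B) (-(1 / (2 * (n : ℝ) ^ 2))) (eo n)
    (1 / (2 * (n : ℝ) ^ 2) - 1 / (2 * ((n : ℝ) + 1) ^ 2)) hg ?_ ?_ ?_ (toY ψ) (toY_dm hψ hκ)
    (toY_anti hψ)
  · rw [← toY_norm_sq hψ]
    refine h.trans ?_
    unfold H0
    exact Finset.sum_le_sum fun i _ => slot_ineq B hκ hB hn hψ i
  · intro b hb
    have h1 := hcl b hb
    have h2 := B.lev_pos b.1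
    unfold eb
    obtain ⟨k, hk⟩ : ∃ k : ℕ, k = B.lev b.1 := ⟨_, rfl⟩
    rw [← hk] at h1 h2 ⊢
    have hk0 : (0 : ℝ) < k := by exact_mod_cast h2
    have hkn : (k : ℝ) + 1 ≤ n := by exact_mod_cast h1
    -- `1/k² ≥ 2/n² - 1/(n+1)²`
    have h3 : 1 / (2 * ((n : ℝ) - 1) ^ 2) ≤ 1 / (2 * (k : ℝ) ^ 2) := by
      apply one_div_le_one_div_of_le (by (clear * - h2; positivity))
      have : (k : ℝ) ≤ n - 1 := by linarith only [hkn]
      (clear * - h2 this; gcongr)
    have hn1 : (0 : ℝ) < (n : ℝ) - 1 := by linarith only [hk0, hkn]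
    have h4 : 1 / (2 * (n : ℝ) ^ 2) + (1 / (2 * (n : ℝ) ^ 2) - 1 / (2 * ((n : ℝ) + 1) ^ 2)) ≤
        1 / (2 * ((n : ℝ) - 1) ^ 2) := by
      have h5 : 1 / (2 * ((n : ℝ) - 1) ^ 2) - (1 / (2 * (n : ℝ) ^ 2) + (1 / (2 * (n : ℝ) ^ 2) -
          1 / (2 * ((n : ℝ) + 1) ^ 2))) = (3 * (n : ℝ) ^ 2 - 1) /
          ((n : ℝ) ^ 2 * ((n : ℝ) - 1) ^ 2 * ((n : ℝ) + 1) ^ 2) := by
        field_simp
        ring
      have h6 : 0 ≤ (3 * (n : ℝ) ^ 2 - 1) /
          ((n : ℝ) ^ 2 * ((n : ℝ) - 1) ^ 2 * ((n : ℝ) + 1) ^ 2) := by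
        apply div_nonneg _ (by (clear * - hn hn1; positivity))
        linarith only [mul_nonneg_of_nonpos_of_nonpos (Mathlib.Tactic.Linarith.sub_nonpos_of_le (Mathlib.Tactic.Linarith.natCast_nonneg ℝ n)) (Mathlib.Tactic.Linarith.sub_nonpos_of_le hkn), mul_nonneg_of_nonpos_of_nonpos (Mathlib.Tactic.Linarith.sub_nonpos_of_le (Mathlib.Tactic.Linarith.natCast_nonneg ℝ k)) (Mathlib.Tactic.Linarith.sub_nonpos_of_le (Mathlib.Tactic.Linarith.natCast_nonneg ℝ n)), hkn, Mathlib.Tactic.Linarith.natCast_nonneg ℝ k]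
      linarith only [h5, h6]
    linarith only [h3, h4]
  · intro b hb
    have h1 := hop b hb
    unfold eb
    rw [h1]
  · unfold eo
    linarith only []

end Vale.Agent.P370.NB
end
end

section

section

/-!
Singular parts of Coulomb potentials, one-body estimates.
-/

namespace Vale.Agent.P370.NB

open MeasureTheory Function ComplexConjugate Finset Vale.Agent.P370.Q

/-- singular part of `1 / t` -/
noncomputable def sr (r t : ℝ) : ℝ := max (1 / t - 1 / r) 0

theorem sr_nonneg (r t : ℝ) : 0 ≤ sr r t := le_max_right _ _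

theorem sr_le_inv {r t : ℝ} (hr : 0 < r) (ht : 0 ≤ t) : sr r t ≤ 1 / t := by
  unfold sr
  apply max_le
  · have : 0 < 1 / r := by (clear * - hr; positivity)
    linarith only [this]
  · (clear * - ht; positivity)

theorem sr_le_sq {r t : ℝ} (hr : 0 < r) (ht : 0 ≤ t) : sr r t ≤ r / 4 * (1 / t ^ 2) := by
  unfold sr
  apply max_le
  · rcases ht.eq_or_lt with h | h
    · rw [← h]
      norm_num
      exact hr.le
    · have h1 : 0 ≤ (r - 2 * t) ^ 2 / (4 * t ^ 2 * r) := by (clear * - h hr; positivity)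
      have h2 : (r - 2 * t) ^ 2 / (4 * t ^ 2 * r) = r / 4 * (1 / t ^ 2) - (1 / t - 1 / r) := by
        field_simp
        ring
      linarith only [h1, h2]
  · (clear * - hr; positivity)

theorem sr_eq {r t : ℝ} (hr : 0 < r) (ht : 0 ≤ t) :
    0 ≤ 1 / t - sr r t ∧ 1 / t - sr r t ≤ 1 / r := by
  unfold sr
  constructor
  · have := sr_le_inv hr ht
    unfold sr at this
    (clear * - this; linarith)
  · have := le_max_left (1 / t - 1 / r) 0
    linarith only [this]

theorem sr_measurable (r : ℝ) : Measurable (sr r) := by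
  unfold sr
  exact ((measurable_id.const_div 1).sub_const _).max measurable_const

/-- singular part of a Coulomb potential, real one-body functions -/
theorem sr_nice {u : R3 → ℝ} (hu : Nice u) (y : R3) {r : ℝ} (hr : 0 < r) :
    Integrable (fun x => u x ^ 2 * sr r (dist x y)) ∧
    ∫ x, u x ^ 2 * sr r (dist x y) ≤ 4 * r * ((1 / 2) * dir u u - rinv u u + ov u u) := by
  obtain ⟨h1, h2⟩ := hardy_nice hu y
  have hb : ∀ x, u x ^ 2 * sr r (dist x y) ≤ r / 4 * (u x ^ 2 / dist x y ^ 2) := by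
    intro x
    have := mul_le_mul_of_nonneg_left (sr_le_sq hr (dist_nonneg (x := x) (y := y)))
      (sq_nonneg (u x))
    calc _ ≤ _ := this
      _ = _ := by ring
  have hm : Measurable (fun x => u x ^ 2 * sr r (dist x y)) :=
    (hu.cont.measurable.pow_const 2).mul ((sr_measurable r).comp (bd_dist_meas y))
  have hi : Integrable (fun x => u x ^ 2 * sr r (dist x y)) := by
    refine (h1.const_mul (r / 4)).mono' hm.aestronglyMeasurable
      (Filter.Eventually.of_forall fun x => ?_)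
    rw [Real.norm_eq_abs, abs_of_nonneg (mul_nonneg (sq_nonneg _) (sr_nonneg _ _))]
    exact hb x
  refine ⟨hi, ?_⟩
  have h3 : ∫ x, u x ^ 2 * sr r (dist x y) ≤ ∫ x, r / 4 * (u x ^ 2 / dist x y ^ 2) :=
    integral_mono hi (h1.const_mul _) hb
  rw [integral_const_mul] at h3
  have h4 := bd_ground hu 2
  have h5 : r / 4 * ∫ x, u x ^ 2 / dist x y ^ 2 ≤ r / 4 * (4 * dir u u) :=
    mul_le_mul_of_nonneg_left h2 (by (clear * - hr; positivity))
  have h6 : r * (4 * rinv u u) ≤ r * (dir u u + 4 * ov u u) := by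
    apply mul_le_mul_of_nonneg_left _ hr.le
    linarith only [h4]
  linarith only [h3, h5, h6]

/-- real and imaginary parts of a test function -/
theorem re_im_nice {u : R3 → ℂ} (hu : ContDiff ℝ (⊤ : ℕ∞) u) (hc : HasCompactSupport u) :
    Nice (fun x => (u x).re) ∧ Nice (fun x => (u x).im) := by
  constructor
  · refine nice_test (Complex.reCLM.contDiff.comp hu) ?_
    exact hc.comp_left (g := Complex.re) rfl
  · refine nice_test (Complex.imCLM.contDiff.comp hu) ?_
    exact hc.comp_left (g := Complex.im) rfl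

theorem norm_sq_re_im (z : ℂ) : ‖z‖ ^ 2 = z.re ^ 2 + z.im ^ 2 := by
  rw [← Complex.normSq_eq_norm_sq, Complex.normSq_apply]
  ring

theorem fderiv_re_im {u : R3 → ℂ} (hu : ContDiff ℝ (⊤ : ℕ∞) u) (x : R3) (k : Fin 3) :
    ‖fderiv ℝ u x (EuclideanSpace.single k 1)‖ ^ 2 =
      pd k (fun x => (u x).re) x * pd k (fun x => (u x).re) x +
      pd k (fun x => (u x).im) x * pd k (fun x => (u x).im) x := by
  have hd : HasFDerivAt u (fderiv ℝ u x) x := (hu.differentiable (by simp only [ne_eq, WithTop.coe_eq_zero, ENat.top_ne_zero, not_false_eq_true]) x).hasFDerivAt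
  have h1 : HasFDerivAt (fun x => (u x).re) (Complex.reCLM.comp (fderiv ℝ u x)) x :=
    Complex.reCLM.hasFDerivAt.comp x hd
  have h2 : HasFDerivAt (fun x => (u x).im) (Complex.imCLM.comp (fderiv ℝ u x)) x :=
    Complex.imCLM.hasFDerivAt.comp x hd
  unfold pd
  rw [h1.fderiv, h2.fderiv, norm_sq_re_im]
  simp only [ContinuousLinearMap.comp_apply, Complex.reCLM_apply, Complex.imCLM_apply]
  ring

/-- singular part of a Coulomb potential, complex test functions -/
theorem sr_test {u : R3 → ℂ} (hu : ContDiff ℝ (⊤ : ℕ∞) u) (hc : HasCompactSupport u) (y : R3)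
    {r : ℝ} (hr : 0 < r) :
    Integrable (fun x => ‖u x‖ ^ 2 * sr r (dist x y)) ∧
    ∫ x, ‖u x‖ ^ 2 * sr r (dist x y) ≤ 4 * r *
      ((1 / 2) * (∫ x, ∑ k, ‖fderiv ℝ u x (EuclideanSpace.single k 1)‖ ^ 2) -
        (∫ x, ‖u x‖ ^ 2 / ‖x‖) + ∫ x, ‖u x‖ ^ 2) := by
  obtain ⟨hr1, hi1⟩ := re_im_nice hu hc
  obtain ⟨a1, a2⟩ := sr_nice hr1 y hr
  obtain ⟨b1, b2⟩ := sr_nice hi1 y hr
  have e1 : ∀ x, ‖u x‖ ^ 2 * sr r (dist x y) =
      (u x).re ^ 2 * sr r (dist x y) + (u x).im ^ 2 * sr r (dist x y) := by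
    intro x
    rw [norm_sq_re_im]
    ring
  have e2 : ∫ x, ∑ k, ‖fderiv ℝ u x (EuclideanSpace.single k 1)‖ ^ 2 =
      dir (fun x => (u x).re) (fun x => (u x).re) + dir (fun x => (u x).im) (fun x => (u x).im) := by
    unfold dir
    rw [← integral_add]
    · refine integral_congr_ae (Filter.Eventually.of_forall fun x => ?_)
      simp only
      rw [← Finset.sum_add_distrib]
      exact Finset.sum_congr rfl fun k _ => fderiv_re_im hu x k
    · exact integrable_finsetSum _ fun k _ => nice_integrable_dir hr1 hr1 k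
    · exact integrable_finsetSum _ fun k _ => nice_integrable_dir hi1 hi1 k
  have e3 : ∫ x, ‖u x‖ ^ 2 / ‖x‖ =
      rinv (fun x => (u x).re) (fun x => (u x).re) +
        rinv (fun x => (u x).im) (fun x => (u x).im) := by
    unfold rinv
    rw [← integral_add (nice_integrable_rinv hr1 hr1).1 (nice_integrable_rinv hi1 hi1).1]
    refine integral_congr_ae (Filter.Eventually.of_forall fun x => ?_)
    simp only
    rw [norm_sq_re_im]
    ring
  have e4 : ∫ x, ‖u x‖ ^ 2 =
      ov (fun x => (u x).re) (fun x => (u x).re) +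
        ov (fun x => (u x).im) (fun x => (u x).im) := by
    unfold ov
    rw [← integral_add (nice_integrable_rinv hr1 hr1).2 (nice_integrable_rinv hi1 hi1).2]
    refine integral_congr_ae (Filter.Eventually.of_forall fun x => ?_)
    simp only
    rw [norm_sq_re_im]
    ring
  simp only [e1]
  refine ⟨a1.add b1, ?_⟩
  rw [integral_add a1 b1, e2, e3, e4]
  linarith only [a2, b2]

section shell

variable {n : ℕ} {A : Type} [Fintype A] [DecidableEq A] (B : ShellBasis n A)

/-- bilinearity of the energy form -/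
theorem form_sum_le (c : A → ℝ) :
    (1 / 2) * dir (fun x => ∑ a, c a * B.χ a x) (fun x => ∑ a, c a * B.χ a x) -
      rinv (fun x => ∑ a, c a * B.χ a x) (fun x => ∑ a, c a * B.χ a x) ≤ 0 := by
  have hN : ∀ a, Nice (B.χ a) := fun a => bd_shell_nice (B.lev_pos a) (B.mem a)
  have hS : Nice (fun x => ∑ a, c a * B.χ a x) := bd_nice_sum _ c hN
  have e1 : dir (fun x => ∑ a, c a * B.χ a x) (fun x => ∑ a, c a * B.χ a x) =
      ∑ a, c a * dir (B.χ a) (fun x => ∑ a, c a * B.χ a x) := by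
    unfold dir
    have hi : ∀ a, Integrable (fun x => ∑ k, pd k (B.χ a) x *
        pd k (fun x => ∑ a, c a * B.χ a x) x) := fun a =>
      integrable_finsetSum _ fun k _ => nice_integrable_dir (hN a) hS k
    simp only [← integral_const_mul]
    rw [← integral_finsetSum _ fun a _ => (hi a).const_mul _]
    refine integral_congr_ae ?_
    filter_upwards [bd_ae_ne 0] with x hx
    simp only [Finset.mul_sum]
    rw [Finset.sum_comm]
    refine Finset.sum_congr rfl fun k _ => ?_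
    conv_lhs => rw [bd_pd_sum univ c hN k hx]
    rw [bd_pd_sum univ c hN k hx, Finset.sum_mul]
    refine Finset.sum_congr rfl fun a _ => ?_
    ring
  have e2 : rinv (fun x => ∑ a, c a * B.χ a x) (fun x => ∑ a, c a * B.χ a x) =
      ∑ a, c a * rinv (B.χ a) (fun x => ∑ a, c a * B.χ a x) := by
    unfold rinv
    have hi : ∀ a, Integrable (fun x => B.χ a x * (∑ a, c a * B.χ a x) / ‖x‖) := fun a =>
      (nice_integrable_rinv (hN a) hS).1
    simp only [← integral_const_mul]
    rw [← integral_finsetSum _ fun a _ => (hi a).const_mul _]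
    refine integral_congr_ae (Filter.Eventually.of_forall fun x => ?_)
    simp only
    rw [mul_div_assoc, Finset.sum_mul]
    refine Finset.sum_congr rfl fun a _ => ?_
    ring
  have e3 : ∀ a, ov (B.χ a) (fun x => ∑ a, c a * B.χ a x) = c a := by
    intro a
    rw [m1_ov_comm, m1_ov_sum_left univ c (fun i _ => hN i) (hN a)]
    rw [Finset.sum_eq_single a]
    · rw [B.ortho, if_pos rfl, mul_one]
    · intro b _ hb
      rw [B.ortho, if_neg hb, mul_zero]
    · simp only [mem_univ, not_true_eq_false, mul_eq_zero, IsEmpty.forall_iff]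
  rw [e1, e2, Finset.mul_sum, ← Finset.sum_sub_distrib]
  refine Finset.sum_nonpos fun a _ => ?_
  have h := shell_form (B.lev_pos a) (B.mem a) hS
  rw [e3] at h
  have h2 : 1 / 2 * (c a * dir (B.χ a) (fun x => ∑ a, c a * B.χ a x)) -
      c a * rinv (B.χ a) (fun x => ∑ a, c a * B.χ a x) =
      c a * (-(1 / (2 * (B.lev a : ℝ) ^ 2)) * c a) := by
    rw [← h]
    ring
  rw [h2]
  have h3 : 0 ≤ 1 / (2 * (B.lev a : ℝ) ^ 2) * (c a * c a) :=
    mul_nonneg (by (clear * -; positivity)) (mul_self_nonneg _)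
  linarith only [h3]

/-- singular part of a Coulomb potential, complex combinations of shell functions -/
theorem sr_shell (d : A → ℂ) (y : R3) {r : ℝ} (hr : 0 < r) :
    Integrable (fun x => ‖∑ a, d a * (B.χ a x : ℂ)‖ ^ 2 * sr r (dist x y)) ∧
    Integrable (fun x => ‖∑ a, d a * (B.χ a x : ℂ)‖ ^ 2) ∧
    ∫ x, ‖∑ a, d a * (B.χ a x : ℂ)‖ ^ 2 * sr r (dist x y) ≤
      4 * r * ∫ x, ‖∑ a, d a * (B.χ a x : ℂ)‖ ^ 2 := by
  have hN : ∀ a, Nice (B.χ a) := fun a => bd_shell_nice (B.lev_pos a) (B.mem a)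
  have h1 : Nice (fun x => ∑ a, (d a).re * B.χ a x) := bd_nice_sum _ _ hN
  have h2 : Nice (fun x => ∑ a, (d a).im * B.χ a x) := bd_nice_sum _ _ hN
  obtain ⟨a1, a2⟩ := sr_nice h1 y hr
  obtain ⟨b1, b2⟩ := sr_nice h2 y hr
  have a3 := form_sum_le B (fun a => (d a).re)
  have b3 := form_sum_le B (fun a => (d a).im)
  have e0 : ∀ x, ‖∑ a, d a * (B.χ a x : ℂ)‖ ^ 2 =
      (∑ a, (d a).re * B.χ a x) ^ 2 + (∑ a, (d a).im * B.χ a x) ^ 2 := by
    intro x
    rw [norm_sq_re_im, Complex.re_sum, Complex.im_sum]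
    simp only [Complex.re_mul_ofReal, Complex.im_mul_ofReal]
  have i1 := bd_sq_int h1
  have i2 := bd_sq_int h2
  simp only [e0, add_mul]
  refine ⟨a1.add b1, i1.add i2, ?_⟩
  rw [integral_add a1 b1, integral_add i1 i2, bd_ov_eq, bd_ov_eq]
  have h4 : 4 * r * ((1 / 2) * dir (fun x => ∑ a, (d a).re * B.χ a x)
      (fun x => ∑ a, (d a).re * B.χ a x) - rinv (fun x => ∑ a, (d a).re * B.χ a x)
      (fun x => ∑ a, (d a).re * B.χ a x)) ≤ 0 :=
    mul_nonpos_of_nonneg_of_nonpos (by (clear * - hr; positivity)) a3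
  have h5 : 4 * r * ((1 / 2) * dir (fun x => ∑ a, (d a).im * B.χ a x)
      (fun x => ∑ a, (d a).im * B.χ a x) - rinv (fun x => ∑ a, (d a).im * B.χ a x)
      (fun x => ∑ a, (d a).im * B.χ a x)) ≤ 0 :=
    mul_nonpos_of_nonneg_of_nonpos (by positivity) b3
  linarith only [a2, b2, h4, h5]

end shell

end Vale.Agent.P370.NB
end
end

section

section

/-!
Matrix elements between combinations of shell orbitals.
-/

namespace Vale.Agent.P370.NB

open MeasureTheory Function ComplexConjugate Finset Vale.Agent.P370.Q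

variable {N : ℕ} {n : ℕ} {A : Type} [Fintype A] [DecidableEq A] (B : ShellBasis n A)
  {κ : ℝ} (hκ : 0 < κ) (hB : ∀ a, ∃ C : ℝ, 0 ≤ C ∧ ∀ x, |B.χ a x| ≤ C * Real.exp (-κ * ‖x‖))

theorem so_meas (b : A × Fin 2) : Measurable (so B.χ b) :=
  so_measurable (fun a => (SB_nice B a).cont) b

theorem so_ortho (p q : A × Fin 2) :
    Integrable (fun y => so B.χ p y * so B.χ q y) μY ∧
    ∫ y, so B.χ p y * so B.χ q y ∂μY = if p = q then 1 else 0 := by
  obtain ⟨κ, hκ, hB⟩ := SB_exists_kappa B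
  exact ⟨(((SBFam B hκ hB).orb p).mul ((SBFam B hκ hB).orb q)).integrable,
    (SBFam B hκ hB).ortho p q⟩

theorem lc_measurable (c : (Fin N → A × Fin 2) → ℂ) :
    Measurable (lc (fun _ => so B.χ) c : (Fin N → YS) → ℂ) := by
  unfold lc pf
  refine Finset.measurable_fun_sum _ fun I _ => ?_
  refine measurable_const.mul (Complex.measurable_ofReal.comp ?_)
  exact Finset.measurable_fun_prod _ fun l _ => (so_meas B _).comp (measurable_pi_apply l)

theorem lc_norm_sq (c : (Fin N → A × Fin 2) → ℂ) :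
    Integrable (fun w => ‖lc (fun _ => so B.χ) c w‖ ^ 2) (pm (Fin N) μY) ∧
    ∫ w, ‖lc (fun _ => so B.χ) c w‖ ^ 2 ∂(pm (Fin N) μY) = nsq c := by
  obtain ⟨h1, h2⟩ := integral_lc_zero μY (Θ := fun _ => so B.χ)
    (fun l a b => (so_ortho B a b).1) c
  refine ⟨h1, h2.trans ?_⟩
  unfold nsq
  refine Finset.sum_congr rfl fun I _ => ?_
  simp only [(so_ortho B _ _).2]
  rw [Finset.sum_eq_single I]
  · simp only [if_true, Finset.prod_const_one, mul_one]
    rw [Complex.conj_mul']
    norm_cast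
  · intro J _ hJ
    obtain ⟨l, hl⟩ := Function.ne_iff.1 hJ.symm
    rw [Finset.prod_eq_zero (Finset.mem_univ l) (if_neg hl), mul_zero]
  · simp only [mem_univ, not_true_eq_false, Complex.mul_re, Complex.conj_re, Complex.conj_im, neg_mul, sub_neg_eq_add, ↓reduceIte, prod_const_one, mul_one, IsEmpty.forall_iff]

/-- one-body matrix elements -/
theorem lc_one (c : (Fin N → A × Fin 2) → ℂ) (i : Fin N) {v : R3 → ℝ} (hv : Measurable v)
    (hi : ∀ a b, Integrable (fun x => B.χ a x * B.χ b x * v x)) :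
    Integrable (fun w => ‖lc (fun _ => so B.χ) c w‖ ^ 2 * v (w i).1) (pm (Fin N) μY) ∧
    ∫ w, ‖lc (fun _ => so B.χ) c w‖ ^ 2 * v (w i).1 ∂(pm (Fin N) μY) =
      ∑ I, ∑ b, spin1 (fun a b => ∫ x, B.χ a x * B.χ b x * v x) (I i) b *
        (conj (c I) * c (update I i b)).re := by
  have hso := fun p q : A × Fin 2 => integral_so_so (fun a => (SB_nice B a).cont) v hv p q
    (hi p.1 q.1)
  obtain ⟨h1, h2⟩ := integral_lc_one μY (θ := so B.χ) (fun a b => (so_ortho B a b).1) c i
    (v := fun y => v y.1) (fun p q => (hso p q).1)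
  refine ⟨h1, h2.trans ?_⟩
  refine Finset.sum_congr rfl fun I _ => ?_
  simp only [(so_ortho B _ _).2]
  have h3 := sum_delta_one (fun J => (conj (c I) * c J).re *
    ∫ y, so B.χ (I i) y * so B.χ (J i) y * v y.1 ∂μY) I i
  refine Eq.trans (Finset.sum_congr rfl fun J _ => ?_) (h3.trans ?_)
  · ring
  · refine Finset.sum_congr rfl fun b _ => ?_
    rw [update_self, (hso (I i) b).2, mul_comm]
    unfold spin1
    rfl

theorem measurable_nuc {f g : R3 → ℝ} (hf : Continuous f) (hg : Continuous g) :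
    Measurable (fun y => nuc y f g) := by
  have h1 : Measurable (fun p : R3 × R3 => f p.2 * g p.2 / dist p.2 p.1) :=
    ((hf.comp continuous_snd).mul (hg.comp continuous_snd)).measurable.div
      ((by (clear * -; fun_prop) : Continuous fun p : R3 × R3 => dist p.2 p.1).measurable)
  exact (h1.stronglyMeasurable.integral_prod_right).measurable

theorem kern_meas : Measurable (fun p : YS × YS => 1 / dist p.1.1 p.2.1) := by
  have h : Measurable (fun p : YS × YS => dist p.1.1 p.2.1) :=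
    (measurable_fst.comp measurable_fst).dist (measurable_fst.comp measurable_snd)
  exact h.const_div 1

/-- inner integral of the Coulomb kernel -/
theorem inner_kern (p a : A × Fin 2) (y : R3) :
    Integrable (fun z => so B.χ p z * so B.χ a z * (1 / dist z.1 y)) μY ∧
    ∫ z, so B.χ p z * so B.χ a z * (1 / dist z.1 y) ∂μY =
      if p.2 = a.2 then nuc y (B.χ p.1) (B.χ a.1) else 0 := by
  have h := integral_so_so (fun a => (SB_nice B a).cont) (fun x => 1 / dist x y)
    ((bd_dist_meas y).const_div 1) p a (by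
      refine (nice_integrable_nuc (SB_nice B p.1) (SB_nice B a.1) y).congr
        (Filter.Eventually.of_forall fun x => ?_)
      simp only
      ring)
  refine ⟨h.1, h.2.trans ?_⟩
  split_ifs
  · unfold nuc
    refine integral_congr_ae (Filter.Eventually.of_forall fun x => ?_)
    simp only
    ring
  · rfl

theorem kern_integrable (p a q b : A × Fin 2) :
    Integrable (fun y : YS × YS => (so B.χ p y.1 * so B.χ a y.1) * (so B.χ q y.2 * so B.χ b y.2) *
      (1 / dist y.1.1 y.2.1)) (μY.prod μY) := by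
  have hm : Measurable (fun y : YS × YS => (so B.χ p y.1 * so B.χ a y.1) *
      (so B.χ q y.2 * so B.χ b y.2) * (1 / dist y.1.1 y.2.1)) :=
    ((((so_meas B p).comp measurable_fst).mul ((so_meas B a).comp measurable_fst)).mul
      (((so_meas B q).comp measurable_snd).mul ((so_meas B b).comp measurable_snd))).mul kern_meas
  rw [integrable_prod_iff' hm.aestronglyMeasurable]
  constructor
  · refine Filter.Eventually.of_forall fun z => ?_
    refine ((inner_kern B p a z.1).1.const_mul (so B.χ q z * so B.χ b z)).congr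
      (Filter.Eventually.of_forall fun y => ?_)
    simp only
    ring
  · set C := 2 * Real.sqrt (dir (B.χ p.1) (B.χ p.1)) * Real.sqrt (ov (B.χ a.1) (B.χ a.1)) with hC
    have hb : ∀ z : YS, ∫ y, ‖(so B.χ p y * so B.χ a y) * (so B.χ q z * so B.χ b z) *
        (1 / dist y.1 z.1)‖ ∂μY ≤ C * |so B.χ q z * so B.χ b z| := by
      intro z
      have e1 : ∀ y : YS, ‖(so B.χ p y * so B.χ a y) * (so B.χ q z * so B.χ b z) *
          (1 / dist y.1 z.1)‖ = |so B.χ q z * so B.χ b z| *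
          |so B.χ p y * so B.χ a y * (1 / dist y.1 z.1)| := by
        intro y
        rw [Real.norm_eq_abs, ← abs_mul]
        congr 1
        ring
      simp only [e1]
      rw [integral_const_mul, mul_comm C]
      refine mul_le_mul_of_nonneg_left ?_ (abs_nonneg _)
      have h1 := (inner_kern B p a z.1).1.abs
      rw [integral_Y h1]
      obtain ⟨h2, h3⟩ := bd_nuc_abs (SB_nice B p.1) (SB_nice B a.1) z.1
      have h4 : ∀ τ, ∫ x, |so B.χ p (x, τ) * so B.χ a (x, τ) * (1 / dist x z.1)| ≤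
          if τ = p.2 then C else 0 := by
        intro τ
        split_ifs with h
        · refine le_trans (integral_mono_of_nonneg (Filter.Eventually.of_forall fun x =>
            abs_nonneg _) h2.abs (Filter.Eventually.of_forall fun x => ?_)) h3
          simp only
          unfold so
          rw [if_pos h]
          by_cases h' : τ = a.2
          · rw [if_pos h']
            apply le_of_eq
            congr 1
            ring
          · rw [if_neg h', mul_zero, zero_mul, abs_zero]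
            exact abs_nonneg _
        · have : ∀ x, |so B.χ p (x, τ) * so B.χ a (x, τ) * (1 / dist x z.1)| = 0 := by
            intro x
            unfold so
            rw [if_neg h, zero_mul, zero_mul, abs_zero]
          simp only [this, integral_zero, le_refl]
      refine (Finset.sum_le_sum fun τ _ => h4 τ).trans ?_
      rw [Finset.sum_ite_eq' univ p.2]
      simp
    refine ((so_ortho B q b).1.abs.const_mul C).mono' ?_ (Filter.Eventually.of_forall fun z => ?_)
    · exact (hm.norm.stronglyMeasurable.integral_prod_left').aestronglyMeasurable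
    · rw [Real.norm_eq_abs, abs_of_nonneg (integral_nonneg fun _ => norm_nonneg _)]
      exact hb z

theorem kern_value (p a q b : A × Fin 2) :
    ∫ y, (∫ z, so B.χ p z * so B.χ a z * (1 / dist z.1 y.1) ∂μY) *
      (so B.χ q y * so B.χ b y) ∂μY = spin2 (coulM B.χ) p a q b := by
  have h1 : ∀ y : YS, (∫ z, so B.χ p z * so B.χ a z * (1 / dist z.1 y.1) ∂μY) *
      (so B.χ q y * so B.χ b y) =
      (if p.2 = a.2 then 1 else 0) * (so B.χ q y * so B.χ b y *
        nuc y.1 (B.χ p.1) (B.χ a.1)) := by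
    intro y
    rw [(inner_kern B p a y.1).2]
    split_ifs
    · ring
    · ring
  simp only [h1]
  rw [integral_const_mul]
  have h2 := integral_so_so (fun a => (SB_nice B a).cont)
    (fun y => nuc y (B.χ p.1) (B.χ a.1))
    (measurable_nuc (SB_nice B p.1).cont (SB_nice B a.1).cont) q b (by
      refine (bd_coul_int (SB_nice B p.1) (SB_nice B a.1) (SB_nice B q.1)
        (SB_nice B b.1)).congr (Filter.Eventually.of_forall fun x => ?_)
      simp only
      ring)
  rw [h2.2]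
  unfold spin2 coulM coul
  by_cases h3 : p.2 = a.2
  · by_cases h4 : q.2 = b.2
    · rw [if_pos h3, if_pos h4, if_pos ⟨h3, h4⟩, one_mul]
      refine integral_congr_ae (Filter.Eventually.of_forall fun x => ?_)
      simp only
      ring
    · have h5 : ¬ (p.2 = a.2 ∧ q.2 = b.2) := fun h => h4 h.2
      rw [if_neg h4, if_neg h5, mul_zero]
  · have h5 : ¬ (p.2 = a.2 ∧ q.2 = b.2) := fun h => h3 h.1
    rw [if_neg h3, if_neg h5, zero_mul]

/-- two-body matrix elements -/
theorem lc_two (hn : 1 ≤ n) (c : (Fin N → A × Fin 2) → ℂ) {i j : Fin N} (hij : i ≠ j) :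
    Integrable (fun w => ‖lc (fun _ => so B.χ) c w‖ ^ 2 * (1 / dist (w i).1 (w j).1))
      (pm (Fin N) μY) ∧
    ∫ w, ‖lc (fun _ => so B.χ) c w‖ ^ 2 * (1 / dist (w i).1 (w j).1) ∂(pm (Fin N) μY) =
      ∑ I, ∑ a, ∑ b, spin2 (coulM B.χ) (I i) a (I j) b *
        (conj (c I) * c (update (update I i a) j b)).re := by
  obtain ⟨a₀⟩ := SB_nonempty B hn
  obtain ⟨h1, h2⟩ := integral_lc_two μY (θ := so B.χ) (so_meas B)
    (fun a b => (so_ortho B a b).1) c hij (k := fun y z => 1 / dist y.1 z.1) kern_meas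
    (kern_integrable B) (h := fun y => so B.χ (a₀, 0) y * so B.χ (a₀, 0) y)
    ((so_meas B _).mul (so_meas B _)) (so_ortho B _ _).1 ((so_ortho B _ _).2.trans (if_pos rfl))
  refine ⟨h1, h2.trans ?_⟩
  refine Finset.sum_congr rfl fun I _ => ?_
  simp only [(so_ortho B _ _).2, kern_value]
  have h3 := sum_delta_two (fun J => (conj (c I) * c J).re *
    spin2 (coulM B.χ) (I i) (J i) (I j) (J j)) I hij
  refine Eq.trans (Finset.sum_congr rfl fun J _ => ?_) (h3.trans ?_)
  · ring
  · refine Finset.sum_congr rfl fun a _ => Finset.sum_congr rfl fun b _ => ?_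
    rw [update_self, update_of_ne hij, update_self, mul_comm]

/-! ### the perturbation -/

/-- electron repulsion plus light nuclei (scaled) -/
noncomputable def Wp {m : ℕ} (wt : Fin m → ℝ) (y : Fin m → R3) (w : Fin N → YS) : ℝ :=
  (∑ i, ∑ j ∈ Ioi i, 1 / dist (w i).1 (w j).1) +
    ∑ i, ∑ b, wt b * (1 / ‖(w i).1‖ - 1 / dist (w i).1 (y b))

theorem oneE_real {ι : Type} [Fintype ι] [DecidableEq ι] (h : ι → ι → ℝ)
    (c : Tens N ι) : oneE h c = ∑ i, ∑ I : Fin N → ι, ∑ a, h (I i) a *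
      (conj (c I) * c (update I i a)).re := by
  unfold oneE
  rw [Complex.re_sum, Finset.sum_comm]
  refine Finset.sum_congr rfl fun I _ => ?_
  rw [Complex.re_sum]
  refine Finset.sum_congr rfl fun i _ => ?_
  rw [Complex.re_sum]
  refine Finset.sum_congr rfl fun a _ => ?_
  rw [Complex.re_ofReal_mul]

theorem twoE_real {ι : Type} [Fintype ι] [DecidableEq ι] (v : ι → ι → ι → ι → ℝ)
    (c : Tens N ι) : twoE v c = ∑ i, ∑ j ∈ Ioi i, ∑ I : Fin N → ι, ∑ a, ∑ b,
      v (I i) a (I j) b * (conj (c I) * c (update (update I i a) j b)).re := by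
  unfold twoE
  rw [Complex.re_sum]
  have e : ∑ i, ∑ j ∈ Ioi i, ∑ I : Fin N → ι, ∑ a, ∑ b,
      v (I i) a (I j) b * (conj (c I) * c (update (update I i a) j b)).re =
      ∑ I : Fin N → ι, ∑ i, ∑ j ∈ Ioi i, ∑ a, ∑ b,
      v (I i) a (I j) b * (conj (c I) * c (update (update I i a) j b)).re := by
    rw [Finset.sum_comm]
    refine Finset.sum_congr rfl fun i _ => ?_
    rw [Finset.sum_comm]
  rw [e]
  refine Finset.sum_congr rfl fun I _ => ?_
  rw [Complex.re_sum]
  refine Finset.sum_congr rfl fun i _ => ?_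
  rw [Complex.re_sum]
  refine Finset.sum_congr rfl fun j _ => ?_
  rw [Complex.re_sum]
  refine Finset.sum_congr rfl fun a _ => ?_
  rw [Complex.re_sum]
  refine Finset.sum_congr rfl fun b _ => ?_
  rw [Complex.re_ofReal_mul]

/-- the perturbation in a combination of shell orbitals -/
theorem lc_W (hn : 1 ≤ n) {m : ℕ} (wt : Fin m → ℝ) (y : Fin m → R3)
    (c : (Fin N → A × Fin 2) → ℂ) :
    Integrable (fun w => ‖lc (fun _ => so B.χ) c w‖ ^ 2 * Wp wt y w) (pm (Fin N) μY) ∧
    ∫ w, ‖lc (fun _ => so B.χ) c w‖ ^ 2 * Wp wt y w ∂(pm (Fin N) μY) =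
      enT (nucM B.χ wt y) (coulM B.χ) c := by
  have hv : Measurable (fun x : R3 => ∑ b, wt b * (1 / ‖x‖ - 1 / dist x (y b))) :=
    Finset.measurable_fun_sum _ fun b _ =>
      ((measurable_norm.const_div 1).sub ((bd_dist_meas (y b)).const_div 1)).const_mul _
  have hi0 : ∀ a b β, Integrable (fun x => B.χ a x * B.χ b x *
      (wt β * (1 / ‖x‖ - 1 / dist x (y β)))) := by
    intro a b β
    refine ((integrable_gm (SB_nice B a) (SB_nice B b) (y β)).const_mul (wt β)).congr
      (Filter.Eventually.of_forall fun x => ?_)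
    simp only
    ring
  have hi : ∀ a b, Integrable (fun x => B.χ a x * B.χ b x *
      ∑ b, wt b * (1 / ‖x‖ - 1 / dist x (y b))) := by
    intro a b
    simp only [Finset.mul_sum]
    exact integrable_finsetSum _ fun β _ => hi0 a b β
  have hval : ∀ a b, ∫ x, B.χ a x * B.χ b x * ∑ b, wt b * (1 / ‖x‖ - 1 / dist x (y b)) =
      nucM B.χ wt y a b := by
    intro a b
    unfold nucM gm
    simp only [Finset.mul_sum]
    rw [integral_finsetSum _ fun β _ => hi0 a b β]
    refine Finset.sum_congr rfl fun β _ => ?_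
    rw [← integral_const_mul]
    refine integral_congr_ae (Filter.Eventually.of_forall fun x => ?_)
    simp only
    ring
  have h1 := fun i => lc_one B c i hv hi
  have h2 := fun (i j : Fin N) (hj : j ∈ Ioi i) => lc_two B hn c (i := i) (j := j)
    (Finset.mem_Ioi.1 hj).ne
  have e : ∀ w : Fin N → YS, ‖lc (fun _ => so B.χ) c w‖ ^ 2 * Wp wt y w =
      (∑ i, ∑ j ∈ Ioi i, ‖lc (fun _ => so B.χ) c w‖ ^ 2 * (1 / dist (w i).1 (w j).1)) +
      ∑ i, ‖lc (fun _ => so B.χ) c w‖ ^ 2 *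
        ∑ b, wt b * (1 / ‖(w i).1‖ - 1 / dist (w i).1 (y b)) := by
    intro w
    unfold Wp
    rw [mul_add, Finset.mul_sum, Finset.mul_sum]
    congr 1
    refine Finset.sum_congr rfl fun i _ => ?_
    rw [Finset.mul_sum]
  have i1 := integrable_finsetSum (univ : Finset (Fin N)) fun i _ =>
    integrable_finsetSum (Ioi i) fun j hj => (h2 i j hj).1
  have i2 := integrable_finsetSum (univ : Finset (Fin N)) fun i _ => (h1 i).1
  simp only [e]
  refine ⟨i1.add i2, ?_⟩
  rw [integral_add i1 i2, integral_finsetSum _ fun i _ =>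
    integrable_finsetSum (Ioi i) fun j hj => (h2 i j hj).1, integral_finsetSum _ fun i _ =>
    (h1 i).1]
  unfold enT
  rw [oneE_real, twoE_real, add_comm]
  congr 1
  · refine Finset.sum_congr rfl fun i _ => ?_
    rw [(h1 i).2]
    simp only [hval]
  · refine Finset.sum_congr rfl fun i _ => ?_
    rw [integral_finsetSum _ fun j hj => (h2 i j hj).1]
    refine Finset.sum_congr rfl fun j hj => ?_
    rw [(h2 i j hj).2]

end Vale.Agent.P370.NB
end
end

section

section

/-!
Ingredients for the lower bound.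
-/

namespace Vale.Agent.P370.NB

open MeasureTheory Function ComplexConjugate Finset Vale.Agent.P370.Q

variable {N : ℕ}

/-! ### permutations -/

theorem mp_perm (μ : Measure YS) [SigmaFinite μ] (π : Equiv.Perm (Fin N)) :
    MeasurePreserving (fun w : Fin N → YS => w ∘ π) (pm (Fin N) μ) (pm (Fin N) μ) := by
  have h := measurePreserving_piCongrLeft (fun _ : Fin N => μ) (π.symm)
  have e : (MeasurableEquiv.piCongrLeft (fun _ : Fin N => YS) π.symm : (Fin N → YS) → (Fin N → YS)) =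
      fun w => w ∘ π := by
    funext w l
    have := Equiv.piCongrLeft_apply_apply (P := fun _ : Fin N => YS) π.symm w (π l)
    rw [Equiv.symm_apply_apply] at this
    exact this
  rw [e] at h
  exact h

theorem toY_perm {ψ : Wave N} (hψ : IsTestState ψ) (π : Equiv.Perm (Fin N)) (w : Fin N → YS) :
    toY ψ (w ∘ π) = ((Equiv.Perm.sign π : ℤ) : ℂ) * toY ψ w :=
  hψ.antisymm π (fun i => (w i).1) (fun i => (w i).2)

section
variable {A : Type} [DecidableEq A] {D : WSp YS} (F : Fam D (A × Fin 2))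

theorem coef_perm {ψ : Wave N} (hψ : IsTestState ψ) (π : Equiv.Perm (Fin N))
    (I : Fin N → A × Fin 2) :
    F.coef (fun i => I (π i)) (toY ψ) = ((Equiv.Perm.sign π : ℤ) : ℂ) * F.coef I (toY ψ) := by
  unfold Fam.coef
  have h := mp_perm D.μ π
  have hemb : MeasurableEmbedding (fun w : Fin N → YS => w ∘ π) := by
    have := (MeasurableEquiv.piCongrLeft (fun _ : Fin N => YS) π.symm).measurableEmbedding
    have e : (MeasurableEquiv.piCongrLeft (fun _ : Fin N => YS) π.symm :
        (Fin N → YS) → (Fin N → YS)) = fun w => w ∘ π := by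
      funext w l
      have := Equiv.piCongrLeft_apply_apply (P := fun _ : Fin N => YS) π.symm w (π l)
      rw [Equiv.symm_apply_apply] at this
      exact this
    rwa [e] at this
  rw [← h.integral_comp hemb, ← integral_const_mul]
  refine integral_congr_ae (Filter.Eventually.of_forall fun w => ?_)
  simp only
  rw [toY_perm hψ]
  have e : F.po (fun i => I (π i)) (w ∘ π) = F.po I w := by
    unfold Fam.po
    exact Equiv.prod_comp π (fun l => F.θ (I l) (w l))
  rw [e]
  ring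

end

/-! ### the reference energy -/

section ref

variable {n : ℕ} {C O : Type} [Fintype C] [DecidableEq C] [Fintype O] [DecidableEq O]
  (B : ShellBasis n (C ⊕ O)) (hC : ∀ c, B.lev (Sum.inl c) < n) (hO : ∀ o, B.lev (Sum.inr o) = n)

include hO in
theorem closed_card {k : ℕ} (hk : 1 ≤ k) (hkn : k < n) :
    (univ.filter (fun c : C => B.lev (Sum.inl c) = k)).card = k ^ 2 := by
  rw [← B.card k hk hkn.le]
  refine Finset.card_bij (fun c _ => Sum.inl c) ?_ ?_ ?_
  · intro c hc
    simpa only [mem_filter, mem_univ, true_and] using hc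
  · intro c _ c' _ h
    exact Sum.inl_injective h
  · intro a ha
    simp only [Finset.mem_filter, Finset.mem_univ, true_and] at ha
    cases a with
    | inl c => exact ⟨c, by simpa only [mem_filter, mem_univ, true_and] using ha, rfl⟩
    | inr o =>
      have := hO o
      omega

include hC hO in
theorem closed_sum (hn : 1 ≤ n) :
    ∑ c : C, 1 / (B.lev (Sum.inl c) : ℝ) ^ 2 = (n : ℝ) - 1 := by
  have h1 : ∀ c ∈ (univ : Finset C), B.lev (Sum.inl c) ∈ Finset.Icc 1 (n - 1) := by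
    intro c _
    have h1 := B.lev_pos (Sum.inl c)
    have h2 := hC c
    rw [Finset.mem_Icc]
    (clear * - hn h1 h2; omega)
  rw [← Finset.sum_fiberwise_of_maps_to h1]
  have h2 : ∀ k ∈ Finset.Icc 1 (n - 1), ∑ c ∈ univ.filter (fun c : C => B.lev (Sum.inl c) = k),
      1 / (B.lev (Sum.inl c) : ℝ) ^ 2 = 1 := by
    intro k hk
    rw [Finset.mem_Icc] at hk
    have h3 : ∑ c ∈ univ.filter (fun c : C => B.lev (Sum.inl c) = k),
        1 / (B.lev (Sum.inl c) : ℝ) ^ 2 =
        ∑ c ∈ univ.filter (fun c : C => B.lev (Sum.inl c) = k), 1 / (k : ℝ) ^ 2 := by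
      refine Finset.sum_congr rfl fun c hc => ?_
      rw [Finset.mem_filter] at hc
      rw [hc.2]
    rw [h3, Finset.sum_const, closed_card B hO hk.1 (by omega), nsmul_eq_mul]
    have : (k : ℝ) ≠ 0 := by
      have := hk.1
      (clear * - this; positivity)
    push_cast
    field_simp
  rw [Finset.sum_congr rfl h2]
  simp only [Finset.sum_const, Nat.card_Icc, nsmul_eq_mul, mul_one]
  rw [show n - 1 + 1 - 1 = n - 1 by omega, Nat.cast_sub hn, Nat.cast_one]

/-- closed spin orbitals -/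
def ClS (C O : Type) [Fintype C] [DecidableEq C] [DecidableEq O] : Finset ((C ⊕ O) × Fin 2) :=
  (univ : Finset (C × Fin 2)).map ⟨fun p => (Sum.inl p.1, p.2), by
    intro p q h
    simp only [Prod.mk.injEq, Sum.inl.injEq] at h
    exact Prod.ext h.1 h.2⟩

omit [Fintype O] in
theorem mem_ClS (b : (C ⊕ O) × Fin 2) : b ∈ ClS C O ↔ ∃ c, b.1 = Sum.inl c := by
  unfold ClS
  simp only [mem_map, mem_univ, true_and, Prod.exists]
  constructor
  · rintro ⟨c, σ, rfl⟩
    exact ⟨c, rfl⟩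
  · rintro ⟨c, h⟩
    exact ⟨c, b.2, Prod.ext h.symm rfl⟩

omit [Fintype O] in
theorem card_ClS : (ClS C O).card = 2 * Fintype.card C := by
  unfold ClS
  rw [Finset.card_map, Finset.card_univ, Fintype.card_prod, Fintype.card_fin, mul_comm]

include hC hO in
theorem sum_eb_ClS (hn : 1 ≤ n) : ∑ b ∈ ClS C O, eb B b = -((n : ℝ) - 1) := by
  unfold ClS
  rw [Finset.sum_map, Fintype.sum_prod_type]
  rw [← closed_sum B hC hO hn, ← Finset.sum_neg_distrib]
  refine Finset.sum_congr rfl fun c _ => ?_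
  rw [Fin.sum_univ_two]
  show -(1 / (2 * (B.lev (Sum.inl c) : ℝ) ^ 2)) + -(1 / (2 * (B.lev (Sum.inl c) : ℝ) ^ 2)) =
    -(1 / (B.lev (Sum.inl c) : ℝ) ^ 2)
  have : (B.lev (Sum.inl c) : ℝ) ≠ 0 := by
    have := B.lev_pos (Sum.inl c)
    positivity
  field_simp
  ring

end ref

/-! ### the energy functional -/

section energy

variable {m : ℕ} (wt : Fin m → ℝ) (y : Fin m → R3)

theorem Wp_test_integrable {ψ : Wave N} (hψ : IsTestState ψ) (s : Fin N → Fin 2) :
    Integrable (fun x : Fin N → R3 => ‖ψ x s‖ ^ 2 * Wp wt y (jn x s)) ∧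
    Measurable (fun x : Fin N → R3 => ‖ψ x s‖ ^ 2 * Wp wt y (jn x s)) := by
  have hs1 := (hψ.smooth s).of_le (m := 1) (by exact_mod_cast le_top)
  have hc := hψ.compactSupport s
  have h1 : ∀ i (c : R3), Integrable (fun x : Fin N → R3 => ‖ψ x s‖ ^ 2 * (1 / dist (x i) c)) := by
    intro i c
    refine (integrable_nuc (fun x => ψ x s) hs1 hc i c).congr
      (Filter.Eventually.of_forall fun x => ?_)
    simp only
    ring
  have h2 : ∀ i j : Fin N, i ≠ j →
      Integrable (fun x : Fin N → R3 => ‖ψ x s‖ ^ 2 * (1 / dist (x i) (x j))) := by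
    intro i j hij
    refine (integrable_ee (fun x => ψ x s) hs1 hc i j hij).congr
      (Filter.Eventually.of_forall fun x => ?_)
    simp only
    ring
  have e : ∀ x : Fin N → R3, ‖ψ x s‖ ^ 2 * Wp wt y (jn x s) =
      (∑ i, ∑ j ∈ Ioi i, ‖ψ x s‖ ^ 2 * (1 / dist (x i) (x j))) +
      ∑ i, ∑ b, wt b * (‖ψ x s‖ ^ 2 * (1 / dist (x i) 0) - ‖ψ x s‖ ^ 2 * (1 / dist (x i) (y b))) := by
    intro x
    unfold Wp jn
    rw [mul_add, Finset.mul_sum, Finset.mul_sum]
    congr 1
    · refine Finset.sum_congr rfl fun i _ => ?_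
      rw [Finset.mul_sum]
    · refine Finset.sum_congr rfl fun i _ => ?_
      rw [Finset.mul_sum]
      refine Finset.sum_congr rfl fun b _ => ?_
      simp only [dist_zero_right]
      ring
  simp only [e]
  constructor
  · refine (integrable_finsetSum _ fun i _ => integrable_finsetSum _ fun j hj =>
      h2 i j (Finset.mem_Ioi.1 hj).ne).add ?_
    exact integrable_finsetSum _ fun i _ => integrable_finsetSum _ fun b _ =>
      ((h1 i 0).sub (h1 i (y b))).const_mul _
  · have hm : Measurable (fun x : Fin N → R3 => ‖ψ x s‖ ^ 2) :=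
      (hψ.smooth s).continuous.measurable.norm.pow_const 2
    refine Measurable.add ?_ ?_
    · refine Finset.measurable_fun_sum _ fun i _ => Finset.measurable_fun_sum _ fun j _ => ?_
      exact hm.mul (((measurable_pi_apply i).dist (measurable_pi_apply j)).const_div 1)
    · refine Finset.measurable_fun_sum _ fun i _ => Finset.measurable_fun_sum _ fun b _ => ?_
      refine Measurable.const_mul ?_ _
      refine (hm.mul ?_).sub (hm.mul ?_)
      · exact ((bd_dist_meas 0).comp (measurable_pi_apply i)).const_div 1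
      · exact ((bd_dist_meas (y b)).comp (measurable_pi_apply i)).const_div 1

theorem Wp_int {ψ : Wave N} (hψ : IsTestState ψ) :
    Integrable (fun w => ‖toY ψ w‖ ^ 2 * Wp wt y w) (pm (Fin N) μY) :=
  integrable_pow (F := fun w => ‖toY ψ w‖ ^ 2 * Wp wt y w)
    (fun s => (Wp_test_integrable wt y hψ s).2) fun s => (Wp_test_integrable wt y hψ s).1

theorem scaledE_eq (lam : ℝ) {ψ : Wave N} (hψ : IsTestState ψ) :
    scaledE lam wt y ψ = H0 ψ + lam * ∫ w, ‖toY ψ w‖ ^ 2 * Wp wt y w ∂(pm (Fin N) μY) := by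
  have h1 : ∀ i : Fin N, ∀ s, Integrable (fun x : Fin N → R3 => ‖ψ x s‖ ^ 2 / ‖x i‖) := by
    intro i s
    have h := integrable_nuc (fun x => ψ x s) ((hψ.smooth s).of_le (by exact_mod_cast le_top))
      (hψ.compactSupport s) i 0
    simpa only [dist_zero_right] using h
  have hk : ∀ i s, ∫ x, kd ψ i x s = ∑ k : Fin 3,
      ∫ x, ‖fderiv ℝ (fun y => ψ y s) x (Pi.single i (EuclideanSpace.single k 1))‖ ^ 2 := by
    intro i s
    unfold kd
    refine integral_finsetSum _ fun k _ => ?_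
    refine Continuous.integrable_of_hasCompactSupport ?_ ?_
    · have h : Continuous (fderiv ℝ (fun y => ψ y s)) := (hψ.smooth s).continuous_fderiv (by simp)
      exact ((h.clm_apply continuous_const).norm).pow 2
    · refine ((hψ.compactSupport s).fderiv (𝕜 := ℝ)).mono fun x hx => ?_
      rw [Function.mem_support] at hx ⊢
      intro h0
      apply hx
      rw [h0]
      simp only [zero_apply, norm_zero, ne_eq, OfNat.ofNat_ne_zero, not_false_eq_true, zero_pow]
  have hH : H0 ψ = kinetic ψ - ∑ s, ∑ i, ∫ x, ‖ψ x s‖ ^ 2 / ‖x i‖ := by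
    unfold H0 kinetic
    have e1 : ∀ i, ∫ w, ofS (hd ψ i) w ∂(pm (Fin N) μY) =
        ∑ s, ((1 / 2) * (∑ k : Fin 3,
      ∫ x, ‖fderiv ℝ (fun y => ψ y s) x (Pi.single i (EuclideanSpace.single k 1))‖ ^ 2) -
        ∫ x, ‖ψ x s‖ ^ 2 / ‖x i‖) := by
      intro i
      rw [integral_ofS (ofS_hd_integrable hψ i)]
      refine Finset.sum_congr rfl fun s _ => ?_
      unfold hd
      rw [integral_sub ((kd_integrable hψ i s).const_mul _) (h1 i s), integral_const_mul, hk]
    simp only [e1]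
    rw [Finset.sum_comm, Finset.mul_sum, ← Finset.sum_sub_distrib]
    refine Finset.sum_congr rfl fun s _ => ?_
    rw [Finset.sum_sub_distrib, Finset.mul_sum]
  unfold scaledE
  rw [hH, integral_pow (Wp_int wt y hψ), Finset.mul_sum, sub_add, ← Finset.sum_sub_distrib]
  rw [sub_eq_add_neg, ← Finset.sum_neg_distrib]
  congr 1
  refine Finset.sum_congr rfl fun s _ => ?_
  simp only [toY_jn]
  rw [neg_sub, ← integral_finsetSum _ fun i _ => h1 i s, ← integral_const_mul,
    ← integral_sub ((Wp_test_integrable wt y hψ s).1.const_mul _)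
      (integrable_finsetSum _ fun i _ => h1 i s)]
  refine integral_congr_ae (Filter.Eventually.of_forall fun x => ?_)
  simp only
  unfold scaledV Wp jn
  simp only
  have e3 : ∑ i, ‖ψ x s‖ ^ 2 / ‖x i‖ = ‖ψ x s‖ ^ 2 * ∑ i, 1 / ‖x i‖ := by
    rw [Finset.mul_sum]
    exact Finset.sum_congr rfl fun i _ => by ring
  rw [e3]
  ring

end energy

/-! ### truncated perturbation -/

section trunc

variable {m : ℕ} (wt : Fin m → ℝ) (y : Fin m → R3) (r : ℝ)

/-- truncated inverse distance -/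
noncomputable def mr (r t : ℝ) : ℝ := 1 / t - sr r t

noncomputable def Wr (w : Fin N → YS) : ℝ :=
  (∑ i, ∑ j ∈ Ioi i, mr r (dist (w i).1 (w j).1)) +
    ∑ i, ∑ b, wt b * (mr r (dist (w i).1 0) - mr r (dist (w i).1 (y b)))

theorem mr_measurable : Measurable (mr r) :=
  (measurable_id.const_div 1).sub (sr_measurable r)

theorem Wr_measurable : Measurable (Wr wt y r : (Fin N → YS) → ℝ) := by
  unfold Wr
  refine Measurable.add ?_ ?_
  · refine Finset.measurable_fun_sum _ fun i _ => Finset.measurable_fun_sum _ fun j _ => ?_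
    exact (mr_measurable r).comp ((measurable_fst.comp (measurable_pi_apply i)).dist
      (measurable_fst.comp (measurable_pi_apply j)))
  · refine Finset.measurable_fun_sum _ fun i _ => Finset.measurable_fun_sum _ fun b _ => ?_
    refine Measurable.const_mul (Measurable.sub ?_ ?_) _
    · exact (mr_measurable r).comp ((bd_dist_meas 0).comp
        (measurable_fst.comp (measurable_pi_apply i)))
    · exact (mr_measurable r).comp ((bd_dist_meas (y b)).comp
        (measurable_fst.comp (measurable_pi_apply i)))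

variable {r} (hr : 0 < r) (hwt : ∀ b, 0 ≤ wt b)

theorem mr_bounds (hr : 0 < r) {t : ℝ} (ht : 0 ≤ t) : 0 ≤ mr r t ∧ mr r t ≤ 1 / r := sr_eq hr ht

include hr hwt in
theorem Wr_bound (w : Fin N → YS) :
    |Wr wt y r w| ≤ (N : ℝ) * (N + ∑ b, wt b) / r := by
  unfold Wr
  have h1 : |∑ i, ∑ j ∈ Ioi i, mr r (dist (w i).1 (w j).1)| ≤ N * (N * (1 / r)) := by
    refine (Finset.abs_sum_le_sum_abs _ _).trans ?_
    have h2 : ∀ i ∈ (univ : Finset (Fin N)), |∑ j ∈ Ioi i, mr r (dist (w i).1 (w j).1)| ≤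
        N * (1 / r) := by
      intro i _
      refine (Finset.abs_sum_le_sum_abs _ _).trans ?_
      have h3 : ∀ j ∈ Ioi i, |mr r (dist (w i).1 (w j).1)| ≤ 1 / r := by
        intro j _
        have := mr_bounds hr (dist_nonneg (x := (w i).1) (y := (w j).1))
        rw [abs_of_nonneg this.1]
        exact this.2
      refine (Finset.sum_le_sum h3).trans ?_
      rw [Finset.sum_const, nsmul_eq_mul]
      have h4 : ((Ioi i).card : ℝ) ≤ N := by
        have := Finset.card_le_univ (Ioi i)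
        rw [Fintype.card_fin] at this
        exact_mod_cast this
      have : 0 ≤ 1 / r := by (clear * - hr; positivity)
      gcongr
    refine (Finset.sum_le_sum h2).trans ?_
    rw [Finset.sum_const, Finset.card_univ, Fintype.card_fin, nsmul_eq_mul]
  have h2 : |∑ i, ∑ b, wt b * (mr r (dist (w i).1 0) - mr r (dist (w i).1 (y b)))| ≤
      N * ((∑ b, wt b) * (1 / r)) := by
    refine (Finset.abs_sum_le_sum_abs _ _).trans ?_
    have h2 : ∀ i ∈ (univ : Finset (Fin N)), |∑ b, wt b *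
        (mr r (dist (w i).1 0) - mr r (dist (w i).1 (y b)))| ≤ (∑ b, wt b) * (1 / r) := by
      intro i _
      refine (Finset.abs_sum_le_sum_abs _ _).trans ?_
      rw [Finset.sum_mul]
      refine Finset.sum_le_sum fun b _ => ?_
      rw [abs_mul, abs_of_nonneg (hwt b)]
      refine mul_le_mul_of_nonneg_left ?_ (hwt b)
      have h3 := mr_bounds hr (dist_nonneg (x := (w i).1) (y := 0))
      have h4 := mr_bounds hr (dist_nonneg (x := (w i).1) (y := y b))
      rw [abs_le]
      constructor <;> linarith [h3.1, h3.2, h4.1, h4.2]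
    refine (Finset.sum_le_sum h2).trans ?_
    rw [Finset.sum_const, Finset.card_univ, Fintype.card_fin, nsmul_eq_mul]
  refine (abs_add_le _ _).trans ((add_le_add h1 h2).trans (le_of_eq ?_))
  field_simp

include hwt in
/-- lower bound by the truncated perturbation -/
theorem Wp_ge (w : Fin N → YS) :
    Wr wt y r w - ∑ i, ∑ b, wt b * sr r (dist (w i).1 (y b)) ≤ Wp wt y w := by
  unfold Wr Wp
  have h1 : ∑ i, ∑ j ∈ Ioi i, mr r (dist (w i).1 (w j).1) ≤
      ∑ i, ∑ j ∈ Ioi i, 1 / dist (w i).1 (w j).1 := by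
    refine Finset.sum_le_sum fun i _ => Finset.sum_le_sum fun j _ => ?_
    unfold mr
    linarith only [sr_nonneg r (dist (w i).1 (w j).1)]
  have h2 : ∑ i, ∑ b, wt b * (mr r (dist (w i).1 0) - mr r (dist (w i).1 (y b))) -
      ∑ i, ∑ b, wt b * sr r (dist (w i).1 (y b)) ≤
      ∑ i, ∑ b, wt b * (1 / ‖(w i).1‖ - 1 / dist (w i).1 (y b)) := by
    rw [← Finset.sum_sub_distrib]
    refine Finset.sum_le_sum fun i _ => ?_
    rw [← Finset.sum_sub_distrib]
    refine Finset.sum_le_sum fun b _ => ?_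
    rw [← mul_sub]
    refine mul_le_mul_of_nonneg_left ?_ (hwt b)
    unfold mr
    rw [dist_zero_right]
    (clear * -; linarith [sr_nonneg r ‖(w i).1‖])
  linarith only [h1, h2]

include hwt in
/-- upper bound of the perturbation by the truncated one -/
theorem Wr_ge (w : Fin N → YS) :
    Wp wt y w - ((∑ i, ∑ j ∈ Ioi i, sr r (dist (w i).1 (w j).1)) +
      ∑ i, ∑ b, wt b * sr r (dist (w i).1 0)) ≤ Wr wt y r w := by
  unfold Wr Wp
  have h1 : ∑ i, ∑ j ∈ Ioi i, mr r (dist (w i).1 (w j).1) =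
      ∑ i, ∑ j ∈ Ioi i, 1 / dist (w i).1 (w j).1 -
      ∑ i, ∑ j ∈ Ioi i, sr r (dist (w i).1 (w j).1) := by
    rw [← Finset.sum_sub_distrib]
    refine Finset.sum_congr rfl fun i _ => ?_
    rw [← Finset.sum_sub_distrib]
    rfl
  have h2 : ∑ i, ∑ b, wt b * (1 / ‖(w i).1‖ - 1 / dist (w i).1 (y b)) -
      ∑ i, ∑ b, wt b * sr r (dist (w i).1 0) ≤
      ∑ i, ∑ b, wt b * (mr r (dist (w i).1 0) - mr r (dist (w i).1 (y b))) := by
    rw [← Finset.sum_sub_distrib]
    refine Finset.sum_le_sum fun i _ => ?_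
    rw [← Finset.sum_sub_distrib]
    refine Finset.sum_le_sum fun b _ => ?_
    rw [← mul_sub]
    refine mul_le_mul_of_nonneg_left ?_ (hwt b)
    unfold mr
    rw [dist_zero_right]
    linarith only [sr_nonneg r (dist (w i).1 (y b))]
  linarith only [h1, h2]

end trunc

end Vale.Agent.P370.NB
end
end

section

section

/-!
Circuits as real circuits in rounds (H1).
-/

namespace Vale.Agent.P370.H

open Finset

/-! ### values of the operators -/

section vals

variable {n : ℕ}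

theorem realC_pau2 {i : ℕ} (h : i < n) (v : RSt n) (x : Fin n → Bool) :
    pau 2 i v x = (if x ⟨i, h⟩ then -1 else 1) * v x := by
  simp only [pau, h, ↓reduceDIte, OfNat.ofNat_ne_zero, ↓reduceIte, OfNat.ofNat_ne_one, ite_mul, neg_mul, one_mul]

theorem realC_pau1 {i : ℕ} (h : i < n) (v : RSt n) (x : Fin n → Bool) :
    pau 1 i v x = v (Function.update x ⟨i, h⟩ (!x ⟨i, h⟩)) := by
  simp only [pau, h, ↓reduceDIte, one_ne_zero, ↓reduceIte]

theorem realC_one {i : ℕ} (h : i < n) (v : RSt n) (x : Fin n → Bool) :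
    one i v x = if x ⟨i, h⟩ then v x else 0 := by
  unfold one
  rw [Pi.smul_apply, Pi.sub_apply, realC_pau2 h]
  by_cases hx : x ⟨i, h⟩ = true
  · simp only [one_div, hx, ↓reduceIte, neg_mul, one_mul, sub_neg_eq_add, smul_eq_mul]
    ring
  · simp [hx]

theorem realC_zer {i : ℕ} (h : i < n) (v : RSt n) (x : Fin n → Bool) :
    zer i v x = if x ⟨i, h⟩ then 0 else v x := by
  unfold zer
  rw [Pi.smul_apply, Pi.add_apply, realC_pau2 h]
  by_cases hx : x ⟨i, h⟩ = true
  · simp only [one_div, hx, ↓reduceIte, neg_mul, one_mul, add_neg_cancel, smul_eq_mul, mul_zero]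
  · simp only [one_div, hx, Bool.false_eq_true, ↓reduceIte, one_mul, smul_eq_mul]
    ring

theorem realC_czg {f s : ℕ} (hf : f < n) (hs : s < n) (v : RSt n) (x : Fin n → Bool) :
    czg f s v x = (if x ⟨f, hf⟩ = true ∧ x ⟨s, hs⟩ = true then -1 else 1) * v x := by
  unfold czg
  simp only [Pi.smul_apply, Pi.add_apply, Pi.sub_apply, realC_pau2 hf, realC_pau2 hs, smul_eq_mul]
  by_cases h1 : x ⟨f, hf⟩ = true <;> by_cases h2 : x ⟨s, hs⟩ = true <;> simp [h1, h2] <;> ring

theorem realC_czg_czg {f s : ℕ} (hf : f < n) (hs : s < n) (v : RSt n) :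
    czg f s (czg f s v) = v := by
  funext x
  rw [realC_czg hf hs, realC_czg hf hs]
  by_cases h : x ⟨f, hf⟩ = true ∧ x ⟨s, hs⟩ = true
  · rw [if_pos h]; ring
  · rw [if_neg h]; ring

theorem realC_refl {a q : ℕ} (ha : a ≠ 0) (hq : q < n) (v : RSt n) (x : Fin n → Bool) :
    refl a q v x = Real.cos (ang a) * ((if x ⟨q, hq⟩ then -1 else 1) * v x) +
      Real.sin (ang a) * v (Function.update x ⟨q, hq⟩ (!x ⟨q, hq⟩)) := by
  unfold refl
  rw [if_neg ha, Pi.add_apply, Pi.smul_apply, Pi.smul_apply, realC_pau2 hq, realC_pau1 hq]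
  rfl

theorem realC_refl0 {q : ℕ} (v : RSt n) : refl 0 q v = v := by
  unfold refl
  rw [if_pos rfl]

theorem rc_runR_nil (v : RSt n) : runR [] v = v := rfl

theorem rc_runR_cons (r : Rnd) (rs : List Rnd) (v : RSt n) :
    runR (r :: rs) v = runR rs (rndAct r v) := rfl

theorem rc_runR_append (rs rs' : List Rnd) (v : RSt n) :
    runR (rs ++ rs') v = runR rs' (runR rs v) := by
  unfold runR
  rw [List.foldl_append]

end vals

theorem comp_ok (n kind i j : ℕ) : ∀ r ∈ comp n kind i j, r.Ok (n + 1) := by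
  intro r hr
  unfold comp at hr
  split_ifs at hr with h1 h2 h3 h4
  all_goals simp only [List.mem_cons, List.not_mem_nil, or_false] at hr
  · rcases hr with rfl | rfl
    · exact ⟨by simp only; omega, by simp only; omega, by simp only; omega, by simp only; omega⟩
    · exact ⟨by simp only; omega, by simp only; omega, by simp only; omega, by simp only; omega⟩
  · rcases hr with rfl | rfl | rfl | rfl
    all_goals exact ⟨by simp only; omega, by simp only; omega, by simp only; omega,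
      by simp only; omega⟩
  · rcases hr with rfl | rfl | rfl
    all_goals exact ⟨by simp only; omega, by simp only; omega, by simp only; omega,
      by simp only; omega⟩

theorem rnds_ok (z : List Bool) : ∀ r ∈ rnds z, r.Ok (cQubits z + 1) := by
  intro r hr
  unfold rnds at hr
  rw [List.mem_flatMap] at hr
  obtain ⟨t, -, ht⟩ := hr
  exact comp_ok _ _ _ _ r ht

/-! ### the embedding -/

section embed

variable {n : ℕ}

/-- the coordinates without the last one -/
def ini (x : Fin (n + 1) → Bool) : Fin n → Bool := fun i => x i.castSucc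

theorem emb_apply (ψ : QState n) (x : Fin (n + 1) → Bool) :
    emb ψ x = if x (Fin.last n) then (ψ (ini x)).im else (ψ (ini x)).re := rfl

theorem ini_update (x : Fin (n + 1) → Bool) (i : Fin n) (b : Bool) :
    ini (Function.update x i.castSucc b) = Function.update (ini x) i b := by
  funext k
  unfold ini
  by_cases h : k = i
  · subst h
    simp
  · rw [Function.update_of_ne h, Function.update_of_ne]
    intro h'
    exact h (Fin.castSucc_injective _ h')

theorem last_update (x : Fin (n + 1) → Bool) (i : Fin n) (b : Bool) :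
    Function.update x i.castSucc b (Fin.last n) = x (Fin.last n) := by
  rw [Function.update_of_ne]
  exact (Fin.castSucc_ne_last i).symm

theorem ini_update_last (x : Fin (n + 1) → Bool) (b : Bool) :
    ini (Function.update x (Fin.last n) b) = ini x := by
  funext k
  unfold ini
  rw [Function.update_of_ne (Fin.castSucc_ne_last k)]

theorem realC_cos2 : Real.cos (ang 2) = √2 / 2 ∧ Real.sin (ang 2) = √2 / 2 := by
  unfold ang
  rw [if_neg (by norm_num)]
  exact ⟨Real.cos_pi_div_four, Real.sin_pi_div_four⟩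

/-- The gate `T` in the real embedding. -/
theorem realC_T (v : RSt (n + 1)) {i : ℕ} (hi : i < n) (x : Fin (n + 1) → Bool) :
    refl 1 n (czg i n (refl 1 n (czg i n v))) x =
      if x ⟨i, by omega⟩ then
        √2 / 2 * v x - √2 / 2 * ((if x (Fin.last n) then -1 else 1) *
          v (Function.update x (Fin.last n) (!x (Fin.last n))))
      else v x := by
  have hi' : i < n + 1 := by omega
  have hn' : n < n + 1 := by omega
  have hne : (⟨i, hi'⟩ : Fin (n + 1)) ≠ ⟨n, hn'⟩ := by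
    intro h
    have := congrArg Fin.val h
    simp only at this
    omega
  have hl : Fin.last n = ⟨n, hn'⟩ := rfl
  have hc : Real.cos (ang 1) ^ 2 - Real.sin (ang 1) ^ 2 = √2 / 2 := by
    unfold ang
    rw [if_pos rfl, ← Real.cos_two_mul', ← Real.cos_pi_div_four]
    congr 1
    ring
  have hs : 2 * Real.sin (ang 1) * Real.cos (ang 1) = √2 / 2 := by
    unfold ang
    rw [if_pos rfl, ← Real.sin_two_mul, ← Real.sin_pi_div_four]
    congr 1
    ring
  have h1 := Real.sin_sq_add_cos_sq (ang 1)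
  rw [hl]
  simp only [realC_refl one_ne_zero hn', realC_czg hi' hn', Function.update_self,
    Function.update_of_ne hne, Function.update_idem, Bool.not_not, Function.update_eq_self]
  generalize Real.cos (ang 1) = c at *
  generalize Real.sin (ang 1) = t at *
  generalize v (Function.update x ⟨n, hn'⟩ (!x ⟨n, hn'⟩)) = b
  generalize v x = a
  rw [← hc]
  cases h2 : x ⟨i, hi'⟩ <;> cases h3 : x ⟨n, hn'⟩ <;> simp
  · linear_combination a * h1
  · linear_combination a * h1
  · linear_combination (-b) * hs + b * hc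
  · linear_combination (b) * hs - b * hc

theorem realC_cnot (v : RSt n) {i j : ℕ} (hi : i < n) (hj : j < n) (hij : i ≠ j)
    (x : Fin n → Bool) :
    refl 2 j (czg i j (refl 2 j v)) x =
      if x ⟨i, hi⟩ then v (Function.update x ⟨j, hj⟩ (!x ⟨j, hj⟩)) else v x := by
  have hne : (⟨i, hi⟩ : Fin n) ≠ ⟨j, hj⟩ := by
    intro h
    exact hij (congrArg Fin.val h)
  have hs2 : (√2 : ℝ) ^ 2 = 2 := Real.sq_sqrt (by norm_num)
  obtain ⟨c1, c2⟩ := realC_cos2
  simp only [realC_refl two_ne_zero hj, realC_czg hi hj, Function.update_self,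
    Function.update_of_ne hne, Function.update_idem, Bool.not_not, Function.update_eq_self, c1, c2]
  generalize v (Function.update x ⟨j, hj⟩ (!x ⟨j, hj⟩)) = b
  generalize v x = a
  cases h2 : x ⟨i, hi⟩ <;> cases h3 : x ⟨j, hj⟩ <;> simp
  · linear_combination (a / 2) * hs2
  · linear_combination (a / 2) * hs2
  · linear_combination (b / 2) * hs2
  · linear_combination (b / 2) * hs2

theorem realC_emb_update (ψ : QState n) (x : Fin (n + 1) → Bool) {i : ℕ} (hi : i < n) (b : Bool) :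
    emb ψ (Function.update x ⟨i, by omega⟩ b) =
      if x (Fin.last n) then (ψ (Function.update (ini x) ⟨i, hi⟩ b)).im
      else (ψ (Function.update (ini x) ⟨i, hi⟩ b)).re := by
  have e : (⟨i, by omega⟩ : Fin (n + 1)) = (⟨i, hi⟩ : Fin n).castSucc := rfl
  rw [e, emb_apply, last_update, ini_update]

theorem realC_gate0 {i : ℕ} (j : ℕ) (hi : i < n) (ψ : QState n) :
    emb (gateAct 0 i j ψ) = refl 2 i (emb ψ) := by
  funext x
  have hi' : i < n + 1 := by omega
  obtain ⟨c1, c2⟩ := realC_cos2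
  have hs2 : (√2 : ℝ) ^ 2 = 2 := Real.sq_sqrt (by norm_num)
  have hs0 : (√2 : ℝ) ≠ 0 := by positivity
  have hdiv : ∀ a : ℝ, a / √2 = √2 / 2 * a := by
    intro a
    rw [div_eq_iff hs0]
    linear_combination (-a / 2) * hs2
  rw [realC_refl two_ne_zero hi', realC_emb_update ψ x hi, emb_apply, emb_apply, c1, c2]
  have hx : x ⟨i, hi'⟩ = ini x ⟨i, hi⟩ := rfl
  rw [hx]
  unfold gateAct
  rw [dif_pos hi, if_pos rfl]
  cases h2 : ini x ⟨i, hi⟩
  · have e : Function.update (ini x) ⟨i, hi⟩ false = ini x := by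
      rw [← h2, Function.update_eq_self]
    simp only [e, Complex.div_ofReal_im, hdiv, Complex.div_ofReal_re]
    cases x (Fin.last n) <;> simp <;> ring
  · have e : Function.update (ini x) ⟨i, hi⟩ true = ini x := by
      rw [← h2, Function.update_eq_self]
    simp only [e, Complex.div_ofReal_re, Complex.div_ofReal_im, hdiv]
    cases x (Fin.last n) <;> simp <;> ring

theorem realC_gate1 {i : ℕ} (j : ℕ) (hi : i < n) (ψ : QState n) :
    emb (gateAct 1 i j ψ) = refl 1 n (czg i n (refl 1 n (czg i n (emb ψ)))) := by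
  funext x
  have hi' : i < n + 1 := by omega
  rw [realC_T (emb ψ) hi x]
  have hx : x ⟨i, hi'⟩ = ini x ⟨i, hi⟩ := rfl
  rw [hx, emb_apply, emb_apply, emb_apply, ini_update_last, Function.update_self]
  unfold gateAct
  rw [dif_pos hi, if_neg one_ne_zero, if_pos rfl]
  have hexp : Complex.exp (Complex.I * (Real.pi / 4 : ℝ)) = (√2 / 2 : ℝ) + (√2 / 2 : ℝ) * Complex.I := by
    rw [mul_comm, Complex.exp_mul_I, ← Complex.ofReal_cos, ← Complex.ofReal_sin,
      Real.cos_pi_div_four, Real.sin_pi_div_four]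
  cases h2 : ini x ⟨i, hi⟩
  · cases x (Fin.last n) <;> simp
  · rw [hexp]
    cases x (Fin.last n) <;> simp

theorem realC_gate2 {i j : ℕ} {kind : ℕ} (h0 : kind ≠ 0) (h1 : kind ≠ 1) (hi : i < n) (hj : j < n)
    (hij : i ≠ j) (ψ : QState n) :
    emb (gateAct kind i j ψ) = refl 2 j (czg i j (refl 2 j (emb ψ))) := by
  funext x
  have hi' : i < n + 1 := by omega
  have hj' : j < n + 1 := by omega
  rw [realC_cnot (emb ψ) hi' hj' hij x, realC_emb_update ψ x hj, emb_apply, emb_apply]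
  have hx : x ⟨i, hi'⟩ = ini x ⟨i, hi⟩ := rfl
  have hy : x ⟨j, hj'⟩ = ini x ⟨j, hj⟩ := rfl
  rw [hx, hy]
  unfold gateAct
  rw [dif_pos hi, if_neg h0, if_neg h1, dif_pos hj, if_neg hij]
  cases h2 : ini x ⟨i, hi⟩ <;> simp

end embed

theorem emb_gateAct {n : ℕ} (kind i j : ℕ) (ψ : QState n) :
    emb (gateAct kind i j ψ) = runR (comp n kind i j) (emb ψ) := by
  by_cases hi : i < n
  · have hi' : i < n + 1 := by omega
    have hn' : n < n + 1 := by omega
    unfold comp
    rw [if_pos hi]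
    by_cases h0 : kind = 0
    · rw [if_pos h0, h0, realC_gate0 j hi]
      simp only [rc_runR_cons, rc_runR_nil, rndAct, realC_refl0, realC_czg_czg hi' hn']
    · rw [if_neg h0]
      by_cases h1 : kind = 1
      · rw [if_pos h1, h1, realC_gate1 j hi]
        simp only [rc_runR_cons, rc_runR_nil, rndAct, realC_refl0, realC_czg_czg hi' hn']
      · rw [if_neg h1]
        by_cases hj : j < n
        · have hj' : j < n + 1 := by omega
          by_cases hij : i = j
          · rw [if_neg (fun h => h.2 hij), rc_runR_nil]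
            unfold gateAct
            rw [dif_pos hi, if_neg h0, if_neg h1, dif_pos hj, if_pos hij]
          · rw [if_pos ⟨hj, hij⟩, realC_gate2 h0 h1 hi hj hij]
            simp only [rc_runR_cons, rc_runR_nil, rndAct, realC_refl0, realC_czg_czg hi' hj']
        · rw [if_neg (fun h => hj h.1), rc_runR_nil]
          unfold gateAct
          rw [dif_pos hi, if_neg h0, if_neg h1, dif_neg hj]
  · unfold comp gateAct
    rw [if_neg hi, rc_runR_nil, dif_neg hi]

theorem emb_runCircuit (z : List Bool) (ψ : QState (cQubits z)) :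
    emb (runCircuit z ψ) = runR (rnds z) (emb ψ) := by
  unfold runCircuit rnds
  generalize List.range (((blocks z).length - 2) / 3) = L
  induction L generalizing ψ with
  | nil => rfl
  | cons t L ih =>
    rw [List.foldl_cons, List.flatMap_cons, rc_runR_append, ← emb_gateAct, ih]

theorem exists_emb {n : ℕ} (φ : RSt (n + 1)) : ∃ ψ : QState n, emb ψ = φ := by
  refine ⟨fun y => ⟨φ (Fin.snoc (α := fun _ => Bool) y false),
    φ (Fin.snoc (α := fun _ => Bool) y true)⟩, ?_⟩
  funext x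
  rw [emb_apply]
  have e : ∀ b, x (Fin.last n) = b → Fin.snoc (α := fun _ => Bool) (ini x) b = x := by
    intro b hb
    rw [← hb]
    exact Fin.snoc_init_self x
  cases h : x (Fin.last n)
  · simp only [Bool.false_eq_true, if_false]
    rw [e false h]
  · simp only [if_true]
    rw [e true h]

theorem nrm2_emb {n : ℕ} (ψ : QState n) : nrm2 (emb ψ) = ∑ x, ‖ψ x‖ ^ 2 := by
  unfold nrm2 ip
  rw [← Equiv.sum_comp (Fin.snocEquiv (fun _ : Fin (n + 1) => Bool)), Fintype.sum_prod_type]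
  rw [Fintype.sum_bool, ← Finset.sum_add_distrib]
  refine Finset.sum_congr rfl fun y _ => ?_
  have e : ∀ b : Bool, emb ψ (Fin.snocEquiv (fun _ : Fin (n + 1) => Bool) (b, y)) =
      if b then (ψ y).im else (ψ y).re := by
    intro b
    rw [emb_apply]
    have h1 : Fin.snocEquiv (fun _ : Fin (n + 1) => Bool) (b, y) (Fin.last n) = b := by
      simp only [Fin.snocEquiv, Equiv.coe_fn_mk, Fin.snoc_last]
    have h2 : ini (Fin.snocEquiv (fun _ : Fin (n + 1) => Bool) (b, y)) = y := by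
      funext k
      simp [ini, Fin.snocEquiv]
    rw [h1, h2]
  rw [e, e, Complex.sq_norm, Complex.normSq_apply]
  simp only [↓reduceIte, Bool.false_eq_true]
  ring

theorem validIn_emb {n : ℕ} (m : ℕ) (ψ : QState n) :
    ValidIn m (emb ψ) ↔ ∀ x (i : Fin n), m ≤ (i : ℕ) → x i = true → ψ x = 0 := by
  unfold ValidIn
  constructor
  · intro h y i hi hy
    have h1 := h i hi (by have := i.2; omega)
    have hi' : (i : ℕ) < n + 1 := by have := i.2; omega
    have key : ∀ b : Bool, (if b then (ψ y).im else (ψ y).re) = 0 := by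
      intro b
      have h2 := congrFun h1 (Fin.snoc (α := fun _ => Bool) y b)
      have e2 : ini (Fin.snoc (α := fun _ => Bool) y b) = y := by
        funext k
        simp [ini]
      have e1 : (Fin.snoc (α := fun _ => Bool) y b : Fin (n + 1) → Bool) ⟨(i : ℕ), hi'⟩ = true := by
        have e3 : (Fin.snoc (α := fun _ => Bool) y b : Fin (n + 1) → Bool) ⟨(i : ℕ), hi'⟩
          = ini (Fin.snoc (α := fun _ => Bool) y b) i := rfl
        rw [e3, e2, hy]
      rw [realC_one hi', if_pos e1, emb_apply, e2, Fin.snoc_last] at h2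
      exact h2
    have k1 := key true
    have k2 := key false
    simp only [if_true, Bool.false_eq_true, if_false] at k1 k2
    exact Complex.ext k2 k1
  · intro h i hi hin
    have hi' : i < n + 1 := by omega
    have hin' : i < n := by omega
    funext x
    rw [realC_one hi']
    split_ifs with hx
    · rw [emb_apply, h (ini x) ⟨i, hin'⟩ hi hx]
      simp only [Complex.zero_im, Complex.zero_re, ite_self, Pi.zero_apply]
    · rfl

theorem realC_one_emb {n : ℕ} (hn : 0 < n) (φ : QState n) :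
    one 0 (emb φ) = emb (fun y => if y ⟨0, hn⟩ then φ y else 0) := by
  funext x
  have h0 : 0 < n + 1 := by omega
  rw [realC_one h0, emb_apply, emb_apply]
  have hx : x ⟨0, h0⟩ = ini x ⟨0, hn⟩ := rfl
  rw [hx]
  cases ini x ⟨0, hn⟩ <;> simp

theorem accProb_eq (z : List Bool) (ψ : QState (cQubits z)) :
    accProb z ψ = nrm2 (one 0 (runR (rnds z) (emb ψ))) := by
  rw [← emb_runCircuit, realC_one_emb (show 0 < cQubits z from Nat.succ_pos _), nrm2_emb]
  unfold accProb
  refine Finset.sum_congr rfl fun x _ => ?_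
  split_ifs <;> simp

/-! ### norms -/

section norms

variable {n : ℕ}

theorem realC_nrm2_sum (v : RSt n) : nrm2 v = ∑ x, v x ^ 2 := by
  unfold nrm2 ip
  exact Finset.sum_congr rfl fun x _ => by ring

theorem realC_nrm2_czg {f s : ℕ} (hf : f < n) (hs : s < n) (v : RSt n) :
    nrm2 (czg f s v) = nrm2 v := by
  rw [realC_nrm2_sum, realC_nrm2_sum]
  refine Finset.sum_congr rfl fun x _ => ?_
  rw [realC_czg hf hs]
  split_ifs <;> ring

/-- flipping a bit -/
def rcFlipE (i : Fin n) : (Fin n → Bool) ≃ (Fin n → Bool) where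
  toFun x := Function.update x i (!x i)
  invFun x := Function.update x i (!x i)
  left_inv x := by simp
  right_inv x := by simp

theorem flipE_apply (i : Fin n) (x : Fin n → Bool) :
    rcFlipE i x = Function.update x i (!x i) := rfl

theorem realC_nrm2_refl {a q : ℕ} (hq : q < n) (v : RSt n) : nrm2 (refl a q v) = nrm2 v := by
  by_cases ha : a = 0
  · rw [ha, realC_refl0]
  · rw [realC_nrm2_sum, realC_nrm2_sum]
    have hsum : ∀ g : (Fin n → Bool) → ℝ, ∑ x, g (rcFlipE ⟨q, hq⟩ x) = ∑ x, g x := fun g =>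
      Equiv.sum_comp (rcFlipE ⟨q, hq⟩) g
    have h1 := Real.sin_sq_add_cos_sq (ang a)
    generalize hc : Real.cos (ang a) = c at *
    generalize hs : Real.sin (ang a) = t at *
    have e : ∀ x, refl a q v x ^ 2 = c ^ 2 * v x ^ 2 + t ^ 2 * v (rcFlipE ⟨q, hq⟩ x) ^ 2 +
        2 * c * t * ((if x ⟨q, hq⟩ then -1 else 1) * v x * v (rcFlipE ⟨q, hq⟩ x)) := by
      intro x
      rw [realC_refl ha hq, hc, hs, flipE_apply]
      cases x ⟨q, hq⟩ <;> simp <;> ring
    have hcross : ∑ x, ((if x ⟨q, hq⟩ then -1 else 1) * v x * v (rcFlipE ⟨q, hq⟩ x)) = 0 := by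
      have h2 := hsum (fun x => (if x ⟨q, hq⟩ then -1 else 1) * v x * v (rcFlipE ⟨q, hq⟩ x))
      have h3 : ∑ x, ((if (rcFlipE ⟨q, hq⟩ x) ⟨q, hq⟩ then (-1 : ℝ) else 1) * v (rcFlipE ⟨q, hq⟩ x) *
          v (rcFlipE ⟨q, hq⟩ (rcFlipE ⟨q, hq⟩ x))) =
          -∑ x, ((if x ⟨q, hq⟩ then -1 else 1) * v x * v (rcFlipE ⟨q, hq⟩ x)) := by
        rw [← Finset.sum_neg_distrib]
        refine Finset.sum_congr rfl fun x _ => ?_
        have e1 : rcFlipE ⟨q, hq⟩ (rcFlipE ⟨q, hq⟩ x) = x := (rcFlipE ⟨q, hq⟩).left_inv x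
        rw [e1]
        have e2 : (rcFlipE ⟨q, hq⟩ x) ⟨q, hq⟩ = !x ⟨q, hq⟩ := by
          rw [flipE_apply, Function.update_self]
        rw [e2]
        cases x ⟨q, hq⟩ <;> simp <;> ring
      rw [h3] at h2
      linarith only [h2]
    rw [Finset.sum_congr rfl fun x _ => e x, Finset.sum_add_distrib, Finset.sum_add_distrib,
      ← Finset.mul_sum, ← Finset.mul_sum, ← Finset.mul_sum, hcross, hsum (fun x => v x ^ 2)]
    linear_combination (∑ x, v x ^ 2) * h1

end norms

/-- real rounds preserve the norm -/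
theorem rc_nrm2_runR {n : ℕ} (rs : List Rnd) (hok : ∀ r ∈ rs, r.Ok n) (v : RSt n) :
    nrm2 (runR rs v) = nrm2 v := by
  induction rs generalizing v with
  | nil => rfl
  | cons r rs ih =>
    obtain ⟨h1, h2, h3, -⟩ := hok r (List.mem_cons_self)
    rw [rc_runR_cons, ih (fun r' hr' => hok r' (List.mem_cons_of_mem _ hr'))]
    unfold rndAct
    rw [realC_nrm2_czg h2 h3, realC_nrm2_refl h1]

theorem nrm2_split {n : ℕ} (i : ℕ) (hi : i < n) (v : RSt n) :
    nrm2 (one i v) + nrm2 (zer i v) = nrm2 v := by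
  rw [realC_nrm2_sum, realC_nrm2_sum, realC_nrm2_sum, ← Finset.sum_add_distrib]
  refine Finset.sum_congr rfl fun x _ => ?_
  rw [realC_one hi, realC_zer hi]
  split_ifs <;> ring

/-- yes instances -/
theorem yes_real (z : List Bool) (h : ∃ ψ, IsInput z ψ ∧ 2 / 3 ≤ accProb z ψ) :
    ∃ φ : RSt (cQubits z + 1), nrm2 φ = 1 ∧ ValidIn (cWitness z) φ ∧
      nrm2 (zer 0 (runR (rnds z) φ)) ≤ 1 / 3 := by
  obtain ⟨ψ, ⟨h1, h2⟩, h3⟩ := h
  refine ⟨emb ψ, by rw [nrm2_emb, h1], (validIn_emb _ ψ).2 h2, ?_⟩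
  rw [accProb_eq] at h3
  have h4 := nrm2_split 0 (Nat.succ_pos _) (runR (rnds z) (emb ψ))
  rw [rc_nrm2_runR _ (rnds_ok z), nrm2_emb, h1] at h4
  linarith only [h3, h4]

/-! ### scaling -/

section scaling

variable {n : ℕ}

theorem realC_pau_smul (P i : ℕ) (c : ℝ) (v : RSt n) : pau P i (c • v) = c • pau P i v := by
  unfold pau
  split_ifs
  · rfl
  · rfl
  · funext x
    simp only [Pi.smul_apply, smul_eq_mul]
    ring
  · rfl

theorem realC_czg_smul (f s : ℕ) (c : ℝ) (v : RSt n) : czg f s (c • v) = c • czg f s v := by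
  unfold czg
  rw [realC_pau_smul, realC_pau_smul, realC_pau_smul]
  module

theorem realC_refl_smul (a q : ℕ) (c : ℝ) (v : RSt n) : refl a q (c • v) = c • refl a q v := by
  unfold refl
  rw [realC_pau_smul, realC_pau_smul]
  split_ifs
  · rfl
  · module

theorem realC_runR_smul (rs : List Rnd) (c : ℝ) (v : RSt n) : runR rs (c • v) = c • runR rs v := by
  induction rs generalizing v with
  | nil => rfl
  | cons r rs ih =>
    rw [rc_runR_cons, rc_runR_cons, ← ih]
    unfold rndAct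
    rw [realC_refl_smul, realC_czg_smul]

theorem realC_one_smul (i : ℕ) (c : ℝ) (v : RSt n) : one i (c • v) = c • one i v := by
  unfold one
  rw [realC_pau_smul]
  module

theorem realC_nrm2_smul (c : ℝ) (v : RSt n) : nrm2 (c • v) = c ^ 2 * nrm2 v := by
  rw [realC_nrm2_sum, realC_nrm2_sum, Finset.mul_sum]
  refine Finset.sum_congr rfl fun x _ => ?_
  simp only [Pi.smul_apply, smul_eq_mul]
  ring

theorem realC_nrm2_nonneg (v : RSt n) : 0 ≤ nrm2 v := by
  rw [realC_nrm2_sum]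
  exact Finset.sum_nonneg fun x _ => sq_nonneg _

end scaling

/-- no instances -/
theorem no_real (z : List Bool) (h : ∀ ψ, IsInput z ψ → accProb z ψ ≤ 1 / 3) :
    ∀ φ : RSt (cQubits z + 1), ValidIn (cWitness z) φ →
      2 / 3 * nrm2 φ ≤ nrm2 (zer 0 (runR (rnds z) φ)) := by
  intro φ hφ
  have hsplit := nrm2_split 0 (Nat.succ_pos _) (runR (rnds z) φ)
  rw [rc_nrm2_runR _ (rnds_ok z)] at hsplit
  rcases (realC_nrm2_nonneg φ).eq_or_lt with h0 | h0
  · rw [← h0, mul_zero]
    exact realC_nrm2_nonneg _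
  · obtain ⟨c, hc⟩ : ∃ c, c = (√(nrm2 φ))⁻¹ := ⟨_, rfl⟩
    have hc2 : c ^ 2 * nrm2 φ = 1 := by
      rw [hc, inv_pow, Real.sq_sqrt h0.le, inv_mul_cancel₀ h0.ne']
    obtain ⟨ψ, hψ⟩ := exists_emb (c • φ)
    have hin : IsInput z ψ := by
      refine ⟨?_, (validIn_emb _ ψ).1 ?_⟩
      · rw [← nrm2_emb, hψ, realC_nrm2_smul, hc2]
      · rw [hψ]
        intro i hi hin
        rw [realC_one_smul, hφ i hi hin, smul_zero]
    have h1 := h ψ hin
    rw [accProb_eq, hψ, realC_runR_smul, realC_one_smul, realC_nrm2_smul] at h1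
    have h2 : c ^ 2 * nrm2 (one 0 (runR (rnds z) φ)) ≤ c ^ 2 * (1 / 3 * nrm2 φ) := by
      linarith only [hc2, h1]
    have hcpos : 0 < c ^ 2 := by
      rw [hc]
      positivity
    have h3 := le_of_mul_le_mul_left h2 hcpos
    (clear * - hsplit h3; linarith)

end Vale.Agent.P370.H
end
end

section

section

/-!
Removal of one occupied label from an antisymmetric tensor.
-/

set_option linter.unusedSectionVars false

namespace Vale.Agent.P370.Q.ClS

open Finset ComplexConjugate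

variable {ι : Type} [Fintype ι] [DecidableEq ι]

/-- the label `x` is occupied in the support -/
def Occ {N : ℕ} (x : ι) (c : Tens N ι) : Prop := ∀ I, c I ≠ 0 → ∃ i, I i = x

/-- the label `x` is not occupied in the support -/
def Emp {N : ℕ} (x : ι) (c : Tens N ι) : Prop := ∀ I, c I ≠ 0 → ∀ i, I i ≠ x

omit [Fintype ι] [DecidableEq ι] in
theorem anti_swap {N : ℕ} {c : Tens N ι} (hc : IsAnti c) {i j : Fin N} (h : i ≠ j)
    (I : Fin N → ι) : c (fun k => I (Equiv.swap i j k)) = - c I := by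
  rw [hc, Equiv.Perm.sign_swap h]
  simp only [Units.val_neg, Units.val_one, Int.reduceNeg, Int.cast_neg, Int.cast_one, neg_mul, one_mul]

omit [Fintype ι] [DecidableEq ι] in
theorem anti_inj {N : ℕ} {c : Tens N ι} (hc : IsAnti c) {I : Fin N → ι} (hI : c I ≠ 0) :
    Function.Injective I := by
  intro i j hij
  by_contra hne
  have h := anti_swap hc hne I
  have h1 : (fun k => I (Equiv.swap i j k)) = I := by
    funext k
    rcases eq_or_ne k i with rfl | h1
    · rw [Equiv.swap_apply_left, hij]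
    rcases eq_or_ne k j with rfl | h2
    · rw [Equiv.swap_apply_right, hij]
    · rw [Equiv.swap_apply_of_ne_of_ne h1 h2]
  rw [h1] at h
  exact hI (self_eq_neg.1 h)

theorem sign_mul_self {N : ℕ} (π : Equiv.Perm (Fin N)) :
    ((Equiv.Perm.sign π : ℤ) : ℂ) * ((Equiv.Perm.sign π : ℤ) : ℂ) = 1 := by
  rw [← Int.cast_mul, ← Units.val_mul, Int.units_mul_self]
  simp

omit [Fintype ι] [DecidableEq ι] in
theorem update_perm {N : ℕ} (π : Equiv.Perm (Fin N)) (I : Fin N → ι) (i : Fin N) (a : ι) :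
    Function.update (fun k => I (π k)) i a = fun k => Function.update I (π i) a (π k) := by
  funext k
  rcases eq_or_ne k i with rfl | h
  · rw [Function.update_self, Function.update_self]
  · rw [Function.update_of_ne h, Function.update_of_ne (fun h' => h (π.injective h'))]

omit [Fintype ι] [DecidableEq ι] in
/-- two tensors values at permuted places -/
theorem conj_mul_perm {N : ℕ} {c : Tens N ι} (hc : IsAnti c) (π : Equiv.Perm (Fin N))
    (I J : Fin N → ι) : conj (c (fun k => I (π k))) * c (fun k => J (π k)) =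
      conj (c I) * c J := by
  rw [hc, hc, map_mul, map_intCast]
  linear_combination (conj (c I) * c J) * sign_mul_self π

/-- sum of a symmetric function over configurations containing `x` exactly once -/
theorem sum_eq_cons {n : ℕ} (x : ι) (F : (Fin (n + 1) → ι) → ℂ)
    (hF : ∀ (π : Equiv.Perm (Fin (n + 1))) (I : Fin (n + 1) → ι), F (fun i => I (π i)) = F I)
    (hx : ∀ I, F I ≠ 0 → ∃! i, I i = x) :
    ∑ I, F I = (n + 1 : ℂ) * ∑ T : Fin n → ι, F (Fin.cons x T) := by
  have h1 : ∀ I, F I = ∑ i, if I i = x then F I else 0 := by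
    intro I
    by_cases h : F I = 0
    · simp only [h, ite_self, sum_const_zero]
    · obtain ⟨i, hi, hi'⟩ := hx I h
      rw [Finset.sum_eq_single i]
      · rw [if_pos hi]
      · intro j _ hj
        rw [if_neg (fun h => hj (hi' j h))]
      · simp only [mem_univ, not_true_eq_false, ite_eq_right_iff, IsEmpty.forall_iff]
  have h2 : ∀ i : Fin (n + 1), ∑ I : Fin (n + 1) → ι, (if I i = x then F I else 0) =
      ∑ I : Fin (n + 1) → ι, (if I 0 = x then F I else 0) := by
    intro i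
    refine Fintype.sum_equiv ((Equiv.swap 0 i).arrowCongr (Equiv.refl ι)) _ _ ?_
    intro I
    have h3 : (Equiv.swap 0 i).arrowCongr (Equiv.refl ι) I = fun k => I (Equiv.swap 0 i k) := by
      funext k
      simp
    rw [h3, hF]
    simp only [Equiv.swap_apply_left]
  rw [Finset.sum_congr rfl (fun I _ => h1 I), Finset.sum_comm,
    Finset.sum_congr rfl (fun i _ => h2 i), Finset.sum_const, card_univ, Fintype.card_fin,
    nsmul_eq_mul, Nat.cast_add, Nat.cast_one]
  congr 1
  rw [← (Fin.consEquiv (fun _ : Fin (n + 1) => ι)).sum_comp, Fintype.sum_prod_type,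
    Finset.sum_comm]
  refine Finset.sum_congr rfl fun T _ => ?_
  simp only [Fin.consEquiv, Equiv.coe_fn_mk, Fin.cons_zero, sum_ite_eq', mem_univ, ↓reduceIte]

/-- symmetric sums over pairs -/
theorem sum_pairs {N : ℕ} (g : Fin N → Fin N → ℂ) (hg : ∀ i j, i ≠ j → g i j = g j i) :
    ∑ i, ∑ j, (if i = j then 0 else g i j) = 2 * ∑ i, ∑ j ∈ Ioi i, g i j := by
  have h1 : ∀ i, ∑ j, (if i = j then 0 else g i j) = ∑ j ∈ Ioi i, g i j + ∑ j ∈ Iio i, g i j := by
    intro i
    have h2 : ∀ j, (if i = j then 0 else g i j) =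
        (if j ∈ Ioi i then g i j else 0) + (if j ∈ Iio i then g i j else 0) := by
      intro j
      simp only [mem_Ioi, mem_Iio]
      rcases lt_trichotomy i j with h | h | h
      · rw [if_neg h.ne, if_pos h, if_neg h.le.not_gt, add_zero]
      · rw [if_pos h, if_neg h.not_lt, if_neg h.not_gt, add_zero]
      · rw [if_neg h.ne', if_neg h.le.not_gt, if_pos h, zero_add]
    rw [Finset.sum_congr rfl (fun j _ => h2 j), Finset.sum_add_distrib, Finset.sum_ite_mem,
      Finset.sum_ite_mem, Finset.univ_inter, Finset.univ_inter]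
  rw [Finset.sum_congr rfl (fun i _ => h1 i), Finset.sum_add_distrib, two_mul]
  congr 1
  rw [Finset.sum_comm' (s := univ) (t := fun i => Iio i) (t' := univ) (s' := fun j => Ioi j)
    (by simp only [mem_univ, mem_Iio, true_and, mem_Ioi, and_true, implies_true])]
  refine Finset.sum_congr rfl fun i _ => Finset.sum_congr rfl fun j hj => ?_
  exact hg _ _ (mem_Ioi.1 hj).ne'

/-- one-body density -/
noncomputable def dens1 {N : ℕ} (h : ι → ι → ℝ) (c : Tens N ι) (I : Fin N → ι) : ℂ :=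
  ∑ i, ∑ a, (h (I i) a : ℂ) * (conj (c I) * c (Function.update I i a))

/-- two-body density -/
noncomputable def dens2 {N : ℕ} (v : ι → ι → ι → ι → ℝ) (c : Tens N ι) (I : Fin N → ι) : ℂ :=
  ∑ i, ∑ j ∈ Ioi i, ∑ a, ∑ b, (v (I i) a (I j) b : ℂ) *
      (conj (c I) * c (Function.update (Function.update I i a) j b))

theorem oneE_eq {N : ℕ} (h : ι → ι → ℝ) (c : Tens N ι) : oneE h c = (∑ I, dens1 h c I).re := rfl

theorem twoE_eq {N : ℕ} (v : ι → ι → ι → ι → ℝ) (c : Tens N ι) :
    twoE v c = (∑ I, dens2 v c I).re := rfl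

theorem dens1_perm {N : ℕ} (h : ι → ι → ℝ) {c : Tens N ι} (hc : IsAnti c)
    (π : Equiv.Perm (Fin N)) (I : Fin N → ι) : dens1 h c (fun i => I (π i)) = dens1 h c I := by
  unfold dens1
  rw [← Equiv.sum_comp π (fun i => ∑ a, (h (I i) a : ℂ) * (conj (c I) * c (Function.update I i a)))]
  refine Finset.sum_congr rfl fun i _ => Finset.sum_congr rfl fun a _ => ?_
  rw [update_perm, conj_mul_perm hc π I (Function.update I (π i) a)]

theorem dens2_perm {N : ℕ} {v : ι → ι → ι → ι → ℝ} (hv : ∀ p a q b, v p a q b = v q b p a)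
    {c : Tens N ι} (hc : IsAnti c) (π : Equiv.Perm (Fin N)) (I : Fin N → ι) :
    dens2 v c (fun i => I (π i)) = dens2 v c I := by
  have hs : ∀ (I : Fin N → ι) (i j : Fin N), i ≠ j →
      (∑ a, ∑ b, (v (I i) a (I j) b : ℂ) *
        (conj (c I) * c (Function.update (Function.update I i a) j b))) =
      ∑ a, ∑ b, (v (I j) a (I i) b : ℂ) *
        (conj (c I) * c (Function.update (Function.update I j a) i b)) := by
    intro I i j hij
    rw [Finset.sum_comm]
    refine Finset.sum_congr rfl fun a _ => Finset.sum_congr rfl fun b _ => ?_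
    rw [hv, Function.update_comm hij]
  have h1 := sum_pairs (fun i j => ∑ a, ∑ b, (v (I i) a (I j) b : ℂ) *
        (conj (c I) * c (Function.update (Function.update I i a) j b))) (hs I)
  have h2 := sum_pairs (fun i j => ∑ a, ∑ b, (v (I (π i)) a (I (π j)) b : ℂ) *
        (conj (c (fun i => I (π i))) * c (Function.update (Function.update (fun i => I (π i)) i a) j b)))
        (hs (fun i => I (π i)))
  have h3 : (2 : ℂ) ≠ 0 := two_ne_zero
  apply mul_left_cancel₀ h3
  unfold dens2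
  rw [← h1, ← h2, ← Equiv.sum_comp π (fun i => ∑ j, (if i = j then 0 else ∑ a, ∑ b,
    (v (I i) a (I j) b : ℂ) * (conj (c I) * c (Function.update (Function.update I i a) j b))))]
  refine Finset.sum_congr rfl fun i _ => ?_
  rw [← Equiv.sum_comp π (fun j => (if π i = j then 0 else ∑ a, ∑ b,
    (v (I (π i)) a (I j) b : ℂ) *
      (conj (c I) * c (Function.update (Function.update I (π i) a) j b))))]
  refine Finset.sum_congr rfl fun j _ => ?_
  by_cases hij : i = j
  · rw [if_pos hij, if_pos (congrArg π hij)]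
  · rw [if_neg hij, if_neg (fun h => hij (π.injective h))]
    refine Finset.sum_congr rfl fun a _ => Finset.sum_congr rfl fun b _ => ?_
    rw [update_perm, update_perm, conj_mul_perm hc π I
      (Function.update (Function.update I (π i) a) (π j) b)]

/-- removal of the label `x` -/
noncomputable def dn {n : ℕ} (x : ι) (c : Tens (n + 1) ι) : Tens n ι :=
  fun T => (Real.sqrt (n + 1) : ℂ) * c (Fin.cons x T)

theorem sqrt_sq' (n : ℕ) : (Real.sqrt (n + 1) : ℂ) * (Real.sqrt (n + 1) : ℂ) = (n + 1 : ℂ) := by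
  rw [← Complex.ofReal_mul, Real.mul_self_sqrt (by (clear * -; positivity))]
  push_cast
  rfl

omit [Fintype ι] [DecidableEq ι] in
theorem dn_conj_mul {n : ℕ} (x : ι) (c : Tens (n + 1) ι) (S T : Fin n → ι) :
    conj (dn x c S) * dn x c T = (n + 1 : ℂ) * (conj (c (Fin.cons x S)) * c (Fin.cons x T)) := by
  unfold dn
  rw [map_mul, Complex.conj_ofReal]
  linear_combination (conj (c (Fin.cons x S)) * c (Fin.cons x T)) * sqrt_sq' n

omit [Fintype ι] [DecidableEq ι] in
theorem dn_ne {n : ℕ} {x : ι} {c : Tens (n + 1) ι} {T : Fin n → ι} (h : dn x c T ≠ 0) :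
    c (Fin.cons x T) ≠ 0 := fun h' => h (by unfold dn; rw [h', mul_zero])

omit [Fintype ι] [DecidableEq ι] in
theorem dn_anti {n : ℕ} (x : ι) {c : Tens (n + 1) ι} (hc : IsAnti c) : IsAnti (dn x c) := by
  intro π T
  have h1 := hc (Equiv.Perm.decomposeFin.symm (0, π)) (Fin.cons x T)
  have h2 : (fun i => (Fin.cons x T : Fin (n + 1) → ι)
      (Equiv.Perm.decomposeFin.symm (0, π) i)) = Fin.cons x (fun i => T (π i)) := by
    funext i
    refine Fin.cases ?_ (fun j => ?_) i
    · rw [Equiv.Perm.decomposeFin_symm_apply_zero, Fin.cons_zero, Fin.cons_zero]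
    · rw [Equiv.Perm.decomposeFin_symm_apply_succ, Equiv.swap_self, Equiv.refl_apply,
        Fin.cons_succ, Fin.cons_succ]
  rw [h2, Equiv.Perm.decomposeFin.symm_sign, if_pos rfl, one_mul] at h1
  unfold dn
  rw [h1]
  ring

omit [Fintype ι] [DecidableEq ι] in
theorem dn_emp {n : ℕ} (x : ι) {c : Tens (n + 1) ι} (hc : IsAnti c) : Emp x (dn x c) := by
  intro T hT i hi
  have h := anti_inj hc (dn_ne hT) (a₁ := 0) (a₂ := i.succ) (by
    rw [Fin.cons_zero, Fin.cons_succ, hi])
  exact (Fin.succ_ne_zero i) h.symm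

omit [Fintype ι] [DecidableEq ι] in
theorem dn_emp' {n : ℕ} (x : ι) {y : ι} {c : Tens (n + 1) ι} (hc : Emp y c) :
    Emp y (dn x c) := by
  intro T hT i hi
  exact hc _ (dn_ne hT) i.succ (by rw [Fin.cons_succ, hi])

omit [Fintype ι] [DecidableEq ι] in
theorem dn_occ {n : ℕ} {x y : ι} (hxy : x ≠ y) {c : Tens (n + 1) ι} (hc : Occ y c) :
    Occ y (dn x c) := by
  intro T hT
  obtain ⟨i, hi⟩ := hc _ (dn_ne hT)
  revert hi
  refine Fin.cases (fun hi => ?_) (fun j hj => ?_) i
  · rw [Fin.cons_zero] at hi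
    exact absurd hi hxy
  · rw [Fin.cons_succ] at hj
    exact ⟨j, hj⟩

/-- the main sum formula -/
theorem sum_cons {n : ℕ} {x : ι} {c : Tens (n + 1) ι} (hc : IsAnti c) (hx : Occ x c)
    (F : (Fin (n + 1) → ι) → ℂ)
    (hF : ∀ (π : Equiv.Perm (Fin (n + 1))) (I : Fin (n + 1) → ι), F (fun i => I (π i)) = F I)
    (h0 : ∀ I, c I = 0 → F I = 0) :
    ∑ I, F I = (n + 1 : ℂ) * ∑ T : Fin n → ι, F (Fin.cons x T) := by
  refine sum_eq_cons x F hF fun I hI => ?_
  have hcI : c I ≠ 0 := fun h => hI (h0 I h)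
  obtain ⟨i, hi⟩ := hx I hcI
  exact ⟨i, hi, fun j hj => anti_inj hc hcI (hj.trans hi.symm)⟩

theorem nsq_eq {N : ℕ} (c : Tens N ι) : (nsq c : ℂ) = ∑ I, conj (c I) * c I := by
  unfold nsq
  push_cast
  refine Finset.sum_congr rfl fun I _ => ?_
  rw [Complex.conj_mul']

theorem dn_nsq {n : ℕ} {x : ι} {c : Tens (n + 1) ι} (hc : IsAnti c) (hx : Occ x c) :
    nsq (dn x c) = nsq c := by
  have h : (nsq (dn x c) : ℂ) = nsq c := by
    rw [nsq_eq, nsq_eq, sum_cons hc hx (fun I => conj (c I) * c I)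
      (fun π I => conj_mul_perm hc π I I) (fun I hI => by simp only [hI, map_zero, mul_zero]), Finset.mul_sum]
    exact Finset.sum_congr rfl fun T _ => dn_conj_mul x c T T
  exact_mod_cast h

omit [Fintype ι] in
theorem update_cons_zero' {n : ℕ} (x a : ι) (T : Fin n → ι) :
    Function.update (Fin.cons x T : Fin (n + 1) → ι) 0 a = Fin.cons a T :=
  Fin.update_cons_zero _ _ _

omit [Fintype ι] in
theorem update_cons_succ' {n : ℕ} (x a : ι) (T : Fin n → ι) (i : Fin n) :
    Function.update (Fin.cons x T : Fin (n + 1) → ι) i.succ a =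
      Fin.cons x (Function.update T i a) :=
  (Fin.cons_update _ _ _ _).symm

/-- the removed particle must stay where it is -/
theorem cons_zero_of_ne {n : ℕ} {x a : ι} {c : Tens (n + 1) ι} (hc : IsAnti c) (hx : Occ x c)
    (h : a ≠ x) (T : Fin n → ι) : conj (c (Fin.cons x T)) * c (Fin.cons a T) = 0 := by
  by_contra hne
  have h1 : c (Fin.cons x T) ≠ 0 := by
    intro h'
    exact hne (by rw [h', map_zero, zero_mul])
  have h2 : c (Fin.cons a T) ≠ 0 := right_ne_zero_of_mul hne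
  obtain ⟨i, hi⟩ := hx _ h2
  revert hi
  refine Fin.cases (fun hi => ?_) (fun j hj => ?_) i
  · rw [Fin.cons_zero] at hi
    exact h hi
  · rw [Fin.cons_succ] at hj
    have h3 := anti_inj hc h1 (a₁ := 0) (a₂ := j.succ) (by
      rw [Fin.cons_zero, Fin.cons_succ, hj])
    exact (Fin.succ_ne_zero j) h3.symm

theorem dens1_cons {n : ℕ} (h : ι → ι → ℝ) {x : ι} {c : Tens (n + 1) ι} (hc : IsAnti c)
    (hx : Occ x c) (T : Fin n → ι) : (n + 1 : ℂ) * dens1 h c (Fin.cons x T) =
      (h x x : ℂ) * (conj (dn x c T) * dn x c T) + dens1 h (dn x c) T := by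
  unfold dens1
  rw [Fin.sum_univ_succ, mul_add]
  congr 1
  · rw [Finset.sum_eq_single x]
    · rw [Fin.cons_zero, update_cons_zero', dn_conj_mul]
      ring
    · intro a _ ha
      rw [update_cons_zero', cons_zero_of_ne hc hx ha, mul_zero]
    · simp only [mem_univ, not_true_eq_false, Fin.cons_zero, Fin.update_cons_zero, mul_eq_zero, Complex.ofReal_eq_zero, map_eq_zero, or_self, IsEmpty.forall_iff]
  · rw [Finset.mul_sum]
    refine Finset.sum_congr rfl fun i _ => ?_
    rw [Finset.mul_sum]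
    refine Finset.sum_congr rfl fun a _ => ?_
    rw [Fin.cons_succ, update_cons_succ', dn_conj_mul]
    ring

theorem dn_oneE {n : ℕ} (h : ι → ι → ℝ) {x : ι} {c : Tens (n + 1) ι} (hc : IsAnti c)
    (hx : Occ x c) : oneE h c = h x x * nsq (dn x c) + oneE h (dn x c) := by
  rw [oneE_eq, oneE_eq, sum_cons hc hx (dens1 h c) (dens1_perm h hc) ?_, Finset.mul_sum,
    Finset.sum_congr rfl (fun T _ => dens1_cons h hc hx T), Finset.sum_add_distrib,
    ← Finset.mul_sum, ← nsq_eq, Complex.add_re, ← Complex.ofReal_mul, Complex.ofReal_re]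
  intro I hI
  unfold dens1
  simp only [hI, map_zero, zero_mul, mul_zero, sum_const_zero]

theorem cons_swap {n : ℕ} {c : Tens (n + 1) ι} (hc : IsAnti c) (x a : ι) (T : Fin n → ι)
    (j : Fin n) : c (Fin.cons a (Function.update T j x)) =
      - c (Fin.cons x (Function.update T j a)) := by
  have h := anti_swap hc (Fin.succ_ne_zero j).symm (Fin.cons x (Function.update T j a))
  rw [← h]
  congr 1
  funext k
  refine Fin.cases ?_ (fun m => ?_) k
  · rw [Equiv.swap_apply_left, Fin.cons_zero, Fin.cons_succ, Function.update_self]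
  · rcases eq_or_ne m j with rfl | hm
    · rw [Equiv.swap_apply_right, Fin.cons_zero, Fin.cons_succ, Function.update_self]
    · rw [Equiv.swap_apply_of_ne_of_ne (Fin.succ_ne_zero m)
        (fun h => hm (Fin.succ_injective n h)), Fin.cons_succ, Fin.cons_succ,
        Function.update_of_ne hm, Function.update_of_ne hm]

theorem cons_self {n : ℕ} {c : Tens (n + 1) ι} (hc : IsAnti c) (x : ι) (T : Fin n → ι)
    (j : Fin n) : c (Fin.cons x (Function.update T j x)) = 0 :=
  self_eq_neg.1 (cons_swap hc x x T j)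

theorem cons_zero_of_ne2 {n : ℕ} {x a b : ι} {c : Tens (n + 1) ι} (hc : IsAnti c)
    (hx : Occ x c) (ha : a ≠ x) (hb : b ≠ x) (T : Fin n → ι) (j : Fin n) :
    conj (c (Fin.cons x T)) * c (Fin.cons a (Function.update T j b)) = 0 := by
  by_contra hne
  have h1 : c (Fin.cons x T) ≠ 0 := by
    intro h'
    exact hne (by rw [h', map_zero, zero_mul])
  have h2 : c (Fin.cons a (Function.update T j b)) ≠ 0 := right_ne_zero_of_mul hne
  obtain ⟨i, hi⟩ := hx _ h2
  revert hi
  refine Fin.cases (fun hi => ?_) (fun m hm => ?_) i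
  · rw [Fin.cons_zero] at hi
    exact ha hi
  · rw [Fin.cons_succ] at hm
    rcases eq_or_ne m j with rfl | hmj
    · rw [Function.update_self] at hm
      exact hb hm
    · rw [Function.update_of_ne hmj] at hm
      have h3 := anti_inj hc h1 (a₁ := 0) (a₂ := m.succ) (by
        rw [Fin.cons_zero, Fin.cons_succ, hm])
      exact (Fin.succ_ne_zero m) h3.symm

/-- interaction with the removed particle -/
def ker (v : ι → ι → ι → ι → ℝ) (x a b : ι) : ℝ := v a b x x - v a x x b

theorem pair_cons {n : ℕ} {v : ι → ι → ι → ι → ℝ} (hv : ∀ p a q b, v p a q b = v q b p a)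
    {x : ι} {c : Tens (n + 1) ι} (hc : IsAnti c) (hx : Occ x c) (T : Fin n → ι) (j : Fin n) :
    ∑ a, ∑ b, (v x a (T j) b : ℂ) *
      (conj (c (Fin.cons x T)) * c (Fin.cons a (Function.update T j b))) =
    ∑ b, (ker v x (T j) b : ℂ) *
      (conj (c (Fin.cons x T)) * c (Fin.cons x (Function.update T j b))) := by
  have h1 : ∀ a, ∑ b, (v x a (T j) b : ℂ) *
      (conj (c (Fin.cons x T)) * c (Fin.cons a (Function.update T j b))) =
      (if a = x then ∑ b, (v x x (T j) b : ℂ) *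
        (conj (c (Fin.cons x T)) * c (Fin.cons x (Function.update T j b))) else 0) -
      (v x a (T j) x : ℂ) *
        (conj (c (Fin.cons x T)) * c (Fin.cons x (Function.update T j a))) := by
    intro a
    by_cases ha : a = x
    · subst ha
      rw [if_pos rfl, cons_self hc, mul_zero, mul_zero, sub_zero]
    · rw [if_neg ha, zero_sub, Finset.sum_eq_single x]
      · rw [cons_swap hc]
        ring
      · intro b _ hb
        rw [cons_zero_of_ne2 hc hx ha hb, mul_zero]
      · simp only [mem_univ, not_true_eq_false, Fin.cons_update, mul_eq_zero, Complex.ofReal_eq_zero, map_eq_zero, IsEmpty.forall_iff]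
  rw [Finset.sum_congr rfl (fun a _ => h1 a), Finset.sum_sub_distrib, Finset.sum_ite_eq',
    if_pos (mem_univ x), ← Finset.sum_sub_distrib]
  refine Finset.sum_congr rfl fun b _ => ?_
  unfold ker
  rw [hv x x (T j) b, hv x b (T j) x]
  push_cast
  ring

theorem dens2_cons {n : ℕ} {v : ι → ι → ι → ι → ℝ} (hv : ∀ p a q b, v p a q b = v q b p a)
    {x : ι} {c : Tens (n + 1) ι} (hc : IsAnti c) (hx : Occ x c) (T : Fin n → ι) :
    (n + 1 : ℂ) * dens2 v c (Fin.cons x T) =
      dens1 (ker v x) (dn x c) T + dens2 v (dn x c) T := by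
  unfold dens2
  rw [Fin.sum_univ_succ, mul_add]
  congr 1
  · unfold dens1
    rw [Fin.sum_Ioi_zero, Finset.mul_sum]
    refine Finset.sum_congr rfl fun j _ => ?_
    have h1 := pair_cons hv hc hx T j
    simp only [Fin.cons_zero, Fin.cons_succ, update_cons_zero', update_cons_succ']
    rw [h1, Finset.mul_sum]
    refine Finset.sum_congr rfl fun b _ => ?_
    rw [dn_conj_mul]
    ring
  · rw [Finset.mul_sum]
    refine Finset.sum_congr rfl fun i _ => ?_
    rw [Fin.sum_Ioi_succ, Finset.mul_sum]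
    refine Finset.sum_congr rfl fun j _ => ?_
    rw [Finset.mul_sum]
    refine Finset.sum_congr rfl fun a _ => ?_
    rw [Finset.mul_sum]
    refine Finset.sum_congr rfl fun b _ => ?_
    rw [Fin.cons_succ, Fin.cons_succ, update_cons_succ', update_cons_succ', dn_conj_mul]
    ring

theorem dn_twoE {n : ℕ} {v : ι → ι → ι → ι → ℝ} (hv : ∀ p a q b, v p a q b = v q b p a)
    {x : ι} {c : Tens (n + 1) ι} (hc : IsAnti c) (hx : Occ x c) :
    twoE v c = oneE (ker v x) (dn x c) + twoE v (dn x c) := by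
  rw [oneE_eq, twoE_eq, twoE_eq, sum_cons hc hx (dens2 v c) (dens2_perm hv hc) ?_,
    Finset.mul_sum, Finset.sum_congr rfl (fun T _ => dens2_cons hv hc hx T),
    Finset.sum_add_distrib, Complex.add_re]
  intro I hI
  unfold dens2
  simp only [hI, map_zero, zero_mul, mul_zero, sum_const_zero]

theorem oneE_add {N : ℕ} (h h' : ι → ι → ℝ) (c : Tens N ι) :
    oneE (fun a b => h a b + h' a b) c = oneE h c + oneE h' c := by
  rw [oneE_eq, oneE_eq, oneE_eq, ← Complex.add_re, ← Finset.sum_add_distrib]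
  congr 1
  refine Finset.sum_congr rfl fun I _ => ?_
  unfold dens1
  rw [← Finset.sum_add_distrib]
  refine Finset.sum_congr rfl fun i _ => ?_
  rw [← Finset.sum_add_distrib]
  refine Finset.sum_congr rfl fun a _ => ?_
  push_cast
  ring

/-- one step -/
theorem step {n : ℕ} (h : ι → ι → ℝ) {v : ι → ι → ι → ι → ℝ}
    (hv : ∀ p a q b, v p a q b = v q b p a) {x : ι} {c : Tens (n + 1) ι} (hc : IsAnti c)
    (hx : Occ x c) : oneE h c + twoE v c = h x x * nsq (dn x c) +
      (oneE (fun a b => h a b + ker v x a b) (dn x c) + twoE v (dn x c)) := by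
  rw [dn_oneE h hc hx, dn_twoE hv hc hx, oneE_add]
  ring

/-- energy of the labels in `S` -/
noncomputable def cst (h : ι → ι → ℝ) (v : ι → ι → ι → ι → ℝ) (S : Finset ι) : ℝ :=
  ∑ x ∈ S, h x x + (∑ x ∈ S, ∑ y ∈ S, ker v x y y) / 2

theorem ker_self (v : ι → ι → ι → ι → ℝ) (x : ι) : ker v x x x = 0 := sub_self _

theorem ker_symm {v : ι → ι → ι → ι → ℝ} (hv : ∀ p a q b, v p a q b = v q b p a) (x y : ι) :
    ker v x y y = ker v y x x := by
  unfold ker
  rw [hv y y x x, hv y x x y]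

theorem cst_insert (h : ι → ι → ℝ) {v : ι → ι → ι → ι → ℝ}
    (hv : ∀ p a q b, v p a q b = v q b p a) {S : Finset ι} {x : ι} (hx : x ∉ S) :
    cst h v (insert x S) = h x x + cst (fun a b => h a b + ker v x a b) v S := by
  unfold cst
  rw [Finset.sum_insert hx, Finset.sum_insert hx, Finset.sum_insert hx, ker_self, zero_add,
    Finset.sum_add_distrib]
  have h1 : ∑ y ∈ S, ∑ z ∈ insert x S, ker v y z z =
      ∑ y ∈ S, ker v x y y + ∑ y ∈ S, ∑ z ∈ S, ker v y z z := by
    rw [← Finset.sum_add_distrib]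
    refine Finset.sum_congr rfl fun y _ => ?_
    rw [Finset.sum_insert hx, ker_symm hv]
  rw [h1]
  ring

theorem elim (S : Finset ι) {v : ι → ι → ι → ι → ℝ} (hv : ∀ p a q b, v p a q b = v q b p a)
    {K : ℕ} : ∀ {N : ℕ} (_ : N = S.card + K) (h : ι → ι → ℝ) (c : Tens N ι) (_ : IsAnti c)
      (_ : ∀ x ∈ S, Occ x c), ∃ d : Tens K ι, IsAnti d ∧ (∀ x ∈ S, Emp x d) ∧
        (∀ x, Emp x c → Emp x d) ∧ nsq d = nsq c ∧
        oneE h c + twoE v c = cst h v S * nsq d +
          (oneE (fun a b => h a b + ∑ x ∈ S, ker v x a b) d + twoE v d) := by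
  induction S using Finset.induction_on with
  | empty =>
    intro N hN h c hc _
    rw [card_empty, zero_add] at hN
    subst hN
    refine ⟨c, hc, by simp only [notMem_empty, IsEmpty.forall_iff, implies_true], fun x hx => hx, rfl, ?_⟩
    unfold cst
    simp only [sum_empty, sum_const_zero, zero_div, add_zero, zero_mul, zero_add]
  | insert x S hxS ih =>
    intro N hN h c hc hS
    obtain rfl : N = (S.card + K) + 1 := by
      rw [hN, card_insert_of_notMem hxS]
      omega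
    have hx := hS x (mem_insert_self x S)
    obtain ⟨d, hd, hd1, hd2, hd3, hd4⟩ := ih rfl (fun a b => h a b + ker v x a b) (dn x c)
      (dn_anti x hc) (fun y hy => dn_occ (fun h => hxS (by rw [h]; exact hy))
        (hS y (mem_insert_of_mem hy)))
    refine ⟨d, hd, ?_, fun y hy => hd2 y (dn_emp' x hy), hd3.trans (dn_nsq hc hx), ?_⟩
    · intro y hy
      rcases mem_insert.1 hy with rfl | hy
      · exact hd2 _ (dn_emp _ hc)
      · exact hd1 y hy
    · rw [step h hv hc hx, hd4, ← hd3, cst_insert h hv hxS]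
      have h1 : (fun a b => h a b + ∑ y ∈ insert x S, ker v y a b) =
          fun a b => h a b + ker v x a b + ∑ y ∈ S, ker v y a b := by
        funext a b
        rw [Finset.sum_insert hxS, add_assoc]
      rw [h1]
      ring

/-- adding the label `x` -/
noncomputable def up {n : ℕ} (x : ι) (d : Tens n ι) : Tens (n + 1) ι :=
  fun I => ((n.factorial : ℂ) * (Real.sqrt (n + 1) : ℂ))⁻¹ *
    ∑ π : Equiv.Perm (Fin (n + 1)), ((Equiv.Perm.sign π : ℤ) : ℂ) *
      (if I (π 0) = x then d (fun i => I (π i.succ)) else 0)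

theorem up_anti {n : ℕ} (x : ι) (d : Tens n ι) : IsAnti (up x d) := by
  intro σ I
  unfold up
  rw [mul_left_comm]
  congr 1
  conv_rhs => rw [← Equiv.sum_comp (Equiv.mulLeft σ), Finset.mul_sum]
  refine Finset.sum_congr rfl fun π _ => ?_
  rw [Equiv.coe_mulLeft, Equiv.Perm.sign_mul, Units.val_mul, Int.cast_mul]
  have key : ∀ s t A : ℂ, s * s = 1 → t * A = s * (s * t * A) := by
    intro s t A h
    linear_combination (-(t * A)) * h
  exact key _ _ _ (sign_mul_self σ)

theorem up_ne {n : ℕ} {x : ι} {d : Tens n ι} {I : Fin (n + 1) → ι} (h : up x d I ≠ 0) :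
    ∃ π : Equiv.Perm (Fin (n + 1)), I (π 0) = x ∧ d (fun i => I (π i.succ)) ≠ 0 := by
  by_contra hne
  push Not at hne
  apply h
  unfold up
  rw [Finset.sum_eq_zero, mul_zero]
  intro π _
  by_cases h0 : I (π 0) = x
  · rw [if_pos h0, hne π h0, mul_zero]
  · rw [if_neg h0, mul_zero]

theorem up_occ {n : ℕ} (x : ι) (d : Tens n ι) : Occ x (up x d) := by
  intro I hI
  obtain ⟨π, hπ, -⟩ := up_ne hI
  exact ⟨_, hπ⟩

theorem up_occ' {n : ℕ} (x : ι) {y : ι} {d : Tens n ι} (hd : Occ y d) : Occ y (up x d) := by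
  intro I hI
  obtain ⟨π, -, hπ⟩ := up_ne hI
  obtain ⟨i, hi⟩ := hd _ hπ
  exact ⟨_, hi⟩

theorem up_emp {n : ℕ} {x y : ι} (hxy : x ≠ y) {d : Tens n ι} (hd : Emp y d) :
    Emp y (up x d) := by
  intro I hI i hi
  obtain ⟨π, hπ0, hπ⟩ := up_ne hI
  obtain ⟨j, rfl⟩ := π.surjective i
  revert hi
  refine Fin.cases (fun hi => ?_) (fun m hm => ?_) j
  · exact hxy (hπ0.symm.trans hi)
  · exact hd _ hπ m hm

theorem dn_up {n : ℕ} {x : ι} {d : Tens n ι} (hd : IsAnti d) (hx : Emp x d) :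
    dn x (up x d) = d := by
  funext T
  by_cases hT : ∃ i, T i = x
  · obtain ⟨i, hi⟩ := hT
    have h1 : d T = 0 := by
      by_contra h
      exact hx T h i hi
    rw [h1]
    by_contra h
    have h3 := anti_inj (up_anti x d) (dn_ne h) (a₁ := 0) (a₂ := i.succ) (by
      rw [Fin.cons_zero, Fin.cons_succ, hi])
    exact (Fin.succ_ne_zero i) h3.symm
  · unfold dn up
    rw [← Equiv.sum_comp Equiv.Perm.decomposeFin.symm, Fintype.sum_prod_type,
      Finset.sum_eq_single 0]
    · have h1 : ∀ ρ : Equiv.Perm (Fin n),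
          ((Equiv.Perm.sign (Equiv.Perm.decomposeFin.symm (0, ρ)) : ℤ) : ℂ) *
          (if (Fin.cons x T : Fin (n + 1) → ι) (Equiv.Perm.decomposeFin.symm (0, ρ) 0) = x then
            d (fun i => (Fin.cons x T : Fin (n + 1) → ι)
              (Equiv.Perm.decomposeFin.symm (0, ρ) i.succ)) else 0) = d T := by
        intro ρ
        rw [Equiv.Perm.decomposeFin_symm_apply_zero, Fin.cons_zero, if_pos rfl,
          Equiv.Perm.decomposeFin.symm_sign, if_pos rfl, one_mul]
        have h2 : (fun i => (Fin.cons x T : Fin (n + 1) → ι)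
              (Equiv.Perm.decomposeFin.symm (0, ρ) i.succ)) = fun i => T (ρ i) := by
          funext i
          rw [Equiv.Perm.decomposeFin_symm_apply_succ, Equiv.swap_self, Equiv.refl_apply,
            Fin.cons_succ]
        rw [h2, hd, ← mul_assoc, sign_mul_self, one_mul]
      rw [Finset.sum_congr rfl (fun ρ _ => h1 ρ), Finset.sum_const, card_univ,
        Fintype.card_perm, Fintype.card_fin, nsmul_eq_mul]
      have h3 : (n.factorial : ℂ) ≠ 0 := Nat.cast_ne_zero.2 n.factorial_ne_zero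
      have h4 : (Real.sqrt (n + 1) : ℂ) ≠ 0 := by
        rw [Ne, Complex.ofReal_eq_zero, Real.sqrt_eq_zero (by (clear * -; positivity))]
        positivity
      field_simp
    · intro p _ hp
      refine Finset.sum_eq_zero fun ρ _ => ?_
      rw [Equiv.Perm.decomposeFin_symm_apply_zero, if_neg, mul_zero]
      obtain ⟨m, rfl⟩ := Fin.exists_succ_eq.2 hp
      rw [Fin.cons_succ]
      exact fun h => hT ⟨m, h⟩
    · simp only [Nat.succ_eq_add_one, mem_univ, not_true_eq_false, Equiv.Perm.decomposeFin.symm_sign, ↓reduceIte, one_mul, Equiv.Perm.decomposeFin_symm_apply_zero, Fin.cons_zero, Equiv.Perm.decomposeFin_symm_apply_succ, Equiv.swap_self, Equiv.refl_apply, Fin.cons_succ, IsEmpty.forall_iff]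

theorem elim' (S : Finset ι) {v : ι → ι → ι → ι → ℝ} (hv : ∀ p a q b, v p a q b = v q b p a)
    {K : ℕ} (d : Tens K ι) (hd : IsAnti d) : ∀ {N : ℕ} (_ : N = S.card + K)
      (_ : ∀ x ∈ S, Emp x d), ∃ c : Tens N ι, IsAnti c ∧ (∀ x ∈ S, Occ x c) ∧
        (∀ x, x ∉ S → Emp x d → Emp x c) ∧ nsq c = nsq d ∧
        ∀ h : ι → ι → ℝ, oneE h c + twoE v c = cst h v S * nsq d +
          (oneE (fun a b => h a b + ∑ x ∈ S, ker v x a b) d + twoE v d) := by
  induction S using Finset.induction_on with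
  | empty =>
    intro N hN _
    rw [card_empty, zero_add] at hN
    subst hN
    refine ⟨d, hd, by simp only [notMem_empty, IsEmpty.forall_iff, implies_true], fun x _ hx => hx, rfl, fun h => ?_⟩
    unfold cst
    simp only [sum_empty, sum_const_zero, zero_div, add_zero, zero_mul, zero_add]
  | insert x S hxS ih =>
    intro N hN hS
    obtain rfl : N = (S.card + K) + 1 := by
      rw [hN, card_insert_of_notMem hxS]
      omega
    obtain ⟨c, hc, hc1, hc2, hc3, hc4⟩ := ih rfl (fun y hy => hS y (mem_insert_of_mem hy))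
    have hxc : Emp x c := hc2 x hxS (hS x (mem_insert_self x S))
    have hdu : dn x (up x c) = c := dn_up hc hxc
    refine ⟨up x c, up_anti x c, ?_, ?_, ?_, fun h => ?_⟩
    · intro y hy
      rcases mem_insert.1 hy with rfl | hy
      · exact up_occ _ c
      · exact up_occ' x (hc1 y hy)
    · intro y hy hyd
      rw [mem_insert, not_or] at hy
      exact up_emp (fun h => hy.1 h.symm) (hc2 y hy.2 hyd)
    · rw [← dn_nsq (up_anti x c) (up_occ x c), hdu, hc3]
    · rw [step h hv (up_anti x c) (up_occ x c), hdu, hc4, hc3, cst_insert h hv hxS]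
      have h1 : (fun a b => h a b + ∑ y ∈ insert x S, ker v y a b) =
          fun a b => h a b + ker v x a b + ∑ y ∈ S, ker v y a b := by
        funext a b
        rw [Finset.sum_insert hxS, add_assoc]
      rw [h1]
      ring

/-! ### restriction to a set of labels -/

section restrict

variable {Y : Type} [Fintype Y] [DecidableEq Y]

theorem sum_restrict {N : ℕ} {j : Y → ι} (hj : Function.Injective j)
    (F : (Fin N → ι) → ℂ) (hF : ∀ I, F I ≠ 0 → ∀ i, I i ∈ Set.range j) :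
    ∑ I, F I = ∑ J : Fin N → Y, F (fun i => j (J i)) := by
  have hinj : Function.Injective (fun (J : Fin N → Y) i => j (J i)) := by
    intro J J' h
    funext i
    exact hj (congrFun h i)
  symm
  rw [← Finset.sum_image (s := univ) (g := fun (J : Fin N → Y) i => j (J i))
    (f := F) (fun J _ J' _ h => hinj h)]
  refine Finset.sum_subset (Finset.subset_univ _) fun I _ hI => ?_
  by_contra h
  apply hI
  choose J hJ using hF I h
  exact mem_image.2 ⟨J, mem_univ _, funext hJ⟩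

theorem sum_restrict1 {j : Y → ι} (hj : Function.Injective j)
    (F : ι → ℂ) (hF : ∀ a, F a ≠ 0 → a ∈ Set.range j) : ∑ a, F a = ∑ b, F (j b) := by
  symm
  rw [← Finset.sum_image (s := univ) (g := j) (f := F) (fun J _ J' _ h => hj h)]
  refine Finset.sum_subset (Finset.subset_univ _) fun a _ ha => ?_
  by_contra h
  apply ha
  obtain ⟨b, hb⟩ := hF a h
  exact mem_image.2 ⟨b, mem_univ _, hb⟩

theorem update_comp {N : ℕ} (j : Y → ι) (J : Fin N → Y) (i : Fin N) (a : Y) :
    Function.update (fun k => j (J k)) i (j a) = fun k => j (Function.update J i a k) := by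
  funext k
  rcases eq_or_ne k i with rfl | h
  · rw [Function.update_self, Function.update_self]
  · rw [Function.update_of_ne h, Function.update_of_ne h]

/-- restriction to labels in the range of `j` -/
def res {N : ℕ} (j : Y → ι) (d : Tens N ι) : Tens N Y := fun J => d (fun i => j (J i))

theorem res_anti {N : ℕ} (j : Y → ι) {d : Tens N ι} (hd : IsAnti d) : IsAnti (res j d) :=
  fun π J => hd π (fun i => j (J i))

theorem res_nsq {N : ℕ} {j : Y → ι} (hj : Function.Injective j) {d : Tens N ι}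
    (hd : ∀ I, d I ≠ 0 → ∀ i, I i ∈ Set.range j) : nsq (res j d) = nsq d := by
  have h : (nsq (res j d) : ℂ) = nsq d := by
    rw [nsq_eq, nsq_eq, sum_restrict hj (fun I => conj (d I) * d I) (fun I hI =>
      hd I (right_ne_zero_of_mul hI))]
    rfl
  exact_mod_cast h

theorem res_oneE {N : ℕ} {j : Y → ι} (hj : Function.Injective j) {d : Tens N ι}
    (hd : ∀ I, d I ≠ 0 → ∀ i, I i ∈ Set.range j) (h : ι → ι → ℝ) :
    oneE h d = oneE (fun a b => h (j a) (j b)) (res j d) := by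
  rw [oneE_eq, oneE_eq, sum_restrict hj (dens1 h d)]
  · congr 1
    refine Finset.sum_congr rfl fun J _ => ?_
    unfold dens1
    refine Finset.sum_congr rfl fun i _ => ?_
    rw [sum_restrict1 hj]
    · refine Finset.sum_congr rfl fun b _ => ?_
      rw [update_comp]
      rfl
    · intro a ha
      have h1 := hd _ (right_ne_zero_of_mul (right_ne_zero_of_mul ha)) i
      rwa [Function.update_self] at h1
  · intro I hI
    refine hd I fun h0 => hI ?_
    unfold dens1
    simp only [h0, map_zero, zero_mul, mul_zero, sum_const_zero]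

theorem res_twoE {N : ℕ} {j : Y → ι} (hj : Function.Injective j) {d : Tens N ι}
    (hd : ∀ I, d I ≠ 0 → ∀ i, I i ∈ Set.range j) (v : ι → ι → ι → ι → ℝ) :
    twoE v d = twoE (fun p a q b => v (j p) (j a) (j q) (j b)) (res j d) := by
  rw [twoE_eq, twoE_eq, sum_restrict hj (dens2 v d)]
  · congr 1
    refine Finset.sum_congr rfl fun J _ => ?_
    unfold dens2
    refine Finset.sum_congr rfl fun i _ => Finset.sum_congr rfl fun m hm => ?_
    have him : i ≠ m := (mem_Ioi.1 hm).ne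
    rw [sum_restrict1 hj]
    · refine Finset.sum_congr rfl fun a _ => ?_
      rw [sum_restrict1 hj]
      · refine Finset.sum_congr rfl fun b _ => ?_
        rw [update_comp, update_comp]
        rfl
      · intro b hb
        have h1 := hd _ (right_ne_zero_of_mul (right_ne_zero_of_mul hb)) m
        rwa [Function.update_self] at h1
    · intro a ha
      obtain ⟨b, -, hb⟩ := Finset.exists_ne_zero_of_sum_ne_zero ha
      have h1 := hd _ (right_ne_zero_of_mul (right_ne_zero_of_mul hb)) i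
      rwa [Function.update_of_ne him, Function.update_self] at h1
  · intro I hI
    refine hd I fun h0 => hI ?_
    unfold dens2
    simp only [h0, map_zero, zero_mul, mul_zero, sum_const_zero]

open Classical in
/-- extension by zero -/
noncomputable def ext {N : ℕ} (j : Y → ι) (d : Tens N Y) : Tens N ι :=
  fun I => if h : ∃ J : Fin N → Y, (fun i => j (J i)) = I then d h.choose else 0

theorem ext_apply {N : ℕ} {j : Y → ι} (hj : Function.Injective j) (d : Tens N Y)
    (J : Fin N → Y) : ext j d (fun i => j (J i)) = d J := by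
  have h : ∃ J' : Fin N → Y, (fun i => j (J' i)) = fun i => j (J i) := ⟨J, rfl⟩
  unfold ext
  rw [dif_pos h]
  congr 1
  funext i
  exact hj (congrFun h.choose_spec i)

theorem ext_ne {N : ℕ} {j : Y → ι} {d : Tens N Y} {I : Fin N → ι} (h : ext j d I ≠ 0) (i : Fin N) :
    I i ∈ Set.range j := by
  unfold ext at h
  by_cases h0 : ∃ J : Fin N → Y, (fun i => j (J i)) = I
  · obtain ⟨J, rfl⟩ := h0
    exact ⟨J i, rfl⟩
  · rw [dif_neg h0] at h
    exact absurd rfl h

theorem res_ext {N : ℕ} {j : Y → ι} (hj : Function.Injective j) (d : Tens N Y) :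
    res j (ext j d) = d := funext fun J => ext_apply hj d J

theorem ext_anti {N : ℕ} {j : Y → ι} (hj : Function.Injective j) {d : Tens N Y}
    (hd : IsAnti d) : IsAnti (ext j d) := by
  intro π I
  by_cases h0 : ∃ J : Fin N → Y, (fun i => j (J i)) = I
  · obtain ⟨J, rfl⟩ := h0
    rw [show ext j d (fun i => j (J i)) = d J from ext_apply hj d J, ← hd]
    exact ext_apply hj d (fun i => J (π i))
  · have h1 : ext j d I = 0 := by
      unfold ext
      rw [dif_neg h0]
    rw [h1, mul_zero]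
    by_contra hne
    apply h0
    choose J hJ using ext_ne hne
    refine ⟨fun i => J (π.symm i), ?_⟩
    funext i
    rw [hJ, Equiv.apply_symm_apply]

end restrict

end Vale.Agent.P370.Q.ClS
end
end

section

section

/-!
Elimination of closed shells (Slater-Condon), from full to open tensors.
-/

set_option linter.unusedSectionVars false
set_option linter.unusedVariables false

namespace Vale.Agent.P370.Q

open MeasureTheory Finset ComplexConjugate

namespace ClS

section cA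

variable {C O : Type} [Fintype C] [DecidableEq C] [Fintype O] [DecidableEq O]

/-- closed spin-orbitals -/
def clo (C O : Type) [Fintype C] [DecidableEq C] [DecidableEq O] : Finset ((C ⊕ O) × Fin 2) :=
  (univ : Finset (C × Fin 2)).map ⟨fun p => (Sum.inl p.1, p.2), fun p q h => by
    simp only [Prod.mk.injEq, Sum.inl.injEq] at h
    exact Prod.ext h.1 h.2⟩

/-- open spin-orbitals -/
def opn (p : O × Fin 2) : (C ⊕ O) × Fin 2 := (Sum.inr p.1, p.2)

theorem opn_inj : Function.Injective (opn : O × Fin 2 → (C ⊕ O) × Fin 2) := by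
  intro p q h
  simp only [opn, Prod.mk.injEq, Sum.inr.injEq] at h
  exact Prod.ext h.1 h.2

theorem card_clo : (clo C O).card = 2 * Fintype.card C := by
  unfold clo
  rw [card_map, card_univ, Fintype.card_prod, Fintype.card_fin, mul_comm]

theorem mem_clo {x : (C ⊕ O) × Fin 2} : x ∈ clo C O ↔ ∃ (a : C) (s : Fin 2), x = (Sum.inl a, s) := by
  unfold clo
  rw [mem_map]
  constructor
  · rintro ⟨p, -, rfl⟩
    exact ⟨p.1, p.2, rfl⟩
  · rintro ⟨a, s, rfl⟩
    exact ⟨(a, s), mem_univ _, rfl⟩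

theorem sum_clo (F : (C ⊕ O) × Fin 2 → ℝ) :
    ∑ x ∈ clo C O, F x = ∑ a : C, ∑ s : Fin 2, F (Sum.inl a, s) := by
  unfold clo
  rw [sum_map, Fintype.sum_prod_type]
  rfl

theorem mem_range_of_emp {K : ℕ} {d : Tens K ((C ⊕ O) × Fin 2)}
    (hd : ∀ x ∈ clo C O, Emp x d) : ∀ I, d I ≠ 0 → ∀ i, I i ∈ Set.range (opn (C := C) (O := O)) := by
  intro I hI i
  rcases hIi : I i with ⟨a | b, s⟩
  · exact absurd hIi (hd (Sum.inl a, s) (mem_clo.2 ⟨a, s, rfl⟩) I hI i)
  · exact ⟨(b, s), rfl⟩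

theorem sum_ker (v : C ⊕ O → C ⊕ O → C ⊕ O → C ⊕ O → ℝ) (p q : C ⊕ O) (s s' : Fin 2) :
    ∑ x ∈ clo C O, ker (spin2 v) x (p, s) (q, s') = if s = s' then
      ∑ c : C, (2 * v p q (Sum.inl c) (Sum.inl c) - v p (Sum.inl c) (Sum.inl c) q) else 0 := by
  rw [sum_clo]
  by_cases h : s = s'
  · subst h
    rw [if_pos rfl]
    refine Finset.sum_congr rfl fun c _ => ?_
    unfold ker spin2
    rw [Fin.sum_univ_two]
    fin_cases s <;> simp <;> ring
  · rw [if_neg h]
    refine Finset.sum_eq_zero fun c _ => Finset.sum_eq_zero fun t _ => ?_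
    unfold ker spin2
    rw [if_neg (fun h' => h h'.1), if_neg (fun h' => h (h'.1.trans h'.2)), sub_zero]

theorem eff (h : C ⊕ O → C ⊕ O → ℝ) (v : C ⊕ O → C ⊕ O → C ⊕ O → C ⊕ O → ℝ) :
    (fun a b : O × Fin 2 => spin1 h (opn a) (opn b) +
      ∑ x ∈ clo C O, ker (spin2 v) x (opn a) (opn b)) = spin1 (closedF h v) := by
  funext a b
  obtain ⟨a, s⟩ := a
  obtain ⟨b, s'⟩ := b
  unfold opn
  rw [sum_ker]
  unfold spin1 closedF
  by_cases h : s = s'
  · simp only [h, ↓reduceIte, sum_sub_distrib]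
  · simp [h]

theorem cst_eq (h : C ⊕ O → C ⊕ O → ℝ) (v : C ⊕ O → C ⊕ O → C ⊕ O → C ⊕ O → ℝ) :
    cst (spin1 h) (spin2 v) (clo C O) = closedC h v := by
  unfold cst closedC
  congr 1
  · rw [sum_clo, Finset.mul_sum]
    refine Finset.sum_congr rfl fun a _ => ?_
    rw [Fin.sum_univ_two]
    unfold spin1
    simp
    ring
  · rw [Finset.sum_comm, sum_clo, Finset.sum_div]
    refine Finset.sum_congr rfl fun a _ => ?_
    rw [Fin.sum_univ_two, sum_ker, sum_ker, if_pos rfl, if_pos rfl]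
    ring

theorem spin2_symm {v : C ⊕ O → C ⊕ O → C ⊕ O → C ⊕ O → ℝ}
    (hv : ∀ p a q b, v p a q b = v q b p a) (p a q b : (C ⊕ O) × Fin 2) :
    spin2 v p a q b = spin2 v q b p a := by
  unfold spin2
  rw [hv p.1]
  exact if_congr and_comm rfl rfl

end cA

end ClS

open ClS in
theorem closed_elim {C O : Type} [Fintype C] [DecidableEq C] [Fintype O] [DecidableEq O]
    {K M : ℕ} (hM : M = 2 * Fintype.card C) (h : C ⊕ O → C ⊕ O → ℝ)
    (v : C ⊕ O → C ⊕ O → C ⊕ O → C ⊕ O → ℝ)
    (hvsym1 : ∀ p a q b, v p a q b = v a p q b) (hvsym2 : ∀ p a q b, v p a q b = v q b p a)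
    (c : Tens (M + K) ((C ⊕ O) × Fin 2)) (hc : IsAnti c) (hg : Good c) :
    ∃ d : Tens K (O × Fin 2), IsAnti d ∧ nsq d = nsq c ∧
      enT h v c = closedC h v * nsq d +
        enT (closedF h v) (fun p a q b : O => v (Sum.inr p) (Sum.inr a) (Sum.inr q) (Sum.inr b))
          d := by
  obtain ⟨d, hd, hd1, -, hd2, hd3⟩ := elim (clo C O) (spin2_symm hvsym2) (K := K)
    (N := M + K) (by rw [card_clo, hM]) (spin1 h) c hc (by
      intro x hx I hI
      obtain ⟨a, s, rfl⟩ := mem_clo.1 hx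
      exact hg I hI a s)
  have hr := mem_range_of_emp hd1
  refine ⟨res opn d, res_anti _ hd, by rw [res_nsq opn_inj hr, hd2], ?_⟩
  unfold enT
  rw [hd3, res_oneE opn_inj hr, res_twoE opn_inj hr, res_nsq opn_inj hr, cst_eq h v, eff]
  rfl

open ClS in
theorem closed_elim' {C O : Type} [Fintype C] [DecidableEq C] [Fintype O] [DecidableEq O]
    {K M : ℕ} (hM : M = 2 * Fintype.card C) (h : C ⊕ O → C ⊕ O → ℝ)
    (v : C ⊕ O → C ⊕ O → C ⊕ O → C ⊕ O → ℝ)
    (hvsym1 : ∀ p a q b, v p a q b = v a p q b) (hvsym2 : ∀ p a q b, v p a q b = v q b p a)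
    (d : Tens K (O × Fin 2)) (hd : IsAnti d) :
    ∃ c : Tens (M + K) ((C ⊕ O) × Fin 2), IsAnti c ∧ Good c ∧ nsq c = nsq d ∧
      enT h v c = closedC h v * nsq d +
        enT (closedF h v) (fun p a q b : O => v (Sum.inr p) (Sum.inr a) (Sum.inr q) (Sum.inr b))
          d := by
  have hr : ∀ I, ext (opn (C := C)) d I ≠ 0 → ∀ i, I i ∈ Set.range (opn (C := C) (O := O)) :=
    fun I hI i => ext_ne hI i
  have hres : res (opn (C := C)) (ext opn d) = d := res_ext opn_inj d
  obtain ⟨c, hc, hc1, -, hc2, hc3⟩ := elim' (clo C O) (spin2_symm hvsym2) (K := K)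
    (ext opn d) (ext_anti opn_inj hd) (N := M + K) (by rw [card_clo, hM]) (by
      intro x hx I hI i hi
      obtain ⟨a, s, rfl⟩ := mem_clo.1 hx
      obtain ⟨b, hb⟩ := hr I hI i
      rw [hi] at hb
      simp [opn] at hb)
  have hn : nsq (ext (opn (C := C)) d) = nsq d := by
    rw [← res_nsq opn_inj hr, hres]
  refine ⟨c, hc, fun I hI a s => hc1 _ (mem_clo.2 ⟨a, s, rfl⟩) I hI, hc2.trans hn, ?_⟩
  unfold enT
  rw [hc3, res_oneE opn_inj hr, res_twoE opn_inj hr, hres, hn, cst_eq h v, eff]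
  rfl

end Vale.Agent.P370.Q
end
end
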