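import Vale.Agent.P370.Bd3.B2
import Vale.Agent.P370.Bd3.B1
import Vale.Agent.Lib.PolyTime.OfTM2

set_option linter.all false

section

section

/-!
Correctness of the calibration: the scan over the grid.
-/

namespace Vale.Agent.P370.Q.Alg

open Finset

theorem aK_real (k : ℕ) : (aK k : ℝ) = (pK k : ℝ) := rfl

theorem pK_pos (k : ℕ) : (0 : ℝ) < pK k := by unfold pK; (clear * -; positivity)

/-- what is needed from the structure theorem -/
def Key (k : ℕ) (κ : ℕ → ℝ) (Eref : ℝ) : Prop :=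
  ∀ s : List ℕ, (∀ i j, i < j → j < pK k → κ (j - i) * (sget k s i j : ℝ) ^ 2 ≤ 16 * pJ k) →
    ∃ E : ℝ, |E - (Eref - pT k * heisMax (coupl κ (sget k s) (K := pK k)))| ≤
        pT k * pJ k / (pK k : ℝ) ^ 8 ∧
      ∀ (c : ℕ) (th : ℤ), (E ≤ th → build k s th ∈ (electronicStructure c).yes) ∧
        ((th : ℝ) + 1 ≤ E → build k s th ∈ (electronicStructure c).no)

section scan

variable {k : ℕ} {κ : ℕ → ℝ} {Eref : ℝ}

end scan

end Vale.Agent.P370.Q.Alg
end
end

section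

section

/-!
Correctness of the calibration: calibrated parameters and the final query.
-/

namespace Vale.Agent.P370.Q.Alg

open Finset

section final

variable {k : ℕ} {κ : ℕ → ℝ} {Eref : ℝ}

theorem pJ_le (k : ℕ) (hk : 10 ≤ k) : pJ k ≤ 1 / 32 := by
  unfold pJ
  have a1 : (1 : ℝ) ≤ (pn k : ℝ) ^ 2 := one_le_pow₀ (by
    have : 1 ≤ pn k := by unfold pn; exact Nat.one_le_two_pow
    exact_mod_cast this)
  have hK := pK_real_ge k hk
  have a2 : (1024 : ℝ) ≤ (pK k : ℝ) ^ 256 := by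
    calc (1024 : ℝ) ≤ pK k := hK
      _ ≤ (pK k : ℝ) ^ 256 := le_self_pow₀ (by linarith only [hK]) (by norm_num)
  rw [div_le_div_iff₀ (by (clear * - a1 hK; positivity)) (by norm_num)]
  nlinarith only [a1, a2]

/-- parameters of the final instance -/
theorem sget_sfin (k : ℕ) (x : ℕ → ℕ) (w : List Bool) (i j : ℕ) (hi : i < aK k) (hj : j < aK k) :
    sget k (sfin k x w) i j = Nat.sqrt (x (j - i) ^ 2 * mW w i j / aK k) := by
  have hK : 0 < aK k := by omega
  have h1 : i * aK k + j < aK k * aK k := by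
    calc i * aK k + j < i * aK k + aK k := by omega
      _ = (i + 1) * aK k := by ring
      _ ≤ aK k * aK k := Nat.mul_le_mul_right _ hi
  have h2 : (i * aK k + j) / aK k = i := by
    rw [mul_comm, Nat.mul_add_div hK, Nat.div_eq_of_lt hj, add_zero]
  have h3 : (i * aK k + j) % aK k = j := by
    rw [mul_comm, Nat.mul_add_mod, Nat.mod_eq_of_lt hj]
  rw [sget, sfin, List.getD_eq_getElem _ _ (by simpa only [List.length_map, List.length_range] using h1), List.getElem_map,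
    List.getElem_range, h2, h3]

/-- rounding in the final parameters: general calibration -/
theorem coupl_close (hk10 : 10 ≤ k) (x : ℕ → ℕ) (w : List Bool) (hw : w.length < aK k)
    (hx : ∀ d, 1 ≤ d → d < pK k → |κ d * (x d : ℝ) ^ 2 - pJ k| ≤ 6 * pJ k / (pK k : ℝ) ^ 6 ∧
      6 * (pK k : ℝ) ^ 6 ≤ x d) (hκ : ∀ d, 1 ≤ d → d < pK k → 0 ≤ κ d)
    (i j : ℕ) (hij : i < j) (hj : j < pK k) :
    |κ (j - i) * (sget k (sfin k x w) i j : ℝ) ^ 2 - pJ k / pK k * mW w i j| ≤
      7 * pJ k / (pK k : ℝ) ^ 6 := by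
  have hK := pK_real_ge k hk10
  have hK0 := pK_pos k
  have hJ := pJ_pos k
  obtain ⟨h1, h2⟩ := hx (j - i) (by omega) (by omega)
  have hκ0 := hκ (j - i) (by omega) (by omega)
  rw [sget_sfin k x w i j (lt_trans hij hj) hj]
  set X := x (j - i) with hX
  set m := mW w i j with hm
  have hmK : m ≤ aK k := by
    rw [hm]; unfold mW
    split_ifs
    · exact (hM_le w i j).trans hw.le
    · exact Nat.zero_le _
  have hmK' : (m : ℝ) ≤ pK k := by rw [← aK_real]; exact_mod_cast hmK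
  set a := X ^ 2 * m / aK k with ha
  set s := Nat.sqrt a with hs
  have hKn : 0 < aK k := by unfold aK; (clear * -; positivity)
  have s1 : s ^ 2 ≤ a := Nat.sqrt_le' a
  have s2 : a < (s + 1) ^ 2 := Nat.lt_succ_sqrt' a
  have a1 : (a : ℝ) ≤ (X : ℝ) ^ 2 * m / pK k := by
    have := @Nat.cast_div_le ℝ _ _ _ (X ^ 2 * m) (aK k)
    rw [← ha] at this
    push_cast at this
    rwa [aK_real] at this
  have a2 : (X : ℝ) ^ 2 * m / pK k < a + 1 := by
    rw [div_lt_iff₀ hK0, ← aK_real]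
    have := Nat.lt_div_mul_add (a := X ^ 2 * m) hKn
    rw [← ha] at this
    have h3 : X ^ 2 * m < (a + 1) * aK k := by
      calc _ < _ := this
        _ = _ := by ring
    exact_mod_cast h3
  have s3 : (s : ℝ) ^ 2 ≤ a := by exact_mod_cast s1
  have s4 : (a : ℝ) + 1 ≤ ((s : ℝ) + 1) ^ 2 := by exact_mod_cast s2
  have hXm : (X : ℝ) ^ 2 * m / pK k ≤ (X : ℝ) ^ 2 := by
    rw [div_le_iff₀ hK0]
    exact mul_le_mul_of_nonneg_left hmK' (by (clear * -; (clear * -; positivity)))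
  have hX0 : (0 : ℝ) ≤ X := Nat.cast_nonneg _
  have hs0 : (0 : ℝ) ≤ s := Nat.cast_nonneg _
  have hsX : (s : ℝ) ≤ X := by
    refine le_of_sq_le_sq ?_ hX0
    linarith only [a1, s3, hXm]
  have hXbig : 1 ≤ (X : ℝ) := by
    have : (1 : ℝ) ≤ (pK k : ℝ) ^ 6 := one_le_pow₀ (by linarith only [hK])
    linarith only [h2, this]
  -- lower bound of s²
  have s5 : (X : ℝ) ^ 2 * m / pK k - 3 * X ≤ (s : ℝ) ^ 2 := by linarith only [a2, s4, hsX, hXbig]
  have hκX : κ (j - i) * (3 * X) ≤ pJ k / (pK k : ℝ) ^ 6 := by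
    have h3 : κ (j - i) * (X : ℝ) ^ 2 ≤ 2 * pJ k := by
      have h4 := (abs_le.1 h1).2
      have h5 : 6 * pJ k / (pK k : ℝ) ^ 6 ≤ pJ k := by
        rw [div_le_iff₀ (by (clear * - hKn; (clear * - hKn; positivity)))]
        have : (6 : ℝ) ≤ (pK k : ℝ) ^ 6 := by
          calc (6 : ℝ) ≤ pK k := by linarith only [hK]
            _ ≤ (pK k : ℝ) ^ 6 := le_self_pow₀ (by linarith only [hK]) (by norm_num)
        nlinarith only [hJ, this]
      linarith only [h4, h5]
    rw [le_div_iff₀ (by (clear * - hKn; positivity))]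
    have h4 : κ (j - i) * (3 * X) * (pK k : ℝ) ^ 6 ≤ κ (j - i) * (X : ℝ) ^ 2 / 2 := by
      have : (3 * X) * (pK k : ℝ) ^ 6 ≤ (X : ℝ) ^ 2 / 2 := by linarith only [mul_nonneg_of_nonpos_of_nonpos (Mathlib.Tactic.Linarith.sub_nonpos_of_le (Mathlib.Tactic.Linarith.natCast_nonneg ℝ X)) (Mathlib.Tactic.Linarith.sub_nonpos_of_le h2)]
      calc _ = κ (j - i) * ((3 * X) * (pK k : ℝ) ^ 6) := by ring
        _ ≤ κ (j - i) * ((X : ℝ) ^ 2 / 2) := mul_le_mul_of_nonneg_left this hκ0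
        _ = _ := by ring
    linarith only [h3, h4]
  have hmul : |κ (j - i) * ((X : ℝ) ^ 2 * m / pK k) - pJ k / pK k * m| ≤
      6 * pJ k / (pK k : ℝ) ^ 6 := by
    have e : κ (j - i) * ((X : ℝ) ^ 2 * m / pK k) - pJ k / pK k * m =
        (κ (j - i) * (X : ℝ) ^ 2 - pJ k) * (m / pK k) := by ring
    rw [e, abs_mul]
    have h3 : |(m : ℝ) / pK k| ≤ 1 := by
      rw [abs_of_nonneg (by (clear * - hKn; positivity)), div_le_one hK0]
      exact hmK'
    calc _ ≤ (6 * pJ k / (pK k : ℝ) ^ 6) * 1 :=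
          mul_le_mul h1 h3 (abs_nonneg _) (by (clear * - hJ hKn; positivity))
      _ = _ := mul_one _
  have u1 : κ (j - i) * (s : ℝ) ^ 2 ≤ κ (j - i) * ((X : ℝ) ^ 2 * m / pK k) :=
    mul_le_mul_of_nonneg_left (by linarith only [a1, s3]) hκ0
  have u2 : κ (j - i) * ((X : ℝ) ^ 2 * m / pK k) - κ (j - i) * (3 * X) ≤
      κ (j - i) * (s : ℝ) ^ 2 := by
    rw [← mul_sub]
    exact mul_le_mul_of_nonneg_left s5 hκ0
  have hm1 := abs_le.1 hmul
  have e6 : 7 * pJ k / (pK k : ℝ) ^ 6 = 6 * pJ k / (pK k : ℝ) ^ 6 + pJ k / (pK k : ℝ) ^ 6 := by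
    ring
  rw [e6, abs_le]
  constructor <;> linarith only [hκX, u1, u2, hm1]

theorem sum_pairs_le (K : ℕ) (b : ℝ) (hb : 0 ≤ b) :
    ∑ i : Fin K, ∑ _j ∈ Ioi i, b ≤ (K : ℝ) ^ 2 * b := by
  calc ∑ i : Fin K, ∑ _j ∈ Ioi i, b ≤ ∑ _i : Fin K, (K : ℝ) * b := by
        refine Finset.sum_le_sum fun i _ => ?_
        rw [Finset.sum_const, nsmul_eq_mul]
        refine mul_le_mul_of_nonneg_right ?_ hb
        have : (Ioi i).card ≤ K := (Finset.card_le_univ _).trans (by simp only [Fintype.card_fin, Std.le_refl])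
        exact_mod_cast this
    _ = (K : ℝ) ^ 2 * b := by simp only [sum_const, card_univ, Fintype.card_fin, nsmul_eq_mul]; ring

theorem heisMax_mW (hk10 : 10 ≤ k) (w : List Bool) (hw : w.length < aK k) :
    heisMax (fun i j : Fin (pK k) => (mW w i j : ℝ)) =
      heisMax (fun i j : Fin (hK w) => (hM w i j : ℝ)) := by
  have h1 : hK w ≤ pK k := (hK_le w).trans hw.le
  rw [heisMax_embed (K := pK k) h1 (fun i j => (mW w i j : ℝ))]
  · have h : ∀ (K : ℕ) (J J' : Fin K → Fin K → ℝ), (∀ i j, i < j → J i j = J' i j) →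
        heisMax J = heisMax J' := by
      intro K J J' h
      have h2 := heisMax_lip J J'
      have h3 : ∑ i, ∑ j ∈ Ioi i, |J i j - J' i j| = 0 := by
        refine Finset.sum_eq_zero fun i _ => Finset.sum_eq_zero fun j hj => ?_
        rw [h i j (Finset.mem_Ioi.1 hj), sub_self, abs_zero]
      rw [h3, mul_zero] at h2
      exact sub_eq_zero.1 (abs_nonpos_iff.1 h2)
    refine h _ _ _ fun i j hij => ?_
    have : (i : ℕ) < j := hij
    rw [mW, if_pos ⟨this, j.2⟩]
  · intro i j h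
    rw [mW, if_neg, Nat.cast_zero]
    rintro ⟨h2, h3⟩
    omega

/-- **Final step**, for any calibrated parameters and any good approximation of the reference
energy. -/
theorem final_step (hk10 : 10 ≤ k) (x : ℕ → ℕ) (w : List Bool) (hw : w.length < aK k)
    (hkey : Key k κ Eref)
    (hx : ∀ d, 1 ≤ d → d < pK k → |κ d * (x d : ℝ) ^ 2 - pJ k| ≤ 6 * pJ k / (pK k : ℝ) ^ 6 ∧
      6 * (pK k : ℝ) ^ 6 ≤ x d) (hκ : ∀ d, 1 ≤ d → d < pK k → 0 ≤ κ d)
    (y : ℤ) (hy : |(y : ℝ) - Eref| ≤ 2 * (pT k * pJ k / (pK k : ℝ) ^ 8)) (c : ℕ) :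
    (w ∈ heisenbergAF.yes →
      build k (sfin k x w) (y - offs k w) ∈ (electronicStructure c).yes) ∧
    (w ∈ heisenbergAF.no →
      build k (sfin k x w) (y - offs k w) ∈ (electronicStructure c).no) := by
  have hKr := pK_real_ge k hk10
  have hK0 := pK_pos k
  have hJ := pJ_pos k
  have hT : (0 : ℝ) < pT k := by unfold pT; (clear * -; positivity)
  have hTJ := TJ_big k (by omega)
  have hcl := coupl_close hk10 x w hw hx hκ
  obtain ⟨E, hE, hp⟩ := hkey (sfin k x w) (by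
    intro i j hij hj
    have h1 := (abs_le.1 (hcl i j hij hj)).2
    have h2 : (mW w i j : ℝ) ≤ pK k := by
      have : mW w i j ≤ aK k := by
        unfold mW
        split_ifs
        · exact (hM_le w i j).trans hw.le
        · exact Nat.zero_le _
      rw [← aK_real]; exact_mod_cast this
    have h3 : pJ k / pK k * mW w i j ≤ pJ k := by
      rw [div_mul_eq_mul_div, div_le_iff₀ hK0]
      exact mul_le_mul_of_nonneg_left h2 hJ.le
    have h4 : 7 * pJ k / (pK k : ℝ) ^ 6 ≤ pJ k := by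
      rw [div_le_iff₀ (by (clear * - hKr; (clear * - hKr; positivity)))]
      have : (7 : ℝ) ≤ (pK k : ℝ) ^ 6 := by
        calc (7 : ℝ) ≤ pK k := by linarith only [hKr]
          _ ≤ (pK k : ℝ) ^ 6 := le_self_pow₀ (by linarith only [hKr]) (by norm_num)
      nlinarith only [hJ, this]
    linarith only [hJ, h1, h3, h4])
  -- the effective Hamiltonian
  have hheis : |heisMax (coupl κ (sget k (sfin k x w)) (K := pK k)) -
      pJ k / pK k * heisMax (fun i j : Fin (hK w) => (hM w i j : ℝ))| ≤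
      14 * pJ k / (pK k : ℝ) ^ 4 := by
    rw [← heisMax_mW hk10 w hw, ← heisMax_smul _ (by (clear * - hJ hKr; positivity))]
    refine (heisMax_lip _ _).trans ?_
    have h1 : ∑ i : Fin (pK k), ∑ j ∈ Ioi i, |coupl κ (sget k (sfin k x w)) i j -
        pJ k / pK k * (mW w i j : ℝ)| ≤
        ∑ i : Fin (pK k), ∑ _j ∈ Ioi i, 7 * pJ k / (pK k : ℝ) ^ 6 := by
      refine Finset.sum_le_sum fun i _ => Finset.sum_le_sum fun j hj => ?_
      have hij : i < j := Finset.mem_Ioi.1 hj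
      rw [coupl, if_pos hij]
      exact hcl i j hij j.2
    have h2 := sum_pairs_le (pK k) (7 * pJ k / (pK k : ℝ) ^ 6) (by (clear * - hJ hKr; positivity))
    have h3 : (pK k : ℝ) ^ 2 * (7 * pJ k / (pK k : ℝ) ^ 6) = 7 * pJ k / (pK k : ℝ) ^ 4 := by
      (clear * - hJ hKr; field_simp)
    rw [h3] at h2
    calc _ ≤ 2 * (7 * pJ k / (pK k : ℝ) ^ 4) := by linarith only [h1, h2]
      _ = _ := by ring
  set Λ := heisMax (fun i j : Fin (hK w) => (hM w i j : ℝ)) with hΛ
  set Θ := heisMax (coupl κ (sget k (sfin k x w)) (K := pK k)) with hΘ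
  set δ := pT k * pJ k / (pK k : ℝ) ^ 8 with hδ
  have hoffs := offs_eq k (by omega) w
  set TJ := (pT k : ℝ) * pJ k with hTJdef
  have hTJ0 : 0 < TJ := mul_pos hT hJ
  -- total error
  have herr : 3 * δ + 14 * TJ / (pK k : ℝ) ^ 4 + 1 ≤ TJ / (4 * pK k) := by
    have h8 : δ ≤ TJ / pK k * (1 / 1024) := by
      rw [hδ, div_mul_div_comm, mul_one]
      refine div_le_div_of_nonneg_left hTJ0.le (by (clear * - hKr; (clear * - hKr; positivity))) ?_
      have h1 : (1024 : ℝ) ≤ (pK k : ℝ) ^ 7 := by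
        calc (1024 : ℝ) ≤ pK k := hKr
          _ ≤ (pK k : ℝ) ^ 7 := le_self_pow₀ (by linarith only [hKr]) (by norm_num)
      calc (pK k : ℝ) * 1024 ≤ pK k * (pK k : ℝ) ^ 7 := mul_le_mul_of_nonneg_left h1 hK0.le
        _ = (pK k : ℝ) ^ 8 := by ring
    have h4 : 14 * TJ / (pK k : ℝ) ^ 4 ≤ TJ / pK k * (1 / 1024) := by
      rw [div_mul_div_comm, mul_one, div_le_div_iff₀ (by (clear * - hKr; positivity)) (by (clear * - hKr; positivity))]
      have h1 : (14 * 1024 : ℝ) ≤ (pK k : ℝ) ^ 3 := by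
        calc (14 * 1024 : ℝ) ≤ 1024 ^ 3 := by norm_num
          _ ≤ (pK k : ℝ) ^ 3 := by gcongr
      calc 14 * TJ * (pK k * 1024) = TJ * pK k * (14 * 1024) := by ring
        _ ≤ TJ * pK k * (pK k : ℝ) ^ 3 := mul_le_mul_of_nonneg_left h1 (by (clear * - hT hJ hKr; (clear * - hT hJ hKr; positivity)))
        _ = TJ * (pK k : ℝ) ^ 4 := by ring
    have h1 : 1 ≤ TJ / pK k * (1 / 1024) := by
      rw [div_mul_div_comm, mul_one, le_div_iff₀ (by (clear * - hKr; positivity)), one_mul]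
      have h2 : (pK k : ℝ) ≤ (pK k : ℝ) ^ 9 := le_self_pow₀ (by linarith only [hKr]) (by norm_num)
      linarith only [hTJ, h2]
    have e : TJ / (4 * pK k) = TJ / pK k * (1 / 4) := by (clear * - hKr hTJ0; field_simp)
    rw [e]
    have h0 : 0 < TJ / pK k := by (clear * - hT hJ hKr; positivity)
    linarith only [h8, h4, h1]
  have hΘ1 := abs_le.1 hheis
  have hTΘ1 : pT k * Θ ≤ TJ / pK k * Λ + 14 * TJ / (pK k : ℝ) ^ 4 := by
    have h1 : Θ ≤ pJ k / pK k * Λ + 14 * pJ k / (pK k : ℝ) ^ 4 := by linarith only [hΘ1.2]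
    calc pT k * Θ ≤ pT k * (pJ k / pK k * Λ + 14 * pJ k / (pK k : ℝ) ^ 4) :=
          mul_le_mul_of_nonneg_left h1 hT.le
      _ = _ := by rw [hTJdef]; ring
  have hTΘ2 : TJ / pK k * Λ - 14 * TJ / (pK k : ℝ) ^ 4 ≤ pT k * Θ := by
    have h1 : pJ k / pK k * Λ - 14 * pJ k / (pK k : ℝ) ^ 4 ≤ Θ := by linarith only [hΘ1.1]
    calc _ = pT k * (pJ k / pK k * Λ - 14 * pJ k / (pK k : ℝ) ^ 4) := by rw [hTJdef]; ring
      _ ≤ pT k * Θ := mul_le_mul_of_nonneg_left h1 hT.le
  have hE1 := abs_le.1 hE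
  have hy1 := abs_le.1 hy
  have hq0 : 0 < TJ / pK k := by (clear * - hT hJ hKr; positivity)
  have eoff : (offs k w : ℝ) = TJ / pK k * (((mSum w : ℝ) + hA w) / 2) - TJ / (4 * pK k) := by
    rw [hoffs]; field_simp; ring
  have eoff2 : (offs k w : ℝ) = TJ / pK k * (((mSum w : ℝ) + hA w - 1) / 2) + TJ / (4 * pK k) := by
    rw [hoffs]; field_simp; ring
  obtain ⟨p1, p2⟩ := hp c (y - offs k w)
  constructor
  · intro hyes
    refine p1 ?_
    have h1 := yes_heisMax w hyes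
    have h2 : TJ / pK k * (((mSum w : ℝ) + hA w) / 2) ≤ TJ / pK k * Λ :=
      mul_le_mul_of_nonneg_left h1 hq0.le
    push_cast
    rw [eoff]
    linarith only [herr, hTΘ2, h2, hE1.2, hy1.1]
  · intro hno
    refine p2 ?_
    have h1 := no_heisMax w hno
    have h2 : TJ / pK k * Λ ≤ TJ / pK k * (((mSum w : ℝ) + hA w - 1) / 2) :=
      mul_le_mul_of_nonneg_left h1 hq0.le
    push_cast
    rw [eoff2]
    linarith only [herr, hTΘ1, h2, hE1.1, hy1.2]

end final

end Vale.Agent.P370.Q.Alg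
end
end

section

section

set_option linter.all false

/-!
The gap above the block singlets (H6, part B).
-/

namespace Vale.Agent.P370.H

open Finset ComplexConjugate

namespace IotaB

/-- configurations of a block -/
abbrev L4 : Type := Fin 4 → Fin 2

/-- explicit enumeration -/
def eqv4 : L4 ≃ Fin 2 × Fin 2 × Fin 2 × Fin 2 where
  toFun s := (s 0, s 1, s 2, s 3)
  invFun t := ![t.1, t.2.1, t.2.2.1, t.2.2.2]
  left_inv s := by
    funext i
    fin_cases i <;> rfl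
  right_inv _ := rfl

theorem sum_L4 {M : Type} [AddCommMonoid M] (F : L4 → M) :
    ∑ s, F s = ∑ a, ∑ b, ∑ c, ∑ d, F ![a, b, c, d] := by
  rw [← Equiv.sum_comp eqv4.symm F, Fintype.sum_prod_type]
  refine Finset.sum_congr rfl fun a _ => ?_
  rw [Fintype.sum_prod_type]
  refine Finset.sum_congr rfl fun b _ => ?_
  rw [Fintype.sum_prod_type]
  rfl

theorem sw (a b c d : Fin 2) :
    (![a, b, c, d] ∘ Equiv.swap (0 : Fin 4) 1 = ![b, a, c, d]) ∧
    (![a, b, c, d] ∘ Equiv.swap (0 : Fin 4) 2 = ![c, b, a, d]) ∧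
    (![a, b, c, d] ∘ Equiv.swap (0 : Fin 4) 3 = ![d, b, c, a]) ∧
    (![a, b, c, d] ∘ Equiv.swap (1 : Fin 4) 2 = ![a, c, b, d]) ∧
    (![a, b, c, d] ∘ Equiv.swap (1 : Fin 4) 3 = ![a, d, c, b]) ∧
    (![a, b, c, d] ∘ Equiv.swap (2 : Fin 4) 3 = ![a, b, d, c]) := by
  refine ⟨?_, ?_, ?_, ?_, ?_, ?_⟩ <;> funext i <;> fin_cases i <;> rfl

/-- local pair sums over the unordered pairs -/
theorem pairs (F : Fin 4 → Fin 4 → ℝ) (hF : ∀ i j, F i j = F j i) :
    (∑ i : Fin 4, ∑ j : Fin 4, if i = j then 0 else F i j) =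
      2 * (F 0 1 + F 0 2 + F 0 3 + F 1 2 + F 1 3 + F 2 3) := by
  simp only [Fin.sum_univ_four]
  simp only [↓reduceIte, Fin.isValue, Fin.reduceEq]
  rw [hF 1 0, hF 2 0, hF 3 0, hF 2 1, hF 3 1, hF 3 2]
  ring

theorem eb_true (s : L4) : eb true s =
    (if s 0 = s 1 ∧ s 2 = s 3 ∧ s 0 ≠ s 2 then 2
      else if s 0 ≠ s 1 ∧ s 2 ≠ s 3 then -1 else 0) / √12 := by
  simp [eb]

theorem eb_false (s : L4) : eb false s =
    (if s 0 ≠ s 1 ∧ s 2 ≠ s 3 then (if s 0 = s 2 then 1 else -1) else 0) / 2 := by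
  simp only [eb, Bool.false_eq_true, ↓reduceIte, Fin.isValue, ne_eq]

/-- `∑ eb true * g` -/
theorem sum_eb_true (g : L4 → ℝ) : ∑ σ, eb true σ * g σ =
    (2 * g ![0, 0, 1, 1] + 2 * g ![1, 1, 0, 0] - g ![0, 1, 0, 1] - g ![0, 1, 1, 0] -
      g ![1, 0, 0, 1] - g ![1, 0, 1, 0]) / √12 := by
  simp only [eb_true, sum_L4, Fin.sum_univ_two]
  simp only [Fin.isValue, Matrix.cons_val_zero, Matrix.cons_val_one, Matrix.cons_val, ne_eq, not_true_eq_false, and_false, ↓reduceIte, and_self, zero_div, zero_mul, zero_ne_one, not_false_eq_true, and_true, add_zero, one_ne_zero, zero_add]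
  ring

theorem sum_eb_false (g : L4 → ℝ) : ∑ σ, eb false σ * g σ =
    (g ![0, 1, 0, 1] - g ![0, 1, 1, 0] - g ![1, 0, 0, 1] + g ![1, 0, 1, 0]) / 2 := by
  simp only [eb_false, sum_L4, Fin.sum_univ_two]
  simp only [Fin.isValue, Matrix.cons_val_zero, Matrix.cons_val_one, ne_eq, not_true_eq_false, Matrix.cons_val, and_self, ↓reduceIte, zero_div, zero_mul, zero_ne_one, not_false_eq_true, and_true, add_zero, one_ne_zero, and_false, one_div, zero_add]
  ring

/-- the local inequality, real vectors -/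
theorem local_real (g : L4 → ℝ) :
    (∑ σ, g σ ^ 2) - ∑ x : Bool, (∑ σ, eb x σ * g σ) ^ 2 ≤
      1 / 4 * ∑ i : Fin 4, ∑ j : Fin 4,
        if i = j then 0 else ∑ σ : L4, g σ * g (σ ∘ Equiv.swap i j) := by
  have h12 : (√12 : ℝ) ^ 2 = 12 := Real.sq_sqrt (by norm_num)
  rw [pairs (fun i j => ∑ σ : L4, g σ * g (σ ∘ Equiv.swap i j))
    (fun i j => by simp only [Equiv.swap_comm])]
  rw [Fintype.sum_bool, sum_eb_true, sum_eb_false, div_pow, div_pow, h12]
  simp only [sum_L4, (sw _ _ _ _).1, (sw _ _ _ _).2.1, (sw _ _ _ _).2.2.1,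
    (sw _ _ _ _).2.2.2.1, (sw _ _ _ _).2.2.2.2.1, (sw _ _ _ _).2.2.2.2.2, Fin.sum_univ_two]
  have key : 0 ≤ 2 * (g ![0, 0, 0, 0] ^ 2 + g ![1, 1, 1, 1] ^ 2 +
      (g ![0, 0, 0, 1] + g ![0, 0, 1, 0] + g ![0, 1, 0, 0] + g ![1, 0, 0, 0]) ^ 2 / 4 +
      (g ![1, 1, 1, 0] + g ![1, 1, 0, 1] + g ![1, 0, 1, 1] + g ![0, 1, 1, 1]) ^ 2 / 4 +
      (g ![0, 0, 1, 1] + g ![0, 1, 0, 1] + g ![0, 1, 1, 0] + g ![1, 0, 0, 1] + g ![1, 0, 1, 0] +
        g ![1, 1, 0, 0]) ^ 2 / 6) := by (clear * -; positivity)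
  refine sub_nonneg.mp (key.trans (le_of_eq ?_))
  generalize g ![0, 0, 0, 0] = a0, g ![0, 0, 0, 1] = a1, g ![0, 0, 1, 0] = a2,
    g ![0, 0, 1, 1] = a3, g ![0, 1, 0, 0] = a4, g ![0, 1, 0, 1] = a5, g ![0, 1, 1, 0] = a6,
    g ![0, 1, 1, 1] = a7, g ![1, 0, 0, 0] = a8, g ![1, 0, 0, 1] = a9, g ![1, 0, 1, 0] = a10,
    g ![1, 0, 1, 1] = a11, g ![1, 1, 0, 0] = a12, g ![1, 1, 0, 1] = a13,
    g ![1, 1, 1, 0] = a14, g ![1, 1, 1, 1] = a15
  ring

/-- the local inequality -/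
theorem local_cplx (g : L4 → ℂ) :
    (∑ σ, ‖g σ‖ ^ 2) - ∑ x : Bool, ‖∑ σ, (eb x σ : ℂ) * g σ‖ ^ 2 ≤
      1 / 4 * ∑ i : Fin 4, ∑ j : Fin 4,
        if i = j then 0 else (∑ σ : L4, conj (g σ) * g (σ ∘ Equiv.swap i j)).re := by
  have h1 := local_real fun σ => (g σ).re
  have h2 := local_real fun σ => (g σ).im
  have e1 : ∑ σ, ‖g σ‖ ^ 2 = (∑ σ, (g σ).re ^ 2) + ∑ σ, (g σ).im ^ 2 := by
    rw [← Finset.sum_add_distrib]
    refine Finset.sum_congr rfl fun σ _ => ?_
    rw [Complex.sq_norm, Complex.normSq_apply]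
    ring
  have e2 : ∀ x, ‖∑ σ, (eb x σ : ℂ) * g σ‖ ^ 2 =
      (∑ σ, eb x σ * (g σ).re) ^ 2 + (∑ σ, eb x σ * (g σ).im) ^ 2 := by
    intro x
    rw [Complex.sq_norm, Complex.normSq_apply, Complex.re_sum, Complex.im_sum]
    simp only [Complex.re_ofReal_mul, Complex.im_ofReal_mul]
    ring
  have e3 : ∀ i j : Fin 4, (∑ σ : L4, conj (g σ) * g (σ ∘ Equiv.swap i j)).re =
      (∑ σ : L4, (g σ).re * (g (σ ∘ Equiv.swap i j)).re) +
        ∑ σ : L4, (g σ).im * (g (σ ∘ Equiv.swap i j)).im := by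
    intro i j
    rw [Complex.re_sum, ← Finset.sum_add_distrib]
    refine Finset.sum_congr rfl fun σ _ => ?_
    simp only [Complex.mul_re, Complex.conj_re, Complex.conj_im, neg_mul, sub_neg_eq_add]
  have e4 : (∑ i : Fin 4, ∑ j : Fin 4,
        if i = j then 0 else (∑ σ : L4, conj (g σ) * g (σ ∘ Equiv.swap i j)).re) =
      (∑ i : Fin 4, ∑ j : Fin 4,
        if i = j then 0 else ∑ σ : L4, (g σ).re * (g (σ ∘ Equiv.swap i j)).re) +
      ∑ i : Fin 4, ∑ j : Fin 4,
        if i = j then 0 else ∑ σ : L4, (g σ).im * (g (σ ∘ Equiv.swap i j)).im := by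
    rw [← Finset.sum_add_distrib]
    refine Finset.sum_congr rfl fun i _ => ?_
    rw [← Finset.sum_add_distrib]
    refine Finset.sum_congr rfl fun j _ => ?_
    split_ifs
    · simp
    · exact e3 i j
  rw [e1, e4, Finset.sum_congr rfl fun x _ => e2 x, Finset.sum_add_distrib]
  linarith only [h1, h2]

theorem eb_orth (x y : Bool) : ∑ σ, eb x σ * eb y σ = if x = y then 1 else 0 := by
  have h12 : (√12 : ℝ) * √12 = 12 := Real.mul_self_sqrt (by norm_num)
  have h0 : (√12 : ℝ) ≠ 0 := by positivity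
  cases x <;> cases y
  · rw [sum_eb_false]
    simp only [Fin.isValue, eb_false, Matrix.cons_val_zero, Matrix.cons_val_one, ne_eq, zero_ne_one, not_false_eq_true, Matrix.cons_val, and_self, ↓reduceIte, one_div, one_ne_zero]
    norm_num
  · rw [sum_eb_false]
    simp only [Fin.isValue, eb_true, Matrix.cons_val_zero, Matrix.cons_val_one, zero_ne_one, Matrix.cons_val, ne_eq, not_true_eq_false, and_self, ↓reduceIte, not_false_eq_true, one_ne_zero, and_true, sub_self, zero_sub, neg_add_cancel, zero_div, Bool.false_eq_true]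
  · rw [sum_eb_true]
    simp only [Fin.isValue, eb_false, Matrix.cons_val_zero, Matrix.cons_val_one, ne_eq, not_true_eq_false, Matrix.cons_val, and_self, ↓reduceIte, zero_div, mul_zero, add_zero, zero_ne_one, not_false_eq_true, one_div, zero_sub, one_ne_zero, Bool.true_eq_false, div_eq_zero_iff, Nat.ofNat_nonneg, Real.sqrt_eq_zero, OfNat.ofNat_ne_zero, or_false]
    norm_num
  · rw [sum_eb_true]
    simp only [Fin.isValue, eb_true, Matrix.cons_val_zero, Matrix.cons_val_one, Matrix.cons_val, ne_eq, zero_ne_one, not_false_eq_true, and_self, ↓reduceIte, one_ne_zero, not_true_eq_false, and_true]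
    field_simp
    linarith

/-- a complete orthonormal system containing `eb` -/
theorem exists_basis : ∃ e : Bool ⊕ Fin 14 → L4 → ℝ,
    (∀ x, e (Sum.inl x) = eb x) ∧
    (∀ a a', ∑ σ, e a σ * e a' σ = if a = a' then 1 else 0) ∧
    ∀ σ σ', ∑ a, e a σ * e a σ' = if σ = σ' then 1 else 0 := by
  classical
  set v : Bool ⊕ Fin 14 → EuclideanSpace ℝ L4 :=
    fun a => WithLp.toLp 2 (Sum.elim (fun x => eb x) (fun _ => 0) a) with hv
  have hvi : ∀ x y, inner ℝ (v (Sum.inl x)) (v (Sum.inl y)) = if x = y then (1 : ℝ) else 0 := by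
    intro x y
    simp only [hv, Sum.elim_inl, PiLp.inner_apply, RCLike.inner_apply, conj_trivial]
    rw [eb_orth y x]
    by_cases hxy : x = y
    · subst hxy; simp
    · rw [if_neg hxy, if_neg fun h => hxy h.symm]
  have ho : Orthonormal ℝ ((Set.range (Sum.inl : Bool → Bool ⊕ Fin 14)).domRestrict v) := by
    rw [orthonormal_iff_ite]
    rintro ⟨_, x, rfl⟩ ⟨_, y, rfl⟩
    refine (hvi x y).trans ?_
    by_cases hxy : x = y
    · subst hxy; simp
    · rw [if_neg hxy, if_neg]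
      intro h
      exact hxy (Sum.inl_injective (Subtype.ext_iff.mp h))
  obtain ⟨b, hb⟩ := ho.exists_orthonormalBasis_extension_of_card_eq (by simp only [L4, finrank_euclideanSpace, Fintype.card_pi, Fintype.card_fin, prod_const, card_univ, Nat.reducePow, Fintype.card_sum, Fintype.card_bool, Nat.reduceAdd])
  refine ⟨fun a σ => b a σ, fun x => ?_, fun a a' => ?_, fun σ σ' => ?_⟩
  · have := hb (Sum.inl x) ⟨x, rfl⟩
    funext σ
    show b (Sum.inl x) σ = eb x σ
    rw [this]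
    rfl
  · have h := orthonormal_iff_ite.mp b.orthonormal a' a
    simp only [PiLp.inner_apply, RCLike.inner_apply, conj_trivial] at h
    rw [h]
    by_cases hxy : a = a'
    · subst hxy; simp
    · rw [if_neg hxy, if_neg fun h => hxy h.symm]
  · have h := b.sum_inner_mul_inner (EuclideanSpace.single σ (1 : ℝ)) (EuclideanSpace.single σ' 1)
    simp only [EuclideanSpace.inner_single_left, EuclideanSpace.inner_single_right] at h
    simp only [map_one, one_mul, conj_trivial] at h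
    rw [h]
    simp [eq_comm]

section general

variable {B : Type} [Fintype B] [DecidableEq B]

/-- exchange the coordinate `b` with an additional variable -/
theorem sum_swap {M : Type} [AddCommMonoid M] (b : B) (K : (B → L4) → L4 → M) :
    ∑ c, ∑ σ, K c σ = ∑ c, ∑ σ, K (Function.update c b σ) (c b) := by
  have e : Function.Involutive
      (fun z : (B → L4) × L4 => ((Function.update z.1 b z.2, z.1 b) : (B → L4) × L4)) := by
    rintro ⟨c, σ⟩
    simp
  rw [← Fintype.sum_prod_type', ← Fintype.sum_prod_type']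
  exact (Equiv.sum_comp e.toPerm (fun z : (B → L4) × L4 => K z.1 z.2)).symm

theorem sum_avg {M : Type} [AddCommMonoid M] (b : B) (f : (B → L4) → M) :
    ∑ c, ∑ σ, f (Function.update c b σ) = 16 • ∑ c, f c := by
  rw [← sum_swap b (fun c _ => f c)]
  simp only [sum_const, card_univ, Fintype.card_pi, Fintype.card_fin, prod_const, Nat.reducePow, smul_sum]

variable (e : Bool ⊕ Fin 14 → L4 → ℝ)

/-- the transform -/
noncomputable def hat (F : (B → L4) → ℂ) (α : B → Bool ⊕ Fin 14) : ℂ :=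
  ∑ c, ((∏ b, e (α b) (c b) : ℝ) : ℂ) * F c

theorem parseval (he : ∀ σ σ', ∑ a, e a σ * e a σ' = if σ = σ' then 1 else 0)
    (F : (B → L4) → ℂ) : ∑ α, ‖hat e F α‖ ^ 2 = ∑ c, ‖F c‖ ^ 2 := by
  have key : ∀ c c' : B → L4, (∑ α : B → Bool ⊕ Fin 14,
      (∏ b, e (α b) (c b)) * ∏ b, e (α b) (c' b)) = if c = c' then 1 else 0 := by
    intro c c'
    have h1 : ∀ α : B → Bool ⊕ Fin 14, (∏ b, e (α b) (c b)) * ∏ b, e (α b) (c' b) =
        ∏ b, e (α b) (c b) * e (α b) (c' b) := fun α => Finset.prod_mul_distrib.symm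
    simp only [h1]
    have h2 := Finset.prod_univ_sum (fun _ : B => (Finset.univ : Finset (Bool ⊕ Fin 14)))
      (fun b a => e a (c b) * e a (c' b))
    rw [Fintype.piFinset_univ] at h2
    rw [← h2]
    simp only [he]
    by_cases h : c = c'
    · subst h; simp only [↓reduceIte, prod_const_one]
    · rw [if_neg h]
      obtain ⟨b, hb⟩ := Function.ne_iff.mp h
      exact Finset.prod_eq_zero (Finset.mem_univ b) (if_neg hb)
  have h3 : ((∑ α, ‖hat e F α‖ ^ 2 : ℝ) : ℂ) = ((∑ c, ‖F c‖ ^ 2 : ℝ) : ℂ) := by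
    push_cast
    have h4 : ∀ α, (‖hat e F α‖ : ℂ) ^ 2 = ∑ c, ∑ c',
        ((((∏ b, e (α b) (c b)) * ∏ b, e (α b) (c' b) : ℝ)) : ℂ) * (conj (F c) * F c') := by
      intro α
      rw [← Complex.conj_mul', hat, map_sum, Finset.sum_mul_sum]
      refine Finset.sum_congr rfl fun c _ => Finset.sum_congr rfl fun c' _ => ?_
      rw [map_mul, Complex.conj_ofReal]
      push_cast
      ring
    rw [Finset.sum_congr rfl fun α _ => h4 α, Finset.sum_comm]
    refine Finset.sum_congr rfl fun c _ => ?_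
    rw [Finset.sum_comm]
    have h5 : ∀ c', ∑ α : B → Bool ⊕ Fin 14,
        ((((∏ b, e (α b) (c b)) * ∏ b, e (α b) (c' b) : ℝ)) : ℂ) * (conj (F c) * F c') =
        if c = c' then conj (F c) * F c' else 0 := by
      intro c'
      rw [← Finset.sum_mul, ← Complex.ofReal_sum, key]
      split_ifs <;> simp
    rw [Finset.sum_congr rfl fun c' _ => h5 c', Finset.sum_ite_eq, if_pos (Finset.mem_univ _),
      Complex.conj_mul']
  exact_mod_cast h3

/-- projection of the block `b` on the vector `a` -/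
noncomputable def prj (b : B) (a : Bool ⊕ Fin 14) (F : (B → L4) → ℂ) : (B → L4) → ℂ :=
  fun c => (e a (c b) : ℂ) * ∑ σ, (e a σ : ℂ) * F (Function.update c b σ)

theorem hat_prj (he : ∀ a a', ∑ σ, e a σ * e a' σ = if a = a' then 1 else 0) (b : B)
    (a : Bool ⊕ Fin 14) (F : (B → L4) → ℂ) (α : B → Bool ⊕ Fin 14) :
    hat e (prj e b a F) α = if α b = a then hat e F α else 0 := by
  have h1 : hat e (prj e b a F) α = ∑ c, ∑ σ,
      ((∏ b', e (α b') (c b') : ℝ) : ℂ) * ((e a (c b) : ℂ) * ((e a σ : ℂ) *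
        F (Function.update c b σ))) := by
    simp only [hat, prj, mul_sum]
  rw [h1, sum_swap b]
  have h2 : ∀ (c : B → L4) (σ : L4), ((∏ b', e (α b') (Function.update c b σ b') : ℝ) : ℂ) *
      ((e a (Function.update c b σ b) : ℂ) * ((e a (c b) : ℂ) *
        F (Function.update (Function.update c b σ) b (c b)))) =
      (((∏ b' ∈ Finset.univ.erase b, e (α b') (c b')) * e a (c b) : ℝ) : ℂ) * F c *
        ((e (α b) σ * e a σ : ℝ) : ℂ) := by
    intro c σ
    have h3 : (∏ b', e (α b') (Function.update c b σ b')) =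
        e (α b) σ * ∏ b' ∈ Finset.univ.erase b, e (α b') (c b') := by
      rw [← Finset.mul_prod_erase Finset.univ _ (Finset.mem_univ b)]
      rw [Function.update_self]
      congr 1
      refine Finset.prod_congr rfl fun b' hb' => ?_
      rw [Function.update_of_ne (Finset.ne_of_mem_erase hb')]
    rw [h3, Function.update_self, Function.update_idem, Function.update_eq_self]
    push_cast
    ring
  simp only [h2]
  simp only [← Finset.mul_sum]
  simp only [← Complex.ofReal_sum, he]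
  by_cases h : α b = a
  · simp only [if_pos h, hat]
    refine Finset.sum_congr rfl fun c _ => ?_
    rw [← Finset.mul_prod_erase Finset.univ _ (Finset.mem_univ b), h]
    push_cast
    ring
  · simp only [if_neg h]
    refine Finset.sum_eq_zero fun c _ => ?_
    simp only [Complex.ofReal_mul, Complex.ofReal_prod, Complex.ofReal_zero, mul_zero]

theorem norm_prj (he : ∀ a a', ∑ σ, e a σ * e a' σ = if a = a' then 1 else 0) (b : B)
    (a : Bool ⊕ Fin 14) (F : (B → L4) → ℂ) :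
    16 * ∑ c, ‖prj e b a F c‖ ^ 2 =
      ∑ c, ‖∑ σ, (e a σ : ℂ) * F (Function.update c b σ)‖ ^ 2 := by
  have h0 := sum_avg b (fun c => ‖prj e b a F c‖ ^ 2)
  rw [nsmul_eq_mul] at h0
  push_cast at h0
  rw [← h0]
  refine Finset.sum_congr rfl fun c _ => ?_
  have h1 : ∀ σ, ‖prj e b a F (Function.update c b σ)‖ ^ 2 =
      e a σ * e a σ * ‖∑ σ, (e a σ : ℂ) * F (Function.update c b σ)‖ ^ 2 := by
    intro σ
    simp only [prj, Function.update_self, Function.update_idem]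
    rw [norm_mul, mul_pow, Complex.norm_real, Real.norm_eq_abs, sq_abs]
    ring
  simp only [h1]
  rw [← Finset.sum_mul, he, if_pos rfl, one_mul]

theorem sum_hat (he : ∀ a a', ∑ σ, e a σ * e a' σ = if a = a' then 1 else 0)
    (he' : ∀ σ σ', ∑ a, e a σ * e a σ' = if σ = σ' then 1 else 0) (b : B)
    (a : Bool ⊕ Fin 14) (F : (B → L4) → ℂ) :
    ∑ c, ‖∑ σ, (e a σ : ℂ) * F (Function.update c b σ)‖ ^ 2 =
      16 * ∑ α, if α b = a then ‖hat e F α‖ ^ 2 else 0 := by
  rw [← norm_prj e he, ← parseval e he']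
  congr 1
  refine Finset.sum_congr rfl fun α _ => ?_
  rw [hat_prj e he]
  split_ifs <;> simp

/-- the gap of one block -/
theorem block_gap (he : ∀ a a', ∑ σ, e a σ * e a' σ = if a = a' then 1 else 0)
    (he' : ∀ σ σ', ∑ a, e a σ * e a σ' = if σ = σ' then 1 else 0)
    (hx : ∀ x, e (Sum.inl x) = eb x) (b : B) (F : (B → L4) → ℂ) :
    (∑ α, if (α b).isRight then ‖hat e F α‖ ^ 2 else 0) ≤
      1 / 4 * ∑ i : Fin 4, ∑ j : Fin 4, if i = j then 0 else
        (∑ c, conj (F c) * F (Function.update c b (c b ∘ Equiv.swap i j))).re := by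
  have h1 : ∀ c, (∑ σ, ‖F (Function.update c b σ)‖ ^ 2) -
      ∑ x : Bool, ‖∑ σ, (eb x σ : ℂ) * F (Function.update c b σ)‖ ^ 2 ≤
      1 / 4 * ∑ i : Fin 4, ∑ j : Fin 4, if i = j then 0 else
        (∑ σ : L4, conj (F (Function.update c b σ)) *
          F (Function.update c b (σ ∘ Equiv.swap i j))).re := fun c =>
    local_cplx fun σ => F (Function.update c b σ)
  have h2 := Finset.sum_le_sum fun c (_ : c ∈ (Finset.univ : Finset (B → L4))) => h1 c
  rw [Finset.sum_sub_distrib, ← Finset.mul_sum, sum_avg b (fun c => ‖F c‖ ^ 2),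
    ← parseval e he', nsmul_eq_mul] at h2
  have h3 : ∑ c : B → L4, ∑ x : Bool, ‖∑ σ, (eb x σ : ℂ) * F (Function.update c b σ)‖ ^ 2 =
      16 * ∑ x : Bool, ∑ α, if α b = Sum.inl x then ‖hat e F α‖ ^ 2 else 0 := by
    rw [Finset.sum_comm, Finset.mul_sum]
    refine Finset.sum_congr rfl fun x _ => ?_
    rw [← sum_hat e he he', hx]
  have h4 : ∑ c : B → L4, ∑ i : Fin 4, ∑ j : Fin 4, (if i = j then (0 : ℝ) else
        (∑ σ : L4, conj (F (Function.update c b σ)) *
          F (Function.update c b (σ ∘ Equiv.swap i j))).re) =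
      16 * ∑ i : Fin 4, ∑ j : Fin 4, if i = j then (0 : ℝ) else
        (∑ c, conj (F c) * F (Function.update c b (c b ∘ Equiv.swap i j))).re := by
    rw [Finset.sum_comm, Finset.mul_sum]
    refine Finset.sum_congr rfl fun i _ => ?_
    rw [Finset.sum_comm, Finset.mul_sum]
    refine Finset.sum_congr rfl fun j _ => ?_
    by_cases hij : i = j
    · simp only [hij, ↓reduceIte, sum_const_zero, mul_zero]
    · simp only [if_neg hij]
      rw [← Complex.re_sum]
      have h5 := sum_avg b (fun c : B → L4 =>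
        conj (F c) * F (Function.update c b (c b ∘ Equiv.swap i j)))
      simp only [Function.update_self, Function.update_idem] at h5
      rw [h5, nsmul_eq_mul]
      simp only [Nat.cast_ofNat, Complex.mul_re, Complex.re_ofNat, Complex.re_sum, Complex.conj_re, Complex.conj_im, neg_mul, sub_neg_eq_add, Complex.im_ofNat, Complex.im_sum, Complex.mul_im, zero_mul, sub_zero]
  rw [h3, h4] at h2
  have h6 : (∑ α, if (α b).isRight then ‖hat e F α‖ ^ 2 else 0) = (∑ α, ‖hat e F α‖ ^ 2) -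
      ∑ x : Bool, ∑ α, if α b = Sum.inl x then ‖hat e F α‖ ^ 2 else 0 := by
    rw [Finset.sum_comm, ← Finset.sum_sub_distrib]
    refine Finset.sum_congr rfl fun α _ => ?_
    rcases h : α b with x | y
    · cases x <;> simp
    · simp
  rw [h6]
  push_cast at h2
  linarith

/-- spins as functions on block configurations -/
def crv (Φ : SSt (B × Fin 4)) : (B → L4) → ℂ := fun c => Φ fun p => c p.1 p.2

theorem sum_crv {M : Type} [AddCommMonoid M] (G : (B × Fin 4 → Fin 2) → M) :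
    ∑ s, G s = ∑ c : B → L4, G fun p => c p.1 p.2 :=
  (Equiv.sum_comp (Equiv.curry B (Fin 4) (Fin 2)).symm G).symm

omit [Fintype B] in
theorem swap_crv (c : B → L4) (b : B) (i j : Fin 4) :
    (fun p : B × Fin 4 => c p.1 p.2) ∘ Equiv.swap (b, i) (b, j) =
      fun p => Function.update c b (c b ∘ Equiv.swap i j) p.1 p.2 := by
  funext ⟨b', k⟩
  simp only [Function.comp]
  by_cases hb : b' = b
  · subst hb
    rw [Function.update_self]
    simp only [Function.comp]
    by_cases hi : k = i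
    · subst hi; simp
    · by_cases hj : k = j
      · subst hj; simp
      · rw [Equiv.swap_apply_of_ne_of_ne (by simp [hi]) (by simp [hj]),
          Equiv.swap_apply_of_ne_of_ne hi hj]
  · rw [Function.update_of_ne hb, Equiv.swap_apply_of_ne_of_ne (by simp [hb]) (by simp [hb])]

theorem sip_sum {I K : Type} [Fintype I] [DecidableEq I] (Φ : SSt I) (t : Finset K)
    (Ψ : K → SSt I) : sip Φ (∑ k ∈ t, Ψ k) = ∑ k ∈ t, sip Φ (Ψ k) := by
  simp only [sip, Finset.sum_apply, Finset.mul_sum]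
  exact Finset.sum_comm

theorem sip_smul {I : Type} [Fintype I] [DecidableEq I] (Φ Ψ : SSt I) (z : ℂ) :
    sip Φ (z • Ψ) = z * sip Φ Ψ := by
  simp only [sip, Pi.smul_apply, smul_eq_mul, Finset.mul_sum]
  exact Finset.sum_congr rfl fun s _ => by ring

theorem sip_self {I : Type} [Fintype I] [DecidableEq I] (Φ : SSt I) :
    sip Φ Φ = (snorm2 Φ : ℂ) := by
  simp only [sip, snorm2, Complex.ofReal_sum]
  refine Finset.sum_congr rfl fun s _ => ?_
  rw [Complex.conj_mul', Complex.ofReal_pow]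

theorem sip_dotS {I : Type} [Fintype I] [DecidableEq I] (Φ : SSt I) (i j : I) :
    sip Φ (dotS i j Φ) =
      1 / 2 * (∑ s, conj (Φ s) * Φ (s ∘ Equiv.swap i j)) - 1 / 4 * snorm2 Φ := by
  rw [← sip_self]
  simp only [sip, dotS, mul_sum]
  rw [← Finset.sum_sub_distrib]
  exact Finset.sum_congr rfl fun s _ => by ring

theorem sip_casimir (Φ : SSt (B × Fin 4)) : (sip Φ (casimir Φ)).re =
    ∑ b : B, 1 / 4 * ∑ i : Fin 4, ∑ j : Fin 4, if i = j then 0 else
      (∑ c, conj (crv Φ c) * crv Φ (Function.update c b (c b ∘ Equiv.swap i j))).re := by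
  have h1 : sip Φ (casimir Φ) = ∑ b : B, (1 / 2 : ℂ) * ∑ i : Fin 4, ∑ j : Fin 4,
      (if i = j then 3 / 4 * (snorm2 Φ : ℂ) else 1 / 2 * (∑ c, conj (crv Φ c) *
        crv Φ (Function.update c b (c b ∘ Equiv.swap i j))) - 1 / 4 * snorm2 Φ) := by
    rw [casimir, sip_sum]
    refine Finset.sum_congr rfl fun b _ => ?_
    rw [sip_smul, sip_sum]
    congr 1
    refine Finset.sum_congr rfl fun i _ => ?_
    rw [sip_sum]
    refine Finset.sum_congr rfl fun j _ => ?_
    split_ifs with hij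
    · rw [sip_smul, sip_self]
    · rw [sip_dotS, sum_crv]
      simp only [swap_crv]
      rfl
  rw [h1, Complex.re_sum]
  refine Finset.sum_congr rfl fun b _ => ?_
  simp only [Fin.sum_univ_four]
  simp only [Fin.isValue, ↓reduceIte, Fin.reduceEq]
  simp only [one_div, Fin.isValue, Complex.mul_re, Complex.inv_re, Complex.re_ofNat, Complex.normSq_ofNat, div_self_mul_self', Complex.add_re, Complex.div_ofNat_re, Complex.ofReal_re, Complex.div_ofNat_im, Complex.im_ofNat, zero_div, Complex.ofReal_im, mul_zero, sub_zero, Complex.sub_re, Complex.re_sum, Complex.conj_re, Complex.conj_im, neg_mul, sub_neg_eq_add, Complex.inv_im, neg_zero, Complex.im_sum, Complex.mul_im, zero_mul, Complex.add_im, add_zero, Complex.sub_im, zero_add]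
  ring

end general

end IotaB

open IotaB in
/-- The gap above the block singlets. -/
theorem casimir_gap {B : Type} [Fintype B] [DecidableEq B] (Φ : SSt (B × Fin 4)) :
    snorm2 Φ - ∑ x, ‖iotaA Φ x‖ ^ 2 ≤ (sip Φ (casimir Φ)).re := by
  obtain ⟨e, hx, he, he'⟩ := exists_basis
  have h1 : ∀ b : B, _ := fun b => block_gap e he he' hx b (crv Φ)
  rw [sip_casimir]
  refine le_trans ?_ (Finset.sum_le_sum fun b _ => h1 b)
  rw [Finset.sum_comm]
  have h2 : snorm2 Φ = ∑ α, ‖hat e (crv Φ) α‖ ^ 2 := by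
    rw [parseval e he', snorm2, sum_crv]
    rfl
  have h3 : ∑ x, ‖iotaA Φ x‖ ^ 2 =
      ∑ x : B → Bool, ‖hat e (crv Φ) (fun b => Sum.inl (x b))‖ ^ 2 := by
    refine Finset.sum_congr rfl fun x _ => ?_
    congr 2
    rw [iotaA, sum_crv, hat]
    refine Finset.sum_congr rfl fun c _ => ?_
    simp only [hx, crv]
    push_cast
    rfl
  have h4 : ∑ x : B → Bool, ‖hat e (crv Φ) (fun b => Sum.inl (x b))‖ ^ 2 =
      ∑ α : B → Bool ⊕ Fin 14, if ∀ b, (α b).isLeft then ‖hat e (crv Φ) α‖ ^ 2 else 0 := by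
    rw [← Finset.sum_filter]
    refine Finset.sum_bij (fun x _ => fun b => Sum.inl (x b)) ?_ ?_ ?_ ?_
    · intro x _
      simp only [mem_filter, mem_univ, Sum.isLeft_inl, implies_true, and_self]
    · intro x _ y _ h
      funext b
      exact Sum.inl_injective (congrFun h b)
    · intro α hα
      rw [Finset.mem_filter] at hα
      refine ⟨fun b => (α b).elim id (fun _ => false), Finset.mem_univ _, ?_⟩
      funext b
      have hb := hα.2 b
      rcases h : α b with z | z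
      · simp [h]
      · rw [h] at hb
        simp at hb
    · intro x _
      simp
  rw [h2, h3, h4, ← Finset.sum_sub_distrib]
  refine Finset.sum_le_sum fun α _ => ?_
  by_cases hα : ∀ b, (α b).isLeft
  · rw [if_pos hα, sub_self]
    exact Finset.sum_nonneg fun b _ => by split_ifs <;> (clear * -; positivity)
  · rw [if_neg hα, sub_zero]
    push Not at hα
    obtain ⟨b, hb⟩ := hα
    have hb' : (α b).isRight := by
      rcases h : α b with z | z
      · rw [h] at hb; simp at hb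
      · simp
    calc ‖hat e (crv Φ) α‖ ^ 2 = if (α b).isRight then ‖hat e (crv Φ) α‖ ^ 2 else 0 := by
          rw [if_pos hb']
      _ ≤ _ := Finset.single_le_sum
          (f := fun b => if (α b).isRight then ‖hat e (crv Φ) α‖ ^ 2 else 0)
          (fun b _ => by split_ifs <;> (clear * -; positivity)) (Finset.mem_univ b)

end Vale.Agent.P370.H
end
end

section

section

/-!
Double radial integrals with the multipole kernel `min^L / max^(L+1)`.
-/

namespace Vale.Agent.P370.KC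

open MeasureTheory Finset Vale.Agent.P370.Q

/-- multipole kernel -/
noncomputable def mk (L : ℕ) (r s : ℝ) : ℝ := min r s ^ L / max r s ^ (L + 1)

/-- radial pairing -/
noncomputable def RL (L : ℕ) (φ ψ : ℝ → ℝ) : ℝ :=
  ∫ s in Set.Ioi (0 : ℝ), (∫ r in Set.Ioi (0 : ℝ), φ r * mk L r s) * ψ s

/-- `∫_0^∞ s^q e^(-βs) ∫_s^∞ r^p e^(-αr)` -/
noncomputable def TT (p q : ℕ) (α β : ℝ) : ℝ :=
  ∑ t ∈ range (p + 1), ((p.factorial : ℝ) / (t.factorial : ℝ)) * ((q + t).factorial : ℝ) /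
    (α ^ (p - t + 1) * (α + β) ^ (q + t + 1))

/-- monomial times exponential -/
noncomputable def me (p : ℕ) (α r : ℝ) : ℝ := r ^ p * Real.exp (-(α * r))

theorem me_int (p : ℕ) {α : ℝ} (hα : 0 < α) : IntegrableOn (me p α) (Set.Ioi 0) :=
  rad_integrable p hα

theorem me_integral (p : ℕ) {α : ℝ} (hα : 0 < α) :
    ∫ r in Set.Ioi (0 : ℝ), me p α r = (p.factorial : ℝ) / α ^ (p + 1) := by
  unfold me
  rw [rad_integral p hα, one_div, inv_pow]
  rfl

theorem me_cont (p : ℕ) (α : ℝ) : Continuous (me p α) := by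
  unfold me
  (clear * -; fun_prop)

theorem me_nonneg (p : ℕ) (α : ℝ) {r : ℝ} (hr : 0 ≤ r) : 0 ≤ me p α r := by
  unfold me
  (clear * - hr; positivity)

/-- incomplete integral -/
theorem me_tail (a : ℕ) {α : ℝ} (hα : 0 < α) (s : ℝ) :
    ∫ r in Set.Ioi s, me a α r =
      ∑ t ∈ range (a + 1), ((a.factorial : ℝ) / (t.factorial : ℝ)) / α ^ (a - t + 1) * me t α s := by
  have h1 : ∫ v in Set.Ioi (0 : ℝ), me a α (v + s) = ∫ r in Set.Ioi s, me a α r := by
    have h := (measurePreserving_add_right (volume : Measure ℝ) s).setIntegral_preimage_emb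
      (MeasurableEquiv.addRight s).measurableEmbedding (me a α) (Set.Ioi s)
    rw [← h]
    congr 1
    congr 1
    ext v
    simp only [Set.mem_Ioi, Set.preimage_add_const_Ioi, sub_self]
  rw [← h1]
  have h2 : ∀ v : ℝ, me a α (v + s) = ∑ t ∈ range (a + 1),
      ((a.choose t : ℝ) * (s ^ t * Real.exp (-(α * s)))) * me (a - t) α v := by
    intro v
    unfold me
    rw [add_comm v s, add_pow, Finset.sum_mul]
    refine Finset.sum_congr rfl fun t _ => ?_
    rw [show -(α * (s + v)) = -(α * s) + -(α * v) by ring, Real.exp_add]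
    ring
  simp only [h2]
  rw [integral_finsetSum _ fun t _ => (me_int (a - t) hα).const_mul _]
  refine Finset.sum_congr rfl fun t ht => ?_
  rw [integral_const_mul, me_integral _ hα]
  have ht' : t ≤ a := by
    rw [Finset.mem_range] at ht
    omega
  have h3 : (a.choose t : ℝ) * ((a - t).factorial : ℝ) = (a.factorial : ℝ) / (t.factorial : ℝ) := by
    rw [Nat.cast_choose ℝ ht']
    have h4 : (t.factorial : ℝ) ≠ 0 := by positivity
    have h5 : ((a - t).factorial : ℝ) ≠ 0 := by positivity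
    field_simp
  rw [← h3]
  unfold me
  ring

theorem rtri_eq (a b : ℕ) {α β : ℝ} (hα : 0 < α) (hβ : 0 < β) :
    ∫ s in Set.Ioi (0 : ℝ), (∫ r in Set.Ioi s, me a α r) * me b β s = TT a b α β := by
  simp only [me_tail a hα, Finset.sum_mul]
  have h1 : ∀ (t : ℕ) (s : ℝ), ((a.factorial : ℝ) / (t.factorial : ℝ)) / α ^ (a - t + 1) *
      me t α s * me b β s = ((a.factorial : ℝ) / (t.factorial : ℝ)) / α ^ (a - t + 1) *
      me (b + t) (α + β) s := by
    intro t s
    unfold me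
    rw [show -((α + β) * s) = -(α * s) + -(β * s) by ring, Real.exp_add]
    ring
  simp only [h1]
  rw [integral_finsetSum _ fun t _ => (me_int (b + t) (add_pos hα hβ)).const_mul _]
  unfold TT
  refine Finset.sum_congr rfl fun t _ => ?_
  rw [integral_const_mul, me_integral _ (add_pos hα hβ), div_mul_div_comm]

theorem mk_nonneg (L : ℕ) {r s : ℝ} (hr : 0 ≤ r) (hs : 0 ≤ s) : 0 ≤ mk L r s := by
  unfold mk
  have := le_min hr hs
  have := le_max_of_le_left (c := s) hr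
  positivity

theorem mk_le (L : ℕ) {r s : ℝ} (hr : 0 < r) (hs : 0 < s) : mk L r s ≤ 1 / r := by
  unfold mk
  have h1 : 0 < max r s := lt_max_of_lt_left hr
  have h2 : 0 ≤ min r s := le_min hr.le hs.le
  have h3 : min r s ≤ max r s := min_le_max
  rw [div_le_div_iff₀ (by positivity) hr, one_mul, pow_succ]
  exact mul_le_mul (pow_le_pow_left₀ h2 h3 L) (le_max_left r s) hr.le (by positivity)

theorem mk_meas (L : ℕ) : Measurable fun q : ℝ × ℝ => mk L q.2 q.1 := by
  unfold mk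
  fun_prop

/-- the product measure on the quadrant -/
noncomputable def qm : Measure (ℝ × ℝ) :=
  ((volume : Measure ℝ).restrict (Set.Ioi 0)).prod ((volume : Measure ℝ).restrict (Set.Ioi 0))

theorem qm_pos : ∀ᵐ q ∂qm, 0 < q.1 ∧ 0 < q.2 := by
  have h : qm = ((volume : Measure ℝ).prod volume).restrict (Set.Ioi 0 ×ˢ Set.Ioi 0) := by
    unfold qm
    rw [Measure.prod_restrict]
  rw [h]
  refine (ae_restrict_iff' (measurableSet_Ioi.prod measurableSet_Ioi)).2
    (Filter.Eventually.of_forall fun q hq => ?_)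
  exact ⟨hq.1, hq.2⟩

theorem me_prod_int (a b : ℕ) {α β : ℝ} (hα : 0 < α) (hβ : 0 < β) :
    Integrable (fun q : ℝ × ℝ => me b β q.1 * me a α q.2) qm :=
  (me_int b hβ).mul_prod (me_int a hα)

theorem RL_int (L p q : ℕ) {α β : ℝ} (hα : 0 < α) (hβ : 0 < β) (hp : 1 ≤ p) :
    Integrable (fun z : ℝ × ℝ => me p α z.2 * mk L z.2 z.1 * me q β z.1) qm := by
  refine (me_prod_int (p - 1) q hα hβ).mono' ?_ ?_
  · refine Measurable.aestronglyMeasurable ?_
    exact (((me_cont p α).measurable.comp measurable_snd).mul (mk_meas L)).mul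
      ((me_cont q β).measurable.comp measurable_fst)
  · filter_upwards [qm_pos] with z hz
    have h1 := mk_le L hz.2 hz.1
    have h0 := mk_nonneg L hz.2.le hz.1.le
    have h2 : me p α z.2 = z.2 * me (p - 1) α z.2 := by
      unfold me
      have : z.2 ^ p = z.2 * z.2 ^ (p - 1) := by
        rw [← pow_succ']
        congr 1
        (clear * - hp; omega)
      rw [this]
      ring
    have h3 := me_nonneg (p - 1) α hz.2.le
    have h4 := me_nonneg q β hz.1.le
    rw [Real.norm_eq_abs, abs_of_nonneg (by rw [h2]; have := hz.2.le; (clear * - this h3 h0 h4; positivity)), h2]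
    calc z.2 * me (p - 1) α z.2 * mk L z.2 z.1 * me q β z.1
        = (z.2 * mk L z.2 z.1) * (me (p - 1) α z.2 * me q β z.1) := by ring
      _ ≤ 1 * (me (p - 1) α z.2 * me q β z.1) := by
          refine mul_le_mul_of_nonneg_right ?_ (by (clear * - h3 h4; positivity))
          calc z.2 * mk L z.2 z.1 ≤ z.2 * (1 / z.2) := mul_le_mul_of_nonneg_left h1 hz.2.le
            _ = 1 := mul_one_div_cancel hz.2.ne'
      _ = me q β z.1 * me (p - 1) α z.2 := by ring

/-- the inner integral is integrable -/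
theorem inner_int (L p : ℕ) {α : ℝ} (hα : 0 < α) (hp : 1 ≤ p) {s : ℝ} (hs : 0 < s) :
    IntegrableOn (fun r => me p α r * mk L r s) (Set.Ioi 0) := by
  refine (me_int (p - 1) hα).mono' ?_ ?_
  · refine Measurable.aestronglyMeasurable ?_
    exact (me_cont p α).measurable.mul ((mk_meas L).comp (measurable_const.prodMk measurable_id))
  · refine (ae_restrict_iff' measurableSet_Ioi).2 (Filter.Eventually.of_forall fun r hr => ?_)
    have hr' : 0 < r := hr
    have h1 := mk_le L hr' hs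
    have h0 := mk_nonneg L hr'.le hs.le
    have h2 : me p α r = r * me (p - 1) α r := by
      unfold me
      have : r ^ p = r * r ^ (p - 1) := by
        rw [← pow_succ']
        congr 1
        (clear * - hp; omega)
      rw [this]
      ring
    have h3 := me_nonneg (p - 1) α hr'.le
    rw [Real.norm_eq_abs, abs_of_nonneg (by rw [h2]; (clear * - hr' h3 h0; positivity)), h2]
    calc r * me (p - 1) α r * mk L r s = (r * mk L r s) * me (p - 1) α r := by ring
      _ ≤ 1 * me (p - 1) α r := by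
          refine mul_le_mul_of_nonneg_right ?_ h3
          calc r * mk L r s ≤ r * (1 / r) := mul_le_mul_of_nonneg_left h1 hr'.le
            _ = 1 := mul_one_div_cancel hr'.ne'
      _ = me (p - 1) α r := one_mul _

theorem outer_int (L p q : ℕ) {α β : ℝ} (hα : 0 < α) (hβ : 0 < β) (hp : 1 ≤ p) :
    IntegrableOn (fun s => (∫ r in Set.Ioi (0 : ℝ), me p α r * mk L r s) * me q β s)
      (Set.Ioi 0) := by
  have h := (RL_int L p q hα hβ hp).integral_prod_left
  refine h.congr (Filter.Eventually.of_forall fun s => ?_)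
  show ∫ r in Set.Ioi (0 : ℝ), me p α r * mk L r s * me q β s = _
  rw [integral_mul_const]

/-- splitting of the kernel -/
theorem RL_me (L p q : ℕ) {α β : ℝ} (hα : 0 < α) (hβ : 0 < β) (hp : L + 1 ≤ p)
    (hq : L + 1 ≤ q) :
    RL L (me p α) (me q β) = TT (p - L - 1) (q + L) α β + TT (q - L - 1) (p + L) β α := by
  -- the two triangular parts
  let F1 : ℝ × ℝ → ℝ := Set.indicator {z : ℝ × ℝ | z.1 < z.2}
    (fun z => me (q + L) β z.1 * me (p - L - 1) α z.2)
  let F2 : ℝ × ℝ → ℝ := Set.indicator {z : ℝ × ℝ | z.2 < z.1}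
    (fun z => me (q - L - 1) β z.1 * me (p + L) α z.2)
  have hm1 : MeasurableSet {z : ℝ × ℝ | z.1 < z.2} := measurableSet_lt measurable_fst measurable_snd
  have hm2 : MeasurableSet {z : ℝ × ℝ | z.2 < z.1} := measurableSet_lt measurable_snd measurable_fst
  have hF1 : Integrable F1 qm := (me_prod_int (p - L - 1) (q + L) hα hβ).indicator hm1
  have hF2 : Integrable F2 qm := (me_prod_int (p + L) (q - L - 1) hα hβ).indicator hm2
  have hdiag : ∀ᵐ z ∂qm, z.1 ≠ z.2 := by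
    have h1 : ∀ s : ℝ, ∀ᵐ r ∂((volume : Measure ℝ).restrict (Set.Ioi 0)), s ≠ r := by
      intro s
      refine ae_restrict_of_ae ?_
      have := (measure_singleton (μ := (volume : Measure ℝ)) s)
      rw [ae_iff]
      convert this using 2
      ext r
      simp only [ne_eq, Decidable.not_not, Set.ofPred_eq_eq_singleton', Set.mem_singleton_iff, eq_comm]
    unfold qm
    rw [Measure.ae_prod_iff_ae_ae]
    · exact Filter.Eventually.of_forall h1
    · exact (measurableSet_eq_fun measurable_fst measurable_snd).compl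
  have hsplit : ∀ᵐ z ∂qm, me p α z.2 * mk L z.2 z.1 * me q β z.1 = F1 z + F2 z := by
    filter_upwards [qm_pos, hdiag] with z hz hne
    rcases lt_or_gt_of_ne hne with h | h
    · have e1 : F1 z = me (q + L) β z.1 * me (p - L - 1) α z.2 :=
        Set.indicator_of_mem (s := {z : ℝ × ℝ | z.1 < z.2}) h _
      have e2 : F2 z = 0 := Set.indicator_of_notMem
        (s := {z : ℝ × ℝ | z.2 < z.1}) (show ¬ _ from not_lt.2 h.le) _
      rw [e1, e2, add_zero]
      unfold mk me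
      rw [min_eq_right h.le, max_eq_left h.le]
      have e3 : z.2 ^ p = z.2 ^ (p - L - 1) * z.2 ^ (L + 1) := by
        rw [← pow_add]
        congr 1
        (clear * - hp; omega)
      rw [e3, pow_add z.1 q L]
      have := hz.2.ne'
      (clear * - this; field_simp)
    · have e1 : F2 z = me (q - L - 1) β z.1 * me (p + L) α z.2 :=
        Set.indicator_of_mem (s := {z : ℝ × ℝ | z.2 < z.1}) h _
      have e2 : F1 z = 0 := Set.indicator_of_notMem
        (s := {z : ℝ × ℝ | z.1 < z.2}) (show ¬ _ from not_lt.2 h.le) _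
      rw [e1, e2, zero_add]
      unfold mk me
      rw [min_eq_left h.le, max_eq_right h.le]
      have e3 : z.1 ^ q = z.1 ^ (q - L - 1) * z.1 ^ (L + 1) := by
        rw [← pow_add]
        congr 1
        omega
      rw [e3, pow_add z.2 p L]
      have := hz.1.ne'
      (clear * - this; field_simp)
  have hRL : RL L (me p α) (me q β) = ∫ z, F1 z + F2 z ∂qm := by
    rw [← integral_congr_ae hsplit]
    have h1 := integral_prod (μ := (volume : Measure ℝ).restrict (Set.Ioi 0))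
      (ν := (volume : Measure ℝ).restrict (Set.Ioi 0))
      (fun z : ℝ × ℝ => me p α z.2 * mk L z.2 z.1 * me q β z.1)
      (RL_int L p q hα hβ (by (clear * - hp; omega)))
    unfold RL qm
    rw [h1]
    refine integral_congr_ae (Filter.Eventually.of_forall fun s => ?_)
    simp only
    rw [integral_mul_const]
  rw [hRL, integral_add hF1 hF2]
  congr 1
  · have h1 := integral_prod (μ := (volume : Measure ℝ).restrict (Set.Ioi 0))
      (ν := (volume : Measure ℝ).restrict (Set.Ioi 0)) F1 hF1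
    unfold qm
    rw [h1, ← rtri_eq (p - L - 1) (q + L) hα hβ]
    refine setIntegral_congr_fun measurableSet_Ioi fun s hs => ?_
    have hs' : 0 < s := hs
    have h2 : ∀ r, F1 (s, r) = Set.indicator (Set.Ioi s) (fun r => me (q + L) β s *
        me (p - L - 1) α r) r := by
      intro r
      by_cases h : s < r
      · rw [Set.indicator_of_mem (show r ∈ Set.Ioi s from h)]
        exact Set.indicator_of_mem (s := {z : ℝ × ℝ | z.1 < z.2}) (show s < r from h) _
      · rw [Set.indicator_of_notMem (show r ∉ Set.Ioi s from h)]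
        exact Set.indicator_of_notMem (s := {z : ℝ × ℝ | z.1 < z.2}) (show ¬ s < r from h) _
    simp only [h2]
    rw [setIntegral_indicator measurableSet_Ioi, Set.Ioi_inter_Ioi, max_eq_right hs'.le,
      integral_const_mul, mul_comm]
  · have hsw : Integrable (fun z : ℝ × ℝ => F2 z.swap) qm := by
      unfold qm at hF2 ⊢
      exact hF2.swap
    have h0 : ∫ z, F2 z ∂qm = ∫ z : ℝ × ℝ, F2 z.swap ∂qm := by
      unfold qm
      exact (integral_prod_swap F2).symm
    have h1 := integral_prod (μ := (volume : Measure ℝ).restrict (Set.Ioi 0))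
      (ν := (volume : Measure ℝ).restrict (Set.Ioi 0)) (fun z : ℝ × ℝ => F2 z.swap) hsw
    rw [h0]
    unfold qm
    rw [h1, ← rtri_eq (q - L - 1) (p + L) hβ hα]
    refine setIntegral_congr_fun measurableSet_Ioi fun s hs => ?_
    have hs' : 0 < s := hs
    have h2 : ∀ r, F2 (Prod.swap (s, r)) = Set.indicator (Set.Ioi s) (fun r =>
        me (q - L - 1) β r * me (p + L) α s) r := by
      intro r
      by_cases h : s < r
      · rw [Set.indicator_of_mem (show r ∈ Set.Ioi s from h)]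
        exact Set.indicator_of_mem (s := {z : ℝ × ℝ | z.2 < z.1}) (show s < r from h) _
      · rw [Set.indicator_of_notMem (show r ∉ Set.Ioi s from h)]
        exact Set.indicator_of_notMem (s := {z : ℝ × ℝ | z.2 < z.1}) (show ¬ s < r from h) _
    simp only [h2]
    rw [setIntegral_indicator measurableSet_Ioi, Set.Ioi_inter_Ioi, max_eq_right hs'.le,
      integral_mul_const]

/-- bilinearity -/
theorem RL_sum {ι κ : Type*} (I : Finset ι) (J : Finset κ) (a : ι → ℝ) (b : κ → ℝ) (p : ι → ℕ)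
    (q : κ → ℕ) (L : ℕ) {α β : ℝ} (hα : 0 < α) (hβ : 0 < β) (hp : ∀ i ∈ I, 1 ≤ p i) :
    RL L (fun r => ∑ i ∈ I, a i * me (p i) α r) (fun s => ∑ j ∈ J, b j * me (q j) β s) =
      ∑ i ∈ I, ∑ j ∈ J, a i * b j * RL L (me (p i) α) (me (q j) β) := by
  have h1 : ∀ s ∈ Set.Ioi (0 : ℝ), (∫ r in Set.Ioi (0 : ℝ), (∑ i ∈ I, a i * me (p i) α r) *
      mk L r s) * (∑ j ∈ J, b j * me (q j) β s) = ∑ i ∈ I, ∑ j ∈ J, a i * b j *
      ((∫ r in Set.Ioi (0 : ℝ), me (p i) α r * mk L r s) * me (q j) β s) := by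
    intro s hs
    have h2 : ∫ r in Set.Ioi (0 : ℝ), (∑ i ∈ I, a i * me (p i) α r) * mk L r s =
        ∑ i ∈ I, a i * ∫ r in Set.Ioi (0 : ℝ), me (p i) α r * mk L r s := by
      have h3 : ∀ r, (∑ i ∈ I, a i * me (p i) α r) * mk L r s =
          ∑ i ∈ I, a i * (me (p i) α r * mk L r s) := by
        intro r
        rw [Finset.sum_mul]
        exact Finset.sum_congr rfl fun i _ => by ring
      simp only [h3]
      rw [integral_finsetSum _ fun i hi => (inner_int L (p i) hα (hp i hi) hs).const_mul _]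
      exact Finset.sum_congr rfl fun i _ => integral_const_mul _ _
    rw [h2, Finset.sum_mul_sum]
    exact Finset.sum_congr rfl fun i _ => Finset.sum_congr rfl fun j _ => by ring
  unfold RL
  rw [setIntegral_congr_fun measurableSet_Ioi h1,
    integral_finsetSum _ fun i hi => integrable_finsetSum _ fun j _ =>
      (outer_int L (p i) (q j) hα hβ (hp i hi)).const_mul _]
  refine Finset.sum_congr rfl fun i hi => ?_
  rw [integral_finsetSum _ fun j _ => (outer_int L (p i) (q j) hα hβ (hp i hi)).const_mul _]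
  exact Finset.sum_congr rfl fun j _ => integral_const_mul _ _

end Vale.Agent.P370.KC
end
end

section

section

/-!
Helper for `DevExact`: potentials of polynomials times radial weights are polynomial on spheres.
-/

namespace Vale.Agent.P370.Q.DevEx

open MeasureTheory Finset ComplexConjugate Vale.Agent.P370 Vale.Agent.P370.Q

theorem pe_add (P Q : Poly3) (x : R3) : pe (P + Q) x = pe P x + pe Q x := by
  unfold pe; simp

theorem pe_mul (P Q : Poly3) (x : R3) : pe (P * Q) x = pe P x * pe Q x := by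
  unfold pe; simp

theorem pe_pow (P : Poly3) (n : ℕ) (x : R3) : pe (P ^ n) x = pe P x ^ n := by
  unfold pe; simp

theorem pe_sub (P Q : Poly3) (x : R3) : pe (P - Q) x = pe P x - pe Q x := by
  unfold pe; simp

theorem pe_C (c : ℝ) (x : R3) : pe (MvPolynomial.C c) x = c := by
  unfold pe; simp only [MvPolynomial.eval_C]

theorem pe_smul (c : ℝ) (P : Poly3) (x : R3) : pe (c • P) x = c * pe P x := by
  unfold pe; simp only [MvPolynomial.smul_eval]

theorem pe_X (i : Fin 3) (x : R3) : pe (MvPolynomial.X i) x = x i := by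
  unfold pe; simp

theorem pe_zero (x : R3) : pe 0 x = 0 := by
  unfold pe; simp

theorem pe_sum {ι : Type} (s : Finset ι) (f : ι → Poly3) (x : R3) :
    pe (∑ i ∈ s, f i) x = ∑ i ∈ s, pe (f i) x := by
  unfold pe; simp only [map_sum]

/-- the linear form with coefficients `a` -/
noncomputable def lf (a : Fin 3 → ℝ) : Poly3 := ∑ k, MvPolynomial.C (a k) * MvPolynomial.X k

theorem pe_lf (a : Fin 3 → ℝ) (x : R3) : pe (lf a) x = inner ℝ (WithLp.toLp 2 a : R3) x := by
  unfold lf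
  rw [pe_sum]
  simp only [pe_mul, pe_C, pe_X]
  simp only [PiLp.inner_apply, RCLike.inner_apply, Real.ringHom_apply, mul_comm]

theorem totalDegree_lf (a : Fin 3 → ℝ) : (lf a).totalDegree ≤ 1 := by
  unfold lf
  refine (MvPolynomial.totalDegree_finsetSum _ _).trans ?_
  refine Finset.sup_le fun k _ => ?_
  refine (MvPolynomial.totalDegree_mul _ _).trans ?_
  simp

/-- frames adapted to a unit vector `u` and a second vector `a` -/
theorem exists_frame (a u : R3) (hu : ‖u‖ = 1) (b : ℝ)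
    (hb : b ^ 2 = ‖a‖ ^ 2 - (inner ℝ a u) ^ 2) :
    ∃ g : R3 ≃ₗᵢ[ℝ] R3, g (EuclideanSpace.single 2 1) = u ∧
      a = (inner ℝ a u : ℝ) • u + b • g (EuclideanSpace.single 0 1) := by
  set w : R3 := a - (inner ℝ a u : ℝ) • u with hw
  have huu : inner ℝ u u = (1 : ℝ) := by rw [real_inner_self_eq_norm_sq, hu]; norm_num
  have hwu : inner ℝ w u = (0 : ℝ) := by
    rw [hw, inner_sub_left, inner_smul_left, huu]; simp
  have hww : ‖w‖ ^ 2 = b ^ 2 := by
    rw [hb, ← real_inner_self_eq_norm_sq w]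
    nth_rewrite 2 [hw]
    rw [inner_sub_right, inner_smul_right, hwu, mul_zero, sub_zero, hw, inner_sub_left,
      inner_smul_left, real_inner_self_eq_norm_sq, real_inner_comm u a]
    simp
    ring
  have hfr : Module.finrank ℝ R3 = Fintype.card (Fin 3) := by simp
  obtain ⟨e, he1, he2, he3⟩ : ∃ e : R3, ‖e‖ = 1 ∧ inner ℝ e u = (0 : ℝ) ∧ w = b • e := by
    by_cases hb0 : b = 0
    · have hw0 : w = 0 := by
        have : ‖w‖ ^ 2 = 0 := by rw [hww, hb0]; norm_num
        simpa using this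
      obtain ⟨B, hB⟩ := Orthonormal.exists_orthonormalBasis_extension_of_card_eq hfr
        (v := fun _ : Fin 3 => u) (s := {2}) (by
          refine ⟨fun i => by simpa using hu, ?_⟩
          rintro ⟨i, hi⟩ ⟨j, hj⟩ hij
          exact absurd (Subtype.ext (hi.trans hj.symm)) hij)
      have h2 : B 2 = u := hB 2 rfl
      refine ⟨B 0, B.orthonormal.1 0, ?_, by rw [hw0, hb0]; simp⟩
      rw [← h2]
      exact B.orthonormal.2 (by decide)
    · refine ⟨b⁻¹ • w, ?_, ?_, ?_⟩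
      · rw [norm_smul, Real.norm_eq_abs, abs_inv]
        have h1 : ‖w‖ = |b| := by
          rw [← abs_of_nonneg (norm_nonneg w)]
          exact (sq_eq_sq_iff_abs_eq_abs _ _).1 hww
        rw [h1]
        exact inv_mul_cancel₀ (abs_ne_zero.2 hb0)
      · rw [inner_smul_left, hwu]; simp
      · rw [smul_smul, mul_inv_cancel₀ hb0, one_smul]
  obtain ⟨B, hB⟩ := Orthonormal.exists_orthonormalBasis_extension_of_card_eq hfr
    (v := ![e, 0, u]) (s := {0, 2}) (by
      have heu : inner ℝ u e = (0 : ℝ) := by rw [real_inner_comm]; exact he2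
      refine ⟨?_, ?_⟩
      · rintro ⟨i, hi⟩
        rcases hi with hi | hi <;> subst hi <;> simp [he1, hu]
      · rintro ⟨i, hi⟩ ⟨j, hj⟩ hij
        rcases hi with hi | hi <;> rcases hj with hj | hj <;> subst hi <;> subst hj
        · exact absurd rfl hij
        · simpa using he2
        · simpa using heu
        · exact absurd rfl hij)
  have h0 : B 0 = e := hB 0 (by simp)
  have h2 : B 2 = u := hB 2 (by simp)
  refine ⟨B.repr.symm, ?_, ?_⟩
  · rw [← h2]; exact B.repr_symm_single 2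
  · have : B.repr.symm (EuclideanSpace.single 0 1) = e := by
      rw [← h0]; exact B.repr_symm_single 0
    rw [this, ← he3, hw]
    simp

/-- potential of a polynomial times a radial weight -/
noncomputable def Jf (G : ℝ → ℝ) (ρ : ℝ) (P : Poly3) : R3 → ℝ :=
  fun u => ∫ x, pe P x * G ‖x‖ / dist x (ρ • u)

/-- admissible weights -/
def GInt (G : ℝ → ℝ) : Prop :=
  ∀ (P : Poly3) (y : R3), Integrable (fun x => pe P x * G ‖x‖ / dist x y)

noncomputable def ck (G : ℝ → ℝ) (ρ : ℝ) (m k : ℕ) : ℝ :=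
  ∫ y : R3, (y 2) ^ k * (y 0) ^ (m - k) * G ‖y‖ / dist y (ρ • EuclideanSpace.single 2 1)

theorem Jf_frame {G : ℝ → ℝ} (hG : GInt G) (ρ : ℝ) (m : ℕ) (a : Fin 3 → ℝ) (u : R3)
    (hu : ‖u‖ = 1) (b : ℝ)
    (hb : b ^ 2 = ‖(WithLp.toLp 2 a : R3)‖ ^ 2 - (inner ℝ (WithLp.toLp 2 a : R3) u) ^ 2) :
    Jf G ρ (lf a ^ m) u = ∑ k ∈ range (m + 1),
      (m.choose k : ℝ) * (pe (lf a) u) ^ k * b ^ (m - k) * ck G ρ m k := by
  obtain ⟨g, hg1, hg2⟩ := exists_frame (WithLp.toLp 2 a : R3) u hu b hb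
  unfold Jf
  have hmp := g.measurePreserving
  have h1 : (∫ x, pe (lf a ^ m) x * G ‖x‖ / dist x (ρ • u)) =
      ∫ y, pe (lf a ^ m) (g y) * G ‖g y‖ / dist (g y) (ρ • u) :=
    (hmp.integral_comp (g.toHomeomorph.measurableEmbedding)
      (fun x => pe (lf a ^ m) x * G ‖x‖ / dist x (ρ • u))).symm
  rw [h1]
  have h2 : ∀ y : R3, pe (lf a ^ m) (g y) * G ‖g y‖ / dist (g y) (ρ • u) =
      ∑ k ∈ range (m + 1), (m.choose k : ℝ) * (pe (lf a) u) ^ k * b ^ (m - k) *
        ((y 2) ^ k * (y 0) ^ (m - k) * G ‖y‖ / dist y (ρ • EuclideanSpace.single 2 1)) := by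
    intro y
    have e1 : dist (g y) (ρ • u) = dist y (ρ • EuclideanSpace.single 2 1) := by
      rw [← hg1, ← map_smul, g.dist_map]
    have e2 : pe (lf a) (g y) = pe (lf a) u * y 2 + b * y 0 := by
      rw [pe_lf, pe_lf]
      nth_rewrite 1 [hg2]
      rw [inner_add_left, inner_smul_left, inner_smul_left]
      nth_rewrite 2 [← hg1]
      rw [g.inner_map_map, g.inner_map_map]
      simp only [Real.ringHom_apply, Fin.isValue, EuclideanSpace.inner_single_left, one_mul]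
    rw [e1, g.norm_map, pe_pow, e2, add_pow, Finset.sum_mul, Finset.sum_div]
    refine Finset.sum_congr rfl fun k _ => ?_
    rw [mul_pow, mul_pow]
    ring
  simp only [h2]
  rw [integral_finsetSum]
  · refine Finset.sum_congr rfl fun k _ => ?_
    rw [integral_const_mul]; rfl
  · intro k _
    refine Integrable.const_mul ?_ _
    have := hG (MvPolynomial.X 2 ^ k * MvPolynomial.X 0 ^ (m - k))
      (ρ • EuclideanSpace.single 2 1)
    simpa only [pe_mul, pe_pow, pe_X] using this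

/-- polynomial representing `Jf` of the power of a linear form -/
noncomputable def Rp (G : ℝ → ℝ) (ρ : ℝ) (m : ℕ) (a : Fin 3 → ℝ) : Poly3 :=
  ∑ k ∈ range (m + 1), MvPolynomial.C ((m.choose k : ℝ) * ck G ρ m k) *
    (lf a ^ k * (if Even (m - k) then
      (MvPolynomial.C (‖(WithLp.toLp 2 a : R3)‖ ^ 2) - lf a ^ 2) ^ ((m - k) / 2) else 0))

theorem Rp_degree (G : ℝ → ℝ) (ρ : ℝ) (m : ℕ) (a : Fin 3 → ℝ) :
    (Rp G ρ m a).totalDegree ≤ m := by
  unfold Rp
  refine (MvPolynomial.totalDegree_finsetSum _ _).trans ?_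
  refine Finset.sup_le fun k hk => ?_
  have hk' : k ≤ m := by simpa only [mem_range, Order.lt_add_one_iff] using hk
  refine (MvPolynomial.totalDegree_mul _ _).trans ?_
  rw [MvPolynomial.totalDegree_C, zero_add]
  refine (MvPolynomial.totalDegree_mul _ _).trans ?_
  have h1 : (lf a ^ k).totalDegree ≤ k := by
    refine (MvPolynomial.totalDegree_pow _ _).trans ?_
    calc k * (lf a).totalDegree ≤ k * 1 := Nat.mul_le_mul_left _ (totalDegree_lf a)
      _ = k := mul_one k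
  have h2 : (if Even (m - k) then
      (MvPolynomial.C (‖(WithLp.toLp 2 a : R3)‖ ^ 2) - lf a ^ 2) ^ ((m - k) / 2)
      else (0 : Poly3)).totalDegree ≤ m - k := by
    split_ifs with h
    · refine (MvPolynomial.totalDegree_pow _ _).trans ?_
      have h3 : (MvPolynomial.C (‖(WithLp.toLp 2 a : R3)‖ ^ 2) - lf a ^ 2 : Poly3).totalDegree
          ≤ 2 := by
        refine (MvPolynomial.totalDegree_sub _ _).trans ?_
        rw [MvPolynomial.totalDegree_C]
        refine max_le (by norm_num) ((MvPolynomial.totalDegree_pow _ _).trans ?_)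
        calc 2 * (lf a).totalDegree ≤ 2 * 1 := Nat.mul_le_mul_left _ (totalDegree_lf a)
          _ = 2 := by norm_num
      calc (m - k) / 2 * _ ≤ (m - k) / 2 * 2 := Nat.mul_le_mul_left _ h3
        _ ≤ m - k := Nat.div_mul_le_self _ _
    · simp only [MvPolynomial.totalDegree_zero, zero_le]
  (clear * - hk' h1 h2; omega)

theorem Jf_pow {G : ℝ → ℝ} (hG : GInt G) (ρ : ℝ) (m : ℕ) (a : Fin 3 → ℝ) (u : R3)
    (hu : ‖u‖ = 1) : Jf G ρ (lf a ^ m) u = pe (Rp G ρ m a) u := by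
  set s : ℝ := ‖(WithLp.toLp 2 a : R3)‖ ^ 2 - (inner ℝ (WithLp.toLp 2 a : R3) u) ^ 2 with hs
  have hs0 : 0 ≤ s := by
    have := abs_real_inner_le_norm (WithLp.toLp 2 a : R3) u
    rw [hu, mul_one] at this
    have h2 := sq_abs (inner ℝ (WithLp.toLp 2 a : R3) u)
    have h3 := abs_nonneg (inner ℝ (WithLp.toLp 2 a : R3) u)
    rw [hs]
    nlinarith only [h2, this, h3]
  have hb1 : (Real.sqrt s) ^ 2 = s := Real.sq_sqrt hs0
  have hb2 : (-Real.sqrt s) ^ 2 = s := by rw [neg_sq]; exact hb1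
  have e1 := Jf_frame hG ρ m a u hu _ hb1
  have e2 := Jf_frame hG ρ m a u hu _ hb2
  have e3 : Jf G ρ (lf a ^ m) u = (Jf G ρ (lf a ^ m) u + Jf G ρ (lf a ^ m) u) / 2 := by ring
  rw [e3]
  nth_rewrite 1 [e1]
  rw [e2, ← Finset.sum_add_distrib, Finset.sum_div]
  unfold Rp
  rw [pe_sum]
  refine Finset.sum_congr rfl fun k _ => ?_
  rw [pe_mul, pe_mul, pe_C, pe_pow]
  split_ifs with h
  · rw [pe_pow, pe_sub, pe_C, pe_pow, pe_lf, ← hs, h.neg_pow]
    obtain ⟨j, hj⟩ := h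
    have hj2 : m - k = 2 * j := by omega
    rw [hj2, Nat.mul_div_cancel_left _ (by norm_num), pow_mul, hb1]
    ring
  · rw [Nat.not_even_iff_odd] at h
    rw [h.neg_pow, pe_zero]
    ring

/-- functions that agree on the unit sphere with a polynomial of degree at most `m` -/
noncomputable def Wm (m : ℕ) : Submodule ℝ (R3 → ℝ) where
  carrier := {f | ∃ R : Poly3, R.totalDegree ≤ m ∧ ∀ u, ‖u‖ = 1 → f u = pe R u}
  add_mem' := by
    rintro f g ⟨R, hR, hf⟩ ⟨S, hS, hg⟩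
    refine ⟨R + S, (MvPolynomial.totalDegree_add _ _).trans (max_le hR hS), fun u hu => ?_⟩
    rw [Pi.add_apply, hf u hu, hg u hu, pe_add]
  zero_mem' := ⟨0, by simp, fun u _ => by rw [pe_zero]; rfl⟩
  smul_mem' := by
    rintro c f ⟨R, hR, hf⟩
    refine ⟨c • R, (MvPolynomial.totalDegree_smul_le _ _).trans hR, fun u hu => ?_⟩
    rw [Pi.smul_apply, hf u hu, pe_smul, smul_eq_mul]

/-- `Jf` as a linear map -/
noncomputable def JL {G : ℝ → ℝ} (hG : GInt G) (ρ : ℝ) : Poly3 →ₗ[ℝ] (R3 → ℝ) where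
  toFun := Jf G ρ
  map_add' P Q := by
    funext u
    rw [Pi.add_apply]
    unfold Jf
    rw [← integral_add (hG P _) (hG Q _)]
    refine integral_congr_ae (Filter.Eventually.of_forall fun x => ?_)
    simp only [pe_add]
    ring
  map_smul' c P := by
    funext u
    rw [Pi.smul_apply]
    unfold Jf
    simp only [RingHom.id_apply, smul_eq_mul]
    rw [← integral_const_mul]
    refine integral_congr_ae (Filter.Eventually.of_forall fun x => ?_)
    simp only [pe_smul]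
    ring

theorem Jf_hom {G : ℝ → ℝ} (hG : GInt G) (ρ : ℝ) (m : ℕ) (P : Poly3) (hP : P.IsHomogeneous m) :
    Jf G ρ P ∈ Wm m := by
  have := lin_ext m ((Wm m).mkQ ∘ₗ JL hG ρ) (fun v => by
    rw [LinearMap.comp_apply, Submodule.mkQ_apply, Submodule.Quotient.mk_eq_zero]
    exact ⟨Rp G ρ m v, Rp_degree G ρ m v, fun u hu => Jf_pow hG ρ m v u hu⟩) P hP
  rwa [LinearMap.comp_apply, Submodule.mkQ_apply, Submodule.Quotient.mk_eq_zero] at this

theorem Wm_mono {m m' : ℕ} (h : m ≤ m') : Wm m ≤ Wm m' := by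
  rintro f ⟨R, hR, hf⟩
  exact ⟨R, hR.trans h, hf⟩

theorem Jf_mem {G : ℝ → ℝ} (hG : GInt G) (ρ : ℝ) (m : ℕ) (P : Poly3) (hP : P.totalDegree ≤ m) :
    Jf G ρ P ∈ Wm m := by
  have h1 : Jf G ρ P = JL hG ρ P := rfl
  rw [h1, ← MvPolynomial.sum_homogeneousComponent P, map_sum]
  refine Submodule.sum_mem _ fun i hi => ?_
  have hi' : i ≤ m := by
    have := Finset.mem_range.1 hi
    omega
  exact Wm_mono hi' (Jf_hom hG ρ i _ (MvPolynomial.homogeneousComponent_isHomogeneous i P))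

end Vale.Agent.P370.Q.DevEx
end
end

section

section

set_option exponentiation.threshold 10000

namespace Vale.Agent.P370

open Red Chains

end Vale.Agent.P370
end
end

section

section

/-!
Second order perturbation theory (H7).
-/

set_option linter.unusedSectionVars false

namespace Vale.Agent.P370.H

open Finset ComplexConjugate

section ptapi

variable {I : Type} [Fintype I] [DecidableEq I]

/-- the norm of a spin state -/
noncomputable def ptN (Φ : SSt I) : ℝ := ‖(WithLp.toLp 2 Φ : EuclideanSpace ℂ (I → Fin 2))‖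

/-- real part of the inner product -/
noncomputable def ptR (Φ Ψ : SSt I) : ℝ := (sip Φ Ψ).re

lemma ptN_nonneg (Φ : SSt I) : 0 ≤ ptN Φ := norm_nonneg _

lemma ptN_sq (Φ : SSt I) : ptN Φ ^ 2 = snorm2 Φ := by
  rw [ptN, EuclideanSpace.norm_sq_eq]
  rfl

lemma ptN_add_le (Φ Ψ : SSt I) : ptN (Φ + Ψ) ≤ ptN Φ + ptN Ψ :=
  norm_add_le (WithLp.toLp 2 Φ : EuclideanSpace ℂ (I → Fin 2)) (WithLp.toLp 2 Ψ)

lemma ptN_smul (c : ℂ) (Φ : SSt I) : ptN (c • Φ) = ‖c‖ * ptN Φ :=
  norm_smul c (WithLp.toLp 2 Φ : EuclideanSpace ℂ (I → Fin 2))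

lemma ptN_zero : ptN (0 : SSt I) = 0 := norm_zero

lemma ptN_sum_le {α : Type*} (A : Finset α) (f : α → SSt I) :
    ptN (∑ a ∈ A, f a) ≤ ∑ a ∈ A, ptN (f a) := by
  classical
  induction A using Finset.induction_on with
  | empty => simp only [sum_empty, ptN_zero, Std.le_refl]
  | insert a A ha ih =>
    rw [Finset.sum_insert ha, Finset.sum_insert ha]
    exact (ptN_add_le _ _).trans (by linarith)

lemma ptN_comp (Φ : SSt I) (i j : I) : ptN (fun s => Φ (s ∘ Equiv.swap i j)) = ptN Φ := by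
  have h : ptN (fun s => Φ (s ∘ Equiv.swap i j)) ^ 2 = ptN Φ ^ 2 := by
    rw [ptN_sq, ptN_sq, snorm2, snorm2]
    exact Equiv.sum_comp (Equiv.arrowCongr (Equiv.swap i j) (Equiv.refl (Fin 2)))
      (fun s => ‖Φ s‖ ^ 2)
  exact (pow_left_inj₀ (ptN_nonneg _) (ptN_nonneg _) two_ne_zero).1 h

lemma ptN_dotS (i j : I) (Φ : SSt I) : ptN (dotS i j Φ) ≤ 3 / 4 * ptN Φ := by
  have h : dotS i j Φ = (1 / 2 : ℂ) • (fun s => Φ (s ∘ Equiv.swap i j)) + (-(1 / 4) : ℂ) • Φ := by
    funext s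
    simp only [dotS, Pi.add_apply, Pi.smul_apply, smul_eq_mul]
    ring
  rw [h]
  refine (ptN_add_le _ _).trans ?_
  rw [ptN_smul, ptN_smul, ptN_comp]
  have h1 : ‖(1 / 2 : ℂ)‖ = 1 / 2 := by (clear * -; norm_num)
  have h2 : ‖(-(1 / 4) : ℂ)‖ = 1 / 4 := by norm_num
  rw [h1, h2]
  linarith only []

lemma ptR_comm (Φ Ψ : SSt I) : ptR Φ Ψ = ptR Ψ Φ := by
  simp only [ptR, sip, Complex.re_sum]
  refine Finset.sum_congr rfl fun s _ => ?_
  simp only [Complex.mul_re, Complex.conj_re, Complex.conj_im, neg_mul, sub_neg_eq_add]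
  ring

lemma ptR_add (Φ Ψ Ψ' : SSt I) : ptR Φ (Ψ + Ψ') = ptR Φ Ψ + ptR Φ Ψ' := by
  simp only [ptR, sip, Pi.add_apply, mul_add, Finset.sum_add_distrib, Complex.add_re]

lemma ptR_smul (c : ℝ) (Φ Ψ : SSt I) : ptR Φ ((c : ℂ) • Ψ) = c * ptR Φ Ψ := by
  simp only [ptR, sip, Pi.smul_apply, smul_eq_mul]
  have : ∀ s, conj (Φ s) * ((c : ℂ) * Ψ s) = (c : ℂ) * (conj (Φ s) * Ψ s) := fun s => by ring
  simp only [this]
  rw [← Finset.mul_sum, Complex.re_ofReal_mul]

lemma ptR_add_left (Φ Φ' Ψ : SSt I) : ptR (Φ + Φ') Ψ = ptR Φ Ψ + ptR Φ' Ψ := by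
  rw [ptR_comm, ptR_add, ptR_comm Ψ, ptR_comm Ψ]

lemma ptR_smul_left (c : ℝ) (Φ Ψ : SSt I) : ptR ((c : ℂ) • Φ) Ψ = c * ptR Φ Ψ := by
  rw [ptR_comm, ptR_smul, ptR_comm]

lemma ptR_zero (Φ : SSt I) : ptR Φ 0 = 0 := by simp only [ptR, sip, Pi.zero_apply, mul_zero, sum_const_zero, Complex.zero_re]

lemma ptR_sum {α : Type*} (A : Finset α) (Φ : SSt I) (f : α → SSt I) :
    ptR Φ (∑ a ∈ A, f a) = ∑ a ∈ A, ptR Φ (f a) := by
  classical
  induction A using Finset.induction_on with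
  | empty => simp only [sum_empty, ptR_zero]
  | insert a A ha ih => rw [Finset.sum_insert ha, Finset.sum_insert ha, ptR_add, ih]

lemma ptR_self (Φ : SSt I) : ptR Φ Φ = snorm2 Φ := by
  simp only [ptR, sip, snorm2, Complex.re_sum]
  refine Finset.sum_congr rfl fun s _ => ?_
  rw [Complex.conj_mul', ← Complex.ofReal_pow, Complex.ofReal_re]

lemma pt_snorm2_nonneg' (Φ : SSt I) : 0 ≤ snorm2 Φ := by
  rw [← ptN_sq]; positivity

lemma pt_sip_norm_le (Φ Ψ : SSt I) : ‖sip Φ Ψ‖ ≤ ptN Φ * ptN Ψ := by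
  have h : sip Φ Ψ = inner ℂ (WithLp.toLp 2 Φ : EuclideanSpace ℂ (I → Fin 2))
      (WithLp.toLp 2 Ψ) := by
    rw [PiLp.inner_apply]
    refine Finset.sum_congr rfl fun s _ => ?_
    simp only [mul_comm, RCLike.inner_apply]
  rw [h]
  exact norm_inner_le_norm _ _

lemma ptR_abs_le (Φ Ψ : SSt I) : |ptR Φ Ψ| ≤ ptN Φ * ptN Ψ :=
  (Complex.abs_re_le_norm _).trans (pt_sip_norm_le Φ Ψ)

lemma pt_dotS_add (i j : I) (Φ Ψ : SSt I) : dotS i j (Φ + Ψ) = dotS i j Φ + dotS i j Ψ := by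
  funext s; simp only [dotS, Pi.add_apply]; ring

lemma pt_dotS_smul (i j : I) (c : ℂ) (Φ : SSt I) : dotS i j (c • Φ) = c • dotS i j Φ := by
  funext s; simp only [dotS, Pi.smul_apply, smul_eq_mul]; ring

lemma pt_dotS_comm (i j : I) (Φ : SSt I) : dotS i j Φ = dotS j i Φ := by
  funext s; simp only [dotS, Equiv.swap_comm]

lemma ptR_dotS (i j : I) (Φ Ψ : SSt I) : ptR Φ (dotS i j Ψ) = ptR (dotS i j Φ) Ψ := by
  have h : ∑ s, conj (Φ s) * Ψ (s ∘ Equiv.swap i j)
      = ∑ s, conj (Φ (s ∘ Equiv.swap i j)) * Ψ s := by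
    rw [← Equiv.sum_comp (Equiv.arrowCongr (Equiv.swap i j) (Equiv.refl (Fin 2)))]
    refine Finset.sum_congr rfl fun s _ => ?_
    have e : ((Equiv.arrowCongr (Equiv.swap i j) (Equiv.refl (Fin 2))) s)
        = s ∘ Equiv.swap i j := rfl
    rw [e]
    congr 2
    funext x
    simp
  have h1 : sip Φ (dotS i j Ψ) = sip (dotS i j Φ) Ψ := by
    simp only [sip, dotS]
    have e1 : ∀ s, conj (Φ s) * (1 / 2 * Ψ (s ∘ Equiv.swap i j) - 1 / 4 * Ψ s)
        = 1 / 2 * (conj (Φ s) * Ψ (s ∘ Equiv.swap i j)) - 1 / 4 * (conj (Φ s) * Ψ s) := by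
      intro s; ring
    have e2 : ∀ s, conj (1 / 2 * Φ (s ∘ Equiv.swap i j) - 1 / 4 * Φ s) * Ψ s
        = 1 / 2 * (conj (Φ (s ∘ Equiv.swap i j)) * Ψ s) - 1 / 4 * (conj (Φ s) * Ψ s) := by
      intro s
      simp only [map_sub, map_mul, map_div₀, map_one, map_ofNat]
      ring
    simp only [e1, sum_sub_distrib, ← mul_sum, h, e2]
  rw [ptR, ptR, h1]

end ptapi


section ptops

variable {B : Type} [Fintype B] [DecidableEq B]

/-- the perturbation inside the blocks -/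
noncomputable def ptV (d : B → Fin 3 → ℝ) (Φ : SSt (B × Fin 4)) : SSt (B × Fin 4) :=
  ∑ b : B, ∑ a : Fin 3, (d b a : ℂ) • dotS (b, 0) (b, a.succ) Φ

/-- couplings between the blocks in the unit `s ^ 6` -/
noncomputable def ptc (s : ℝ) (t : B → B → Fin 3 → Fin 3 → ℝ) (b b' : B) (g h : Fin 4) : ℝ :=
  if hg : g ≠ 0 then (if hh : h ≠ 0 then t b b' (g.pred hg) (h.pred hh) else 0)
  else (if h = 0 then s else 0)

lemma ptc_symm {s : ℝ} {t : B → B → Fin 3 → Fin 3 → ℝ}
    (hts : ∀ b b' a a', t b b' a a' = t b' b a' a) (b b' : B) (g h : Fin 4) :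
    ptc s t b b' g h = ptc s t b' b h g := by
  unfold ptc
  by_cases hg : g = 0 <;> by_cases hh : h = 0 <;> simp [hg, hh]
  exact hts _ _ _ _

lemma ptV_add (d : B → Fin 3 → ℝ) (Φ Ψ : SSt (B × Fin 4)) :
    ptV d (Φ + Ψ) = ptV d Φ + ptV d Ψ := by
  simp only [ptV, pt_dotS_add, smul_add, Finset.sum_add_distrib]

lemma ptV_smul (d : B → Fin 3 → ℝ) (c : ℂ) (Φ : SSt (B × Fin 4)) :
    ptV d (c • Φ) = c • ptV d Φ := by
  simp only [ptV, pt_dotS_smul, smul_sum, smul_comm c]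

lemma pt_inter_add (c : B → B → Fin 4 → Fin 4 → ℝ) (Φ Ψ : SSt (B × Fin 4)) :
    inter c (Φ + Ψ) = inter c Φ + inter c Ψ := by
  unfold inter
  rw [← smul_add, ← Finset.sum_add_distrib]
  congr 1
  refine Finset.sum_congr rfl fun b _ => ?_
  rw [← Finset.sum_add_distrib]
  refine Finset.sum_congr rfl fun b' _ => ?_
  split_ifs
  · simp
  · simp only [pt_dotS_add, smul_add, Finset.sum_add_distrib]

lemma pt_inter_smul (c : B → B → Fin 4 → Fin 4 → ℝ) (k : ℂ) (Φ : SSt (B × Fin 4)) :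
    inter c (k • Φ) = k • inter c Φ := by
  have h : ∀ X Y : SSt (B × Fin 4), X = k • Y → (1 / 2 : ℂ) • X = k • ((1 / 2 : ℂ) • Y) := by
    rintro X Y rfl
    exact smul_comm _ _ _
  unfold inter
  refine h _ _ ?_
  rw [Finset.smul_sum]
  refine Finset.sum_congr rfl fun b _ => ?_
  rw [Finset.smul_sum]
  refine Finset.sum_congr rfl fun b' _ => ?_
  split_ifs
  · simp
  · simp only [pt_dotS_smul, Finset.smul_sum, smul_comm k]

lemma pt_casimir_add (Φ Ψ : SSt (B × Fin 4)) :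
    casimir (Φ + Ψ) = casimir Φ + casimir Ψ := by
  unfold casimir
  rw [← Finset.sum_add_distrib]
  refine Finset.sum_congr rfl fun b _ => ?_
  rw [← smul_add, ← Finset.sum_add_distrib]
  congr 1
  refine Finset.sum_congr rfl fun g _ => ?_
  rw [← Finset.sum_add_distrib]
  refine Finset.sum_congr rfl fun k _ => ?_
  split_ifs
  · rw [smul_add]
  · rw [pt_dotS_add]

lemma pt_casimir_smul (c : ℂ) (Φ : SSt (B × Fin 4)) : casimir (c • Φ) = c • casimir Φ := by
  have h : ∀ X Y : SSt (B × Fin 4), X = c • Y → (1 / 2 : ℂ) • X = c • ((1 / 2 : ℂ) • Y) := by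
    rintro X Y rfl
    exact smul_comm _ _ _
  unfold casimir
  rw [Finset.smul_sum]
  refine Finset.sum_congr rfl fun b _ => ?_
  refine h _ _ ?_
  rw [Finset.smul_sum]
  refine Finset.sum_congr rfl fun g _ => ?_
  rw [Finset.smul_sum]
  refine Finset.sum_congr rfl fun k _ => ?_
  split_ifs
  · rw [smul_comm]
  · rw [pt_dotS_smul]

lemma ptR_ptV_eq (d : B → Fin 3 → ℝ) (Φ Ψ : SSt (B × Fin 4)) :
    ptR Φ (ptV d Ψ) = ∑ b : B, ∑ a : Fin 3, d b a * ptR Φ (dotS (b, 0) (b, a.succ) Ψ) := by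
  rw [ptV, ptR_sum]
  refine Finset.sum_congr rfl fun b _ => ?_
  rw [ptR_sum]
  exact Finset.sum_congr rfl fun a _ => ptR_smul _ _ _

lemma ptR_ptV (d : B → Fin 3 → ℝ) (Φ Ψ : SSt (B × Fin 4)) :
    ptR Φ (ptV d Ψ) = ptR (ptV d Φ) Ψ := by
  rw [ptR_comm (ptV d Φ), ptR_ptV_eq, ptR_ptV_eq]
  refine Finset.sum_congr rfl fun b _ => Finset.sum_congr rfl fun a _ => ?_
  rw [ptR_dotS, ptR_comm]

lemma ptR_inter_eq (c : B → B → Fin 4 → Fin 4 → ℝ) (Φ Ψ : SSt (B × Fin 4)) :
    ptR Φ (inter c Ψ) = 1 / 2 * ∑ b : B, ∑ b' : B, if b = b' then 0 else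
      ∑ g : Fin 4, ∑ h : Fin 4, c b b' g h * ptR Φ (dotS (b, g) (b', h) Ψ) := by
  have h2 : ((1 / 2 : ℂ)) = (((1 / 2 : ℝ)) : ℂ) := by push_cast; ring
  rw [inter, h2, ptR_smul, ptR_sum]
  congr 1
  refine Finset.sum_congr rfl fun b _ => ?_
  rw [ptR_sum]
  refine Finset.sum_congr rfl fun b' _ => ?_
  split_ifs
  · exact ptR_zero _
  · rw [ptR_sum]
    refine Finset.sum_congr rfl fun g _ => ?_
    rw [ptR_sum]
    exact Finset.sum_congr rfl fun h _ => ptR_smul _ _ _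

lemma ptR_inter (c : B → B → Fin 4 → Fin 4 → ℝ) (Φ Ψ : SSt (B × Fin 4)) :
    ptR Φ (inter c Ψ) = ptR (inter c Φ) Ψ := by
  rw [ptR_comm (inter c Φ), ptR_inter_eq, ptR_inter_eq]
  refine congrArg (fun x : ℝ => 1 / 2 * x) ?_
  refine Finset.sum_congr rfl fun b _ => Finset.sum_congr rfl fun b' _ => ?_
  split_ifs
  · rfl
  · refine Finset.sum_congr rfl fun g _ => Finset.sum_congr rfl fun h _ => ?_
    rw [ptR_dotS, ptR_comm]

lemma ptR_casimir (Φ Ψ : SSt (B × Fin 4)) : ptR Φ (casimir Ψ) = ptR (casimir Φ) Ψ := by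
  rw [ptR, ptR, casimir_symm]

lemma ptR_casimir_eq (Φ Ψ : SSt (B × Fin 4)) :
    ptR Φ (casimir Ψ) = 1 / 2 * ∑ b : B, ∑ g : Fin 4, ∑ k : Fin 4,
      if g = k then 3 / 4 * ptR Φ Ψ else ptR Φ (dotS (b, g) (b, k) Ψ) := by
  have h2 : ((1 / 2 : ℂ)) = (((1 / 2 : ℝ)) : ℂ) := by push_cast; ring
  have h3 : ((3 / 4 : ℂ)) = (((3 / 4 : ℝ)) : ℂ) := by push_cast; ring
  rw [casimir, ptR_sum, Finset.mul_sum]
  refine Finset.sum_congr rfl fun b _ => ?_
  rw [h2, ptR_smul, ptR_sum]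
  congr 1
  refine Finset.sum_congr rfl fun g _ => ?_
  rw [ptR_sum]
  refine Finset.sum_congr rfl fun k _ => ?_
  split_ifs
  · rw [h3, ptR_smul]
  · rfl

/-- sum over pairs of spins as a sum over pairs in the blocks and between the blocks -/
lemma pt_sum_split (f : B × Fin 4 → B × Fin 4 → ℝ) :
    ∑ p, ∑ q, f p q = (∑ b : B, ∑ g : Fin 4, ∑ k : Fin 4, f (b, g) (b, k)) +
      ∑ b : B, ∑ b' : B, if b = b' then 0 else ∑ g : Fin 4, ∑ k : Fin 4, f (b, g) (b', k) := by
  rw [Fintype.sum_prod_type, ← Finset.sum_add_distrib]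
  refine Finset.sum_congr rfl fun b _ => ?_
  have h1 : ∀ g : Fin 4, ∑ q, f (b, g) q = ∑ b' : B, ∑ k : Fin 4, f (b, g) (b', k) := fun g =>
    Fintype.sum_prod_type _
  rw [Finset.sum_congr rfl fun g _ => h1 g, Finset.sum_comm]
  rw [← Finset.add_sum_erase _ _ (Finset.mem_univ b)]
  congr 1
  rw [← Finset.add_sum_erase (a := b) Finset.univ (fun b' => if b = b' then (0 : ℝ) else
    ∑ g : Fin 4, ∑ k : Fin 4, f (b, g) (b', k)) (Finset.mem_univ b), if_pos rfl, zero_add]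
  refine Finset.sum_congr rfl fun b' hb' => ?_
  rw [if_neg (Ne.symm (Finset.ne_of_mem_erase hb'))]

/-- the energy, decomposed -/
lemma pt_hs (s : ℝ) (t : B → B → Fin 3 → Fin 3 → ℝ) (d : B → Fin 3 → ℝ)
    (Φ : SSt (B × Fin 4)) :
    hs (jw s t d) Φ = -(3 / 2 * s ^ 10 * Fintype.card B) * snorm2 Φ +
      (s ^ 10 * ptR Φ (casimir Φ) + ptR Φ (ptV d Φ) + s ^ 6 * ptR Φ (inter (ptc s t) Φ)) := by
  have hin : ∀ b : B, (∑ g : Fin 4, ∑ k : Fin 4, if ((b, g) : B × Fin 4) = (b, k) then (0 : ℝ) else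
        jw s t d (b, g) (b, k) * (sip Φ (dotS (b, g) (b, k) Φ)).re)
      = s ^ 10 * (∑ g : Fin 4, ∑ k : Fin 4,
          if g = k then 3 / 4 * ptR Φ Φ else ptR Φ (dotS (b, g) (b, k) Φ))
        - 3 * s ^ 10 * snorm2 Φ + 2 * ∑ a : Fin 3, d b a * ptR Φ (dotS (b, 0) (b, a.succ) Φ) := by
    intro b
    have hc : ∀ g k : Fin 4, ptR Φ (dotS (b, g) (b, k) Φ) = ptR Φ (dotS (b, k) (b, g) Φ) :=
      fun g k => by rw [pt_dotS_comm]
    have e1 : ((1 : Fin 3)).succ = (2 : Fin 4) := rfl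
    have e0 : ((0 : Fin 3)).succ = (1 : Fin 4) := rfl
    have e2 : ((2 : Fin 3)).succ = (3 : Fin 4) := rfl
    have p1 : ∀ h, Fin.pred (1 : Fin 4) h = 0 := fun h => rfl
    have p2 : ∀ h, Fin.pred (2 : Fin 4) h = 1 := fun h => rfl
    have p3 : ∀ h, Fin.pred (3 : Fin 4) h = 2 := fun h => rfl
    have hR : ∀ X Y : SSt (B × Fin 4), (sip X Y).re = ptR X Y := fun X Y => rfl
    simp only [hR]
    simp only [Prod.mk.injEq, true_and, jw, ↓reduceIte, Fin.isValue, ne_eq, dite_not, Fin.sum_univ_four, ↓reduceDIte, add_zero, one_ne_zero, p1, dite_eq_ite, ite_self, Fin.reduceEq, p2, p3, zero_ne_one, zero_add, ptR_self, Fin.sum_univ_three, e0, e1, e2]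
    rw [hc 1 0, hc 2 0, hc 3 0, hc 2 1, hc 3 1, hc 3 2]
    ring
  have hout : ∀ b b' : B, b ≠ b' → (∑ g : Fin 4, ∑ k : Fin 4,
        if ((b, g) : B × Fin 4) = (b', k) then (0 : ℝ) else
        jw s t d (b, g) (b', k) * (sip Φ (dotS (b, g) (b', k) Φ)).re)
      = s ^ 6 * ∑ g : Fin 4, ∑ k : Fin 4, ptc s t b b' g k * ptR Φ (dotS (b, g) (b', k) Φ) := by
    intro b b' hb
    rw [Finset.mul_sum]
    refine Finset.sum_congr rfl fun g _ => ?_
    rw [Finset.mul_sum]
    refine Finset.sum_congr rfl fun k _ => ?_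
    rw [if_neg (fun h => hb (congrArg Prod.fst h)), ← ptR, ← mul_assoc]
    congr 1
    simp only [jw, ptc, if_neg hb]
    split_ifs <;> ring
  rw [hs, pt_sum_split, Finset.sum_congr rfl fun b _ => hin b, ptR_casimir_eq, ptR_ptV_eq,
    ptR_inter_eq]
  have h5 : (∑ b : B, ∑ b' : B, if b = b' then (0 : ℝ) else ∑ g : Fin 4, ∑ k : Fin 4,
        if ((b, g) : B × Fin 4) = (b', k) then (0 : ℝ) else
        jw s t d (b, g) (b', k) * (sip Φ (dotS (b, g) (b', k) Φ)).re)
      = s ^ 6 * ∑ b : B, ∑ b' : B, if b = b' then (0 : ℝ) else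
        ∑ g : Fin 4, ∑ k : Fin 4, ptc s t b b' g k * ptR Φ (dotS (b, g) (b', k) Φ) := by
    rw [Finset.mul_sum]
    refine Finset.sum_congr rfl fun b _ => ?_
    rw [Finset.mul_sum]
    refine Finset.sum_congr rfl fun b' _ => ?_
    split_ifs with hb
    · rw [mul_zero]
    · exact hout b b' hb
  rw [h5]
  simp only [Finset.sum_add_distrib, Finset.sum_sub_distrib, ← Finset.mul_sum,
    Finset.sum_const, Finset.card_univ, nsmul_eq_mul]
  ring

end ptops

section ptteff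

variable {B : Type} [Fintype B] [DecidableEq B]

lemma ptc_sum (s : ℝ) (t : B → B → Fin 3 → Fin 3 → ℝ) (b b' : B) (f : Fin 4 → Fin 4 → ℝ) :
    ∑ g, ∑ h, ptc s t b b' g h * f g h =
      s * f 0 0 + ∑ a : Fin 3, ∑ a' : Fin 3, t b b' a a' * f a.succ a'.succ := by
  have h00 : ptc s t b b' 0 0 = s := by simp [ptc]
  have h01 : ∀ a : Fin 3, ptc s t b b' 0 a.succ = 0 := fun a => by simp [ptc]
  have h10 : ∀ a : Fin 3, ptc s t b b' a.succ 0 = 0 := fun a => by simp [ptc]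
  have h11 : ∀ a a' : Fin 3, ptc s t b b' a.succ a'.succ = t b b' a a' := fun a a' => by
    simp only [ptc, Fin.isValue, ne_eq, Fin.succ_ne_zero, not_false_eq_true, ↓reduceDIte, Fin.pred_succ]
  rw [Fin.sum_univ_succ]
  congr 1
  · rw [Fin.sum_univ_succ]
    simp [h00, h01]
  · refine Finset.sum_congr rfl fun a _ => ?_
    rw [Fin.sum_univ_succ]
    simp only [Fin.isValue, h10, zero_mul, h11, zero_add]

/-- real part of the inner product of qubit states -/
noncomputable def ptq (u w : (B → Bool) → ℂ) : ℝ := (∑ x, conj (u x) * w x).re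

/-- the operator `-1/4 - σ/2` -/
noncomputable def ptm (a : Fin 3) (b : B) (w : (B → Bool) → ℂ) : (B → Bool) → ℂ :=
  fun x => -(1 / 4) * w x - 1 / 2 * sgm a b w x

lemma ptq_self (u : (B → Bool) → ℂ) : ptq u u = ∑ x, ‖u x‖ ^ 2 := by
  rw [ptq, Complex.re_sum]
  refine Finset.sum_congr rfl fun s _ => ?_
  rw [Complex.conj_mul', ← Complex.ofReal_pow, Complex.ofReal_re]

lemma ptq_lin (u w w' : (B → Bool) → ℂ) :
    ptq u (fun x => -(1 / 4) * w x - 1 / 2 * w' x) = -(1 / 4) * ptq u w - 1 / 2 * ptq u w' := by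
  have h : ∀ x, conj (u x) * (-(1 / 4) * w x - 1 / 2 * w' x)
      = ((-(1 / 4) : ℝ) : ℂ) * (conj (u x) * w x) - ((1 / 2 : ℝ) : ℂ) * (conj (u x) * w' x) := by
    intro x; push_cast; ring
  rw [ptq, ptq, ptq, Finset.sum_congr rfl fun x _ => h x, Finset.sum_sub_distrib,
    ← Finset.mul_sum, ← Finset.mul_sum, Complex.sub_re, Complex.re_ofReal_mul,
    Complex.re_ofReal_mul]

lemma pt_sgm_ptm (a a' : Fin 3) (b b' : B) (u : (B → Bool) → ℂ) :
    sgm a b (ptm a' b' u) = fun x => -(1 / 4) * sgm a b u x - 1 / 2 * sgm a b (sgm a' b' u) x := by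
  funext x
  simp only [sgm, ptm]
  ring

lemma ptq_ptm (a : Fin 3) (b : B) (u : (B → Bool) → ℂ) :
    ptq u (ptm a b u) = -(1 / 4) * (∑ x, ‖u x‖ ^ 2) - 1 / 2 * ptq u (sgm a b u) := by
  have h : ptm a b u = fun x => -(1 / 4) * u x - 1 / 2 * sgm a b u x := rfl
  rw [h, ptq_lin, ptq_self]

lemma ptq_ptm2 (a a' : Fin 3) (b b' : B) (u : (B → Bool) → ℂ) :
    ptq u (ptm a b (ptm a' b' u)) = 1 / 16 * (∑ x, ‖u x‖ ^ 2) + 1 / 8 * ptq u (sgm a b u) +
      1 / 8 * ptq u (sgm a' b' u) + 1 / 4 * ptq u (sgm a b (sgm a' b' u)) := by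
  have h : ptm a b (ptm a' b' u) =
      fun x => -(1 / 4) * ptm a' b' u x - 1 / 2 * sgm a b (ptm a' b' u) x := rfl
  rw [h, ptq_lin, ptq_ptm, pt_sgm_ptm, ptq_lin]
  ring

lemma pt_hcl_succ_iota (a : Fin 3) (b : B) (u : (B → Bool) → ℂ) :
    hcl b a.succ (iota u) = iota (ptm a b u) := by
  rw [hcl, if_neg (Fin.succ_ne_zero a), dotS_iota b a.succ (Fin.succ_ne_zero a), Fin.pred_succ]
  rfl

lemma ptR_iota (u w : (B → Bool) → ℂ) : ptR (iota u) (iota w) = ptq u w := by
  rw [ptR, sip_iota, iotaA_iota]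
  rfl

lemma pt_dotS_succ_iota (a : Fin 3) (b : B) (u : (B → Bool) → ℂ) :
    dotS (b, 0) (b, a.succ) (iota u) = iota (ptm a b u) := by
  rw [dotS_iota b a.succ (Fin.succ_ne_zero a), Fin.pred_succ]
  rfl

lemma ptR_ptV_iota (d : B → Fin 3 → ℝ) (u : (B → Bool) → ℂ) :
    ptR (iota u) (ptV d (iota u)) = -∑ b : B, ∑ a : Fin 3, d b a *
      (1 / 4 * (∑ x, ‖u x‖ ^ 2) + 1 / 2 * ptq u (sgm a b u)) := by
  rw [ptR_ptV_eq, ← Finset.sum_neg_distrib]
  refine Finset.sum_congr rfl fun b _ => ?_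
  rw [← Finset.sum_neg_distrib]
  refine Finset.sum_congr rfl fun a _ => ?_
  rw [pt_dotS_succ_iota, ptR_iota, ptq_ptm]
  ring

lemma ptN_hcl (b : B) (g : Fin 4) (Φ : SSt (B × Fin 4)) : ptN (hcl b g Φ) ≤ 3 / 4 * ptN Φ := by
  unfold hcl
  split_ifs
  · rw [ptN_smul]
    have : ‖(3 / 4 : ℂ)‖ = 3 / 4 := by norm_num
    rw [this]
  · exact ptN_dotS _ _ _

lemma pt_cls0 (g : Fin 4) : cls 0 g = g := by
  revert g; decide

lemma pt_cls0' (g : Fin 4) : cls g 0 = g := by
  revert g; decide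

/-- the part of the second order energy which is quadratic in the small couplings -/
noncomputable def ptTT (t : B → B → Fin 3 → Fin 3 → ℝ) (u : (B → Bool) → ℂ) : ℝ :=
  ∑ b : B, ∑ b' : B, if b = b' then 0 else
    ∑ a : Fin 3, ∑ a' : Fin 3, t b b' a a' * ∑ e : Fin 3, ∑ e' : Fin 3, t b b' e e' *
      ptR (iota u) (hcl b (cls a.succ e.succ) (hcl b' (cls a'.succ e'.succ) (iota u)))

lemma ptTT_abs (t : B → B → Fin 3 → Fin 3 → ℝ)
    (ht0 : ∀ b b' a a', 0 ≤ t b b' a a') (ht1 : ∀ b b' a a', t b b' a a' ≤ 1)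
    (u : (B → Bool) → ℂ) :
    |ptTT t u| ≤ 729 / 16 * (Fintype.card B : ℝ) ^ 2 * snorm2 (iota u) := by
  have h1 : ∀ (b b' : B) (a a' e e' : Fin 3),
      |ptR (iota u) (hcl b (cls a.succ e.succ) (hcl b' (cls a'.succ e'.succ) (iota u)))|
        ≤ 9 / 16 * snorm2 (iota u) := by
    intro b b' a a' e e'
    refine (ptR_abs_le _ _).trans ?_
    rw [← ptN_sq]
    have h2 := ptN_hcl b (cls a.succ e.succ) (hcl b' (cls a'.succ e'.succ) (iota u))
    have h3 := ptN_hcl b' (cls a'.succ e'.succ) (iota u)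
    have h4 := ptN_nonneg (iota u)
    calc ptN (iota u) * ptN (hcl b (cls a.succ e.succ) (hcl b' (cls a'.succ e'.succ) (iota u)))
        ≤ ptN (iota u) * (3 / 4 * (3 / 4 * ptN (iota u))) := by
          refine mul_le_mul_of_nonneg_left (h2.trans ?_) h4
          linarith
      _ = 9 / 16 * ptN (iota u) ^ 2 := by ring
  have hS := pt_snorm2_nonneg' (iota u)
  have h5 : ∀ b b' : B, |if b = b' then (0 : ℝ) else
      ∑ a : Fin 3, ∑ a' : Fin 3, t b b' a a' * ∑ e : Fin 3, ∑ e' : Fin 3, t b b' e e' *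
      ptR (iota u) (hcl b (cls a.succ e.succ) (hcl b' (cls a'.succ e'.succ) (iota u)))|
      ≤ 729 / 16 * snorm2 (iota u) := by
    intro b b'
    split_ifs
    · rw [abs_zero]; (clear * - hS; positivity)
    · have h6 : ∀ a a' : Fin 3, |t b b' a a' * ∑ e : Fin 3, ∑ e' : Fin 3, t b b' e e' *
          ptR (iota u) (hcl b (cls a.succ e.succ) (hcl b' (cls a'.succ e'.succ) (iota u)))|
          ≤ 81 / 16 * snorm2 (iota u) := by
        intro a a'
        rw [abs_mul, abs_of_nonneg (ht0 _ _ _ _)]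
        have h7 : |∑ e : Fin 3, ∑ e' : Fin 3, t b b' e e' *
          ptR (iota u) (hcl b (cls a.succ e.succ) (hcl b' (cls a'.succ e'.succ) (iota u)))|
          ≤ ∑ e : Fin 3, ∑ e' : Fin 3, 9 / 16 * snorm2 (iota u) := by
          refine (Finset.abs_sum_le_sum_abs _ _).trans (Finset.sum_le_sum fun e _ => ?_)
          refine (Finset.abs_sum_le_sum_abs _ _).trans (Finset.sum_le_sum fun e' _ => ?_)
          rw [abs_mul, abs_of_nonneg (ht0 _ _ _ _)]
          calc t b b' e e' * _ ≤ 1 * (9 / 16 * snorm2 (iota u)) :=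
                mul_le_mul (ht1 _ _ _ _) (h1 b b' a a' e e') (abs_nonneg _) zero_le_one
            _ = _ := one_mul _
        have h8 : ∑ e : Fin 3, ∑ e' : Fin 3, 9 / 16 * snorm2 (iota u)
            = 81 / 16 * snorm2 (iota u) := by
          simp only [sum_const, card_univ, Fintype.card_fin, nsmul_eq_mul, Nat.cast_ofNat]
          ring
        rw [h8] at h7
        calc t b b' a a' * _ ≤ 1 * (81 / 16 * snorm2 (iota u)) :=
              mul_le_mul (ht1 _ _ _ _) h7 (abs_nonneg _) zero_le_one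
          _ = _ := one_mul _
      refine (Finset.abs_sum_le_sum_abs _ _).trans ?_
      refine (Finset.sum_le_sum fun a _ => (Finset.abs_sum_le_sum_abs _ _).trans
        (Finset.sum_le_sum fun a' _ => h6 a a')).trans ?_
      simp only [sum_const, card_univ, Fintype.card_fin, nsmul_eq_mul, Nat.cast_ofNat]
      linarith only []
  refine (Finset.abs_sum_le_sum_abs _ _).trans ?_
  refine (Finset.sum_le_sum fun b _ => (Finset.abs_sum_le_sum_abs _ _).trans
    (Finset.sum_le_sum fun b' _ => h5 b b')).trans ?_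
  simp only [Finset.sum_const, Finset.card_univ, nsmul_eq_mul]
  rw [sq]
  exact le_of_eq (by ring)

lemma pt_snorm2_inter_iota (s : ℝ) (t : B → B → Fin 3 → Fin 3 → ℝ)
    (hts : ∀ b b' a a', t b b' a a' = t b' b a' a) (u : (B → Bool) → ℂ) :
    snorm2 (inter (ptc s t) (iota u)) = 1 / 6 * ((∑ b : B, ∑ b' : B, if b = b' then 0 else
      (9 / 16 * s ^ 2 * (∑ x, ‖u x‖ ^ 2) + ∑ a : Fin 3, ∑ a' : Fin 3, t b b' a a' * (2 * s) *
        (1 / 16 * (∑ x, ‖u x‖ ^ 2) + 1 / 4 * ptq u (sgm a b u) +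
          1 / 4 * ptq u (sgm a b (sgm a' b' u))))) + ptTT t u) := by
  rw [snorm2_inter (ptc s t) (fun b b' g h => ptc_symm hts b b' g h) (iota u) (iota_bs u)]
  congr 1
  -- the terms of one pair of blocks
  have hterm : ∀ b b' : B, (∑ g, ∑ h, ∑ g', ∑ h', ptc s t b b' g h * ptc s t b b' g' h' *
        (sip (iota u) (hcl b (cls g g') (hcl b' (cls h h') (iota u)))).re)
      = 9 / 16 * s ^ 2 * (∑ x, ‖u x‖ ^ 2) + (∑ a : Fin 3, ∑ a' : Fin 3, t b b' a a' * (2 * s) *
        (1 / 16 * (∑ x, ‖u x‖ ^ 2) + 1 / 8 * ptq u (sgm a b u) + 1 / 8 * ptq u (sgm a' b' u) +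
          1 / 4 * ptq u (sgm a b (sgm a' b' u)))) +
        ∑ a : Fin 3, ∑ a' : Fin 3, t b b' a a' * ∑ e : Fin 3, ∑ e' : Fin 3, t b b' e e' *
      ptR (iota u) (hcl b (cls a.succ e.succ) (hcl b' (cls a'.succ e'.succ) (iota u))) := by
    intro b b'
    have hR : ∀ X Y : SSt (B × Fin 4), (sip X Y).re = ptR X Y := fun X Y => rfl
    have e1 : ∀ g h : Fin 4, (∑ g', ∑ h', ptc s t b b' g h * ptc s t b b' g' h' *
        (sip (iota u) (hcl b (cls g g') (hcl b' (cls h h') (iota u)))).re)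
        = ptc s t b b' g h * ∑ g', ∑ h', ptc s t b b' g' h' *
        ptR (iota u) (hcl b (cls g g') (hcl b' (cls h h') (iota u))) := by
      intro g h
      rw [Finset.mul_sum]
      refine Finset.sum_congr rfl fun g' _ => ?_
      rw [Finset.mul_sum]
      refine Finset.sum_congr rfl fun h' _ => ?_
      rw [hR, mul_assoc]
    rw [Finset.sum_congr rfl fun g _ => Finset.sum_congr rfl fun h _ => e1 g h]
    rw [ptc_sum s t b b' (fun g h => ∑ g', ∑ h', ptc s t b b' g' h' *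
        ptR (iota u) (hcl b (cls g g') (hcl b' (cls h h') (iota u))))]
    have e2 : ∀ g h : Fin 4, (∑ g', ∑ h', ptc s t b b' g' h' *
        ptR (iota u) (hcl b (cls g g') (hcl b' (cls h h') (iota u))))
        = s * ptR (iota u) (hcl b (cls g 0) (hcl b' (cls h 0) (iota u))) +
          ∑ a : Fin 3, ∑ a' : Fin 3, t b b' a a' *
            ptR (iota u) (hcl b (cls g a.succ) (hcl b' (cls h a'.succ) (iota u))) := fun g h =>
      ptc_sum s t b b' (fun g' h' =>
        ptR (iota u) (hcl b (cls g g') (hcl b' (cls h h') (iota u))))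
    simp only [e2]
    simp only [pt_cls0, pt_cls0']
    have e3 : ptR (iota u) (hcl b 0 (hcl b' 0 (iota u))) = 9 / 16 * ∑ x, ‖u x‖ ^ 2 := by
      have h34 : ((3 / 4 : ℂ)) = (((3 / 4 : ℝ)) : ℂ) := by push_cast; ring
      simp only [hcl, if_true, h34, ptR_smul, ptR_self, snorm2_iota]
      ring
    have e4 : ∀ a a' : Fin 3, ptR (iota u) (hcl b a.succ (hcl b' a'.succ (iota u)))
        = 1 / 16 * (∑ x, ‖u x‖ ^ 2) + 1 / 8 * ptq u (sgm a b u) +
      1 / 8 * ptq u (sgm a' b' u) + 1 / 4 * ptq u (sgm a b (sgm a' b' u)) := by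
      intro a a'
      rw [pt_hcl_succ_iota, pt_hcl_succ_iota, ptR_iota, ptq_ptm2]
    simp only [e3, e4]
    have e5 : ∀ a a' : Fin 3, t b b' a a' * (s * (1 / 16 * (∑ x, ‖u x‖ ^ 2) +
        1 / 8 * ptq u (sgm a b u) + 1 / 8 * ptq u (sgm a' b' u) +
          1 / 4 * ptq u (sgm a b (sgm a' b' u))) +
        ∑ e : Fin 3, ∑ e' : Fin 3, t b b' e e' *
          ptR (iota u) (hcl b (cls a.succ e.succ) (hcl b' (cls a'.succ e'.succ) (iota u))))
        = s * (t b b' a a' * (1 / 16 * (∑ x, ‖u x‖ ^ 2) +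
        1 / 8 * ptq u (sgm a b u) + 1 / 8 * ptq u (sgm a' b' u) +
          1 / 4 * ptq u (sgm a b (sgm a' b' u)))) +
        t b b' a a' * ∑ e : Fin 3, ∑ e' : Fin 3, t b b' e e' *
          ptR (iota u) (hcl b (cls a.succ e.succ) (hcl b' (cls a'.succ e'.succ) (iota u))) := by
      intro a a'; ring
    simp only [e5, sum_add_distrib]
    have e6 : ∀ a a' : Fin 3, t b b' a a' * (2 * s) * (1 / 16 * (∑ x, ‖u x‖ ^ 2) +
        1 / 8 * ptq u (sgm a b u) + 1 / 8 * ptq u (sgm a' b' u) +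
          1 / 4 * ptq u (sgm a b (sgm a' b' u)))
        = 2 * s * (t b b' a a' * (1 / 16 * (∑ x, ‖u x‖ ^ 2) +
        1 / 8 * ptq u (sgm a b u) + 1 / 8 * ptq u (sgm a' b' u) +
          1 / 4 * ptq u (sgm a b (sgm a' b' u)))) := by
      intro a a'; ring
    simp only [← mul_sum, e6]
    ring
  have hsplit : ∀ b b' : B, (if b = b' then (0 : ℝ) else ∑ g, ∑ h, ∑ g', ∑ h',
        ptc s t b b' g h * ptc s t b b' g' h' *
        (sip (iota u) (hcl b (cls g g') (hcl b' (cls h h') (iota u)))).re)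
      = (if b = b' then 0 else (9 / 16 * s ^ 2 * (∑ x, ‖u x‖ ^ 2) +
        ∑ a : Fin 3, ∑ a' : Fin 3, t b b' a a' * (2 * s) *
        (1 / 16 * (∑ x, ‖u x‖ ^ 2) + 1 / 4 * ptq u (sgm a b u) +
          1 / 4 * ptq u (sgm a b (sgm a' b' u))))) +
        ((if b = b' then 0 else ∑ a : Fin 3, ∑ a' : Fin 3, t b b' a a' * (s / 4) *
          ptq u (sgm a' b' u)) -
        (if b = b' then 0 else ∑ a : Fin 3, ∑ a' : Fin 3, t b b' a a' * (s / 4) *
          ptq u (sgm a b u))) +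
        (if b = b' then 0 else ∑ a : Fin 3, ∑ a' : Fin 3, t b b' a a' *
          ∑ e : Fin 3, ∑ e' : Fin 3, t b b' e e' *
      ptR (iota u) (hcl b (cls a.succ e.succ) (hcl b' (cls a'.succ e'.succ) (iota u)))) := by
    intro b b'
    by_cases hb : b = b'
    · simp [hb]
    · simp only [if_neg hb]
      rw [hterm b b', ← Finset.sum_sub_distrib]
      have e7 : ∀ x y z w v : ℝ, y = z + w → x + y + v = x + z + w + v := by
        intro x y z w v h; linarith only [h]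
      refine e7 _ _ _ _ _ ?_
      rw [← Finset.sum_add_distrib]
      refine Finset.sum_congr rfl fun a _ => ?_
      rw [← Finset.sum_sub_distrib, ← Finset.sum_add_distrib]
      refine Finset.sum_congr rfl fun a' _ => ?_
      ring
  have hsym : (∑ b : B, ∑ b' : B, if b = b' then (0 : ℝ) else ∑ a : Fin 3, ∑ a' : Fin 3,
        t b b' a a' * (s / 4) * ptq u (sgm a' b' u))
      = ∑ b : B, ∑ b' : B, if b = b' then (0 : ℝ) else ∑ a : Fin 3, ∑ a' : Fin 3,
        t b b' a a' * (s / 4) * ptq u (sgm a b u) := by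
    rw [Finset.sum_comm]
    refine Finset.sum_congr rfl fun b _ => Finset.sum_congr rfl fun b' _ => ?_
    by_cases hb : b = b'
    · simp [hb]
    · rw [if_neg hb, if_neg (Ne.symm hb), Finset.sum_comm]
      refine Finset.sum_congr rfl fun a _ => Finset.sum_congr rfl fun a' _ => ?_
      rw [hts b b' a a']
  rw [Finset.sum_congr rfl fun b _ => Finset.sum_congr rfl fun b' _ => hsplit b b']
  simp only [sum_add_distrib, sum_sub_distrib]
  rw [hsym, sub_self, add_zero]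
  rfl

/-- the effective energy as second order energy -/
lemma pt_teff (s : ℝ) (t : B → B → Fin 3 → Fin 3 → ℝ) (d : B → Fin 3 → ℝ)
    (hts : ∀ b b' a a', t b b' a a' = t b' b a' a) (u : (B → Bool) → ℂ) :
    teff s t d u = -(3 / 2 * s ^ 10 * Fintype.card B) * (∑ x, ‖u x‖ ^ 2) +
      ptR (iota u) (ptV d (iota u)) - s ^ 2 / 2 * snorm2 (inter (ptc s t) (iota u)) +
      s ^ 2 / 12 * ptTT t u := by
  have hq : ∀ w, (∑ x, conj (u x) * w x).re = ptq u w := fun w => rfl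
  rw [pt_snorm2_inter_iota s t hts u, ptR_ptV_iota]
  simp only [teff, hq]
  have h1 : (∑ b : B, ∑ b' : B, if b = b' then (0 : ℝ) else
      (3 / 64 * s ^ 4 * (∑ x, ‖u x‖ ^ 2) +
      ∑ a : Fin 3, ∑ a' : Fin 3, t b b' a a' * s ^ 3 *
        (1 / 96 * (∑ x, ‖u x‖ ^ 2) + 1 / 24 * ptq u (sgm a b u) +
          1 / 24 * ptq u (sgm a b (sgm a' b' u)))))
      = s ^ 2 / 12 * ∑ b : B, ∑ b' : B, if b = b' then 0 else
      (9 / 16 * s ^ 2 * (∑ x, ‖u x‖ ^ 2) + ∑ a : Fin 3, ∑ a' : Fin 3, t b b' a a' * (2 * s) *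
        (1 / 16 * (∑ x, ‖u x‖ ^ 2) + 1 / 4 * ptq u (sgm a b u) +
          1 / 4 * ptq u (sgm a b (sgm a' b' u)))) := by
    have e0 : ∀ (k : ℝ) (f : B → B → ℝ), k * ∑ b : B, ∑ b' : B, f b b' =
        ∑ b : B, ∑ b' : B, k * f b b' := fun k f => by simp only [Finset.mul_sum]
    rw [e0]
    refine Finset.sum_congr rfl fun b _ => Finset.sum_congr rfl fun b' _ => ?_
    by_cases hb : b = b'
    · simp [hb]
    · simp only [if_neg hb]
      have e9 : ∀ (k : ℝ) (f : Fin 3 → Fin 3 → ℝ), k * ∑ b, ∑ b', f b b' =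
        ∑ b, ∑ b', k * f b b' := fun k f => by simp only [mul_sum]
      rw [mul_add, e9]
      refine congrArg₂ (· + ·) (by ring) ?_
      refine Finset.sum_congr rfl fun a _ => Finset.sum_congr rfl fun a' _ => ?_
      ring
  rw [h1]
  ring

end ptteff

section ptmain

variable {B : Type} [Fintype B] [DecidableEq B]

lemma pt_V_abs (s : ℝ) (d : B → Fin 3 → ℝ) (hd : ∀ b a, |d b a| ≤ s ^ 3)
    (Φ : SSt (B × Fin 4)) :
    |ptR Φ (ptV d Φ)| ≤ 9 / 4 * (Fintype.card B : ℝ) * s ^ 3 * snorm2 Φ := by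
  rw [ptR_ptV_eq]
  have h1 : ∀ (b : B) (a : Fin 3), |d b a * ptR Φ (dotS (b, 0) (b, a.succ) Φ)|
      ≤ s ^ 3 * (3 / 4 * snorm2 Φ) := by
    intro b a
    rw [abs_mul]
    refine mul_le_mul (hd b a) ?_ (abs_nonneg _) ((abs_nonneg _).trans (hd b a))
    refine (ptR_abs_le _ _).trans ?_
    rw [← ptN_sq]
    have h2 := ptN_dotS (b, 0) (b, a.succ) Φ
    have h3 := ptN_nonneg Φ
    linarith only [mul_nonneg_of_nonpos_of_nonpos (Mathlib.Tactic.Linarith.sub_nonpos_of_le h2) (Mathlib.Tactic.Linarith.sub_nonpos_of_le h3)]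
  refine (Finset.abs_sum_le_sum_abs _ _).trans ?_
  refine (Finset.sum_le_sum fun b _ => (Finset.abs_sum_le_sum_abs _ _).trans
    (Finset.sum_le_sum fun a _ => h1 b a)).trans ?_
  simp only [Finset.sum_const, Finset.card_univ, nsmul_eq_mul, Fintype.card_fin]
  exact le_of_eq (by push_cast; ring)

lemma pt_inter_N (s : ℝ) (t : B → B → Fin 3 → Fin 3 → ℝ) (hs : 6 ≤ s)
    (ht0 : ∀ b b' a a', 0 ≤ t b b' a a') (ht1 : ∀ b b' a a', t b b' a a' ≤ 1)
    (Φ : SSt (B × Fin 4)) :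
    ptN (inter (ptc s t) Φ) ≤ (Fintype.card B : ℝ) ^ 2 * s * ptN Φ := by
  have hN := ptN_nonneg Φ
  have h0 : ∀ b b' g h, 0 ≤ ptc s t b b' g h := by
    intro b b' g h
    unfold ptc
    split_ifs
    · exact ht0 _ _ _ _
    · exact le_rfl
    · linarith only [hs]
    · exact le_rfl
  have h1 : ∀ b b' : B, ptN (if b = b' then 0 else
      ∑ g : Fin 4, ∑ h : Fin 4, (ptc s t b b' g h : ℂ) • dotS (b, g) (b', h) Φ)
      ≤ 2 * s * ptN Φ := by
    intro b b'
    split_ifs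
    · rw [ptN_zero]; (clear * - hs hN; positivity)
    · have h2 : ∀ g h : Fin 4, ptN ((ptc s t b b' g h : ℂ) • dotS (b, g) (b', h) Φ)
          ≤ ptc s t b b' g h * (3 / 4 * ptN Φ) := by
        intro g h
        rw [ptN_smul, Complex.norm_real, Real.norm_of_nonneg (h0 b b' g h)]
        exact mul_le_mul_of_nonneg_left (ptN_dotS _ _ _) (h0 b b' g h)
      refine (ptN_sum_le _ _).trans ?_
      refine (Finset.sum_le_sum fun g _ => (ptN_sum_le _ _).trans
        (Finset.sum_le_sum fun h _ => h2 g h)).trans ?_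
      rw [ptc_sum s t b b' fun g h => 3 / 4 * ptN Φ]
      have h3 : ∑ a : Fin 3, ∑ a' : Fin 3, t b b' a a' * (3 / 4 * ptN Φ)
          ≤ ∑ a : Fin 3, ∑ a' : Fin 3, (3 / 4 * ptN Φ) := by
        refine Finset.sum_le_sum fun a _ => Finset.sum_le_sum fun a' _ => ?_
        exact mul_le_of_le_one_left (by (clear * - hN; positivity)) (ht1 _ _ _ _)
      simp only [Finset.sum_const, Finset.card_univ, nsmul_eq_mul, Fintype.card_fin] at h3
      push_cast at h3
      linarith only [hN, h3, mul_nonneg_of_nonpos_of_nonpos (Mathlib.Tactic.Linarith.sub_nonpos_of_le hN) (Mathlib.Tactic.Linarith.sub_nonpos_of_le hs)]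
  rw [inter, ptN_smul]
  have h4 : ‖(1 / 2 : ℂ)‖ = 1 / 2 := by norm_num
  rw [h4]
  have h5 := (ptN_sum_le Finset.univ (fun b : B => ∑ b' : B, if b = b' then 0 else
      ∑ g : Fin 4, ∑ h : Fin 4, (ptc s t b b' g h : ℂ) • dotS (b, g) (b', h) Φ)).trans
      (Finset.sum_le_sum fun b _ => (ptN_sum_le _ _).trans
        (Finset.sum_le_sum fun b' _ => h1 b b'))
  simp only [Finset.sum_const, Finset.card_univ, nsmul_eq_mul] at h5
  calc 1 / 2 * _ ≤ 1 / 2 * ((Fintype.card B : ℝ) * ((Fintype.card B : ℝ) * (2 * s * ptN Φ))) :=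
        mul_le_mul_of_nonneg_left h5 (by norm_num)
    _ = _ := by ring

lemma pt_inter_snorm (s : ℝ) (t : B → B → Fin 3 → Fin 3 → ℝ) (hs : 6 ≤ s)
    (ht0 : ∀ b b' a a', 0 ≤ t b b' a a') (ht1 : ∀ b b' a a', t b b' a a' ≤ 1)
    (Φ : SSt (B × Fin 4)) :
    snorm2 (inter (ptc s t) Φ) ≤ (Fintype.card B : ℝ) ^ 4 * s ^ 2 * snorm2 Φ := by
  have h := pow_le_pow_left₀ (ptN_nonneg _) (pt_inter_N s t hs ht0 ht1 Φ) 2
  rw [ptN_sq] at h
  refine h.trans (le_of_eq ?_)
  rw [mul_pow, ptN_sq]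
  ring

lemma pt_inter_abs (s : ℝ) (t : B → B → Fin 3 → Fin 3 → ℝ) (hs : 6 ≤ s)
    (ht0 : ∀ b b' a a', 0 ≤ t b b' a a') (ht1 : ∀ b b' a a', t b b' a a' ≤ 1)
    (Φ : SSt (B × Fin 4)) :
    |ptR Φ (inter (ptc s t) Φ)| ≤ (Fintype.card B : ℝ) ^ 2 * s * snorm2 Φ := by
  refine (ptR_abs_le _ _).trans ?_
  have h := pt_inter_N s t hs ht0 ht1 Φ
  have h3 := ptN_nonneg Φ
  rw [← ptN_sq]
  calc ptN Φ * ptN (inter (ptc s t) Φ)
      ≤ ptN Φ * ((Fintype.card B : ℝ) ^ 2 * s * ptN Φ) := mul_le_mul_of_nonneg_left h h3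
    _ = _ := by ring

/-- expansion of a symmetric form -/
lemma pt_expand (L : SSt (B × Fin 4) → SSt (B × Fin 4))
    (hadd : ∀ Φ Ψ, L (Φ + Ψ) = L Φ + L Ψ) (hsymm : ∀ Φ Ψ, ptR Φ (L Ψ) = ptR (L Φ) Ψ)
    (v w : SSt (B × Fin 4)) :
    ptR (v + w) (L (v + w)) = ptR v (L v) + 2 * ptR w (L v) + ptR w (L w) := by
  have h : ptR v (L w) = ptR w (L v) := by rw [hsymm, ptR_comm]
  rw [hadd, ptR_add, ptR_add_left, ptR_add_left, h]
  ring

lemma pt_iotaA_add (Φ Ψ : SSt (B × Fin 4)) : iotaA (Φ + Ψ) = iotaA Φ + iotaA Ψ := by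
  funext x
  simp only [iotaA, Pi.add_apply, mul_add, sum_add_distrib]

lemma pt_iotaA_smul (c : ℂ) (Φ : SSt (B × Fin 4)) : iotaA (c • Φ) = c • iotaA Φ := by
  funext x
  simp only [iotaA, Pi.smul_apply, smul_eq_mul, Finset.mul_sum]
  exact Finset.sum_congr rfl fun s _ => by ring

lemma pt_iotaA_inter (c : B → B → Fin 4 → Fin 4 → ℝ) (u : (B → Bool) → ℂ) :
    iotaA (inter c (iota u)) = 0 := by
  set X := inter c (iota u) with hX
  have h1 : sip (iota (iotaA X)) X = 0 := inter_bs c (iota u) _ (iota_bs u) (iota_bs _)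
  rw [sip_iota] at h1
  have h2 : ((∑ x, ‖iotaA X x‖ ^ 2 : ℝ) : ℂ) = 0 := by
    rw [← h1]
    push_cast
    exact Finset.sum_congr rfl fun x _ => (Complex.conj_mul' _).symm
  have h3 : ∑ x, ‖iotaA X x‖ ^ 2 = 0 := by exact_mod_cast h2
  funext x
  have h4 := (Finset.sum_eq_zero_iff_of_nonneg fun x _ => by (clear * -; (clear * -; positivity))).1 h3 x
    (Finset.mem_univ x)
  simpa using h4

lemma ptR_V_of_orth (d : B → Fin 3 → ℝ) (u : (B → Bool) → ℂ) (w : SSt (B × Fin 4))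
    (hw : ∀ u', ptR w (iota u') = 0) : ptR w (ptV d (iota u)) = 0 := by
  rw [ptR_ptV_eq]
  refine Finset.sum_eq_zero fun b _ => Finset.sum_eq_zero fun a _ => ?_
  rw [pt_dotS_succ_iota, hw, mul_zero]

lemma ptR_iota_of_iotaA (w : SSt (B × Fin 4)) (hw : iotaA w = 0) (u' : (B → Bool) → ℂ) :
    ptR w (iota u') = 0 := by
  rw [ptR_comm, ptR, sip_iota, hw]
  simp only [Pi.zero_apply, mul_zero, sum_const_zero, Complex.zero_re]

lemma pt_basic {n s : ℝ} (hn : 1 ≤ n) (hs : 10 ^ 4 * n ^ 6 ≤ s) :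
    10 ^ 4 ≤ s ∧ n ≤ n ^ 2 ∧ n ^ 2 ≤ n ^ 6 ∧ 10 ^ 4 * n ^ 2 ≤ s := by
  have hn6 : 1 ≤ n ^ 6 := one_le_pow₀ hn
  have h2 : n ^ 2 ≤ n ^ 6 := pow_le_pow_right₀ hn (by norm_num)
  refine ⟨by linarith, ?_, h2, by linarith only [hs, h2]⟩
  calc n = n ^ 1 := (pow_one n).symm
    _ ≤ n ^ 2 := pow_le_pow_right₀ hn (by norm_num)

lemma pt_Q1 {n s : ℝ} (hn : 1 ≤ n) (hs : 10 ^ 4 * n ^ 6 ≤ s) :
    n * s ^ 3 ≤ n ^ 2 * s ^ 7 / 100 ∧ n ^ 2 * s ^ 2 ≤ n ^ 2 * s ^ 7 / 100 := by
  obtain ⟨h1, h2, h3, h4⟩ := pt_basic hn hs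
  have hs0 : 0 < s := by linarith only [h1]
  have e4 : 100 ≤ s ^ 4 := by
    calc (100 : ℝ) ≤ s := by linarith only [h1]
      _ = s ^ 1 := (pow_one s).symm
      _ ≤ s ^ 4 := pow_le_pow_right₀ (by linarith only [h1]) (by norm_num)
  have e1 : s ^ 3 ≤ s ^ 7 / 100 := by
    rw [le_div_iff₀ (by norm_num)]
    calc s ^ 3 * 100 ≤ s ^ 3 * s ^ 4 := mul_le_mul_of_nonneg_left e4 (by positivity)
      _ = s ^ 7 := by ring
  have e2 : s ^ 2 ≤ s ^ 7 / 100 := (pow_le_pow_right₀ (by linarith only [h1]) (by norm_num)).trans e1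
  constructor
  · calc n * s ^ 3 ≤ n ^ 2 * (s ^ 7 / 100) := mul_le_mul h2 e1 (by positivity) (by positivity)
      _ = _ := by ring
  · calc n ^ 2 * s ^ 2 ≤ n ^ 2 * (s ^ 7 / 100) := mul_le_mul_of_nonneg_left e2 (by positivity)
      _ = _ := by ring

lemma pt_Q2 {n s : ℝ} (hn : 1 ≤ n) (hs : 10 ^ 4 * n ^ 6 ≤ s) :
    2 * (2 * n ^ 2 * s ^ 7) ≤ s ^ 10 := by
  obtain ⟨h1, h2, h3, h4⟩ := pt_basic hn hs
  have hs0 : 0 < s := by linarith only [h1]
  have e2 : 4 * n ^ 2 ≤ s ^ 3 := by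
    have e3 : s ≤ s ^ 3 := by
      calc s = s ^ 1 := (pow_one s).symm
        _ ≤ s ^ 3 := pow_le_pow_right₀ (by linarith only [h1]) (by norm_num)
    have : 0 ≤ n ^ 2 := by (clear * - hn; positivity)
    linarith only [hs, h1, h3, e3]
  calc 2 * (2 * n ^ 2 * s ^ 7) = 4 * n ^ 2 * s ^ 7 := by ring
    _ ≤ s ^ 3 * s ^ 7 := mul_le_mul_of_nonneg_right e2 (by positivity)
    _ = s ^ 10 := by ring

lemma pt_eta {n s nv nX : ℝ} (hs0 : 0 < s) (hX : nX ≤ n ^ 4 * s ^ 2 * nv) :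
    (1 / (2 * s ^ 4)) ^ 2 * nX ≤ n ^ 4 / (4 * s ^ 6) * nv := by
  calc (1 / (2 * s ^ 4)) ^ 2 * nX ≤ (1 / (2 * s ^ 4)) ^ 2 * (n ^ 4 * s ^ 2 * nv) :=
        mul_le_mul_of_nonneg_left hX (by (clear * - hs0; positivity))
    _ = _ := by field_simp; ring

lemma pt_err {n s nv : ℝ} (hn : 1 ≤ n) (hs : 10 ^ 4 * n ^ 6 ≤ s) (hnv : 0 ≤ nv) :
    2 * n ^ 6 * s * nv + 4 * n ^ 2 * s ^ 2 * nv ≤ 10 ^ 4 * n ^ 6 * s ^ 2 * nv := by
  obtain ⟨h1, h2, h3, h4⟩ := pt_basic hn hs
  have hs0 : 0 < s := by linarith only [h1]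
  have e0 : s ≤ s ^ 2 := by
    calc s = s ^ 1 := (pow_one s).symm
      _ ≤ s ^ 2 := pow_le_pow_right₀ (by linarith only [h1]) (by norm_num)
  have e1 : n ^ 6 * s ≤ n ^ 6 * s ^ 2 := mul_le_mul_of_nonneg_left e0 (by positivity)
  have e2 : n ^ 2 * s ^ 2 ≤ n ^ 6 * s ^ 2 := mul_le_mul_of_nonneg_right h3 (by positivity)
  have e3 : 0 ≤ n ^ 6 * s ^ 2 := by positivity
  have e4 : 2 * n ^ 6 * s + 4 * n ^ 2 * s ^ 2 ≤ 10 ^ 4 * n ^ 6 * s ^ 2 := by linarith only [e1, e2, e3]
  calc 2 * n ^ 6 * s * nv + 4 * n ^ 2 * s ^ 2 * nv = (2 * n ^ 6 * s + 4 * n ^ 2 * s ^ 2) * nv := by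
        ring
    _ ≤ _ := mul_le_mul_of_nonneg_right e4 hnv

lemma pt_TT {n s nv TT : ℝ} (hTT : |TT| ≤ 729 / 16 * n ^ 2 * nv) (hnv : 0 ≤ nv) :
    |s ^ 2 / 12 * TT| ≤ 4 * n ^ 2 * s ^ 2 * nv := by
  rw [abs_mul, abs_of_nonneg (by (clear * -; positivity) : 0 ≤ s ^ 2 / 12)]
  calc s ^ 2 / 12 * |TT| ≤ s ^ 2 / 12 * (729 / 16 * n ^ 2 * nv) :=
        mul_le_mul_of_nonneg_left hTT (by (clear * -; positivity))
    _ = 243 / 64 * (n ^ 2 * s ^ 2 * nv) := by ring
    _ ≤ 4 * (n ^ 2 * s ^ 2 * nv) := mul_le_mul_of_nonneg_right (by (clear * -; norm_num)) (by (clear * - hnv; positivity))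
    _ = _ := by ring

/-- arithmetic of the lower bound -/
lemma pt_num_lower {n s E0 lam nv nw ny nX K r X1 VV WW T TT hsv : ℝ} (hn : 1 ≤ n)
    (hs : 10 ^ 4 * n ^ 6 ≤ s) (hnv : 0 ≤ nv) (hnw : 0 ≤ nw) (hny : 0 ≤ ny)
    (ha : s ^ 10 * ny ≤ s ^ 10 * K + 2 * s ^ 6 * r + s ^ 2 / 2 * nX)
    (hb : hsv = E0 * (nv + nw) + (s ^ 10 * K + (X1 + VV) + s ^ 6 * (2 * r + WW)))
    (hVV : |VV| ≤ 9 / 4 * n * s ^ 3 * nw) (hWW : |WW| ≤ n ^ 2 * s * nw)
    (hT : T = E0 * nv + X1 - s ^ 2 / 2 * nX + s ^ 2 / 12 * TT)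
    (hTT : |TT| ≤ 729 / 16 * n ^ 2 * nv) (hlam : lam * nv ≤ T)
    (hlam2 : lam ≤ E0 + (9 / 4 * n * s ^ 3 + 4 * n ^ 2 * s ^ 2))
    (hw : nw ≤ 2 * ny + 2 * (1 / (2 * s ^ 4)) ^ 2 * nX) (hX : nX ≤ n ^ 4 * s ^ 2 * nv) :
    (lam - 10 ^ 4 * n ^ 6 * s ^ 2) * (nv + nw) ≤ hsv := by
  obtain ⟨h1, h2, h3, h4⟩ := pt_basic hn hs
  have hs0 : 0 < s := by linarith only [h1]
  obtain ⟨q1, q2⟩ := pt_Q1 hn hs
  have q3 := pt_Q2 hn hs
  have hη := pt_eta hs0 hX
  have herr := pt_err hn hs hnv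
  have hTT2 := (abs_le.1 (pt_TT (s := s) hTT hnv)).2
  obtain ⟨Q, hQ⟩ : ∃ Q : ℝ, Q = 2 * n ^ 2 * s ^ 7 := ⟨_, rfl⟩
  have hQ0 : 0 ≤ Q := by rw [hQ]; (clear * - hn h1; positivity)
  have hQ1 : 9 / 4 * n * s ^ 3 + n ^ 2 * s ^ 7 + (9 / 4 * n * s ^ 3 + 4 * n ^ 2 * s ^ 2) ≤ Q := by
    have : 0 ≤ n ^ 2 * s ^ 7 := by (clear * - hn h1; positivity)
    rw [hQ]
    linarith only [q1, q2, hQ, hQ0]
  rw [← hQ] at q3
  have hQw : Q * nw ≤ s ^ 10 * ny + n ^ 6 * s * nv := by
    have e1 : Q * nw ≤ Q * (2 * ny + 2 * (n ^ 4 / (4 * s ^ 6) * nv)) := by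
      refine mul_le_mul_of_nonneg_left ?_ hQ0
      linarith only [hw, hη]
    have e2 : Q * (2 * (n ^ 4 / (4 * s ^ 6) * nv)) = n ^ 6 * s * nv := by
      rw [hQ]; field_simp; ring
    have e3 : 2 * Q * ny ≤ s ^ 10 * ny := mul_le_mul_of_nonneg_right q3 hny
    have e4 : Q * (2 * ny + 2 * (n ^ 4 / (4 * s ^ 6) * nv)) = 2 * Q * ny +
      Q * (2 * (n ^ 4 / (4 * s ^ 6) * nv)) := by ring
    rw [e4, e2] at e1
    linarith only [e1, e3]
  have hV2 := (abs_le.1 hVV).1
  have hW2 := (abs_le.1 hWW).1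
  have hW3 : -(n ^ 2 * s ^ 7 * nw) ≤ s ^ 6 * WW := by
    calc -(n ^ 2 * s ^ 7 * nw) = s ^ 6 * -(n ^ 2 * s * nw) := by ring
      _ ≤ _ := mul_le_mul_of_nonneg_left hW2 (by (clear * - h1; positivity))
  have hlw : lam * nw ≤ (E0 + (9 / 4 * n * s ^ 3 + 4 * n ^ 2 * s ^ 2)) * nw :=
    mul_le_mul_of_nonneg_right hlam2 hnw
  have hQ1w := mul_le_mul_of_nonneg_right hQ1 hnw
  have herrw : 0 ≤ 10 ^ 4 * n ^ 6 * s ^ 2 * nw := by (clear * - hn h1 hnw; (clear * - hn h1 hnw; positivity))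
  have hn6s : 0 ≤ n ^ 6 * s * nv := by (clear * - hn h1 hnv; positivity)
  have hgoal : (lam - 10 ^ 4 * n ^ 6 * s ^ 2) * (nv + nw) = lam * nv + lam * nw -
      10 ^ 4 * n ^ 6 * s ^ 2 * nv - 10 ^ 4 * n ^ 6 * s ^ 2 * nw := by ring
  have e5 : (E0 + (9 / 4 * n * s ^ 3 + 4 * n ^ 2 * s ^ 2)) * nw = E0 * nw +
    (9 / 4 * n * s ^ 3 + 4 * n ^ 2 * s ^ 2) * nw := by ring
  have e6 : (9 / 4 * n * s ^ 3 + n ^ 2 * s ^ 7 + (9 / 4 * n * s ^ 3 + 4 * n ^ 2 * s ^ 2)) * nw
    = 9 / 4 * n * s ^ 3 * nw + n ^ 2 * s ^ 7 * nw +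
      (9 / 4 * n * s ^ 3 + 4 * n ^ 2 * s ^ 2) * nw := by ring
  have e7 : E0 * (nv + nw) + (s ^ 10 * K + (X1 + VV) + s ^ 6 * (2 * r + WW))
    = E0 * nv + E0 * nw + s ^ 10 * K + X1 + VV + 2 * s ^ 6 * r + s ^ 6 * WW := by ring
  rw [hgoal, hb, e7]
  rw [e5] at hlw
  rw [e6] at hQ1w
  clear e5 e6 e7 hgoal q1 q2 q3 hlam2 hW2 hWW hVV hTT hX hw hη hQ1 h1 h2 h3 h4 hs hn
  generalize (9 / 4 * n * s ^ 3 + 4 * n ^ 2 * s ^ 2) * nw = a1 at *
  generalize 9 / 4 * n * s ^ 3 * nw = a2 at *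
  generalize n ^ 2 * s ^ 7 * nw = a3 at *
  generalize 10 ^ 4 * n ^ 6 * s ^ 2 * nw = a4 at *
  generalize 10 ^ 4 * n ^ 6 * s ^ 2 * nv = a5 at *
  generalize s ^ 6 * WW = a6 at *
  generalize s ^ 10 * K = a7 at *
  generalize s ^ 10 * ny = a8 at *
  generalize 2 * s ^ 6 * r = a9 at *
  generalize s ^ 2 / 2 * nX = b1 at *
  generalize s ^ 2 / 12 * TT = b2 at *
  generalize 4 * n ^ 2 * s ^ 2 * nv = b3 at *
  have herr2 : 2 * (n ^ 6 * s * nv) + b3 ≤ a5 := by
    calc 2 * (n ^ 6 * s * nv) + b3 = 2 * n ^ 6 * s * nv + b3 := by ring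
      _ ≤ a5 := herr
  generalize n ^ 6 * s * nv = b4 at *
  linarith only [hlam, hlw, hV2, hQ1w, herrw, hW3, ha, hT, hTT2, hn6s, hQw, herr2]

/-- arithmetic of the upper bound -/
lemma pt_num_upper {n s nv nX ne X1 VV WW TT c2 : ℝ} (hn : 1 ≤ n)
    (hs : 10 ^ 4 * n ^ 6 ≤ s) (hnv : 0 ≤ nv) (hnX : 0 ≤ nX)
    (hne : ne = (1 / (2 * s ^ 4)) ^ 2 * nX) (hc0 : 0 ≤ c2) (hc1 : c2 ≤ 1)
    (hc : c2 * (nv + ne) = nv) (hX1 : |X1| ≤ 9 / 4 * n * s ^ 3 * nv)
    (hVV : |VV| ≤ 9 / 4 * n * s ^ 3 * nX) (hWW : |WW| ≤ n ^ 2 * s * nX)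
    (hTT : |TT| ≤ 729 / 16 * n ^ 2 * nv) (hX : nX ≤ n ^ 4 * s ^ 2 * nv) :
    c2 * (X1 - s ^ 2 / 2 * nX + (1 / (2 * s ^ 4)) ^ 2 * VV + s ^ 6 * ((1 / (2 * s ^ 4)) ^ 2 * WW))
      ≤ X1 - s ^ 2 / 2 * nX + s ^ 2 / 12 * TT + 10 ^ 4 * n ^ 6 * s ^ 2 * nv := by
  obtain ⟨h1, h2, h3, h4⟩ := pt_basic hn hs
  have hs0 : 0 < s := by linarith only [h1]
  obtain ⟨q1, q2⟩ := pt_Q1 hn hs
  have hη := pt_eta hs0 hX
  rw [← hne] at hη
  have herr := pt_err hn hs hnv
  have hTT2 := (abs_le.1 (pt_TT (s := s) hTT hnv)).1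
  have hne0 : 0 ≤ ne := by rw [hne]; (clear * - h1 hnX; positivity)
  obtain ⟨k, hk⟩ : ∃ k : ℝ, k = (1 / (2 * s ^ 4)) ^ 2 := ⟨_, rfl⟩
  have hk0 : 0 ≤ k := by rw [hk]; positivity
  rw [← hk] at hne ⊢
  have hδ' : |k * VV + s ^ 6 * (k * WW)| ≤ (9 / 4 * n * s ^ 3 + n ^ 2 * s ^ 7) * ne := by
    have e1 : |k * VV| ≤ 9 / 4 * n * s ^ 3 * ne := by
      rw [abs_mul, abs_of_nonneg hk0, hne]
      calc k * |VV| ≤ k * (9 / 4 * n * s ^ 3 * nX) := mul_le_mul_of_nonneg_left hVV hk0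
        _ = _ := by ring
    have e2 : |s ^ 6 * (k * WW)| ≤ n ^ 2 * s ^ 7 * ne := by
      rw [abs_mul, abs_mul, abs_of_nonneg hk0, abs_of_nonneg (by (clear * - h1; positivity) : 0 ≤ s ^ 6), hne]
      calc s ^ 6 * (k * |WW|) ≤ s ^ 6 * (k * (n ^ 2 * s * nX)) :=
            mul_le_mul_of_nonneg_left (mul_le_mul_of_nonneg_left hWW hk0) (by (clear * - h1; positivity))
        _ = _ := by ring
    have e3 := abs_add_le (k * VV) (s ^ 6 * (k * WW))
    have e : (9 / 4 * n * s ^ 3 + n ^ 2 * s ^ 7) * ne = 9 / 4 * n * s ^ 3 * ne +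
      n ^ 2 * s ^ 7 * ne := by ring
    rw [e]
    linarith only [e1, e2, e3]
  obtain ⟨Y, hY⟩ : ∃ Y : ℝ, Y = X1 - s ^ 2 / 2 * nX := ⟨_, rfl⟩
  obtain ⟨δ, hδ⟩ : ∃ δ : ℝ, δ = k * VV + s ^ 6 * (k * WW) := ⟨_, rfl⟩
  have hYabs : |Y| ≤ (9 / 4 * n * s ^ 3 + n ^ 4 * s ^ 4) * nv := by
    have e1 : |s ^ 2 / 2 * nX| ≤ n ^ 4 * s ^ 4 * nv := by
      rw [abs_of_nonneg (by (clear * - h1 hnX; (clear * - h1 hnX; positivity)))]
      calc s ^ 2 / 2 * nX ≤ s ^ 2 / 2 * (n ^ 4 * s ^ 2 * nv) :=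
            mul_le_mul_of_nonneg_left hX (by (clear * - h1; positivity))
        _ = 1 / 2 * (n ^ 4 * s ^ 4 * nv) := by ring
        _ ≤ _ := by
          have : 0 ≤ n ^ 4 * s ^ 4 * nv := by (clear * - hn h1 hnv; positivity)
          linarith only [this]
    have e3 := abs_sub X1 (s ^ 2 / 2 * nX)
    have e : (9 / 4 * n * s ^ 3 + n ^ 4 * s ^ 4) * nv = 9 / 4 * n * s ^ 3 * nv +
      n ^ 4 * s ^ 4 * nv := by ring
    rw [e, hY]
    linarith only [hX1, e1, e3]
  rw [← hδ] at hδ'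
  have h1c : (1 - c2) * nv ≤ ne := by
    have e : (1 - c2) * nv = c2 * ne := by linarith only [hc]
    rw [e]
    exact mul_le_of_le_one_left hne0 hc1
  have hA : (c2 - 1) * Y ≤ (9 / 4 * n * s ^ 3 + n ^ 4 * s ^ 4) * ne := by
    calc (c2 - 1) * Y = (1 - c2) * (-Y) := by ring
      _ ≤ (1 - c2) * |Y| := mul_le_mul_of_nonneg_left (neg_le_abs Y) (by linarith only [hc1])
      _ ≤ (1 - c2) * ((9 / 4 * n * s ^ 3 + n ^ 4 * s ^ 4) * nv) :=
          mul_le_mul_of_nonneg_left hYabs (by linarith only [hc1])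
      _ = (9 / 4 * n * s ^ 3 + n ^ 4 * s ^ 4) * ((1 - c2) * nv) := by ring
      _ ≤ _ := mul_le_mul_of_nonneg_left h1c (by (clear * - hn h1; positivity))
  have hB : c2 * δ ≤ (9 / 4 * n * s ^ 3 + n ^ 2 * s ^ 7) * ne := by
    calc c2 * δ ≤ c2 * |δ| := mul_le_mul_of_nonneg_left (le_abs_self _) hc0
      _ ≤ 1 * |δ| := mul_le_mul_of_nonneg_right hc1 (abs_nonneg _)
      _ = |δ| := one_mul _
      _ ≤ _ := hδ'
  have hsum : (9 / 4 * n * s ^ 3 + n ^ 4 * s ^ 4) + (9 / 4 * n * s ^ 3 + n ^ 2 * s ^ 7)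
      ≤ 8 * n ^ 2 * s ^ 7 := by
    have a2 : n ^ 4 * s ^ 4 ≤ n ^ 2 * s ^ 7 := by
      have e1 : n ^ 2 ≤ s := by
        have : 0 ≤ n ^ 2 := by positivity
        linarith only [hs, h1, h3]
      calc n ^ 4 * s ^ 4 = n ^ 2 * s ^ 4 * n ^ 2 := by ring
        _ ≤ n ^ 2 * s ^ 4 * s := mul_le_mul_of_nonneg_left e1 (by positivity)
        _ = n ^ 2 * s ^ 5 := by ring
        _ ≤ n ^ 2 * s ^ 7 := mul_le_mul_of_nonneg_left
          (pow_le_pow_right₀ (by linarith only [h1]) (by norm_num)) (by positivity)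
    have a3 : 0 ≤ n ^ 2 * s ^ 7 := by positivity
    linarith only [q1, a2, a3]
  have hfin : (9 / 4 * n * s ^ 3 + n ^ 4 * s ^ 4) * ne + (9 / 4 * n * s ^ 3 + n ^ 2 * s ^ 7) * ne
      ≤ 2 * n ^ 6 * s * nv := by
    calc (9 / 4 * n * s ^ 3 + n ^ 4 * s ^ 4) * ne + (9 / 4 * n * s ^ 3 + n ^ 2 * s ^ 7) * ne
        = ((9 / 4 * n * s ^ 3 + n ^ 4 * s ^ 4) + (9 / 4 * n * s ^ 3 + n ^ 2 * s ^ 7)) * ne := by
          ring
      _ ≤ 8 * n ^ 2 * s ^ 7 * ne := mul_le_mul_of_nonneg_right hsum hne0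
      _ ≤ 8 * n ^ 2 * s ^ 7 * (n ^ 4 / (4 * s ^ 6) * nv) :=
          mul_le_mul_of_nonneg_left hη (by (clear * - hn h1; positivity))
      _ = 2 * n ^ 6 * s * nv := by field_simp; ring
  have hgoal : c2 * (X1 - s ^ 2 / 2 * nX + k * VV + s ^ 6 * (k * WW))
      = Y + (c2 - 1) * Y + c2 * δ := by rw [hδ, hY]; ring
  rw [hgoal, ← hY]
  linarith only [herr, hTT2, hA, hB, hfin]

theorem r2_lower (s : ℝ) (t : B → B → Fin 3 → Fin 3 → ℝ) (d : B → Fin 3 → ℝ)
    (hB : 2 ≤ Fintype.card B) (hsB : 10 ^ 4 * (Fintype.card B : ℝ) ^ 6 ≤ s)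
    (ht0 : ∀ b b' a a', 0 ≤ t b b' a a') (ht1 : ∀ b b' a a', t b b' a a' ≤ 1)
    (hts : ∀ b b' a a', t b b' a a' = t b' b a' a) (hd : ∀ b a, |d b a| ≤ s ^ 3)
    (lam : ℝ) (h : ∀ u : (B → Bool) → ℂ, lam * (∑ x, ‖u x‖ ^ 2) ≤ teff s t d u)
    (Φ : SSt (B × Fin 4)) :
    (lam - 10 ^ 4 * (Fintype.card B : ℝ) ^ 6 * s ^ 2) * snorm2 Φ ≤ hs (jw s t d) Φ := by
  have hn : (1 : ℝ) ≤ Fintype.card B := by exact_mod_cast (by omega : 1 ≤ Fintype.card B)
  have hn6 : (1 : ℝ) ≤ (Fintype.card B : ℝ) ^ 6 := one_le_pow₀ hn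
  have hs1 : 10 ^ 4 ≤ s := by linarith only [hsB, hn6]
  have hs6 : 6 ≤ s := by linarith only [hsB, hn6]
  have hs0 : 0 < s := by linarith only [hsB, hn6]
  obtain ⟨u, hu⟩ : ∃ u', u' = iotaA Φ := ⟨_, rfl⟩
  obtain ⟨v, hv⟩ : ∃ v', v' = iota u := ⟨_, rfl⟩
  obtain ⟨w, hw⟩ : ∃ w', w' = Φ + ((-1 : ℝ) : ℂ) • v := ⟨_, rfl⟩
  obtain ⟨X, hX⟩ : ∃ X', X' = inter (ptc s t) v := ⟨_, rfl⟩
  obtain ⟨k, hk⟩ : ∃ k' : ℝ, k' = 1 / (2 * s ^ 4) := ⟨_, rfl⟩
  obtain ⟨y, hy⟩ : ∃ y', y' = w + (k : ℂ) • X := ⟨_, rfl⟩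
  have hvbs : IsBS v := by rw [hv]; exact iota_bs u
  have hvw : v + w = Φ := by
    rw [hw]
    have : ((-1 : ℝ) : ℂ) = -1 := by push_cast; ring
    rw [this, neg_smul, one_smul]
    abel
  have hwA : iotaA w = 0 := by
    rw [hw, pt_iotaA_add, pt_iotaA_smul, hv, iotaA_iota]
    have : ((-1 : ℝ) : ℂ) = -1 := by push_cast; ring
    rw [this, neg_smul, one_smul, ← hu, add_neg_cancel]
  have hXA : iotaA X = 0 := by rw [hX, hv]; exact pt_iotaA_inter _ _
  have hyA : iotaA y = 0 := by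
    rw [hy, pt_iotaA_add, pt_iotaA_smul, hwA, hXA, smul_zero, add_zero]
  have hwi : ∀ u', ptR w (iota u') = 0 := ptR_iota_of_iotaA w hwA
  have hvv : snorm2 v = ∑ x, ‖u x‖ ^ 2 := by rw [hv]; exact snorm2_iota u
  have hcv : casimir v = 0 := casimir_bs v hvbs
  have hcX : casimir X = (2 : ℂ) • X := by
    rw [hX]
    exact casimir_inter (ptc s t) (fun b b' g h => ptc_symm hts b b' g h) v hvbs
  have hvX : ptR v X = 0 := by
    rw [ptR, hX, inter_bs (ptc s t) v v hvbs hvbs]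
    rfl
  have hwv : ptR w v = 0 := by rw [hv]; exact hwi u
  have hwV : ptR w (ptV d v) = 0 := by rw [hv]; exact ptR_V_of_orth d u w hwi
  -- the gap
  have hgap : snorm2 y ≤ ptR w (casimir w) + 4 * k * ptR w X + 2 * k ^ 2 * snorm2 X := by
    have h1 := casimir_gap y
    rw [hyA] at h1
    have h2 : (sip y (casimir y)).re = ptR y (casimir y) := rfl
    rw [h2, hy, pt_expand casimir pt_casimir_add ptR_casimir] at h1
    have h3 : casimir ((k : ℂ) • X) = ((2 * k : ℝ) : ℂ) • X := by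
      rw [pt_casimir_smul, hcX, smul_smul]
      congr 1
      push_cast
      ring
    rw [ptR_comm ((k : ℂ) • X) (casimir w), ← ptR_casimir, h3, ptR_smul, ptR_smul_left,
      ptR_smul, ptR_self] at h1
    simp only [Pi.zero_apply, norm_zero] at h1
    have h4 : ∑ x : B → Bool, (0 : ℝ) ^ 2 = 0 := by simp
    rw [h4, ← hy] at h1
    linarith only [h1]
  have hsplit : snorm2 Φ = snorm2 v + snorm2 w := by
    rw [← hvw, ← ptR_self, ← ptR_self, ← ptR_self, ptR_add, ptR_add_left, ptR_add_left,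
      ptR_comm v w, hwv]
    ring
  have hwy : snorm2 w ≤ 2 * snorm2 y + 2 * k ^ 2 * snorm2 X := by
    have h1 : w = y + ((-k : ℝ) : ℂ) • X := by
      rw [hy, add_assoc, ← add_smul]
      push_cast
      rw [add_neg_cancel, zero_smul, add_zero]
    have h2 : ptN w ≤ ptN y + |k| * ptN X := by
      conv_lhs => rw [h1]
      refine (ptN_add_le _ _).trans ?_
      rw [ptN_smul, Complex.norm_real, Real.norm_eq_abs, abs_neg]
    have h3 := ptN_nonneg w
    have h4 := ptN_nonneg y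
    have h5 := ptN_nonneg X
    rw [← ptN_sq, ← ptN_sq, ← ptN_sq]
    have h6 : ptN w ^ 2 ≤ (ptN y + |k| * ptN X) ^ 2 := pow_le_pow_left₀ h3 h2 2
    have h7 : k ^ 2 = |k| ^ 2 := (sq_abs k).symm
    rw [h7]
    linarith only [h6, sq_nonneg (ptN y - |k| * ptN X)]
  have hlam2 : lam ≤ -(3 / 2 * s ^ 10 * Fintype.card B) +
      (9 / 4 * (Fintype.card B : ℝ) * s ^ 3 + 4 * (Fintype.card B : ℝ) ^ 2 * s ^ 2) := by
    set u0 : (B → Bool) → ℂ := fun x => if x = (fun _ => false) then 1 else 0 with hu0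
    have h1 : ∑ x, ‖u0 x‖ ^ 2 = 1 := by
      rw [Finset.sum_eq_single (fun _ => false)]
      · simp only [hu0, ↓reduceIte, norm_one, one_pow]
      · intro x _ hx
        simp [hu0, hx]
      · intro hx; exact absurd (Finset.mem_univ _) hx
    have h2 := h u0
    rw [pt_teff s t d hts u0, h1] at h2
    have h3 := (abs_le.1 (pt_V_abs s d hd (iota u0))).2
    have h4 := (abs_le.1 (ptTT_abs t ht0 ht1 u0)).2
    rw [snorm2_iota, h1] at h3 h4
    have h5 := pt_snorm2_nonneg' (inter (ptc s t) (iota u0))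
    have h6 : 0 ≤ s ^ 2 / 2 * snorm2 (inter (ptc s t) (iota u0)) := by (clear * - hs1 h5; (clear * - hs1 h5; positivity))
    have h7 : s ^ 2 / 12 * ptTT t u0 ≤ s ^ 2 / 12 * (729 / 16 * (Fintype.card B : ℝ) ^ 2 * 1) := by
      (clear * - h4 hs1; gcongr)
    have h8 : 0 ≤ (Fintype.card B : ℝ) ^ 2 * s ^ 2 := by (clear * - hB hs1; positivity)
    linarith only [h2, h3, h6, h7, h8]
  rw [hsplit]
  refine pt_num_lower (n := Fintype.card B) (s := s)
    (E0 := -(3 / 2 * s ^ 10 * Fintype.card B)) (lam := lam) (nv := snorm2 v) (nw := snorm2 w)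
    (ny := snorm2 y) (nX := snorm2 X) (K := ptR w (casimir w)) (r := ptR w X)
    (X1 := ptR v (ptV d v)) (VV := ptR w (ptV d w)) (WW := ptR w (inter (ptc s t) w))
    (T := teff s t d u) (TT := ptTT t u) hn hsB (pt_snorm2_nonneg' _) (pt_snorm2_nonneg' _)
    (pt_snorm2_nonneg' _) ?_ ?_ (pt_V_abs s d hd w) (pt_inter_abs s t hs6 ht0 ht1 w) ?_ ?_ ?_ hlam2
    ?_ ?_
  · have h1 := mul_le_mul_of_nonneg_left hgap (by (clear * - hs1; positivity) : 0 ≤ s ^ 10)
    refine h1.trans (le_of_eq ?_)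
    rw [hk]
    field_simp
    ring
  · rw [pt_hs, hsplit]
    rw [← hvw, pt_expand casimir pt_casimir_add ptR_casimir, hcv,
      pt_expand (ptV d) (ptV_add d) (ptR_ptV d),
      pt_expand (inter (ptc s t)) (pt_inter_add _) (ptR_inter _), ← hX, hvX,
      hwV, ptR_zero, ptR_zero]
    ring
  · rw [pt_teff s t d hts u, hX, hvv, hv]
  · have h1 := ptTT_abs t ht0 ht1 u
    rw [hv]
    exact h1
  · rw [hvv]; exact h u
  · rw [← hk]; exact hwy
  · rw [hX]; exact pt_inter_snorm s t hs6 ht0 ht1 v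

theorem r2_upper (s : ℝ) (t : B → B → Fin 3 → Fin 3 → ℝ) (d : B → Fin 3 → ℝ)
    (hB : 2 ≤ Fintype.card B) (hsB : 10 ^ 4 * (Fintype.card B : ℝ) ^ 6 ≤ s)
    (ht0 : ∀ b b' a a', 0 ≤ t b b' a a') (ht1 : ∀ b b' a a', t b b' a a' ≤ 1)
    (hts : ∀ b b' a a', t b b' a a' = t b' b a' a) (hd : ∀ b a, |d b a| ≤ s ^ 3)
    (u : (B → Bool) → ℂ) :
    ∃ Φ : SSt (B × Fin 4), snorm2 Φ = ∑ x, ‖u x‖ ^ 2 ∧
      hs (jw s t d) Φ ≤ teff s t d u +
        10 ^ 4 * (Fintype.card B : ℝ) ^ 6 * s ^ 2 * (∑ x, ‖u x‖ ^ 2) := by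
  have hn : (1 : ℝ) ≤ Fintype.card B := by exact_mod_cast (by omega : 1 ≤ Fintype.card B)
  have hn6 : (1 : ℝ) ≤ (Fintype.card B : ℝ) ^ 6 := one_le_pow₀ hn
  have hs1 : 10 ^ 4 ≤ s := by linarith only [hsB, hn6]
  have hs6 : 6 ≤ s := by linarith only [hsB, hn6]
  have hs0 : 0 < s := by linarith only [hsB, hn6]
  obtain ⟨v, hv⟩ : ∃ v', v' = iota u := ⟨_, rfl⟩
  obtain ⟨X, hX⟩ : ∃ X', X' = inter (ptc s t) v := ⟨_, rfl⟩
  obtain ⟨k, hk⟩ : ∃ k' : ℝ, k' = 1 / (2 * s ^ 4) := ⟨_, rfl⟩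
  obtain ⟨y, hy⟩ : ∃ y', y' = v + ((-k : ℝ) : ℂ) • X := ⟨_, rfl⟩
  have hvbs : IsBS v := by rw [hv]; exact iota_bs u
  have hvv : snorm2 v = ∑ x, ‖u x‖ ^ 2 := by rw [hv]; exact snorm2_iota u
  have hcv : casimir v = 0 := casimir_bs v hvbs
  have hcX : casimir X = (2 : ℂ) • X := by
    rw [hX]
    exact casimir_inter (ptc s t) (fun b b' g h => ptc_symm hts b b' g h) v hvbs
  have hXi : ∀ u', ptR X (iota u') = 0 := fun u' => by
    rw [ptR_comm, ptR, hX, inter_bs (ptc s t) v (iota u') hvbs (iota_bs u')]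
    rfl
  have hvX : ptR v X = 0 := by rw [ptR_comm, hv]; exact hXi u
  have hXV : ptR X (ptV d v) = 0 := by rw [hv]; exact ptR_V_of_orth d u X hXi
  obtain ⟨ne, hne⟩ : ∃ ne' : ℝ, ne' = k ^ 2 * snorm2 X := ⟨_, rfl⟩
  have hny : snorm2 y = snorm2 v + ne := by
    rw [← ptR_self y, hy, ptR_add, ptR_add_left, ptR_add_left, ptR_smul, ptR_smul, ptR_smul_left,
      ptR_smul_left, hvX, ptR_comm X v, hvX, ptR_self, ptR_self, hne]
    ring
  have hnv0 := pt_snorm2_nonneg' v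
  have hnX0 := pt_snorm2_nonneg' X
  have hne0 : 0 ≤ ne := by rw [hne]; (clear * - hnX0; positivity)
  obtain ⟨c2, hc2⟩ : ∃ c' : ℝ, c' = snorm2 v / (snorm2 v + ne) := ⟨_, rfl⟩
  have hc20 : 0 ≤ c2 := by rw [hc2]; (clear * - hnv0 hne0; positivity)
  have hc21 : c2 ≤ 1 := by rw [hc2]; exact div_le_one_of_le₀ (by linarith only [hne0]) (by (clear * - hnv0 hne0; positivity))
  have hcc : c2 * (snorm2 v + ne) = snorm2 v := by
    rcases eq_or_ne (snorm2 v + ne) 0 with h | h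
    · rw [h, mul_zero]; linarith only [hne0, h, hnv0]
    · rw [hc2, div_mul_cancel₀ _ h]
  have hsq : Real.sqrt c2 ^ 2 = c2 := Real.sq_sqrt hc20
  refine ⟨((Real.sqrt c2 : ℝ) : ℂ) • y, ?_, ?_⟩
  · rw [← ptR_self, ptR_smul, ptR_smul_left, ptR_self, hny, ← hvv]
    calc Real.sqrt c2 * (Real.sqrt c2 * (snorm2 v + ne))
        = Real.sqrt c2 ^ 2 * (snorm2 v + ne) := by ring
      _ = snorm2 v := by rw [hsq, hcc]
  · have hen : hs (jw s t d) (((Real.sqrt c2 : ℝ) : ℂ) • y) =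
        c2 * hs (jw s t d) y := by
      rw [pt_hs, pt_hs, pt_casimir_smul, ptV_smul, pt_inter_smul, ptR_smul, ptR_smul, ptR_smul,
        ptR_smul_left, ptR_smul_left, ptR_smul_left, ← ptR_self, ptR_smul, ptR_smul_left,
        ptR_self]
      generalize Real.sqrt c2 = q at hsq
      rw [← hsq]
      ring
    have hc3 : casimir (((-k : ℝ) : ℂ) • X) = ((2 * -k : ℝ) : ℂ) • X := by
      rw [pt_casimir_smul, hcX, smul_smul]
      congr 1
      push_cast
      ring
    have hHy : hs (jw s t d) y = -(3 / 2 * s ^ 10 * Fintype.card B) * (snorm2 v + ne) +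
        (ptR v (ptV d v) - s ^ 2 / 2 * snorm2 X + k ^ 2 * ptR X (ptV d X) +
          s ^ 6 * (k ^ 2 * ptR X (inter (ptc s t) X))) := by
      rw [pt_hs, hny, hy, pt_expand casimir pt_casimir_add ptR_casimir, hcv, hc3,
        pt_expand (ptV d) (ptV_add d) (ptR_ptV d),
        pt_expand (inter (ptc s t)) (pt_inter_add _) (ptR_inter _), ← hX, hvX, ptV_smul,
        pt_inter_smul]
      simp only [ptR_zero, ptR_smul, ptR_smul_left, ptR_self, hXV]
      rw [hk]
      field_simp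
      ring
    rw [hen, hHy, pt_teff s t d hts u, ← hvv, ← hv, ← hX]
    have hfin := pt_num_upper (n := Fintype.card B) (s := s) (nv := snorm2 v) (nX := snorm2 X)
      (ne := ne) (X1 := ptR v (ptV d v)) (VV := ptR X (ptV d X))
      (WW := ptR X (inter (ptc s t) X)) (TT := ptTT t u) (c2 := c2) hn hsB hnv0 hnX0
      (by rw [hne, hk]) hc20
      hc21 hcc (pt_V_abs s d hd v) (pt_V_abs s d hd X) (pt_inter_abs s t hs6 ht0 ht1 X)
      (by rw [hv]; exact ptTT_abs t ht0 ht1 u)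
      (by rw [hX]; exact pt_inter_snorm s t hs6 ht0 ht1 v)
    rw [← hk] at hfin
    have e1 : ∀ E a : ℝ, c2 * (E * (snorm2 v + ne) + a) = E * snorm2 v + c2 * a := by
      intro E a
      calc c2 * (E * (snorm2 v + ne) + a) = E * (c2 * (snorm2 v + ne)) + c2 * a := by ring
        _ = _ := by rw [hcc]
    rw [e1]
    linarith only [hfin]

end ptmain

end Vale.Agent.P370.H
end
end

section

section

/-!
Newton theorem for null powers (Funk-Hecke with the Coulomb kernel).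
-/

namespace Vale.Agent.P370.Q

open MeasureTheory Finset ComplexConjugate

namespace S3

/-- north pole -/
noncomputable def ez : R3 := EuclideanSpace.single 2 1

theorem inner_ez_sp (θ φ : ℝ) : inner ℝ ez (sp θ φ) = Real.cos θ := by
  simp only [ez, Fin.isValue, sp, EuclideanSpace.inner_single_left, Real.ringHom_apply, Matrix.cons_val, one_mul]

theorem norm_ez : ‖ez‖ = 1 := by
  simp [ez]

theorem cdot_sp (c : C3) (θ φ : ℝ) :
    cdot c (sp θ φ) = Xf (c 0) (c 1) (c 2) (Real.sin θ) (Real.cos θ) φ := by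
  unfold cdot Xf sp
  rw [Fin.sum_univ_three]
  simp only [Fin.isValue, Matrix.cons_val_zero, Complex.ofReal_mul, Complex.ofReal_sin, Complex.ofReal_cos, Matrix.cons_val_one, Matrix.cons_val]
  ring

theorem sph_zonal_null (c : C3) (hc : cc c c = 0) (N : ℕ) (f : ℝ → ℝ)
    (hf : ContinuousOn f (Set.Icc (-1) 1)) :
    sph (fun u => (f (inner ℝ ez u) : ℝ) • cdot c u ^ N) =
      ((1 / 2) * ∫ t in (-1 : ℝ)..1, f t * lp N t : ℝ) • (c 2) ^ N := by
  have hc' : c 0 ^ 2 + c 1 ^ 2 + c 2 ^ 2 = 0 := by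
    unfold cc at hc
    rw [Fin.sum_univ_three] at hc
    linear_combination hc
  have h1 : sph (fun u => (f (inner ℝ ez u) : ℝ) • cdot c u ^ N) =
      sph (fun u => (f (inner ℝ ez u) * lp N (inner ℝ ez u) : ℝ) • (c 2) ^ N) := by
    unfold sph
    congr 1
    apply intervalIntegral.integral_congr
    intro θ _
    simp only
    simp only [inner_ez_sp, cdot_sp]
    rw [intervalIntegral.integral_smul, intervalIntegral.integral_smul,
      laplace_eq _ _ _ _ _ hc' (Real.sin_sq_add_cos_sq θ)]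
    rw [intervalIntegral.integral_const]
    simp only [Complex.real_smul]
    push_cast
    ring
  rw [h1]
  have h2 := sph_zonal ez norm_ez (fun t => (f t * lp N t : ℝ) • (c 2) ^ N)
    ((hf.mul (lp_continuous N).continuousOn).smul continuousOn_const)
  rw [h2, intervalIntegral.integral_smul_const, smul_smul]

theorem sph_zonal_real (f : ℝ → ℝ) (e : R3) (he : ‖e‖ = 1)
    (hf : ContinuousOn f (Set.Icc (-1) 1)) :
    sph (fun u => (f (inner ℝ e u) : ℝ)) = (1 / 2) * ∫ t in (-1 : ℝ)..1, f t := by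
  rw [sph_zonal e he f hf, smul_eq_mul]

theorem dist_eq (e u : R3) (he : ‖e‖ = 1) (hu : ‖u‖ = 1) (r ρ : ℝ) :
    dist (r • e) (ρ • u) = √(Dd r ρ (inner ℝ e u)) := by
  rw [dist_eq_norm, ← Real.sqrt_sq (norm_nonneg _)]
  congr 1
  rw [@norm_sub_sq_real, norm_smul, norm_smul, he, hu, inner_smul_left, inner_smul_right]
  unfold Dd
  simp only [Real.norm_eq_abs, mul_one, sq_abs, Real.ringHom_apply]
  ring

/-- the linear functional -/
noncomputable def cdotL (c : C3) : R3 →ₗ[ℝ] ℂ where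
  toFun := cdot c
  map_add' x y := by
    unfold cdot
    rw [← Finset.sum_add_distrib]
    apply Finset.sum_congr rfl
    intro k _
    simp
    ring
  map_smul' t x := by
    unfold cdot
    simp only [RingHom.id_apply, Finset.smul_sum]
    apply Finset.sum_congr rfl
    intro k _
    simp
    ring

theorem cdotL_apply (c : C3) (x : R3) : cdotL c x = cdot c x := rfl

/-- rotated vector -/
noncomputable def rot (g : R3 ≃ₗᵢ[ℝ] R3) (c : C3) : C3 :=
  fun k => cdot c (g (EuclideanSpace.single k 1))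

theorem cdot_rot (g : R3 ≃ₗᵢ[ℝ] R3) (c : C3) (u : R3) : cdot (rot g c) u = cdot c (g u) := by
  have hu : u = ∑ k, u k • (EuclideanSpace.single k (1 : ℝ) : R3) := by
    ext i
    simp [Fin.sum_univ_three]
    fin_cases i <;> simp
  have : cdot c (g u) = cdotL c (g u) := rfl
  rw [this]
  conv_rhs => rw [hu]
  rw [map_sum, map_sum]
  unfold cdot rot
  apply Finset.sum_congr rfl
  intro k _
  rw [map_smul, map_smul, cdotL_apply, Complex.real_smul]
  ring

/-- real part -/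
noncomputable def reP (c : C3) : R3 := WithLp.toLp 2 (fun k => (c k).re)
/-- imaginary part -/
noncomputable def imP (c : C3) : R3 := WithLp.toLp 2 (fun k => (c k).im)

theorem cdot_ri (c : C3) (x : R3) :
    cdot c x = ((inner ℝ (reP c) x : ℝ) : ℂ) + Complex.I * ((inner ℝ (imP c) x : ℝ) : ℂ) := by
  unfold cdot reP imP
  simp only [PiLp.inner_apply]
  apply Complex.ext
  · simp only [Fin.sum_univ_three, Fin.isValue, Complex.add_re, Complex.mul_re, Complex.ofReal_re, Complex.ofReal_im, mul_zero, sub_zero, RCLike.inner_apply, Real.ringHom_apply, Complex.ofReal_add, Complex.ofReal_mul, Complex.I_re, zero_mul, Complex.I_im, Complex.add_im, Complex.mul_im, add_zero, sub_self]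
    ring
  · simp only [Fin.sum_univ_three, Fin.isValue, Complex.add_im, Complex.mul_im, Complex.ofReal_im, mul_zero, Complex.ofReal_re, zero_add, RCLike.inner_apply, Real.ringHom_apply, Complex.ofReal_add, Complex.ofReal_mul, zero_mul, add_zero, Complex.I_re, Complex.I_im, Complex.add_re, Complex.mul_re, sub_zero, one_mul]
    ring

theorem cc_ri (c : C3) (a b : R3) (h : ∀ k, c k = (a k : ℂ) + Complex.I * (b k : ℂ)) :
    cc c c = ((inner ℝ a a - inner ℝ b b : ℝ) : ℂ) + 2 * Complex.I * ((inner ℝ a b : ℝ) : ℂ) := by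
  unfold cc
  simp only [PiLp.inner_apply, h, Fin.sum_univ_three, Real.inner_apply]
  push_cast
  linear_combination ((b 0 : ℂ) ^ 2 + (b 1 : ℂ) ^ 2 + (b 2 : ℂ) ^ 2) * Complex.I_sq

theorem cc_rot (g : R3 ≃ₗᵢ[ℝ] R3) (c : C3) : cc (rot g c) (rot g c) = cc c c := by
  have h1 : cc c c = ((inner ℝ (reP c) (reP c) - inner ℝ (imP c) (imP c) : ℝ) : ℂ) +
      2 * Complex.I * ((inner ℝ (reP c) (imP c) : ℝ) : ℂ) := by
    apply cc_ri
    intro k
    apply Complex.ext
    · simp [reP, imP]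
    · simp [reP, imP]
  rw [h1, cc_ri (rot g c) (g.symm (reP c)) (g.symm (imP c))]
  · simp only [LinearIsometryEquiv.inner_map_map]
  · intro k
    unfold rot
    rw [cdot_ri]
    have e : ∀ a : R3, (inner ℝ a (g (EuclideanSpace.single k 1)) : ℝ) = g.symm a k := by
      intro a
      rw [← LinearIsometryEquiv.inner_map_map g.symm, g.symm_apply_apply,
        EuclideanSpace.inner_single_right]
      simp
    rw [e, e]

end S3

open S3

/-- Newton's theorem for null powers (Funk-Hecke with the Coulomb kernel) -/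
theorem sph_newton (c : C3) (hc : cc c c = 0) (N : ℕ) (ρ : ℝ) (hρ : 0 < ρ) (x : R3)
    (hx : x ≠ 0) (hne : ‖x‖ ≠ ρ) :
    sph (fun u => (1 / dist x (ρ • u) : ℝ) • cdot c u ^ N) =
      (1 / (2 * (N : ℝ) + 1) * (min ‖x‖ ρ ^ N / max ‖x‖ ρ ^ (N + 1)) / ‖x‖ ^ N : ℝ) •
        cdot c x ^ N := by
  have hr : 0 < ‖x‖ := norm_pos_iff.2 hx
  obtain ⟨e, he, hxe⟩ : ∃ e : R3, ‖e‖ = 1 ∧ x = ‖x‖ • e := by
    refine ⟨(1 / ‖x‖) • x, ?_, ?_⟩
    · rw [norm_smul, Real.norm_of_nonneg (by (clear * - hx; positivity))]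
      (clear * - hx; field_simp)
    · rw [smul_smul, mul_one_div_cancel hr.ne', one_smul]
  obtain ⟨g, hg⟩ : ∃ g : R3 ≃ₗᵢ[ℝ] R3, g ez = e :=
    ⟨_, Submodule.reflection_sub (v := ez) (w := e) (by rw [norm_ez, he])⟩
  have hf : ContinuousOn (fun t => 1 / √(Dd ‖x‖ ρ t)) (Set.Icc (-1 : ℝ) 1) := by
    have := cA hr hρ hne
    rwa [Set.uIcc_of_le (by norm_num)] at this
  have h1 : sph (fun u => (1 / dist x (ρ • u) : ℝ) • cdot c u ^ N) =
      sph (fun u => (1 / dist x (ρ • g u) : ℝ) • cdot c (g u) ^ N) := by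
    symm
    apply sph_rot g (fun u => (1 / dist x (ρ • u) : ℝ) • cdot c u ^ N)
    have A : ContinuousOn (fun u => (1 / dist x (ρ • u) : ℝ)) (Metric.sphere (0 : R3) 1) := by
      apply ContinuousOn.div continuousOn_const (by (clear * -; fun_prop))
      intro u hu
      have hu' : ‖u‖ = 1 := by simpa using hu
      have : x ≠ ρ • u := by
        intro h
        apply hne
        rw [h, norm_smul, hu', Real.norm_of_nonneg hρ.le, mul_one]
      exact (dist_pos.2 this).ne'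
    have B : Continuous (cdot c) := (cdotL c).continuous_of_finiteDimensional
    exact A.smul (B.pow N).continuousOn
  rw [h1]
  have h2 : sph (fun u => (1 / dist x (ρ • g u) : ℝ) • cdot c (g u) ^ N) =
      sph (fun u => ((fun t => 1 / √(Dd ‖x‖ ρ t)) (inner ℝ ez u) : ℝ) • cdot (rot g c) u ^ N) := by
    apply sph_congr
    intro u hu
    have e1 : dist x (ρ • g u) = √(Dd ‖x‖ ρ (inner ℝ ez u)) := by
      conv_lhs => rw [hxe]
      rw [dist_eq e (g u) he (by rw [g.norm_map, hu]), ← hg, g.inner_map_map]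
    rw [cdot_rot, e1]
  rw [h2, sph_zonal_null _ ((cc_rot g c).trans hc) N _ hf]
  have h3 : (1 / 2) * ∫ t in (-1 : ℝ)..1, 1 / √(Dd ‖x‖ ρ t) * lp N t = aI ‖x‖ ρ N := rfl
  rw [h3, aI_eq hr hρ hne]
  have h4 : rot g c 2 = cdot c e := by
    unfold rot
    rw [← hg]
    rfl
  have h5 : cdot c x = ‖x‖ • cdot c e := by
    have : cdot c (‖x‖ • e) = ‖x‖ • cdot c e := (cdotL c).map_smul ‖x‖ e
    rw [← this, ← hxe]
  rw [h4, h5, smul_pow, smul_smul]
  congr 1
  (clear * - hx hρ; field_simp)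

theorem sph_newton_zero (ρ : ℝ) (hρ : 0 < ρ) (x : R3) (hne : ‖x‖ ≠ ρ) :
    sph (fun u => (1 / dist x (ρ • u) : ℝ)) = 1 / max ‖x‖ ρ := by
  rcases eq_or_ne x 0 with hx | hx
  · subst hx
    have : sph (fun u : R3 => (1 / dist 0 (ρ • u) : ℝ)) = sph (fun _ => (1 / ρ : ℝ)) := by
      apply sph_congr
      intro u hu
      rw [dist_zero_left, norm_smul, hu, Real.norm_of_nonneg hρ.le, mul_one]
    rw [this, sph_const, norm_zero, max_eq_right hρ.le]
  · have hr : 0 < ‖x‖ := norm_pos_iff.2 hx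
    obtain ⟨e, he, hxe⟩ : ∃ e : R3, ‖e‖ = 1 ∧ x = ‖x‖ • e := by
      refine ⟨(1 / ‖x‖) • x, ?_, ?_⟩
      · rw [norm_smul, Real.norm_of_nonneg (by (clear * - hx; positivity))]
        field_simp
      · rw [smul_smul, mul_one_div_cancel hr.ne', one_smul]
    have hf : ContinuousOn (fun t => 1 / √(Dd ‖x‖ ρ t)) (Set.Icc (-1 : ℝ) 1) := by
      have := cA hr hρ hne
      rwa [Set.uIcc_of_le (by (clear * -; norm_num))] at this
    have h2 : sph (fun u => (1 / dist x (ρ • u) : ℝ)) =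
        sph (fun u => ((fun t => 1 / √(Dd ‖x‖ ρ t)) (inner ℝ e u) : ℝ)) := by
      apply sph_congr
      intro u hu
      have e1 : dist x (ρ • u) = √(Dd ‖x‖ ρ (inner ℝ e u)) := by
        conv_lhs => rw [hxe]
        rw [dist_eq e u he hu]
      rw [e1]
    rw [h2, sph_zonal_real _ e he hf]
    have h3 : (1 / 2) * ∫ t in (-1 : ℝ)..1, 1 / √(Dd ‖x‖ ρ t) = aI ‖x‖ ρ 0 := by
      unfold aI
      simp only [one_div, S3.lp, mul_one]
    rw [h3, aI_eq hr hρ hne]
    simp only [CharP.cast_eq_zero, mul_zero, zero_add, ne_eq, one_ne_zero, not_false_eq_true, div_self, pow_zero, pow_one, one_div, one_mul]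

end Vale.Agent.P370.Q
end
end

section

section

/-!
Approximation of shell functions by test functions.
-/

namespace Vale.Agent.P370.Q

open MeasureTheory Finset ComplexConjugate Filter Topology Hyd

structure ApproxSeq (φ : R3 → ℝ) (f : ℕ → R3 → ℝ) : Prop where
  smooth : ∀ j, ContDiff ℝ (⊤ : ℕ∞) (f j)
  compact : ∀ j, HasCompactSupport (f j)
  bound : ∃ C c : ℝ, 0 < c ∧ ∀ j x, |f j x| ≤ C * Real.exp (-(c * ‖x‖)) ∧
    ‖fderiv ℝ (f j) x‖ ≤ C * Real.exp (-(c * ‖x‖))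
  tend : ∀ x, x ≠ 0 → Tendsto (fun j => f j x) atTop (𝓝 (φ x))
  tend_pd : ∀ x, x ≠ 0 → ∀ k, Tendsto (fun j => pd k (f j) x) atTop (𝓝 (pd k φ x))

/-- smooth approximations of growth rate `a` -/
structure AOGr (a : ℝ) (u : ℕ → R3 → ℝ) (v : R3 → ℝ) : Prop where
  smooth : ∀ j, ContDiff ℝ (⊤ : ℕ∞) (u j)
  bound : ∀ η, a < η → ∃ C : ℝ, 0 ≤ C ∧ ∀ j x, |u j x| ≤ C * Real.exp (η * ‖x‖) ∧
    ‖fderiv ℝ (u j) x‖ ≤ C * Real.exp (η * ‖x‖)
  diff : ∀ x, x ≠ 0 → DifferentiableAt ℝ v x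
  tend : ∀ x, x ≠ 0 → Tendsto (fun j => u j x) atTop (𝓝 (v x))
  tendF : ∀ x, x ≠ 0 → Tendsto (fun j => fderiv ℝ (u j) x) atTop (𝓝 (fderiv ℝ v x))

theorem AOGr.differentiableAt {a : ℝ} {u : ℕ → R3 → ℝ} {v : R3 → ℝ} (h : AOGr a u v) (j : ℕ)
    (x : R3) : DifferentiableAt ℝ (u j) x := ((h.smooth j).differentiable (by simp)) x

theorem AOGr.add {a : ℝ} {u u' : ℕ → R3 → ℝ} {v v' : R3 → ℝ} (h : AOGr a u v) (h' : AOGr a u' v') :
    AOGr a (fun j x => u j x + u' j x) (fun x => v x + v' x) := by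
  refine ⟨fun j => (h.smooth j).add (h'.smooth j), fun η hη => ?_,
    fun x hx => (h.diff x hx).add (h'.diff x hx), fun x hx => (h.tend x hx).add (h'.tend x hx),
    fun x hx => ?_⟩
  · obtain ⟨C, hC, hb⟩ := h.bound η hη
    obtain ⟨C', hC', hb'⟩ := h'.bound η hη
    refine ⟨C + C', add_nonneg hC hC', fun j x => ⟨?_, ?_⟩⟩
    · rw [add_mul]
      exact (abs_add_le _ _).trans (add_le_add (hb j x).1 (hb' j x).1)
    · rw [fderiv_fun_add (h.differentiableAt j x) (h'.differentiableAt j x), add_mul]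
      exact (norm_add_le _ _).trans (add_le_add (hb j x).2 (hb' j x).2)
  · rw [fderiv_fun_add (h.diff x hx) (h'.diff x hx)]
    have e : (fun j => fderiv ℝ (fun x => u j x + u' j x) x) =
        fun j => fderiv ℝ (u j) x + fderiv ℝ (u' j) x := by
      funext j
      exact fderiv_fun_add (h.differentiableAt j x) (h'.differentiableAt j x)
    rw [e]
    exact (h.tendF x hx).add (h'.tendF x hx)

theorem AOGr.mul {a b : ℝ} {u u' : ℕ → R3 → ℝ} {v v' : R3 → ℝ} (h : AOGr a u v) (h' : AOGr b u' v') :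
    AOGr (a + b) (fun j x => u j x * u' j x) (fun x => v x * v' x) := by
  refine ⟨fun j => (h.smooth j).mul (h'.smooth j), fun η hη => ?_,
    fun x hx => (h.diff x hx).mul (h'.diff x hx), fun x hx => (h.tend x hx).mul (h'.tend x hx),
    fun x hx => ?_⟩
  · obtain ⟨C, hC, hb⟩ := h.bound (a + (η - a - b) / 2) (by linarith only [hη])
    obtain ⟨C', hC', hb'⟩ := h'.bound (b + (η - a - b) / 2) (by linarith only [hη])
    have hE : ∀ x : R3, C * Real.exp ((a + (η - a - b) / 2) * ‖x‖) *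
        (C' * Real.exp ((b + (η - a - b) / 2) * ‖x‖)) = C * C' * Real.exp (η * ‖x‖) := by
      intro x
      have : η * ‖x‖ = (a + (η - a - b) / 2) * ‖x‖ + (b + (η - a - b) / 2) * ‖x‖ := by ring
      rw [this, Real.exp_add]
      ring
    refine ⟨C * C' + C * C', by (clear * - hC hC'; (clear * - hC hC'; positivity)), fun j x => ⟨?_, ?_⟩⟩
    · rw [abs_mul]
      refine (mul_le_mul (hb j x).1 (hb' j x).1 (abs_nonneg _) (by (clear * - hC; positivity))).trans ?_
      rw [hE, add_mul]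
      exact le_add_of_nonneg_left (by (clear * - hC hC'; positivity))
    · rw [fderiv_fun_mul (h.differentiableAt j x) (h'.differentiableAt j x), add_mul]
      refine (norm_add_le _ _).trans (add_le_add ?_ ?_)
      · rw [norm_smul, Real.norm_eq_abs, ← hE]
        exact mul_le_mul (hb j x).1 (hb' j x).2 (norm_nonneg _) (by (clear * - hC; positivity))
      · rw [norm_smul, Real.norm_eq_abs, ← hE, mul_comm]
        exact mul_le_mul (hb j x).2 (hb' j x).1 (abs_nonneg _) (by (clear * - hC; positivity))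
  · rw [fderiv_fun_mul (h.diff x hx) (h'.diff x hx)]
    have e : (fun j => fderiv ℝ (fun x => u j x * u' j x) x) =
        fun j => u j x • fderiv ℝ (u' j) x + u' j x • fderiv ℝ (u j) x := by
      funext j
      exact fderiv_fun_mul (h.differentiableAt j x) (h'.differentiableAt j x)
    rw [e]
    exact ((h.tend x hx).smul (h'.tendF x hx)).add ((h'.tend x hx).smul (h.tendF x hx))

theorem AOGr.of_fixed {a : ℝ} {w : R3 → ℝ} (hs : ContDiff ℝ (⊤ : ℕ∞) w)
    (hb : ∀ η, a < η → ∃ C : ℝ, 0 ≤ C ∧ ∀ x, |w x| ≤ C * Real.exp (η * ‖x‖) ∧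
      ‖fderiv ℝ w x‖ ≤ C * Real.exp (η * ‖x‖)) : AOGr a (fun _ => w) w := by
  refine ⟨fun _ => hs, fun η hη => ?_, fun x _ => (hs.differentiable (by simp)) x,
    fun x _ => tendsto_const_nhds, fun x _ => tendsto_const_nhds⟩
  obtain ⟨C, hC, h⟩ := hb η hη
  exact ⟨C, hC, fun _ => h⟩

theorem AOGr.const (c : ℝ) : AOGr 0 (fun _ _ => c) (fun _ => c) := by
  refine AOGr.of_fixed contDiff_const fun η hη => ⟨|c|, abs_nonneg _, fun x => ⟨?_, ?_⟩⟩
  · exact le_mul_of_one_le_right (abs_nonneg _) (Real.one_le_exp (by (clear * - hη; positivity)))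
  · rw [fderiv_const_apply, norm_zero]
    positivity

theorem AOGr.coord (i : Fin 3) : AOGr 0 (fun _ x => x i) (fun x => x i) := by
  refine AOGr.of_fixed (EuclideanSpace.proj (𝕜 := ℝ) i).contDiff fun η hη =>
    ⟨η⁻¹ + 1, by (clear * - hη; positivity), fun x => ⟨?_, ?_⟩⟩
  · have h1 : |x i| ≤ ‖x‖ := by
      rw [← Real.norm_eq_abs]
      exact PiLp.norm_apply_le x i
    refine (h1.trans (le_exp_div hη (norm_nonneg x))).trans ?_
    rw [add_mul]
    exact le_add_of_nonneg_right (by positivity)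
  · have h2 : fderiv ℝ (fun x : R3 => x i) x = EuclideanSpace.proj (𝕜 := ℝ) i :=
      (EuclideanSpace.proj (𝕜 := ℝ) i).hasFDerivAt.fderiv
    rw [h2]
    have h3 : ‖(EuclideanSpace.proj (𝕜 := ℝ) i : R3 →L[ℝ] ℝ)‖ ≤ 1 :=
      ContinuousLinearMap.opNorm_le_bound _ zero_le_one fun y => by
        rw [one_mul]
        exact PiLp.norm_apply_le y i
    refine h3.trans ?_
    have h4 : (1 : ℝ) ≤ Real.exp (η * ‖x‖) := Real.one_le_exp (by (clear * - hη; (clear * - hη; positivity)))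
    have h5 : 0 < η⁻¹ := by positivity
    linarith only [mul_nonneg_of_nonpos_of_nonpos (Mathlib.Tactic.Linarith.sub_nonpos_of_le h4) (le_of_lt (Mathlib.Tactic.Linarith.sub_neg_of_lt h5)), h5, h4]

theorem AOGr.poly (P : Poly3) : AOGr 0 (fun _ => ev P) (ev P) := by
  induction P using MvPolynomial.induction_on with
  | C a =>
    have : ev (MvPolynomial.C a) = fun _ => a := by
      funext x
      exact ev_C a x
    rw [this]
    exact AOGr.const a
  | add P Q hP hQ =>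
    have : ev (P + Q) = fun x => ev P x + ev Q x := by
      funext x
      exact ev_add P Q x
    rw [this]
    exact hP.add hQ
  | mul_X P j hP =>
    have : ev (P * MvPolynomial.X j) = fun x => ev P x * x j := by
      funext x
      rw [ev_mul, ev_X]
    rw [this]
    have h := hP.mul (AOGr.coord j)
    rwa [add_zero] at h

/-- the regularisation parameters -/
noncomputable def aoE (j : ℕ) : ℝ := 1 / ((j : ℝ) + 1)

theorem aoE_pos (j : ℕ) : 0 < aoE j := by unfold aoE; (clear * -; positivity)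

theorem aoE_le_one (j : ℕ) : aoE j ≤ 1 := by
  unfold aoE
  rw [div_le_one (by (clear * -; positivity))]
  have : (0 : ℝ) ≤ j := by positivity
  linarith only []

theorem tendsto_aoE : Tendsto aoE atTop (𝓝 0) := tendsto_one_div_add_atTop_nhds_zero_nat

theorem ao_hasFDerivAt_norm {x : R3} (hx : x ≠ 0) :
    HasFDerivAt (fun y : R3 => ‖y‖) ((1 / ‖x‖) • (innerSL ℝ x)) x := by
  have h1 : HasFDerivAt (fun y : R3 => ‖y‖ ^ 2) (2 • (innerSL ℝ x)) x :=
    (hasStrictFDerivAt_norm_sq x).hasFDerivAt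
  have hx' : ‖x‖ ≠ 0 := norm_ne_zero_iff.2 hx
  have h2 := h1.sqrt (by (clear * - hx; positivity))
  have e : (fun y : R3 => Real.sqrt (‖y‖ ^ 2)) = fun y => ‖y‖ := by
    funext y
    exact Real.sqrt_sq (norm_nonneg y)
  rw [e] at h2
  refine h2.congr_fderiv ?_
  ext w
  rw [Real.sqrt_sq (norm_nonneg x)]
  simp
  field_simp

theorem ao_sreg_le {δ : ℝ} (hδ : 0 < δ) (hδ1 : δ ≤ 1) (x : R3) : sreg δ x ≤ ‖x‖ + 1 := by
  unfold sreg
  rw [Real.sqrt_le_left (by (clear * -; positivity))]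
  linarith only [mul_nonneg_of_nonpos_of_nonpos (Mathlib.Tactic.Linarith.sub_nonpos_of_le hδ1) (le_of_lt (Mathlib.Tactic.Linarith.sub_neg_of_lt hδ)), norm_nonneg x, hδ1]

theorem ao_norm_fderiv_sreg {δ : ℝ} (hδ : 0 < δ) (x : R3) : ‖fderiv ℝ (sreg δ) x‖ ≤ 1 := by
  rw [(hasFDerivAt_sreg hδ x).fderiv, norm_smul, innerSL_apply_norm, Real.norm_eq_abs,
    abs_of_pos (by have := sreg_pos hδ x; (clear * - this; positivity)), one_div, inv_mul_le_iff₀ (sreg_pos hδ x),
    mul_one]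
  exact norm_le_sreg δ x

theorem ao_tendsto_sreg (x : R3) : Tendsto (fun j => sreg (aoE j) x) atTop (𝓝 ‖x‖) := by
  unfold sreg
  have h : Tendsto (fun j => Real.sqrt (‖x‖ ^ 2 + aoE j ^ 2)) atTop
      (𝓝 (Real.sqrt (‖x‖ ^ 2 + 0 ^ 2))) :=
    (Real.continuous_sqrt.tendsto _).comp ((tendsto_aoE.pow 2).const_add _)
  convert h using 2
  rw [zero_pow two_ne_zero, add_zero, Real.sqrt_sq (norm_nonneg x)]

theorem AOGr.sreg : AOGr 0 (fun j => sreg (aoE j)) (fun x => ‖x‖) := by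
  refine ⟨fun j => contDiff_sreg (aoE_pos j), fun η hη => ?_,
    fun x hx => (ao_hasFDerivAt_norm hx).differentiableAt, fun x _ => ao_tendsto_sreg x,
    fun x hx => ?_⟩
  · refine ⟨η⁻¹ + 1, by (clear * - hη; positivity), fun j x => ?_⟩
    have h4 : (1 : ℝ) ≤ Real.exp (η * ‖x‖) := Real.one_le_exp (by (clear * - hη; positivity))
    have h5 : 0 < η⁻¹ := by positivity
    constructor
    · rw [abs_of_pos (sreg_pos (aoE_pos j) x), add_mul]
      refine (ao_sreg_le (aoE_pos j) (aoE_le_one j) x).trans (add_le_add ?_ ?_)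
      · exact le_exp_div hη (norm_nonneg x)
      · rw [one_mul]
        exact h4
    · refine (ao_norm_fderiv_sreg (aoE_pos j) x).trans ?_
      linarith only [mul_nonneg_of_nonpos_of_nonpos (Mathlib.Tactic.Linarith.sub_nonpos_of_le h4) (le_of_lt (Mathlib.Tactic.Linarith.sub_neg_of_lt h5)), h5, h4]
  · rw [(ao_hasFDerivAt_norm hx).fderiv]
    have e : (fun j => fderiv ℝ (Vale.Agent.P370.sreg (aoE j)) x) =
        fun j => (1 / Vale.Agent.P370.sreg (aoE j) x) • (innerSL ℝ x) := by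
      funext j
      exact (hasFDerivAt_sreg (aoE_pos j) x).fderiv
    rw [e]
    exact ((tendsto_const_nhds).div (ao_tendsto_sreg x) (norm_ne_zero_iff.2 hx)).smul_const _

theorem AOGr.exp {κ : ℝ} (hκ : 0 < κ) : AOGr (-κ)
    (fun j x => Real.exp (-κ * Vale.Agent.P370.sreg (aoE j) x))
    (fun x => Real.exp (-κ * ‖x‖)) := by
  have hd : ∀ j x, HasFDerivAt (fun x => Real.exp (-κ * Vale.Agent.P370.sreg (aoE j) x))
      (Real.exp (-κ * Vale.Agent.P370.sreg (aoE j) x) •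
        (-κ • fderiv ℝ (Vale.Agent.P370.sreg (aoE j)) x)) x := by
    intro j x
    exact (((contDiff_sreg (aoE_pos j) (n := 1)).differentiable (by simp) x).hasFDerivAt.const_mul
      (-κ)).exp
  have hd' : ∀ x : R3, x ≠ 0 → HasFDerivAt (fun x : R3 => Real.exp (-κ * ‖x‖))
      (Real.exp (-κ * ‖x‖) • (-κ • fderiv ℝ (fun y : R3 => ‖y‖) x)) x := by
    intro x hx
    exact ((ao_hasFDerivAt_norm hx).differentiableAt.hasFDerivAt.const_mul (-κ)).exp
  have ht : ∀ x : R3, Tendsto (fun j => Real.exp (-κ * Vale.Agent.P370.sreg (aoE j) x)) atTop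
      (𝓝 (Real.exp (-κ * ‖x‖))) := fun x =>
    (Real.continuous_exp.tendsto _).comp ((ao_tendsto_sreg x).const_mul (-κ))
  refine ⟨fun j => ((contDiff_const.mul (contDiff_sreg (aoE_pos j))).exp), fun η hη => ?_,
    fun x hx => (hd' x hx).differentiableAt, fun x _ => ht x, fun x hx => ?_⟩
  · refine ⟨1 + κ, by (clear * - hκ; positivity), fun j x => ?_⟩
    have h1 : Real.exp (-κ * Vale.Agent.P370.sreg (aoE j) x) ≤ Real.exp (η * ‖x‖) := by
      apply Real.exp_le_exp.2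
      have h2 := norm_le_sreg (aoE j) x
      have h3 := norm_nonneg x
      linarith only [mul_nonneg_of_nonpos_of_nonpos (le_of_lt (Mathlib.Tactic.Linarith.sub_neg_of_lt hη)) (Mathlib.Tactic.Linarith.sub_nonpos_of_le h3), mul_nonneg_of_nonpos_of_nonpos (le_of_lt (Mathlib.Tactic.Linarith.sub_neg_of_lt hκ)) (Mathlib.Tactic.Linarith.sub_nonpos_of_le h2)]
    have h0 := Real.exp_pos (η * ‖x‖)
    constructor
    · rw [abs_of_pos (Real.exp_pos _)]
      nlinarith only [h1, hκ, h0]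
    · rw [(hd j x).fderiv, norm_smul, norm_smul, Real.norm_eq_abs, abs_of_pos (Real.exp_pos _),
        Real.norm_eq_abs, abs_neg, abs_of_pos hκ]
      have h2 := ao_norm_fderiv_sreg (aoE_pos j) x
      have h3 : κ * ‖fderiv ℝ (Vale.Agent.P370.sreg (aoE j)) x‖ ≤ 1 + κ := by nlinarith only [hκ, h2]
      calc _ ≤ Real.exp (η * ‖x‖) * (1 + κ) :=
            mul_le_mul h1 h3 (by (clear * - hκ; positivity)) (by positivity)
        _ = _ := mul_comm _ _
  · rw [(hd' x hx).fderiv]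
    have e : (fun j => fderiv ℝ (fun x => Real.exp (-κ * Vale.Agent.P370.sreg (aoE j) x)) x) =
        fun j => Real.exp (-κ * Vale.Agent.P370.sreg (aoE j) x) •
        (-κ • fderiv ℝ (Vale.Agent.P370.sreg (aoE j)) x) := by
      funext j
      exact (hd j x).fderiv
    rw [e]
    exact (ht x).smul ((AOGr.sreg.tendF x hx).const_smul (-κ))

/-- the standard cutoff -/
noncomputable def aoBump : ContDiffBump (0 : R3) := ⟨1, 2, by norm_num, by norm_num⟩

theorem exists_aoBump_bound : ∃ C : ℝ, 0 ≤ C ∧ ∀ x, ‖fderiv ℝ aoBump x‖ ≤ C := by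
  have h1 : ContDiff ℝ (⊤ : ℕ∞) aoBump := aoBump.contDiff
  obtain ⟨C, hC⟩ := (aoBump.hasCompactSupport.fderiv (𝕜 := ℝ)).exists_bound_of_continuous
    (h1.continuous_fderiv (by simp))
  exact ⟨C, (norm_nonneg _).trans (hC 0), hC⟩

theorem AOGr.cut : AOGr 0 (fun j x => aoBump (aoE j • x)) (fun _ => 1) := by
  obtain ⟨C, hC, hb⟩ := exists_aoBump_bound
  have h1 : ContDiff ℝ (⊤ : ℕ∞) aoBump := aoBump.contDiff
  have hd : ∀ j x, HasFDerivAt (fun x => aoBump (aoE j • x))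
      (aoE j • fderiv ℝ aoBump (aoE j • x)) x := by
    intro j x
    have h2 : HasFDerivAt (fun x : R3 => aoE j • x) (aoE j • ContinuousLinearMap.id ℝ R3) x :=
      (hasFDerivAt_id x).const_smul (aoE j)
    have h3 := ((h1.differentiable (by simp only [ne_eq, WithTop.coe_eq_zero, ENat.top_ne_zero, not_false_eq_true])) (aoE j • x)).hasFDerivAt.comp x h2
    refine h3.congr_fderiv ?_
    ext w
    simp only [ContinuousLinearMap.comp_smulₛₗ, Real.ringHom_apply, ContinuousLinearMap.comp_id, smul_apply, smul_eq_mul]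
  have hn : ∀ j x, ‖fderiv ℝ (fun x => aoBump (aoE j • x)) x‖ ≤ aoE j * C := by
    intro j x
    rw [(hd j x).fderiv, norm_smul, Real.norm_eq_abs, abs_of_pos (aoE_pos j)]
    exact mul_le_mul_of_nonneg_left (hb _) (aoE_pos j).le
  refine ⟨fun j => h1.comp (contDiff_const_smul _), fun η hη => ?_,
    fun x _ => differentiableAt_const _, fun x _ => ?_, fun x _ => ?_⟩
  · refine ⟨1 + C, by positivity, fun j x => ?_⟩
    have h4 : (1 : ℝ) ≤ Real.exp (η * ‖x‖) := Real.one_le_exp (by (clear * - hη; (clear * - hη; positivity)))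
    constructor
    · rw [abs_of_nonneg aoBump.nonneg]
      have := aoBump.le_one (x := aoE j • x)
      linarith only [mul_nonneg_of_nonpos_of_nonpos (Mathlib.Tactic.Linarith.sub_nonpos_of_le hC) (Mathlib.Tactic.Linarith.sub_nonpos_of_le h4), this, h4, hC]
    · have h5 := hn j x
      have h6 := aoE_le_one j
      nlinarith only [h4, h5, hC, h6]
  · have h2 : Tendsto (fun j => aoE j • x) atTop (𝓝 0) := by
      have := tendsto_aoE.smul_const x
      rwa [zero_smul] at this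
    have h3 := (aoBump.contDiff (n := 0)).continuous.tendsto (0 : R3)
    have h4 := h3.comp h2
    have h5 : aoBump (0 : R3) = 1 := aoBump.one_of_mem_closedBall (by simp only [aoBump, Metric.mem_closedBall, dist_self, zero_le_one])
    rw [h5] at h4
    exact h4
  · rw [fderiv_const_apply]
    refine squeeze_zero_norm (fun j => hn j x) ?_
    have := tendsto_aoE.mul_const C
    rwa [zero_mul] at this

theorem exists_approxSeq_xp {κ : ℝ} (hκ : 0 < κ) (P Q : Poly3) : ∃ f, ApproxSeq (xp κ P Q) f := by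
  have h1 : AOGr 0 (fun j x => Vale.Agent.P370.sreg (aoE j) x * ev Q x) (fun x => ‖x‖ * ev Q x) := by
    have := AOGr.sreg.mul (AOGr.poly Q)
    rwa [add_zero] at this
  have h2 := ((AOGr.poly P).add h1).mul (AOGr.exp hκ)
  have h3 := AOGr.cut.mul h2
  rw [zero_add, zero_add] at h3
  have e : (fun x : R3 => (fun _ : R3 => (1 : ℝ)) x *
      ((ev P x + ‖x‖ * ev Q x) * Real.exp (-κ * ‖x‖))) = xp κ P Q := by
    funext x
    rw [one_mul]
    rfl
  rw [e] at h3
  refine ⟨_, h3.smooth, fun j => ?_, ?_, h3.tend, fun x hx k => ?_⟩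
  · have h4 : HasCompactSupport fun x => aoBump (aoE j • x) :=
      aoBump.hasCompactSupport.comp_smul (aoE_pos j).ne'
    exact h4.mul_right
  · obtain ⟨C, hC, hb⟩ := h3.bound (-(κ / 2)) (by linarith only [hκ])
    refine ⟨C, κ / 2, by (clear * - hκ; positivity), fun j x => ?_⟩
    rw [show -(κ / 2 * ‖x‖) = -(κ / 2) * ‖x‖ by ring]
    exact hb j x
  · have h4 := h3.tendF x hx
    exact ((ContinuousLinearMap.apply ℝ ℝ
      (EuclideanSpace.single k (1 : ℝ) : R3)).continuous.tendsto _).comp h4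

theorem exists_approxSeq {k : ℕ} (hk : 1 ≤ k) {φ : R3 → ℝ} (hφ : IsShell k φ) :
    ∃ f, ApproxSeq φ f := by
  obtain ⟨z, -, rfl⟩ := (isShell_iff hk).1 hφ
  exact exists_approxSeq_xp (inv_pos' hk) _ _

/-! ### convergence of the integrals -/

variable {φ ψ φ' ψ' : R3 → ℝ} {f g f' g' : ℕ → R3 → ℝ}

theorem ao_ne_zero : ∀ᵐ x : R3, x ≠ 0 := by
  rw [ae_iff]
  simp

theorem ao_int_exp {c : ℝ} (hc : 0 < c) :
    Integrable (fun x : R3 => Real.exp (-(c * ‖x‖))) := by
  simpa only [neg_mul] using integrable_exp hc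

theorem ao_int_exp_div {c : ℝ} (hc : 0 < c) :
    Integrable (fun x : R3 => Real.exp (-(c * ‖x‖)) / ‖x‖) := by
  simpa only [neg_mul] using integrable_exp_div hc

/-- potential of an exponentially decaying density, uniformly in the point -/
theorem ao_exp_pot {c : ℝ} (hc : 0 < c) : ∃ B : ℝ, 0 ≤ B ∧ ∀ y : R3,
    Integrable (fun x : R3 => Real.exp (-(c * ‖x‖)) / dist x y) ∧
      ∫ x : R3, Real.exp (-(c * ‖x‖)) / dist x y ≤ B := by
  have h1 := ao_int_exp hc
  have h2 := ao_int_exp_div one_pos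
  have h3 : ∀ y : R3, Integrable (fun x : R3 => Real.exp (-(1 * ‖x - y‖)) / ‖x - y‖) := fun y =>
    h2.comp_sub_right y
  have h4 : ∀ y : R3, ∫ x : R3, Real.exp (-(1 * ‖x - y‖)) / ‖x - y‖ =
      ∫ x : R3, Real.exp (-(1 * ‖x‖)) / ‖x‖ := fun y =>
    integral_sub_right_eq_self (fun x : R3 => Real.exp (-(1 * ‖x‖)) / ‖x‖) y
  have h5 : ∀ x y : R3, Real.exp (-(c * ‖x‖)) / dist x y ≤
      Real.exp (-(c * ‖x‖)) + Real.exp 1 * (Real.exp (-(1 * ‖x - y‖)) / ‖x - y‖) := by
    intro x y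
    rw [dist_eq_norm]
    have e0 := Real.exp_pos (-(c * ‖x‖))
    have e1 : Real.exp (-(c * ‖x‖)) ≤ 1 := Real.exp_le_one_iff.2 (by
      have := norm_nonneg x
      linarith only [mul_nonneg_of_nonpos_of_nonpos (le_of_lt (Mathlib.Tactic.Linarith.sub_neg_of_lt hc)) (Mathlib.Tactic.Linarith.sub_nonpos_of_le this)])
    rcases le_or_gt 1 ‖x - y‖ with h | h
    · have : Real.exp (-(c * ‖x‖)) / ‖x - y‖ ≤ Real.exp (-(c * ‖x‖)) := div_le_self e0.le h
      have : 0 ≤ Real.exp 1 * (Real.exp (-(1 * ‖x - y‖)) / ‖x - y‖) := by (clear * - h; positivity)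
      linarith
    · have e2 : 1 ≤ Real.exp 1 * Real.exp (-(1 * ‖x - y‖)) := by
        rw [← Real.exp_add]
        exact Real.one_le_exp (by linarith only [h])
      have e3 : Real.exp (-(c * ‖x‖)) / ‖x - y‖ ≤
          Real.exp 1 * (Real.exp (-(1 * ‖x - y‖)) / ‖x - y‖) := by
        rw [← mul_div_assoc]
        exact div_le_div_of_nonneg_right (e1.trans e2) (norm_nonneg _)
      linarith only [e0, e3]
  have h6 : ∀ y : R3, Integrable (fun x : R3 => Real.exp (-(c * ‖x‖)) / dist x y) := by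
    intro y
    refine (h1.add ((h3 y).const_mul (Real.exp 1))).mono' ?_ (Eventually.of_forall fun x => ?_)
    · refine Measurable.aestronglyMeasurable ?_
      exact (Continuous.measurable (by fun_prop)).div (Continuous.measurable (by fun_prop))
    · rw [Real.norm_eq_abs, abs_of_nonneg (by (clear * -; positivity))]
      exact h5 x y
  refine ⟨(∫ x : R3, Real.exp (-(c * ‖x‖))) +
    Real.exp 1 * ∫ x : R3, Real.exp (-(1 * ‖x‖)) / ‖x‖, ?_, fun y => ⟨h6 y, ?_⟩⟩
  · refine add_nonneg (integral_nonneg fun x => by positivity)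
      (mul_nonneg (by positivity) (integral_nonneg fun x => by (clear * -; (clear * -; positivity))))
  · have h7 := integral_mono (h6 y) (h1.add ((h3 y).const_mul (Real.exp 1))) (h5 · y)
    refine h7.trans (le_of_eq ?_)
    rw [← h4 y, ← integral_const_mul, ← integral_add h1 ((h3 y).const_mul _)]
    rfl

theorem ApproxSeq.measurable (hf : ApproxSeq φ f) (j : ℕ) : Measurable (f j) :=
  (hf.smooth j).continuous.measurable

theorem ApproxSeq.measurable_pd (hf : ApproxSeq φ f) (j : ℕ) (k : Fin 3) :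
    Measurable (pd k (f j)) :=
  (((hf.smooth j).continuous_fderiv (by simp)).clm_apply continuous_const).measurable

theorem ao_abs_pd_le (k : Fin 3) (u : R3 → ℝ) (x : R3) : |pd k u x| ≤ ‖fderiv ℝ u x‖ := by
  have h1 := (fderiv ℝ u x).le_opNorm (ei k)
  rwa [norm_ei, mul_one] at h1

theorem ApproxSeq.prod_bound (hf : ApproxSeq φ f) (hg : ApproxSeq ψ g) :
    ∃ C c : ℝ, 0 ≤ C ∧ 0 < c ∧ ∀ j x, |f j x * g j x| ≤ C * Real.exp (-(c * ‖x‖)) ∧
      ∀ k, |pd k (f j) x * pd k (g j) x| ≤ C * Real.exp (-(c * ‖x‖)) := by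
  obtain ⟨C, c, hc, h⟩ := hf.bound
  obtain ⟨C', c', hc', h'⟩ := hg.bound
  have hE : ∀ x : R3, C * Real.exp (-(c * ‖x‖)) * (C' * Real.exp (-(c' * ‖x‖))) =
      C * C' * Real.exp (-((c + c') * ‖x‖)) := by
    intro x
    have : -((c + c') * ‖x‖) = -(c * ‖x‖) + -(c' * ‖x‖) := by ring
    rw [this, Real.exp_add]
    ring
  have hC : 0 ≤ C := by
    have := (abs_nonneg _).trans (h 0 0).1
    rw [norm_zero, mul_zero, neg_zero, Real.exp_zero, mul_one] at this
    exact this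
  have hC' : 0 ≤ C' := by
    have := (abs_nonneg _).trans (h' 0 0).1
    rw [norm_zero, mul_zero, neg_zero, Real.exp_zero, mul_one] at this
    exact this
  refine ⟨C * C', c + c', mul_nonneg hC hC', by (clear * - hc hc'; positivity), fun j x => ⟨?_, fun k => ?_⟩⟩
  · rw [abs_mul, ← hE]
    exact mul_le_mul (h j x).1 (h' j x).1 (abs_nonneg _) (by (clear * - hC; positivity))
  · rw [abs_mul, ← hE]
    exact mul_le_mul ((ao_abs_pd_le k _ x).trans (h j x).2) ((ao_abs_pd_le k _ x).trans (h' j x).2)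
      (abs_nonneg _) (by (clear * - hC; positivity))

theorem ApproxSeq.tendsto_ov (hf : ApproxSeq φ f) (hg : ApproxSeq ψ g) :
    Tendsto (fun j => ov (f j) (g j)) atTop (𝓝 (ov φ ψ)) := by
  obtain ⟨C, c, hC, hc, h⟩ := hf.prod_bound hg
  unfold ov
  refine tendsto_integral_of_dominated_convergence (fun x => C * Real.exp (-(c * ‖x‖)))
    (fun j => ((hf.measurable j).mul (hg.measurable j)).aestronglyMeasurable)
    ((ao_int_exp hc).const_mul C) (fun j => Eventually.of_forall fun x => (h j x).1) ?_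
  filter_upwards [ao_ne_zero] with x hx
  exact (hf.tend x hx).mul (hg.tend x hx)

theorem ApproxSeq.tendsto_dir (hf : ApproxSeq φ f) (hg : ApproxSeq ψ g) :
    Tendsto (fun j => dir (f j) (g j)) atTop (𝓝 (dir φ ψ)) := by
  obtain ⟨C, c, hC, hc, h⟩ := hf.prod_bound hg
  unfold dir
  refine tendsto_integral_of_dominated_convergence (fun x => 3 * (C * Real.exp (-(c * ‖x‖))))
    (fun j => ?_) (((ao_int_exp hc).const_mul C).const_mul 3)
    (fun j => Eventually.of_forall fun x => ?_) ?_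
  · exact (Finset.measurable_sum _ fun k _ =>
      (hf.measurable_pd j k).mul (hg.measurable_pd j k)).aestronglyMeasurable
  · refine (norm_sum_le _ _).trans ((Finset.sum_le_sum fun k _ => (h j x).2 k).trans ?_)
    rw [Finset.sum_const, Finset.card_univ, Fintype.card_fin, nsmul_eq_mul]
    (clear * -; norm_num)
  · filter_upwards [ao_ne_zero] with x hx
    exact tendsto_finsetSum _ fun k _ => (hf.tend_pd x hx k).mul (hg.tend_pd x hx k)

theorem ApproxSeq.tendsto_nuc (hf : ApproxSeq φ f) (hg : ApproxSeq ψ g) (y : R3) :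
    Tendsto (fun j => nuc y (f j) (g j)) atTop (𝓝 (nuc y φ ψ)) := by
  obtain ⟨C, c, hC, hc, h⟩ := hf.prod_bound hg
  obtain ⟨B, hB, hi⟩ := ao_exp_pot hc
  unfold nuc
  refine tendsto_integral_of_dominated_convergence
    (fun x => C * (Real.exp (-(c * ‖x‖)) / dist x y)) (fun j => ?_) ((hi y).1.const_mul C)
    (fun j => Eventually.of_forall fun x => ?_) ?_
  · exact (((hf.measurable j).mul (hg.measurable j)).div
      (Continuous.measurable (by fun_prop))).aestronglyMeasurable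
  · rw [norm_div, Real.norm_eq_abs, Real.norm_eq_abs, abs_of_nonneg (dist_nonneg (x := x)),
      ← mul_div_assoc]
    exact div_le_div_of_nonneg_right (h j x).1 dist_nonneg
  · filter_upwards [ao_ne_zero] with x hx
    exact ((hf.tend x hx).mul (hg.tend x hx)).div_const _

theorem ApproxSeq.tendsto_rinv (hf : ApproxSeq φ f) (hg : ApproxSeq ψ g) :
    Tendsto (fun j => rinv (f j) (g j)) atTop (𝓝 (rinv φ ψ)) := by
  have h := hf.tendsto_nuc hg 0
  unfold nuc at h
  simp only [dist_zero_right] at h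
  exact h

theorem ApproxSeq.tendsto_gm (hf : ApproxSeq φ f) (hg : ApproxSeq ψ g) (y : R3) :
    Tendsto (fun j => gm y (f j) (g j)) atTop (𝓝 (gm y φ ψ)) := by
  obtain ⟨C, c, hC, hc, h⟩ := hf.prod_bound hg
  obtain ⟨B, hB, hi⟩ := ao_exp_pot hc
  unfold gm
  refine tendsto_integral_of_dominated_convergence
    (fun x => C * (Real.exp (-(c * ‖x‖)) / ‖x‖ + Real.exp (-(c * ‖x‖)) / dist x y))
    (fun j => ?_) (((ao_int_exp_div hc).add (hi y).1).const_mul C)
    (fun j => Eventually.of_forall fun x => ?_) ?_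
  · refine (((hf.measurable j).mul (hg.measurable j)).mul ?_).aestronglyMeasurable
    exact (measurable_const.div (Continuous.measurable (by (clear * -; fun_prop)))).sub
      (measurable_const.div (Continuous.measurable (by fun_prop)))
  · rw [norm_mul, Real.norm_eq_abs]
    have h1 : ‖1 / ‖x‖ - 1 / dist x y‖ ≤ 1 / ‖x‖ + 1 / dist x y := by
      refine (norm_sub_le _ _).trans (le_of_eq ?_)
      rw [Real.norm_eq_abs, Real.norm_eq_abs, abs_of_nonneg (by (clear * -; (clear * -; positivity))),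
        abs_of_nonneg (by (clear * -; positivity))]
    calc |f j x * g j x| * ‖1 / ‖x‖ - 1 / dist x y‖
        ≤ (C * Real.exp (-(c * ‖x‖))) * (1 / ‖x‖ + 1 / dist x y) :=
          mul_le_mul (h j x).1 h1 (norm_nonneg _) (by (clear * - hC; positivity))
      _ = _ := by ring
  · filter_upwards [ao_ne_zero] with x hx
    exact ((hf.tend x hx).mul (hg.tend x hx)).mul_const _

theorem ApproxSeq.nuc_bound (hf : ApproxSeq φ f) (hg : ApproxSeq ψ g) :
    ∃ B : ℝ, 0 ≤ B ∧ ∀ j y, |nuc y (f j) (g j)| ≤ B := by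
  obtain ⟨C, c, hC, hc, h⟩ := hf.prod_bound hg
  obtain ⟨B, hB, hi⟩ := ao_exp_pot hc
  refine ⟨C * B, mul_nonneg hC hB, fun j y => ?_⟩
  unfold nuc
  rw [← Real.norm_eq_abs]
  refine (norm_integral_le_of_norm_le ((hi y).1.const_mul C)
    (Eventually.of_forall fun x => ?_)).trans ?_
  · rw [norm_div, Real.norm_eq_abs, Real.norm_eq_abs, abs_of_nonneg (dist_nonneg (x := x)),
      ← mul_div_assoc]
    exact div_le_div_of_nonneg_right (h j x).1 dist_nonneg
  · rw [integral_const_mul]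
    exact mul_le_mul_of_nonneg_left (hi y).2 hC

theorem ApproxSeq.measurable_nuc (hf : ApproxSeq φ f) (hg : ApproxSeq ψ g) (j : ℕ) :
    StronglyMeasurable fun y => nuc y (f j) (g j) := by
  unfold nuc
  have h : StronglyMeasurable (Function.uncurry fun (y x : R3) => f j x * g j x / dist x y) := by
    refine Measurable.stronglyMeasurable ?_
    exact (((hf.measurable j).comp measurable_snd).mul
      ((hg.measurable j).comp measurable_snd)).div (Continuous.measurable (by (clear * -; fun_prop)))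
  exact h.integral_prod_right

theorem ApproxSeq.tendsto_coul (hf : ApproxSeq φ f) (hg : ApproxSeq ψ g)
    (hf' : ApproxSeq φ' f') (hg' : ApproxSeq ψ' g') :
    Tendsto (fun j => coul (f j) (g j) (f' j) (g' j)) atTop (𝓝 (coul φ ψ φ' ψ')) := by
  obtain ⟨B, hB, hb⟩ := hf.nuc_bound hg
  obtain ⟨C, c, hC, hc, h⟩ := hf'.prod_bound hg'
  unfold coul
  refine tendsto_integral_of_dominated_convergence
    (fun y => B * (C * Real.exp (-(c * ‖y‖)))) (fun j => ?_)
    (((ao_int_exp hc).const_mul C).const_mul B)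
    (fun j => Eventually.of_forall fun y => ?_) ?_
  · exact (hf.measurable_nuc hg j).aestronglyMeasurable.mul
      ((hf'.measurable j).mul (hg'.measurable j)).aestronglyMeasurable
  · rw [norm_mul]
    exact mul_le_mul (hb j y) (h j y).1 (norm_nonneg _) hB
  · filter_upwards [ao_ne_zero] with y hy
    exact (hf.tendsto_nuc hg y).mul ((hf'.tend y hy).mul (hg'.tend y hy))

end Vale.Agent.P370.Q
end
end

section

section

/-!
Energy of the trial wave functions.
-/

namespace Vale.Agent.P370.NB.U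

open MeasureTheory Function ComplexConjugate Finset Vale.Agent.P370.Q

/-! ### one-body and two-body integrals of test orbitals -/

theorem cc_bound {f h : R3 → ℝ} (hf : Continuous f) (hfc : HasCompactSupport f)
    (hh : Continuous h) : ∃ C : ℝ, 0 ≤ C ∧ ∀ x, |f x * h x| ≤ C * Real.exp (-(1 * ‖x‖)) := by
  have hc : Continuous (fun x : R3 => Real.exp (‖x‖) * (f x * h x)) := by (clear * - hf hh; fun_prop)
  have hs : HasCompactSupport (fun x : R3 => Real.exp (‖x‖) * (f x * h x)) :=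
    (hfc.mul_right (f' := h)).mul_left
  obtain ⟨C, hC⟩ := hs.exists_bound_of_continuous hc
  refine ⟨C, (norm_nonneg _).trans (hC 0), fun x => ?_⟩
  have h1 := hC x
  rw [Real.norm_eq_abs, abs_mul, abs_of_pos (Real.exp_pos _)] at h1
  have h2 : Real.exp (-(1 * ‖x‖)) * Real.exp ‖x‖ = 1 := by
    rw [← Real.exp_add]
    simp
  calc |f x * h x| = Real.exp (-(1 * ‖x‖)) * (Real.exp ‖x‖ * |f x * h x|) := by
        rw [← mul_assoc, h2, one_mul]
    _ ≤ Real.exp (-(1 * ‖x‖)) * C := mul_le_mul_of_nonneg_left h1 (Real.exp_pos _).le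
    _ = _ := mul_comm _ _

theorem cc_int {f h : R3 → ℝ} (hf : Continuous f) (hfc : HasCompactSupport f)
    (hh : Continuous h) : Integrable (fun x => f x * h x) := by
  obtain ⟨C, _, hC⟩ := cc_bound hf hfc hh
  exact ((ao_int_exp one_pos).const_mul C).mono' (hf.mul hh).aestronglyMeasurable
    (Filter.Eventually.of_forall hC)

theorem cc_pot {f h : R3 → ℝ} (hf : Continuous f) (hfc : HasCompactSupport f)
    (hh : Continuous h) : ∃ B : ℝ, 0 ≤ B ∧ ∀ y : R3,
      Integrable (fun x => f x * h x * (1 / dist x y)) ∧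
      ∫ x, |f x * h x| * (1 / dist x y) ≤ B := by
  obtain ⟨C, hC0, hC⟩ := cc_bound hf hfc hh
  obtain ⟨B, hB0, hB⟩ := ao_exp_pot one_pos
  have hb : ∀ x y : R3, |f x * h x| * (1 / dist x y) ≤
      C * (Real.exp (-(1 * ‖x‖)) / dist x y) := by
    intro x y
    calc |f x * h x| * (1 / dist x y) ≤ (C * Real.exp (-(1 * ‖x‖))) * (1 / dist x y) :=
          mul_le_mul_of_nonneg_right (hC x) (by (clear * -; positivity))
      _ = _ := by ring
  have hm : ∀ y : R3, AEStronglyMeasurable (fun x => f x * h x * (1 / dist x y)) volume := by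
    intro y
    refine Measurable.aestronglyMeasurable ?_
    exact (hf.mul hh).measurable.mul (measurable_const.div (by fun_prop))
  have hi : ∀ y : R3, Integrable (fun x => f x * h x * (1 / dist x y)) := by
    intro y
    refine ((hB y).1.const_mul C).mono' (hm y) (Filter.Eventually.of_forall fun x => ?_)
    rw [Real.norm_eq_abs, abs_mul, abs_of_nonneg (show 0 ≤ 1 / dist x y by (clear * -; positivity))]
    exact hb x y
  refine ⟨C * B, mul_nonneg hC0 hB0, fun y => ⟨hi y, ?_⟩⟩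
  have hi' : Integrable (fun x => |f x * h x| * (1 / dist x y)) := by
    refine (hi y).norm.congr (Filter.Eventually.of_forall fun x => ?_)
    simp only [Real.norm_eq_abs]
    rw [abs_mul, abs_of_nonneg (show 0 ≤ 1 / dist x y by (clear * -; positivity))]
  calc ∫ x, |f x * h x| * (1 / dist x y) ≤ ∫ x, C * (Real.exp (-(1 * ‖x‖)) / dist x y) :=
        integral_mono hi' ((hB y).1.const_mul C) fun x => hb x y
    _ = C * ∫ x, Real.exp (-(1 * ‖x‖)) / dist x y := integral_const_mul _ _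
    _ ≤ C * B := mul_le_mul_of_nonneg_left (hB y).2 hC0

/-- families of test functions -/
structure TF {A : Type} (g : A → R3 → ℝ) : Prop where
  smooth : ∀ a, ContDiff ℝ (⊤ : ℕ∞) (g a)
  compact : ∀ a, HasCompactSupport (g a)

section

variable {N : ℕ} {A : Type} [Fintype A] [DecidableEq A] {g : A → R3 → ℝ}

theorem TF.cont (hg : TF g) (a : A) : Continuous (g a) := (hg.smooth a).continuous

theorem TF.cont_d (hg : TF g) (e : R3) (a : A) : Continuous (fun y => fderiv ℝ (g a) y e) :=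
  ((hg.smooth a).continuous_fderiv (by simp)).clm_apply continuous_const

theorem TF.compact_d (hg : TF g) (e : R3) (a : A) :
    HasCompactSupport (fun y => fderiv ℝ (g a) y e) :=
  ((hg.compact a).fderiv (𝕜 := ℝ)).comp_left (g := fun L : R3 →L[ℝ] ℝ => L e) rfl

theorem TF.ov_int (hg : TF g) (a b : A) : Integrable (fun x => g a x * g b x) :=
  cc_int (hg.cont a) (hg.compact a) (hg.cont b)

/-- overlaps of spin orbitals -/
theorem TF.so_ov (hg : TF g) (p q : A × Fin 2) :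
    Integrable (fun y => so g p y * so g q y) μY ∧
    ∫ y, so g p y * so g q y ∂μY = spin1 (fun a b => ov (g a) (g b)) p q := by
  have h := integral_so_so hg.cont (fun _ => 1) measurable_const p q
    (by simpa only [mul_one] using hg.ov_int p.1 q.1)
  simp only [mul_one] at h
  exact h

theorem TF.so_dd (hg : TF g) (e : R3) (p q : A × Fin 2) :
    Integrable (fun y => so (fun a y => fderiv ℝ (g a) y e) p y *
      so (fun a y => fderiv ℝ (g a) y e) q y) μY ∧
    ∫ y, so (fun a y => fderiv ℝ (g a) y e) p y * so (fun a y => fderiv ℝ (g a) y e) q y ∂μY =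
      spin1 (fun a b => ∫ x, fderiv ℝ (g a) x e * fderiv ℝ (g b) x e) p q := by
  have h := integral_so_so (hg.cont_d e) (fun _ => 1) measurable_const p q
    (by simpa only [mul_one] using cc_int (hg.cont_d e p.1) (hg.compact_d e p.1) (hg.cont_d e q.1))
  simp only [mul_one] at h
  exact h

theorem TF.pot_int (hg : TF g) (a b : A) (y : R3) :
    Integrable (fun x => g a x * g b x * (1 / dist x y)) := by
  obtain ⟨_, _, h⟩ := cc_pot (hg.cont a) (hg.compact a) (hg.cont b)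
  exact (h y).1

theorem TF.so_v (hg : TF g) (v : R3 → ℝ) (hv : Measurable v)
    (hi : ∀ a b, Integrable (fun x => g a x * g b x * v x)) (p q : A × Fin 2) :
    Integrable (fun y => so g p y * so g q y * v y.1) μY ∧
    ∫ y, so g p y * so g q y * v y.1 ∂μY = spin1 (fun a b => ∫ x, g a x * g b x * v x) p q :=
  integral_so_so hg.cont v hv p q (hi _ _)

theorem TF.measurable_nuc (hg : TF g) (a b : A) : Measurable (fun y => nuc y (g a) (g b)) := by
  unfold nuc
  have h : StronglyMeasurable (Function.uncurry fun (y x : R3) => g a x * g b x / dist x y) := by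
    refine Measurable.stronglyMeasurable ?_
    exact (((hg.cont a).measurable.comp measurable_snd).mul
      ((hg.cont b).measurable.comp measurable_snd)).div (Continuous.measurable (by fun_prop))
  exact h.integral_prod_right.measurable

theorem TF.nuc_int (hg : TF g) (a b a' b' : A) :
    Integrable (fun y => g a' y * g b' y * nuc y (g a) (g b)) := by
  obtain ⟨B, hB0, hB⟩ := cc_pot (hg.cont a) (hg.compact a) (hg.cont b)
  have hb : ∀ y, ‖nuc y (g a) (g b)‖ ≤ B := by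
    intro y
    unfold nuc
    refine (norm_integral_le_integral_norm _).trans (le_trans (le_of_eq ?_) (hB y).2)
    refine integral_congr_ae (Filter.Eventually.of_forall fun x => ?_)
    simp only [Real.norm_eq_abs]
    rw [abs_div, abs_of_nonneg (show 0 ≤ dist x y from dist_nonneg)]
    ring
  exact (hg.ov_int a' b').mul_bdd (hg.measurable_nuc a b).aestronglyMeasurable
    (Filter.Eventually.of_forall hb)

/-- two-body kernel -/
noncomputable def kk (z y : YS) : ℝ := 1 / dist z.1 y.1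

theorem kk_meas : Measurable (fun p : YS × YS => kk p.1 p.2) := by
  unfold kk
  have : Continuous (fun p : YS × YS => dist p.1.1 p.2.1) := by (clear * -; fun_prop)
  exact measurable_const.div this.measurable

omit [Fintype A] in
theorem so_abs (g : A → R3 → ℝ) (p : A × Fin 2) (y : YS) :
    |so g p y| = so (fun a x => |g a x|) p y := by
  unfold so
  split_ifs <;> simp only [abs_zero]

theorem TF.kk_int (hg : TF g) (p a q b : A × Fin 2) :
    Integrable (fun y : YS × YS => (so g p y.1 * so g a y.1) * (so g q y.2 * so g b y.2) *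
      kk y.1 y.2) (μY.prod μY) := by
  have hm : Measurable (fun y : YS × YS => (so g p y.1 * so g a y.1) *
      (so g q y.2 * so g b y.2) * kk y.1 y.2) :=
    ((((so_measurable hg.cont p).comp measurable_fst).mul
      ((so_measurable hg.cont a).comp measurable_fst)).mul
      (((so_measurable hg.cont q).comp measurable_snd).mul
      ((so_measurable hg.cont b).comp measurable_snd))).mul kk_meas
  obtain ⟨B, hB0, hB⟩ := cc_pot (hg.cont q.1) (hg.compact q.1) (hg.cont b.1)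
  have hv : ∀ y : R3, Measurable (fun x : R3 => 1 / dist x y) := fun y =>
    measurable_const.div (by fun_prop)
  have hin : ∀ z : R3, Integrable (fun y : YS => so g q y * so g b y * (1 / dist y.1 z)) μY :=
    fun z => (hg.so_v _ (hv z) (fun a b => hg.pot_int a b z) q b).1
  rw [integrable_prod_iff hm.aestronglyMeasurable]
  constructor
  · refine Filter.Eventually.of_forall fun y => ?_
    have := (hin y.1).const_mul (so g p y * so g a y)
    refine this.congr (Filter.Eventually.of_forall fun z => ?_)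
    simp only [kk]
    rw [dist_comm]
    ring
  · have hle : ∀ y : YS, ‖∫ z, ‖(so g p y * so g a y) * (so g q z * so g b z) * kk y z‖ ∂μY‖ ≤
        B * ‖so g p y * so g a y‖ := by
      intro y
      have e1 : ∀ z : YS, ‖(so g p y * so g a y) * (so g q z * so g b z) * kk y z‖ =
          ‖so g p y * so g a y‖ *
            (so (fun a x => |g a x|) q z * so (fun a x => |g a x|) b z * (1 / dist z.1 y.1)) := by
        intro z
        rw [norm_mul, norm_mul, ← so_abs, ← so_abs, ← abs_mul]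
        unfold kk
        rw [Real.norm_eq_abs (1 / dist y.1 z.1), abs_of_nonneg (by (clear * -; positivity)), dist_comm,
          Real.norm_eq_abs (so g q z * so g b z)]
        ring
      simp only [e1, integral_const_mul]
      have h2 := integral_so_so (χ := fun a x => |g a x|) (fun a => (hg.cont a).abs)
        (fun x => 1 / dist x y.1) (hv y.1) q b (by
          refine ((hB y.1).1).norm.congr (Filter.Eventually.of_forall fun x => ?_)
          simp only [Real.norm_eq_abs]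
          rw [abs_mul, abs_mul, abs_of_nonneg (show 0 ≤ 1 / dist x y.1 by (clear * -; positivity))])
      rw [h2.2]
      have h3 : 0 ≤ ∫ x, |g q.1 x| * |g b.1 x| * (1 / dist x y.1) :=
        integral_nonneg fun x => by (clear * -; positivity)
      have h4 : ∫ x, |g q.1 x| * |g b.1 x| * (1 / dist x y.1) ≤ B := by
        have := (hB y.1).2
        simpa only [abs_mul] using this
      rw [norm_mul, norm_norm, mul_comm B]
      refine mul_le_mul_of_nonneg_left ?_ (norm_nonneg _)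
      split_ifs
      · rw [Real.norm_eq_abs, abs_of_nonneg h3]
        exact h4
      · rw [norm_zero]
        exact hB0
    have h5 := ((hg.so_ov p a).1.norm.const_mul B)
    refine h5.mono' ?_ (Filter.Eventually.of_forall hle)
    exact (hm.norm.stronglyMeasurable.integral_prod_right' (ν := μY)).aestronglyMeasurable

/-- Coulomb integrals of spin orbitals -/
theorem TF.kk_eq (hg : TF g) (p a q b : A × Fin 2) :
    ∫ y, (∫ z, so g p z * so g a z * kk z y ∂μY) * (so g q y * so g b y) ∂μY =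
      spin2 (coulM g) p a q b := by
  have hv : ∀ y : R3, Measurable (fun x : R3 => 1 / dist x y) := fun y =>
    measurable_const.div (by fun_prop)
  have h1 : ∀ y : YS, ∫ z, so g p z * so g a z * kk z y ∂μY =
      if p.2 = a.2 then nuc y.1 (g p.1) (g a.1) else 0 := by
    intro y
    have := (integral_so_so hg.cont (fun x => 1 / dist x y.1) (hv y.1) p a
      (hg.pot_int _ _ _)).2
    refine this.trans ?_
    unfold nuc
    simp only [mul_one_div]
  simp only [h1]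
  unfold spin2 coulM coul
  by_cases hpa : p.2 = a.2
  · simp only [hpa, if_true, true_and]
    have h2 := (integral_so_so hg.cont (fun y => nuc y (g p.1) (g a.1)) (hg.measurable_nuc _ _)
      q b (hg.nuc_int _ _ _ _)).2
    have h3 : ∫ y : YS, nuc y.1 (g p.1) (g a.1) * (so g q y * so g b y) ∂μY =
        ∫ y : YS, so g q y * so g b y * nuc y.1 (g p.1) (g a.1) ∂μY :=
      integral_congr_ae (Filter.Eventually.of_forall fun y => mul_comm _ _)
    rw [h3, h2]
    split_ifs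
    · exact integral_congr_ae (Filter.Eventually.of_forall fun y => mul_comm _ _)
    · rfl
  · simp [hpa]

end

end Vale.Agent.P370.NB.U
end
end

section

section

/-!
Energy of the trial wave functions: formula in terms of matrices.
-/

namespace Vale.Agent.P370.NB.U

open MeasureTheory Function ComplexConjugate Finset Vale.Agent.P370.Q

section forms

variable {N : ℕ} {P : Type} [Fintype P] [DecidableEq P]

/-- norm form -/
noncomputable def G0 (S : P → P → ℝ) (c : Tens N P) : ℝ :=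
  ∑ I, ∑ J, (conj (c I) * c J).re * ∏ l, S (I l) (J l)

/-- one-body form in slot `i` -/
noncomputable def G1i (S D : P → P → ℝ) (c : Tens N P) (i : Fin N) : ℝ :=
  ∑ I, ∑ J, (conj (c I) * c J).re * ((∏ l ∈ univ.erase i, S (I l) (J l)) * D (I i) (J i))

/-- one-body form -/
noncomputable def G1 (S D : P → P → ℝ) (c : Tens N P) : ℝ := ∑ i, G1i S D c i

/-- two-body form in slots `i`, `j` -/
noncomputable def G2ij (S : P → P → ℝ) (V : P → P → P → P → ℝ) (c : Tens N P) (i j : Fin N) : ℝ :=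
  ∑ I, ∑ J, (conj (c I) * c J).re *
    ((∏ l ∈ (univ.erase i).erase j, S (I l) (J l)) * V (I i) (J i) (I j) (J j))

/-- two-body form -/
noncomputable def G2 (S : P → P → ℝ) (V : P → P → P → P → ℝ) (c : Tens N P) : ℝ :=
  ∑ i, ∑ j ∈ Ioi i, G2ij S V c i j

/-- energy form -/
noncomputable def EF {m : ℕ} (S Dd Dr : P → P → ℝ) (V : P → P → P → P → ℝ)
    (Dg : Fin m → P → P → ℝ) (lam : ℝ) (w : Fin m → ℝ) (c : Tens N P) : ℝ :=
  1 / 2 * G1 S Dd c + (-G1 S Dr c + lam * (G2 S V c + ∑ b, w b * G1 S (Dg b) c))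

theorem G0_delta (c : Tens N P) : G0 (fun p q => if p = q then 1 else 0) c = nsq c := by
  unfold G0 nsq
  refine Finset.sum_congr rfl fun I _ => ?_
  have h1 : ∀ J : Fin N → P, (∏ l, (if I l = J l then (1 : ℝ) else 0)) =
      if I = J then 1 else 0 := by
    intro J
    split_ifs with h
    · subst h
      simp only [↓reduceIte, prod_const_one]
    · obtain ⟨l, hl⟩ := Function.ne_iff.1 h
      exact Finset.prod_eq_zero (Finset.mem_univ l) (if_neg hl)
  simp only [h1, mul_ite, mul_one, mul_zero]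
  rw [Finset.sum_ite_eq, if_pos (Finset.mem_univ I), Complex.conj_mul']
  exact_mod_cast Complex.ofReal_re _

theorem G1_delta (D : P → P → ℝ) (c : Tens N P) :
    G1 (fun p q => if p = q then 1 else 0) D c = oneE D c := by
  unfold G1 G1i oneE
  rw [Finset.sum_comm, Complex.re_sum]
  refine Finset.sum_congr rfl fun I _ => ?_
  rw [Complex.re_sum]
  refine Finset.sum_congr rfl fun i _ => ?_
  have h := sum_delta_one (fun J => (conj (c I) * c J).re * D (I i) (J i)) I i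
  rw [Complex.re_sum]
  have h2 : ∀ J : Fin N → P, (conj (c I) * c J).re *
      ((∏ l ∈ univ.erase i, (if I l = J l then (1 : ℝ) else 0)) * D (I i) (J i)) =
      (∏ l ∈ univ.erase i, (if I l = J l then (1 : ℝ) else 0)) *
        ((conj (c I) * c J).re * D (I i) (J i)) := fun J => by ring
  simp only [h2]
  rw [h]
  refine Finset.sum_congr rfl fun a _ => ?_
  rw [update_self, Complex.re_ofReal_mul, mul_comm]

theorem G2_delta (V : P → P → P → P → ℝ) (c : Tens N P) :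
    G2 (fun p q => if p = q then 1 else 0) V c = twoE V c := by
  unfold G2 G2ij twoE
  rw [Complex.re_sum]
  have h0 : ∀ i : Fin N, (∑ j ∈ Ioi i, ∑ I, ∑ J, (conj (c I) * c J).re *
      ((∏ l ∈ (univ.erase i).erase j, (if I l = J l then (1 : ℝ) else 0)) *
        V (I i) (J i) (I j) (J j))) = ∑ I, ∑ j ∈ Ioi i, ∑ J, (conj (c I) * c J).re *
      ((∏ l ∈ (univ.erase i).erase j, (if I l = J l then (1 : ℝ) else 0)) *
        V (I i) (J i) (I j) (J j)) := fun i => Finset.sum_comm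
  simp only [h0]
  rw [Finset.sum_comm]
  refine Finset.sum_congr rfl fun I _ => ?_
  rw [Complex.re_sum]
  refine Finset.sum_congr rfl fun i _ => ?_
  rw [Complex.re_sum]
  refine Finset.sum_congr rfl fun j hj => ?_
  have hij : i ≠ j := (Finset.mem_Ioi.1 hj).ne
  have h := sum_delta_two (fun J => (conj (c I) * c J).re * V (I i) (J i) (I j) (J j)) I hij
  have h2 : ∀ J : Fin N → P, (conj (c I) * c J).re *
      ((∏ l ∈ (univ.erase i).erase j, (if I l = J l then (1 : ℝ) else 0)) *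
        V (I i) (J i) (I j) (J j)) =
      (∏ l ∈ (univ.erase i).erase j, (if I l = J l then (1 : ℝ) else 0)) *
        ((conj (c I) * c J).re * V (I i) (J i) (I j) (J j)) := fun J => by ring
  simp only [h2]
  rw [h, Complex.re_sum]
  refine Finset.sum_congr rfl fun a _ => ?_
  rw [Complex.re_sum]
  refine Finset.sum_congr rfl fun b _ => ?_
  rw [update_self, update_of_ne hij, update_self, Complex.re_ofReal_mul, mul_comm]

theorem re_smul_smul (r : ℝ) (a b : ℂ) :
    (conj ((r : ℂ) * a) * ((r : ℂ) * b)).re = r ^ 2 * (conj a * b).re := by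
  rw [map_mul, Complex.conj_ofReal]
  have : (r : ℂ) * conj a * ((r : ℂ) * b) = ((r ^ 2 : ℝ) : ℂ) * (conj a * b) := by
    push_cast
    ring
  rw [this, Complex.re_ofReal_mul]

theorem G0_smul (S : P → P → ℝ) (r : ℝ) (c : Tens N P) :
    G0 S (fun I => (r : ℂ) * c I) = r ^ 2 * G0 S c := by
  unfold G0
  simp only [re_smul_smul, mul_assoc, Finset.mul_sum]

theorem G1_smul (S D : P → P → ℝ) (r : ℝ) (c : Tens N P) :
    G1 S D (fun I => (r : ℂ) * c I) = r ^ 2 * G1 S D c := by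
  unfold G1 G1i
  simp only [re_smul_smul, mul_assoc, mul_sum]

theorem G2_smul (S : P → P → ℝ) (V : P → P → P → P → ℝ) (r : ℝ) (c : Tens N P) :
    G2 S V (fun I => (r : ℂ) * c I) = r ^ 2 * G2 S V c := by
  unfold G2 G2ij
  simp only [re_smul_smul, mul_assoc, Finset.mul_sum]

theorem EF_smul {m : ℕ} (S Dd Dr : P → P → ℝ) (V : P → P → P → P → ℝ)
    (Dg : Fin m → P → P → ℝ) (lam : ℝ) (w : Fin m → ℝ) (r : ℝ) (c : Tens N P) :
    EF S Dd Dr V Dg lam w (fun I => (r : ℂ) * c I) = r ^ 2 * EF S Dd Dr V Dg lam w c := by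
  unfold EF
  simp only [G1_smul, G2_smul]
  have : ∑ b, w b * (r ^ 2 * G1 S (Dg b) c) = r ^ 2 * ∑ b, w b * G1 S (Dg b) c := by
    rw [Finset.mul_sum]
    exact Finset.sum_congr rfl fun b _ => by ring
  rw [this]
  ring

open Filter Topology in
theorem G0_tendsto {S : ℕ → P → P → ℝ} {S' : P → P → ℝ}
    (hS : ∀ p q, Tendsto (fun j => S j p q) atTop (𝓝 (S' p q))) (c : Tens N P) :
    Tendsto (fun j => G0 (S j) c) atTop (𝓝 (G0 S' c)) := by
  unfold G0
  exact tendsto_finsetSum _ fun I _ => tendsto_finsetSum _ fun J _ =>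
    (tendsto_finsetProd _ fun l _ => hS _ _).const_mul _

open Filter Topology in
theorem G1_tendsto {S D : ℕ → P → P → ℝ} {S' D' : P → P → ℝ}
    (hS : ∀ p q, Tendsto (fun j => S j p q) atTop (𝓝 (S' p q)))
    (hD : ∀ p q, Tendsto (fun j => D j p q) atTop (𝓝 (D' p q))) (c : Tens N P) :
    Tendsto (fun j => G1 (S j) (D j) c) atTop (𝓝 (G1 S' D' c)) := by
  unfold G1 G1i
  exact tendsto_finsetSum _ fun i _ => tendsto_finsetSum _ fun I _ =>
    tendsto_finsetSum _ fun J _ =>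
    ((tendsto_finsetProd _ fun l _ => hS _ _).mul (hD _ _)).const_mul _

open Filter Topology in
theorem G2_tendsto {S : ℕ → P → P → ℝ} {S' : P → P → ℝ} {V : ℕ → P → P → P → P → ℝ}
    {V' : P → P → P → P → ℝ}
    (hS : ∀ p q, Tendsto (fun j => S j p q) atTop (𝓝 (S' p q)))
    (hV : ∀ p a q b, Tendsto (fun j => V j p a q b) atTop (𝓝 (V' p a q b))) (c : Tens N P) :
    Tendsto (fun j => G2 (S j) (V j) c) atTop (𝓝 (G2 S' V' c)) := by
  unfold G2 G2ij
  exact tendsto_finsetSum _ fun i _ => tendsto_finsetSum _ fun j _ =>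
    tendsto_finsetSum _ fun I _ => tendsto_finsetSum _ fun J _ =>
    ((tendsto_finsetProd _ fun l _ => hS _ _).mul (hV _ _ _ _)).const_mul _

end forms

section energy

variable {N : ℕ} {A : Type} [Fintype A] [DecidableEq A] {g : A → R3 → ℝ}

theorem TF.normSq_eq (hg : TF g) (c : Tens N (A × Fin 2)) :
    normSq (tw g c) = G0 (spin1 (fun a b => ov (g a) (g b))) c := by
  have h := integral_lc_zero (N := N) μY (Θ := fun _ => so g) (fun _ p q => (hg.so_ov p q).1) c
  have h2 := integral_pow (F := fun w => ‖lc (fun _ => so g) c w‖ ^ 2) h.1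
  unfold normSq
  have h3 : ∀ s : Fin N → Fin 2, (∫ x, ‖tw g c x s‖ ^ 2) =
      ∫ x, ‖lc (fun _ => so g) c (jn x s)‖ ^ 2 := fun s => rfl
  simp only [h3]
  rw [← h2, h.2]
  unfold G0
  simp only [(hg.so_ov _ _).2]

theorem TF.kinetic_eq (hg : TF g) (c : Tens N (A × Fin 2)) :
    kinetic (tw g c) = 1 / 2 * G1 (spin1 (fun a b => ov (g a) (g b)))
      (spin1 (fun a b => dir (g a) (g b))) c := by
  unfold kinetic
  congr 1
  have hk : ∀ (i : Fin N) (k : Fin 3), ∑ s : Fin N → Fin 2, ∫ x, ‖fderiv ℝ (fun y => tw g c y s) x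
      (Pi.single i (EuclideanSpace.single k 1))‖ ^ 2 =
      G1i (spin1 (fun a b => ov (g a) (g b)))
        (spin1 (fun a b => ∫ x, pd k (g a) x * pd k (g b) x)) c i := by
    intro i k
    set e : R3 := EuclideanSpace.single k 1 with he
    have hΘ : ∀ (l : Fin N) (p q : A × Fin 2),
        Integrable (fun y => dΘ g e i l p y * dΘ g e i l q y) μY := by
      intro l p q
      unfold dΘ
      by_cases h : l = i
      · simp only [h, if_true]
        exact (hg.so_dd e p q).1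
      · simp only [h, if_false]
        exact (hg.so_ov p q).1
    have h := integral_lc_zero (N := N) μY hΘ c
    have h2 := integral_pow (F := fun w => ‖lc (dΘ g e i) c w‖ ^ 2) h.1
    simp only [tw_fderiv hg.smooth]
    rw [← h2, h.2]
    unfold G1i
    refine Finset.sum_congr rfl fun I _ => Finset.sum_congr rfl fun J _ => ?_
    congr 1
    rw [← Finset.mul_prod_erase univ _ (Finset.mem_univ i), mul_comm]
    congr 1
    · refine Finset.prod_congr rfl fun l hl => ?_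
      have : l ≠ i := Finset.ne_of_mem_erase hl
      simp only [dΘ, this, if_false]
      exact (hg.so_ov _ _).2
    · simp only [dΘ, if_true]
      exact (hg.so_dd e _ _).2
  have h1 : ∑ s : Fin N → Fin 2, ∑ i, ∑ k : Fin 3, ∫ x, ‖fderiv ℝ (fun y => tw g c y s) x
      (Pi.single i (EuclideanSpace.single k 1))‖ ^ 2 = ∑ i : Fin N, ∑ k : Fin 3,
      ∑ s : Fin N → Fin 2, ∫ x, ‖fderiv ℝ (fun y => tw g c y s) x
      (Pi.single i (EuclideanSpace.single k 1))‖ ^ 2 := by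
    rw [Finset.sum_comm]
    refine Finset.sum_congr rfl fun i _ => ?_
    rw [Finset.sum_comm]
  rw [h1]
  unfold G1
  refine Finset.sum_congr rfl fun i _ => ?_
  simp only [hk]
  unfold G1i
  rw [Finset.sum_comm]
  refine Finset.sum_congr rfl fun I _ => ?_
  rw [Finset.sum_comm]
  refine Finset.sum_congr rfl fun J _ => ?_
  rw [← Finset.mul_sum, ← Finset.mul_sum]
  congr 2
  unfold spin1 dir
  by_cases h : (I i).2 = (J i).2
  · simp only [h, if_true]
    rw [integral_finsetSum]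
    intro k _
    exact cc_int (hg.cont_d _ _) (hg.compact_d _ _) (hg.cont_d _ _)
  · simp [h]

/-- normal Gaussian type weight: an integrable function of integral one -/
theorem exists_weight : ∃ h : YS → ℝ, Measurable h ∧ Integrable h μY ∧ ∫ y, h y ∂μY = 1 := by
  have h1 : Integrable (fun y : YS => Real.exp (-(1 * ‖y.1‖))) μY :=
    integrable_Y (fun σ => by fun_prop) fun σ => ao_int_exp one_pos
  have h2 : 0 < ∫ y : YS, Real.exp (-(1 * ‖y.1‖)) ∂μY := by
    rw [integral_Y h1]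
    refine Finset.sum_pos (fun σ _ => ?_) ⟨0, Finset.mem_univ _⟩
    exact integral_exp_pos (ao_int_exp one_pos)
  refine ⟨fun y => (∫ y : YS, Real.exp (-(1 * ‖y.1‖)) ∂μY)⁻¹ * Real.exp (-(1 * ‖y.1‖)),
    by fun_prop, h1.const_mul _, ?_⟩
  rw [integral_const_mul]
  exact inv_mul_cancel₀ h2.ne'

theorem TF.one_eq (hg : TF g) (c : Tens N (A × Fin 2)) (v : R3 → ℝ) (hv : Measurable v)
    (hi : ∀ a b, Integrable (fun x => g a x * g b x * v x)) (i : Fin N) :
    Integrable (fun w => ‖lc (fun _ => so g) c w‖ ^ 2 * v (w i).1) (pm (Fin N) μY) ∧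
    ∫ w, ‖lc (fun _ => so g) c w‖ ^ 2 * v (w i).1 ∂(pm (Fin N) μY) =
      G1i (spin1 (fun a b => ov (g a) (g b))) (spin1 (fun a b => ∫ x, g a x * g b x * v x)) c i := by
  have h := integral_lc_one (N := N) μY (fun p q => (hg.so_ov p q).1) c i
    (v := fun y => v y.1) (fun p q => (hg.so_v v hv hi p q).1)
  refine ⟨h.1, h.2.trans ?_⟩
  unfold G1i
  simp only [(hg.so_ov _ _).2, (hg.so_v v hv hi _ _).2]

theorem TF.two_eq (hg : TF g) (c : Tens N (A × Fin 2)) {i j : Fin N} (hij : i ≠ j) :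
    Integrable (fun w => ‖lc (fun _ => so g) c w‖ ^ 2 * kk (w i) (w j)) (pm (Fin N) μY) ∧
    ∫ w, ‖lc (fun _ => so g) c w‖ ^ 2 * kk (w i) (w j) ∂(pm (Fin N) μY) =
      G2ij (spin1 (fun a b => ov (g a) (g b))) (spin2 (coulM g)) c i j := by
  obtain ⟨h, hm, hi, h1⟩ := exists_weight
  have h := integral_lc_two (N := N) μY (so_measurable hg.cont) (fun p q => (hg.so_ov p q).1) c
    hij kk_meas hg.kk_int hm hi h1
  refine ⟨h.1, h.2.trans ?_⟩
  unfold G2ij
  simp only [(hg.so_ov _ _).2, hg.kk_eq]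

theorem TF.rinv_int (hg : TF g) (a b : A) : Integrable (fun x => g a x * g b x * (1 / ‖x‖)) := by
  have := hg.pot_int a b 0
  simpa only [dist_zero_right] using this

theorem TF.gm_int (hg : TF g) (y : R3) (a b : A) :
    Integrable (fun x => g a x * g b x * (1 / ‖x‖ - 1 / dist x y)) := by
  have := (hg.rinv_int a b).sub (hg.pot_int a b y)
  refine this.congr (Filter.Eventually.of_forall fun x => ?_)
  simp only [Pi.sub_apply]
  ring

theorem TF.scaledE_eq {m : ℕ} (hg : TF g) (c : Tens N (A × Fin 2)) (lam : ℝ) (w : Fin m → ℝ)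
    (y : Fin m → R3) :
    scaledE lam w y (tw g c) = EF (spin1 (fun a b => ov (g a) (g b)))
      (spin1 (fun a b => dir (g a) (g b))) (spin1 (fun a b => rinv (g a) (g b)))
      (spin2 (coulM g)) (fun b => spin1 (fun a a' => gm (y b) (g a) (g a'))) lam w c := by
  unfold scaledE EF
  rw [hg.kinetic_eq]
  congr 1
  set F : (Fin N → YS) → ℝ := fun z => ‖lc (fun _ => so g) c z‖ ^ 2 with hF
  have hm1 : Measurable (fun x : R3 => 1 / ‖x‖) := measurable_const.div (by fun_prop)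
  have hm2 : ∀ b, Measurable (fun x : R3 => 1 / ‖x‖ - 1 / dist x (y b)) := fun b =>
    hm1.sub (measurable_const.div (by fun_prop))
  have e1 := fun i => hg.one_eq c (fun x => 1 / ‖x‖) hm1 hg.rinv_int i
  have e2 := fun (b : Fin m) i => hg.one_eq c (fun x => 1 / ‖x‖ - 1 / dist x (y b)) (hm2 b)
    (hg.gm_int (y b)) i
  have e3 := fun (i j : Fin N) (hij : i ≠ j) => hg.two_eq c hij
  have hsum : ∀ z : Fin N → YS, scaledV lam w y (fun i => (z i).1) * F z =
      -(∑ i, F z * (1 / ‖(z i).1‖)) + lam * ((∑ i, ∑ j ∈ Ioi i, F z * kk (z i) (z j)) +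
        ∑ b, w b * ∑ i, F z * (1 / ‖(z i).1‖ - 1 / dist (z i).1 (y b))) := by
    intro z
    unfold scaledV kk
    simp only [← Finset.mul_sum]
    have : ∑ i, ∑ b, w b * (1 / ‖(z i).1‖ - 1 / dist (z i).1 (y b)) =
        ∑ b, w b * ∑ i, (1 / ‖(z i).1‖ - 1 / dist (z i).1 (y b)) := by
      rw [Finset.sum_comm]
      simp only [Finset.mul_sum]
    rw [this]
    have h2 : ∑ b, w b * (F z * ∑ i, (1 / ‖(z i).1‖ - 1 / dist (z i).1 (y b))) =
        F z * ∑ b, w b * ∑ i, (1 / ‖(z i).1‖ - 1 / dist (z i).1 (y b)) := by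
      rw [Finset.mul_sum]
      exact Finset.sum_congr rfl fun b _ => by ring
    rw [h2]
    ring
  have i1 : Integrable (fun z => ∑ i, F z * (1 / ‖(z i).1‖)) (pm (Fin N) μY) :=
    integrable_finsetSum _ fun i _ => (e1 i).1
  have i2 : Integrable (fun z => ∑ i, ∑ j ∈ Ioi i, F z * kk (z i) (z j)) (pm (Fin N) μY) :=
    integrable_finsetSum _ fun i _ => integrable_finsetSum _ fun j hj =>
      (e3 i j (Finset.mem_Ioi.1 hj).ne).1
  have i3 : ∀ b, Integrable (fun z => w b * ∑ i, F z * (1 / ‖(z i).1‖ - 1 / dist (z i).1 (y b)))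
      (pm (Fin N) μY) := fun b =>
    (integrable_finsetSum _ fun i _ => (e2 b i).1).const_mul _
  have i4 : Integrable (fun z => ∑ b, w b * ∑ i, F z * (1 / ‖(z i).1‖ - 1 / dist (z i).1 (y b)))
      (pm (Fin N) μY) := integrable_finsetSum _ fun b _ => i3 b
  have iall : Integrable (fun z => scaledV lam w y (fun i => (z i).1) * F z) (pm (Fin N) μY) := by
    simp only [hsum]
    exact i1.neg.add ((i2.add i4).const_mul lam)
  have hpow := integral_pow iall
  have hL : ∑ s, ∫ x, scaledV lam w y x * ‖tw g c x s‖ ^ 2 =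
      ∫ z, scaledV lam w y (fun i => (z i).1) * F z ∂(pm (Fin N) μY) := by
    rw [hpow]
    rfl
  rw [hL]
  simp only [hsum]
  have i5 : Integrable (fun z => (∑ i, ∑ j ∈ Ioi i, F z * kk (z i) (z j)) +
      ∑ b, w b * ∑ i, F z * (1 / ‖(z i).1‖ - 1 / dist (z i).1 (y b))) (pm (Fin N) μY) := i2.add i4
  rw [integral_add i1.fun_neg (i5.const_mul lam), integral_neg, integral_const_mul,
    integral_add i2 i4, integral_finsetSum _ fun i _ => (e1 i).1,
    integral_finsetSum _ fun i _ => integrable_finsetSum _ fun j hj =>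
      (e3 i j (Finset.mem_Ioi.1 hj).ne).1,
    integral_finsetSum _ fun b _ => i3 b]
  congr 1
  · unfold G1
    congr 1
    refine Finset.sum_congr rfl fun i _ => ?_
    rw [(e1 i).2]
    unfold rinv
    simp only [mul_one_div]
  · congr 2
    · unfold G2
      refine Finset.sum_congr rfl fun i _ => ?_
      rw [integral_finsetSum _ fun j hj => (e3 i j (Finset.mem_Ioi.1 hj).ne).1]
      exact Finset.sum_congr rfl fun j hj => (e3 i j (Finset.mem_Ioi.1 hj).ne).2
    · refine Finset.sum_congr rfl fun b _ => ?_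
      rw [integral_const_mul, integral_finsetSum _ fun i _ => (e2 b i).1]
      unfold G1 gm
      congr 1
      exact Finset.sum_congr rfl fun i _ => (e2 b i).2

end energy

end Vale.Agent.P370.NB.U
end
end

section

section

/-!
The mean field acts as a scalar between the sites.
-/

namespace Vale.Agent.P370.Q

open MeasureTheory Finset ComplexConjugate

section

variable {n : ℕ} {C O : Type} [Fintype C] [DecidableEq C] [Fintype O]
    [DecidableEq O] (B : ShellBasis n (C ⊕ O))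

theorem mfield_m2iso (hC : ∀ c, B.lev (Sum.inl c) < n)
    (hO : ∀ o, B.lev (Sum.inr o) = n) (A : Fin 3 → Fin 3 → ℝ)
    (h : ∀ x : R3, ‖m2lin A x‖ ^ 2 = ‖x‖ ^ 2) {f g : R3 → ℝ}
    (hf : Nice fun x => f (m2iso A h x)) (hg : Nice fun x => g (m2iso A h x)) :
    mfield B (fun x => f (m2iso A h x)) (fun x => g (m2iso A h x)) = mfield B f g :=
  mfield_iso B (m2iso A h) (fun x y => closed_kernel B hC hO (m2iso A h) x y)
    (fun _ => nice_shell_iso (B.lev_pos _) (B.mem _) A h) hf hg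

theorem nice_fsite (hn : 1 ≤ n) (α : ℝ) : Nice (fsite n α) := by
  obtain ⟨P, hP⟩ := fsite_vfun n α
  rw [hP]
  exact nice_vfun hn P

theorem nice_gsite (hn : 1 ≤ n) (α : ℝ) : Nice (gsite n α) := by
  obtain ⟨P, hP⟩ := gsite_vfun n α
  rw [hP]
  exact nice_vfun hn P

theorem nice_fsite_iso (hn : 1 ≤ n) (α : ℝ) (A : Fin 3 → Fin 3 → ℝ)
    (h : ∀ x : R3, ‖m2lin A x‖ ^ 2 = ‖x‖ ^ 2) : Nice (fun x => fsite n α (m2iso A h x)) := by
  obtain ⟨P, hP⟩ := fsite_vfun n α
  rw [hP]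
  exact nice_vfun_iso hn P A h

theorem mfield_fsite (hn : 2 ≤ n) (hC : ∀ c, B.lev (Sum.inl c) < n)
    (hO : ∀ o, B.lev (Sum.inr o) = n) (α β : ℝ) :
    mfield B (fsite n α) (fsite n β) = wpq n α β / 2 *
      (mfield B (fsite n α) (fsite n α) + mfield B (gsite n α) (gsite n α)) := by
  have hn1 : 1 ≤ n := by omega
  set M : ℕ := 2 * (n - 1) + 1 with hM
  have hMlt : 2 * (n - 1) < M := by omega
  have hM0 : (0 : ℝ) < M := by
    have : 0 < M := by omega
    exact_mod_cast this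
  set θ : ℕ → ℝ := fun j => 2 * Real.pi * j / M with hθ
  set l : ℝ := ((n - 1 : ℕ) : ℝ) with hl
  have hf := nice_fsite hn1 α
  have hg := nice_gsite hn1 α
  have hr : ∀ j, Nice (fun x => fsite n β (rotR α (θ j) x)) := fun j =>
    nice_fsite_iso hn1 β _ (rotA_norm α (θ j))
  have hA := fun x => (site_avg hMlt α β x).1
  have hB := fun x => (site_avg hMlt α β x).2
  -- the invariance for each rotation
  have hj : ∀ j, mfield B (fsite n α) (fsite n β) =
      Real.cos (l * θ j) * mfield B (fsite n α) (fun x => fsite n β (rotR α (θ j) x)) -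
        Real.sin (l * θ j) * mfield B (gsite n α) (fun x => fsite n β (rotR α (θ j) x)) := by
    intro j
    have h1 : mfield B (fun x => fsite n α (rotR α (θ j) x))
        (fun x => fsite n β (rotR α (θ j) x)) = mfield B (fsite n α) (fsite n β) :=
      mfield_m2iso B hC hO _ (rotA_norm α (θ j)) (nice_fsite_iso hn1 α _ (rotA_norm α (θ j)))
        (hr j)
    have h2 : (fun x => fsite n α (rotR α (θ j) x)) =
        fun x => Real.cos (l * θ j) * fsite n α x + -Real.sin (l * θ j) * gsite n α x :=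
      funext fun x => fsite_rot_self n α (θ j) x
    rw [← h1, h2, mfield_comb_left B _ _ hf hg (hr j)]
    ring
  have hsum : (M : ℝ) * mfield B (fsite n α) (fsite n β) =
      ∑ j ∈ range M, Real.cos (l * θ j) *
        mfield B (fsite n α) (fun x => fsite n β (rotR α (θ j) x)) -
      ∑ j ∈ range M, Real.sin (l * θ j) *
        mfield B (gsite n α) (fun x => fsite n β (rotR α (θ j) x)) := by
    rw [← Finset.sum_sub_distrib]
    have h1 : (M : ℝ) * mfield B (fsite n α) (fsite n β) =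
        ∑ _j ∈ range M, mfield B (fsite n α) (fsite n β) := by
      rw [Finset.sum_const, card_range, nsmul_eq_mul]
    rw [h1]
    exact Finset.sum_congr rfl fun j _ => hj j
  have hfa : (fun x => ∑ j ∈ range M, Real.cos (l * θ j) * fsite n β (rotR α (θ j) x)) =
      fun x => (M / 2 * wpq n α β) * fsite n α x := funext hA
  have hfb : (fun x => ∑ j ∈ range M, Real.sin (l * θ j) * fsite n β (rotR α (θ j) x)) =
      fun x => -(M / 2 * wpq n α β) * gsite n α x := funext hB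
  have e1 := mfield_sum_right B (range M) (fun j => Real.cos (l * θ j))
    (fun j x => fsite n β (rotR α (θ j) x)) (fun j _ => hr j) hf
    (by rw [hfa]; exact nice_smul hf _)
  have e2 := mfield_sum_right B (range M) (fun j => Real.sin (l * θ j))
    (fun j x => fsite n β (rotR α (θ j) x)) (fun j _ => hr j) hg
    (by rw [hfb]; exact nice_smul hg _)
  rw [← e1, ← e2, hfa, hfb, mfield_smul_right B _ hf hf, mfield_smul_right B _ hg hg] at hsum
  have h3 : (M : ℝ) * mfield B (fsite n α) (fsite n β) = M * (wpq n α β / 2 *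
      (mfield B (fsite n α) (fsite n α) + mfield B (gsite n α) (gsite n α))) := by
    rw [hsum]; ring
  exact mul_left_cancel₀ hM0.ne' h3

theorem mfield_fsite' (hn : 2 ≤ n) (hC : ∀ c, B.lev (Sum.inl c) < n)
    (hO : ∀ o, B.lev (Sum.inr o) = n) (α β : ℝ) :
    mfield B (fsite n α) (fsite n β) = wpq n α β * mfield B (fsite n 0) (fsite n 0) := by
  have hn1 : 1 ≤ n := by omega
  have h1 := mfield_fsite B hn hC hO α α
  have hw : wpq n α α = 1 := by
    unfold wpq
    have : n - 1 ≠ 0 := by omega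
    simp [this]
  rw [hw] at h1
  have h2 : mfield B (gsite n α) (gsite n α) = mfield B (fsite n α) (fsite n α) := by linarith
  have h3 : mfield B (fsite n α) (fsite n α) = mfield B (fsite n 0) (fsite n 0) := by
    have h4 : fsite n α = fun x => fsite n 0 (m2iso (zrotA α) (zrotA_norm α) x) := by
      funext x
      unfold fsite
      rw [LinearIsometryEquiv.norm_map]
      have := cdot_av_zrot α x
      unfold zrotR at this
      rw [this]
    have h5 := mfield_m2iso B hC hO (zrotA α) (zrotA_norm α) (nice_fsite_iso hn1 0 _ _)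
      (nice_fsite_iso hn1 0 _ _)
    rw [← h4] at h5
    exact h5
  rw [mfield_fsite B hn hC hO α β, h2, h3]
  ring

end

/-- the mean field acts as a scalar between the sites -/
theorem mfield_sites {n : ℕ} (hn : 2 ≤ n) {C O : Type} [Fintype C] [DecidableEq C] [Fintype O]
    [DecidableEq O] (B : ShellBasis n (C ⊕ O)) (hC : ∀ c, B.lev (Sum.inl c) < n)
    (hO : ∀ o, B.lev (Sum.inr o) = n) (α β : ℝ) :
    mfield B (fh n α) (fh n β) = mfield B (fh n 0) (fh n 0) * ov (fh n α) (fh n β) := by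
  have hn1 : 1 ≤ n := by omega
  have hnf := nf_pos n hn1
  set s : ℝ := (Real.sqrt (nf n))⁻¹ with hs
  have hfh : ∀ α, fh n α = fun x => s * fsite n α x := fun α => by
    funext x
    unfold fh
    rw [hs, div_eq_inv_mul]
  have hss : s * s = (nf n)⁻¹ := by
    rw [hs, ← mul_inv, Real.mul_self_sqrt hnf.le]
  have hm : ∀ α β, mfield B (fh n α) (fh n β) = (nf n)⁻¹ * mfield B (fsite n α) (fsite n β) := by
    intro α β
    rw [hfh, hfh]
    have h1 := mfield_comb_left B s 0 (nice_fsite hn1 α) (nice_fsite hn1 α)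
      (nice_smul (nice_fsite hn1 β) s)
    simp only [zero_mul, add_zero] at h1
    rw [h1, mfield_smul_right B s (nice_fsite hn1 β) (nice_fsite hn1 α), ← mul_assoc, hss]
  have ho : ov (fh n α) (fh n β) = wpq n α β := by
    have h1 : ov (fh n α) (fh n β) = (nf n)⁻¹ * ov (fsite n α) (fsite n β) := by
      rw [hfh, hfh]
      unfold ov
      rw [← hss, ← integral_const_mul]
      congr 1
      funext x
      ring
    rw [h1, site_ov_ff n hn]
    unfold wpq
    rw [← Real.cos_neg (β - α), neg_sub, ← mul_assoc, inv_mul_cancel₀ hnf.ne', one_mul]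
  rw [hm, hm, ho, mfield_fsite' B hn hC hO α β]
  ring

/-- crude bound of the mean field -/
theorem mfield_bound {n : ℕ} {C O : Type} [Fintype C] [DecidableEq C] [Fintype O]
    [DecidableEq O] (B : ShellBasis n (C ⊕ O)) (f g : R3 → ℝ) (hf : IsShell n f)
    (hg : IsShell n g) (hn : 1 ≤ n) :
    |mfield B f g| ≤ 12 * Fintype.card C * Real.sqrt (ov f f * ov g g) := by
  have hone : ∀ c : C, ov (B.χ (Sum.inl c)) (B.χ (Sum.inl c)) = 1 := fun c => by
    rw [B.ortho]; simp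
  have h1 : ∀ c : C, |2 * coul f g (B.χ (Sum.inl c)) (B.χ (Sum.inl c)) -
      coul f (B.χ (Sum.inl c)) (B.χ (Sum.inl c)) g| ≤ 12 * Real.sqrt (ov f f * ov g g) := by
    intro c
    have h2 := coul_shell hn hn (B.lev_pos (Sum.inl c)) (B.lev_pos (Sum.inl c)) hf hg
      (B.mem (Sum.inl c)) (B.mem (Sum.inl c))
    have h3 := coul_shell hn (B.lev_pos (Sum.inl c)) (B.lev_pos (Sum.inl c)) hn hf
      (B.mem (Sum.inl c)) (B.mem (Sum.inl c)) hg
    rw [hone, mul_one, mul_one] at h2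
    rw [hone, mul_one, mul_one] at h3
    have h4 := abs_le.1 h2
    have h5 := abs_le.1 h3
    rw [abs_le]
    constructor <;> linarith
  unfold mfield
  calc |∑ c : C, (2 * coul f g (B.χ (Sum.inl c)) (B.χ (Sum.inl c)) -
        coul f (B.χ (Sum.inl c)) (B.χ (Sum.inl c)) g)|
      ≤ ∑ c : C, |2 * coul f g (B.χ (Sum.inl c)) (B.χ (Sum.inl c)) -
        coul f (B.χ (Sum.inl c)) (B.χ (Sum.inl c)) g| := Finset.abs_sum_le_sum_abs _ _
    _ ≤ ∑ _c : C, 12 * Real.sqrt (ov f f * ov g g) := Finset.sum_le_sum fun c _ => h1 c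
    _ = 12 * Fintype.card C * Real.sqrt (ov f f * ov g g) := by
        rw [Finset.sum_const, card_univ, nsmul_eq_mul]
        ring

end Vale.Agent.P370.Q
end
end

section

section

/-!
Numerical facts about the parameters.
-/

namespace Vale.Agent.P370.Q

open MeasureTheory Finset

theorem pK_ge (k : ℕ) (hk : 10 ≤ k) : 1024 ≤ pK k := by
  unfold pK
  calc 1024 = 2 ^ 10 := by norm_num
    _ ≤ 2 ^ k := Nat.pow_le_pow_right (by norm_num) hk

theorem pn_eq (k : ℕ) : pn k = pK k ^ 2048 := by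
  unfold pn pK
  rw [← pow_mul, mul_comm]

theorem pn_even (k : ℕ) (hk : 10 ≤ k) : Even (pn k) ∧ 2 ≤ pn k := by
  unfold pn
  refine ⟨?_, ?_⟩
  · exact (even_two).pow_of_ne_zero (by omega)
  · calc 2 = 2 ^ 1 := by norm_num
      _ ≤ 2 ^ (2048 * k) := Nat.pow_le_pow_right (by norm_num) (by omega)

theorem St1_pn_split (k : ℕ) (hk : 10 ≤ k) :
    pn k = 4 * pK k ^ 2 * 2 ^ (2046 * k - 2) := by
  unfold pn pK
  have h4 : (4 : ℕ) = 2 ^ 2 := by norm_num
  rw [h4, ← pow_mul, ← pow_add, ← pow_add]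
  congr 1
  omega

theorem St1_pe0 (k : ℕ) (hk : 10 ≤ k) : pe0 k = 2 ^ (2046 * k - 2) := by
  unfold pe0
  have h := St1_pn_split k hk
  rw [h]
  have hpos : 0 < 4 * pK k ^ 2 := by
    have := pK_ge k hk
    positivity
  exact Nat.mul_div_cancel_left _ hpos

theorem pe0_eq (k : ℕ) (hk : 10 ≤ k) : 4 * pK k ^ 2 * pe0 k = pn k ∧ pL k = 2 ^ pe0 k := by
  refine ⟨?_, rfl⟩
  rw [St1_pe0 k hk, ← St1_pn_split k hk]

/-- `pe0` is much larger than any fixed power of `n` in the exponent -/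
theorem pn_pow_le (k : ℕ) (hk : 10 ≤ k) (c : ℕ) (hc : c ≤ 64) :
    (pn k : ℝ) ^ c ≤ 2 ^ (pe0 k / 64) := by
  have h1 : pe0 k / 64 = 2 ^ (2046 * k - 8) := by
    rw [St1_pe0 k hk]
    have : (2 : ℕ) ^ (2046 * k - 2) = 64 * 2 ^ (2046 * k - 8) := by
      have h64 : (64 : ℕ) = 2 ^ 6 := by norm_num
      rw [h64, ← pow_add]
      congr 1
      omega
    rw [this]
    exact Nat.mul_div_cancel_left _ (by norm_num)
  have h2 : 2048 * k * c ≤ pe0 k / 64 := by
    rw [h1]
    have hk2 : k < 2 ^ k := Nat.lt_two_pow_self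
    calc 2048 * k * c ≤ 2048 * k * 64 := Nat.mul_le_mul_left _ hc
      _ = 2 ^ 17 * k := by ring
      _ ≤ 2 ^ 17 * 2 ^ k := Nat.mul_le_mul_left _ hk2.le
      _ = 2 ^ (17 + k) := by rw [pow_add]
      _ ≤ 2 ^ (2046 * k - 8) := Nat.pow_le_pow_right (by norm_num) (by omega)
  have h3 : (pn k : ℝ) ^ c = 2 ^ (2048 * k * c) := by
    unfold pn
    rw [Nat.cast_pow, ← pow_mul]
    norm_cast
  rw [h3]
  exact pow_le_pow_right₀ (by norm_num) h2

theorem St1_four_pow (k : ℕ) (hk : 10 ≤ k) : 12288 * k + 42 ≤ 4 ^ k := by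
  induction k, hk using Nat.le_induction with
  | base => norm_num
  | succ m hm ih =>
    rw [pow_succ]
    omega

theorem St1_log (k : ℕ) : Real.log (pn k) ≤ 2048 * k := by
  unfold pn
  rw [Nat.cast_pow, Real.log_pow]
  have h2 : Real.log ((2 : ℕ) : ℝ) ≤ 1 := by
    have := Real.log_two_lt_d9
    push_cast
    linarith
  push_cast at h2 ⊢
  have hk0 : (0 : ℝ) ≤ 2048 * k := by positivity
  nlinarith only [h2]

theorem log_pn_le (k : ℕ) (hk : 10 ≤ k) :
    1 + Real.log (pn k) ≤ (pK k : ℝ) ^ 2 ∧ 42 + 6 * Real.log (pn k) ≤ (pK k : ℝ) ^ 2 := by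
  have h1 := St1_log k
  have h2 : (12288 * k + 42 : ℝ) ≤ 4 ^ k := by exact_mod_cast St1_four_pow k hk
  have h3 : (pK k : ℝ) ^ 2 = 4 ^ k := by
    unfold pK
    rw [Nat.cast_pow, ← pow_mul, mul_comm, pow_mul]
    norm_num
  rw [h3]
  have hk0 : (0 : ℝ) ≤ k := Nat.cast_nonneg k
  constructor <;> linarith only [h1, h2]

theorem pJ_pos (k : ℕ) : 0 < pJ k := by
  unfold pJ pn pK; positivity

theorem St1_pK_pos (k : ℕ) : 0 < pK k := by
  unfold pK; positivity

theorem St1_quarter (x : ℝ) (hx : 0 < x) :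
    (x ^ 2048) ^ (-(9 / 4) : ℝ) = 1 / ((x ^ 2048) ^ 2 * x ^ 512) := by
  have h1 : (x ^ 2048) ^ (-(9 / 4) : ℝ) = x ^ (-(4608 : ℝ)) := by
    rw [← Real.rpow_natCast, ← Real.rpow_mul hx.le]
    congr 1
    push_cast
    ring
  rw [h1, Real.rpow_neg hx.le, ← pow_mul, ← pow_add, one_div]
  congr 1
  rw [← Real.rpow_natCast]
  congr 1

/-- quarter power -/
theorem pn_quarter (k : ℕ) : (pn k : ℝ) ^ (-(9 / 4) : ℝ) = 1 / ((pn k : ℝ) ^ 2 * (pK k : ℝ) ^ 512) := by
  have hx : (0 : ℝ) < pK k := by exact_mod_cast St1_pK_pos k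
  have := St1_quarter (pK k : ℝ) hx
  rw [pn_eq, Nat.cast_pow]
  exact this

theorem St1_rho_pos (k : ℕ) : 0 < pρ k := by
  unfold pρ; positivity

theorem zt_bounds (k N : ℕ) (hk : 10 ≤ k) (hN1 : 1 ≤ N) (hN : N ≤ 2 * pn k - 2) :
    1 / 2 ≤ zt k N ∧ zt k N ≤ 2 := by
  unfold zt
  refine Xu_RN (pn k) N (pn_even k hk).2 hN1 hN (pρ k) (St1_rho_pos k) ?_
  unfold pρ
  apply one_div_le_one_div_of_le (by positivity)
  exact pow_le_pow_right₀ (by norm_num) (by omega)

theorem St1_pn_ge (k : ℕ) (hk : 10 ≤ k) : pK k ^ 3 ≤ pn k := by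
  rw [pn_eq]
  exact Nat.pow_le_pow_right (St1_pK_pos k) (by norm_num)

theorem goodQ_range (k : ℕ) (hk : 10 ≤ k) (q : ℕ → ℕ) (hq : GoodQ k q) (d : ℕ) (h1 : 1 ≤ d)
    (hd : d < pK k) : 1 ≤ q d ∧ q d ≤ pn k - 2 := by
  have hQ := hq d h1 hd
  have hK := pK_ge k hk
  have hn := St1_pn_ge k hk
  have hn2 := (pn_even k hk).2
  have hKr : (1024 : ℝ) ≤ pK k := by exact_mod_cast hK
  have hnr : (pK k : ℝ) ^ 3 ≤ pn k := by exact_mod_cast hn
  have hdr : (d : ℝ) + 1 ≤ pK k := by exact_mod_cast hd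
  have h1r : (1 : ℝ) ≤ d := by exact_mod_cast h1
  generalize hKK : (pK k : ℝ) = K at *
  generalize hnn : (pn k : ℝ) = n at *
  have hK0 : 0 < K := by linarith only [hKr]
  have hpi := Real.pi_pos
  -- lower bound of the cosine
  have hlow : 1 / K ≤ Real.cos (Real.pi * d / (2 * K)) := by
    have e : Real.cos (Real.pi * d / (2 * K)) = Real.sin (Real.pi / 2 * ((K - d) / K)) := by
      rw [← Real.cos_pi_div_two_sub]
      congr 1
      field_simp
      ring
    have hx0 : 0 ≤ (K - d) / K := by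
      apply div_nonneg <;> linarith
    have hx1 : (K - d) / K ≤ 1 := by
      rw [div_le_one hK0]; linarith only []
    rw [e]
    have h := Real.mul_le_sin (x := Real.pi / 2 * ((K - d) / K)) (by positivity) (by nlinarith only [hpi, hx1])
    have h' : 2 / Real.pi * (Real.pi / 2 * ((K - d) / K)) = (K - d) / K := by
      field_simp
    rw [h'] at h
    refine le_trans ?_ h
    apply div_le_div_of_nonneg_right _ hK0.le
    linarith only [hdr]
  have hup : Real.cos (Real.pi * d / (2 * K)) ≤ 1 - 1 / (2 * K ^ 2) := by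
    have e : Real.cos (Real.pi * d / (2 * K)) = 1 - 2 * Real.sin (Real.pi * d / (4 * K)) ^ 2 := by
      have := Real.cos_sq' (Real.pi * d / (4 * K))
      have h2 := Real.cos_two_mul (Real.pi * d / (4 * K))
      have h3 : 2 * (Real.pi * d / (4 * K)) = Real.pi * d / (2 * K) := by
        field_simp
        ring
      rw [h3] at h2
      rw [h2, this]
      ring
    have hle : Real.pi * d / (4 * K) ≤ Real.pi / 2 := by
      rw [div_le_div_iff₀ (by positivity) (by norm_num)]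
      nlinarith only [hpi, hdr]
    have h := Real.mul_le_sin (x := Real.pi * d / (4 * K)) (by positivity) hle
    have h' : 2 / Real.pi * (Real.pi * d / (4 * K)) = d / (2 * K) := by
      field_simp
      ring
    rw [h'] at h
    have h4 : 1 / (2 * K) ≤ Real.sin (Real.pi * d / (4 * K)) := by
      refine le_trans ?_ h
      apply div_le_div_of_nonneg_right h1r (by positivity)
    have h5 : (1 / (2 * K)) ^ 2 ≤ Real.sin (Real.pi * d / (4 * K)) ^ 2 :=
      pow_le_pow_left₀ (by positivity) h4 2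
    rw [e]
    have h6 : 1 / (2 * K ^ 2) = 2 * (1 / (2 * K)) ^ 2 := by
      field_simp
    rw [h6]
    linarith only [h5]
  have hK3 : 1024 ^ 2 * K ≤ K ^ 3 := by
    have : 1024 ^ 2 ≤ K ^ 2 := pow_le_pow_left₀ (by norm_num) hKr 2
    linarith only [mul_nonneg_of_nonpos_of_nonpos (Mathlib.Tactic.Linarith.sub_nonpos_of_le (Mathlib.Tactic.Linarith.natCast_nonneg ℝ (Vale.Agent.P370.Q.pK k))) (Mathlib.Tactic.Linarith.sub_nonpos_of_le this), Mathlib.Tactic.Linarith.mul_zero_eq (Mathlib.Tactic.Linarith.sub_nonpos_of_le (sq_nonneg K)) (sub_eq_zero_of_eq hKK), hKK]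
  have hK3' : 1024 * K ^ 2 ≤ K ^ 3 := by
    have : 0 ≤ K ^ 2 := by positivity
    linarith only [mul_nonneg_of_nonpos_of_nonpos (Mathlib.Tactic.Linarith.sub_nonpos_of_le (sq_nonneg K)) (Mathlib.Tactic.Linarith.sub_nonpos_of_le hKr)]
  have hn1 : 0 ≤ n - 1 := by linarith only [hKr, hnr, hK3]
  obtain ⟨q1, q2⟩ := abs_le.1 hQ
  constructor
  · have : (1 : ℝ) ≤ q d := by
      have h7 : (n - 1) * (1 / K) ≤ (n - 1) * Real.cos (Real.pi * d / (2 * K)) :=
        mul_le_mul_of_nonneg_left hlow hn1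
      have h8 : 2 ≤ (n - 1) * (1 / K) := by
        rw [mul_one_div, le_div_iff₀ hK0]
        linarith only [hKr, hnr, hK3]
      linarith only [q1, h7, h8]
    exact_mod_cast this
  · have h9 : (q d : ℝ) + 2 ≤ n := by
      have h7 : (n - 1) * Real.cos (Real.pi * d / (2 * K)) ≤ (n - 1) * (1 - 1 / (2 * K ^ 2)) :=
        mul_le_mul_of_nonneg_left hup hn1
      have h8 : 2 ≤ (n - 1) * (1 / (2 * K ^ 2)) := by
        rw [mul_one_div, le_div_iff₀ (by positivity)]
        linarith only [hKr, hnr, hK3, hK3']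
      linarith only [q2, h7, h8]
    rw [← hnn] at h9
    have : q d + 2 ≤ pn k := by exact_mod_cast h9
    omega

theorem St1_sum (n : ℕ) : ∑ j ∈ range n, j ^ 2 ≤ n ^ 3 := by
  calc ∑ j ∈ range n, j ^ 2 ≤ ∑ _j ∈ range n, n ^ 2 := by
        refine Finset.sum_le_sum fun j hj => ?_
        exact Nat.pow_le_pow_left (Finset.mem_range.1 hj).le 2
    _ = n ^ 3 := by
        rw [Finset.sum_const, Finset.card_range, smul_eq_mul]
        ring

theorem pN_le (k : ℕ) (hk : 10 ≤ k) : (pN k : ℝ) ≤ (pn k : ℝ) ^ 4 := by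
  have hK := pK_ge k hk
  have hn := St1_pn_ge k hk
  have hs := St1_sum (pn k)
  have h : pN k ≤ pn k ^ 4 := by
    unfold pN
    have h1 : pK k ≤ pK k ^ 3 := by
      calc pK k = pK k ^ 1 := (pow_one _).symm
        _ ≤ pK k ^ 3 := Nat.pow_le_pow_right (St1_pK_pos k) (by norm_num)
    have h2 : pK k ≤ pn k := h1.trans hn
    have h3 : 3 ≤ pn k := by omega
    generalize pn k = n at *
    have h4 : n ≤ n ^ 3 := by
      calc n = n ^ 1 := (pow_one _).symm
        _ ≤ n ^ 3 := Nat.pow_le_pow_right (by omega) (by norm_num)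
    calc 2 * (∑ j ∈ range n, j ^ 2) + pK k ≤ 2 * n ^ 3 + n ^ 3 := by omega
      _ = 3 * n ^ 3 := by ring
      _ ≤ n * n ^ 3 := Nat.mul_le_mul_right _ h3
      _ = n ^ 4 := by ring
  exact_mod_cast h

theorem St1_Xu (n N : ℕ) (hn : 2 ≤ n) (hN : N ≤ 2 * n - 2) :
    0 < Xu n N (1 / 2 ^ (16 * n ^ 2)) ∧ Xu n N (1 / 2 ^ (16 * n ^ 2)) ≤ 2 ^ (34 * n ^ 3) := by
  have hn0 : (0 : ℝ) < n := by positivity
  constructor
  · unfold Xu
    positivity
  have h1 : (1 / (1 / 2 ^ (16 * n ^ 2) : ℝ)) ^ N ≤ 2 ^ (16 * n ^ 2 * (2 * n - 2)) := by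
    rw [one_div_one_div, ← pow_mul]
    exact pow_le_pow_right₀ (by norm_num) (Nat.mul_le_mul_left _ hN)
  have hnp : n < 2 ^ n := Nat.lt_two_pow_self
  have hnp' : (n : ℝ) ≤ 2 ^ n := by exact_mod_cast hnp.le
  have h2 : (2 * (N : ℝ) + 1) ≤ 2 ^ (n + 2) := by
    have : (2 * N + 1 : ℕ) ≤ 2 ^ (n + 2) := by
      rw [pow_add]
      omega
    exact_mod_cast this
  have h3 : (((2 * n).factorial : ℝ) / ((2 * n - 1 - N).factorial : ℝ)) ≤ 2 ^ ((n + 1) * (2 * n)) := by
    have e : (2 * n).factorial = (2 * n - 1 - N).factorial * (2 * n).descFactorial (N + 1) := by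
      have := Nat.factorial_mul_descFactorial (n := 2 * n) (k := N + 1) (by omega)
      rw [← this]
      congr 2
      omega
    rw [e, Nat.cast_mul, mul_div_cancel_left₀ _ (by positivity)]
    have hd : (2 * n).descFactorial (N + 1) ≤ 2 ^ ((n + 1) * (2 * n)) := by
      calc (2 * n).descFactorial (N + 1) ≤ (2 * n) ^ (N + 1) := Nat.descFactorial_le_pow _ _
        _ ≤ (2 * n) ^ (2 * n) := Nat.pow_le_pow_right (by omega) (by omega)
        _ ≤ (2 ^ (n + 1)) ^ (2 * n) := Nat.pow_le_pow_left (by rw [pow_succ]; omega) _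
        _ = 2 ^ ((n + 1) * (2 * n)) := by rw [← pow_mul]
    exact_mod_cast hd
  have h4 : ((n : ℝ) / 2) ^ (N + 1) ≤ 2 ^ (n * (2 * n)) := by
    have hn1 : (1 : ℝ) ≤ (n : ℝ) / 2 := by
      rw [le_div_iff₀ (by norm_num)]
      have : (2 : ℝ) ≤ n := by exact_mod_cast hn
      linarith only [this]
    calc ((n : ℝ) / 2) ^ (N + 1) ≤ ((n : ℝ) / 2) ^ (2 * n) := pow_le_pow_right₀ hn1 (by omega)
      _ ≤ (2 ^ n) ^ (2 * n) := by
          apply pow_le_pow_left₀ (by positivity)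
          linarith only [hnp']
      _ = 2 ^ (n * (2 * n)) := by rw [← pow_mul]
  unfold Xu
  calc (1 / (1 / 2 ^ (16 * n ^ 2) : ℝ)) ^ N * (2 * (N : ℝ) + 1) *
        (((2 * n).factorial : ℝ) / ((2 * n - 1 - N).factorial : ℝ)) * ((n : ℝ) / 2) ^ (N + 1)
      ≤ 2 ^ (16 * n ^ 2 * (2 * n - 2)) * 2 ^ (n + 2) * 2 ^ ((n + 1) * (2 * n)) * 2 ^ (n * (2 * n)) := by
        gcongr
    _ = 2 ^ (16 * n ^ 2 * (2 * n - 2) + (n + 2) + (n + 1) * (2 * n) + n * (2 * n)) := by
        rw [← pow_add, ← pow_add, ← pow_add]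
    _ ≤ 2 ^ (34 * n ^ 3) := by
        apply pow_le_pow_right₀ (by norm_num)
        obtain ⟨m, rfl⟩ : ∃ m, n = m + 2 := ⟨n - 2, by omega⟩
        have : 2 * (m + 2) - 2 = 2 * m + 2 := by omega
        rw [this]
        linarith only [Nat.zero_le (m ^ 2), Nat.zero_le (m ^ 3)]

/-- bound of the device units -/
theorem Xu_le (k N : ℕ) (hk : 10 ≤ k) (hN : N ≤ 2 * pn k - 2) :
    0 < Xu (pn k) N (pρ k) ∧ Xu (pn k) N (pρ k) ≤ 2 ^ (34 * pn k ^ 3) := by
  unfold pρ
  exact St1_Xu (pn k) N (pn_even k hk).2 hN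

end Vale.Agent.P370.Q
end
end

section

section

/-!
Selectivity of the hopping devices at the lattice angles.
-/

namespace Vale.Agent.P370.Q

open MeasureTheory Finset

theorem st5_sin_pos_case (K : ℝ) (hK : 0 < K) (x : ℝ) (h1 : 1 ≤ x) (h2 : x ≤ 2 * K - 1) :
    1 / K ≤ Real.sin (Real.pi * x / (2 * K)) := by
  have hpi := Real.pi_pos
  rcases le_total x K with hxK | hxK
  · have h := Real.mul_le_sin (x := Real.pi * x / (2 * K)) (by positivity)
      (by rw [div_le_div_iff₀ (by positivity) (by norm_num)]; linarith only [mul_nonneg_of_nonpos_of_nonpos (le_of_lt (Mathlib.Tactic.Linarith.sub_neg_of_lt hpi)) (Mathlib.Tactic.Linarith.sub_nonpos_of_le hxK)])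
    have e : 2 / Real.pi * (Real.pi * x / (2 * K)) = x / K := by field_simp
    rw [e] at h
    exact le_trans (by gcongr) h
  · have e0 : Real.sin (Real.pi * x / (2 * K)) = Real.sin (Real.pi * (2 * K - x) / (2 * K)) := by
      rw [← Real.sin_pi_sub]
      congr 1
      field_simp
    rw [e0]
    have hx1 : 1 ≤ 2 * K - x := by linarith
    have h := Real.mul_le_sin (x := Real.pi * (2 * K - x) / (2 * K)) (by positivity)
      (by rw [div_le_div_iff₀ (by positivity) (by norm_num)]; nlinarith only [hpi, hxK])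
    have e : 2 / Real.pi * (Real.pi * (2 * K - x) / (2 * K)) = (2 * K - x) / K := by field_simp
    rw [e] at h
    exact le_trans (by gcongr) h

theorem st5_abs_sin (K : ℝ) (hK : 0 < K) (x : ℝ) (h1 : 1 ≤ |x|) (h2 : |x| ≤ 2 * K - 1) :
    1 / K ≤ |Real.sin (Real.pi * x / (2 * K))| := by
  rcases le_total 0 x with hx | hx
  · rw [abs_of_nonneg hx] at h1 h2
    exact le_trans (st5_sin_pos_case K hK x h1 h2) (le_abs_self _)
  · rw [abs_of_nonpos hx] at h1 h2
    have h := st5_sin_pos_case K hK (-x) h1 h2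
    have e : Real.pi * -x / (2 * K) = -(Real.pi * x / (2 * K)) := by ring
    rw [e, Real.sin_neg] at h
    exact le_trans h (neg_le_abs _)

theorem st5_one_sub_cos (K : ℝ) (hK : 0 < K) (x : ℝ) (h1 : 1 ≤ |x|) (h2 : |x| ≤ 2 * K - 1) :
    1 / (2 * K ^ 2) ≤ 1 - |Real.cos (Real.pi * x / (2 * K))| := by
  have h := st5_abs_sin K hK x h1 h2
  have hs : (1 / K) ^ 2 ≤ Real.sin (Real.pi * x / (2 * K)) ^ 2 := by
    rw [← sq_abs (Real.sin _)]
    gcongr
  have hc := Real.abs_cos_le_one (Real.pi * x / (2 * K))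
  have hc0 := abs_nonneg (Real.cos (Real.pi * x / (2 * K)))
  have hsc := Real.sin_sq_add_cos_sq (Real.pi * x / (2 * K))
  rw [← sq_abs (Real.cos _)] at hsc
  have e : 1 / (2 * K ^ 2) = (1 / K) ^ 2 / 2 := by field_simp
  rw [e]
  nlinarith only [hs, hsc]

theorem st5_one_sub_sin (K : ℝ) (hK : 0 < K) (x : ℝ) (h1 : 1 ≤ abs (K - |x|))
    (h2 : |x| ≤ 2 * K - 1) :
    1 / (2 * K ^ 2) ≤ 1 - |Real.sin (Real.pi * x / (2 * K))| := by
  have e : |Real.sin (Real.pi * x / (2 * K))| =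
      |Real.cos (Real.pi * (K - |x|) / (2 * K))| := by
    have e1 : Real.pi * (K - |x|) / (2 * K) = Real.pi / 2 - Real.pi * |x| / (2 * K) := by
      field_simp
    rw [e1, Real.cos_pi_div_two_sub]
    rcases le_total 0 x with hx | hx
    · rw [abs_of_nonneg hx]
    · rw [abs_of_nonpos hx]
      have e2 : Real.pi * -x / (2 * K) = -(Real.pi * x / (2 * K)) := by ring
      rw [e2, Real.sin_neg, abs_neg]
  rw [e]
  apply st5_one_sub_cos K hK _ h1
  have := abs_nonneg x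
  rw [abs_le]
  constructor
  · linarith
  · by_contra hcon
    push Not at hcon
    have h3 : K < 1 := by linarith
    rcases abs_cases (K - |x|) with ⟨h4, h5⟩ | ⟨h4, h5⟩ <;> rw [h4] at h1 <;> linarith

theorem st5_cos_gap (K u v : ℝ) (hK : 0 < K) (hu : 0 ≤ u) (huv : u + 1 ≤ v) (hv : v ≤ K) :
    1 / (2 * K ^ 2) ≤ Real.cos (Real.pi * u / (2 * K)) - Real.cos (Real.pi * v / (2 * K)) := by
  have hpi := Real.pi_pos
  rw [Real.cos_sub_cos]
  have e1 : (Real.pi * u / (2 * K) + Real.pi * v / (2 * K)) / 2 = Real.pi * (u + v) / (4 * K) := by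
    field_simp; ring
  have e2 : (Real.pi * u / (2 * K) - Real.pi * v / (2 * K)) / 2 =
      -(Real.pi * (v - u) / (4 * K)) := by
    field_simp; ring
  rw [e1, e2, Real.sin_neg]
  have hv0 : 0 ≤ v := by linarith only [hu, huv]
  have hvu : 0 ≤ v - u := by linarith only [huv]
  have h1 := Real.mul_le_sin (x := Real.pi * (u + v) / (4 * K)) (by positivity)
    (by rw [div_le_div_iff₀ (by positivity) (by norm_num)]; nlinarith only [hpi, huv, hv])
  have h2 := Real.mul_le_sin (x := Real.pi * (v - u) / (4 * K)) (by positivity)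
    (by rw [div_le_div_iff₀ (by positivity) (by norm_num)]; nlinarith only [hK, hpi, hu, hv])
  have e3 : 2 / Real.pi * (Real.pi * (u + v) / (4 * K)) = (u + v) / (2 * K) := by
    field_simp; ring
  have e4 : 2 / Real.pi * (Real.pi * (v - u) / (4 * K)) = (v - u) / (2 * K) := by
    field_simp; ring
  rw [e3] at h1
  rw [e4] at h2
  have h3 : 1 / (2 * K) ≤ (u + v) / (2 * K) := by gcongr; linarith only [hu, huv]
  have h4 : 1 / (2 * K) ≤ (v - u) / (2 * K) := by gcongr; linarith only [huv]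
  have h5 := le_trans h3 h1
  have h6 := le_trans h4 h2
  have h7 : 1 / (2 * K) * (1 / (2 * K)) ≤
      Real.sin (Real.pi * (u + v) / (4 * K)) * Real.sin (Real.pi * (v - u) / (4 * K)) :=
    mul_le_mul h5 h6 (by positivity) (le_trans (by positivity) h5)
  have e5 : 1 / (2 * K ^ 2) = 2 * (1 / (2 * K) * (1 / (2 * K))) := by field_simp
  rw [e5]
  linarith only [h7]

theorem st5_cos_gap_nat (K : ℝ) (u v : ℕ) (hK : 0 < K) (huv : u ≠ v) (hu : (u : ℝ) ≤ K)
    (hv : (v : ℝ) ≤ K) :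
    1 / (2 * K ^ 2) ≤ |Real.cos (Real.pi * u / (2 * K)) - Real.cos (Real.pi * v / (2 * K))| := by
  rcases lt_or_gt_of_ne huv with h | h
  · have h' : (u : ℝ) + 1 ≤ v := by exact_mod_cast h
    exact le_trans (st5_cos_gap K u v hK (by positivity) h' hv) (le_abs_self _)
  · have h' : (v : ℝ) + 1 ≤ u := by exact_mod_cast h
    rw [abs_sub_comm]
    exact le_trans (st5_cos_gap K v u hK (by positivity) h' hu) (le_abs_self _)

theorem st5_pK_real (k : ℕ) (hk : 10 ≤ k) : (1024 : ℝ) ≤ (pK k : ℝ) := by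
  exact_mod_cast pK_ge k hk

theorem st5_pn_ge (k : ℕ) (hk : 10 ≤ k) : 4 * (pK k : ℝ) ^ 2 ≤ (pn k : ℝ) - 1 := by
  have h1 := st5_pK_real k hk
  have h2 : (pn k : ℝ) = (pK k : ℝ) ^ 2048 := by exact_mod_cast pn_eq k
  rw [h2]
  have h3 : (pK k : ℝ) ^ 3 ≤ (pK k : ℝ) ^ 2048 := pow_le_pow_right₀ (by linarith only [h1]) (by norm_num)
  have h4 : (1 : ℝ) ≤ (pK k : ℝ) ^ 2 := one_le_pow₀ (by linarith only [h1])
  have h5 : (pK k : ℝ) ^ 3 = pK k * (pK k : ℝ) ^ 2 := by ring
  nlinarith only [h3, h1]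

/-- distance between the relative order of a device and the cosine of its angle -/
theorem st5_x_near (k : ℕ) (hk : 10 ≤ k) (q : ℕ → ℕ) (hq : GoodQ k q) (d : ℕ) (hd1 : 1 ≤ d)
    (hd : d < pK k) :
    |(q d : ℝ) / ((pn k : ℝ) - 1) - Real.cos (Real.pi * d / (2 * pK k))| ≤
      1 / (4 * (pK k : ℝ) ^ 2) := by
  have h := hq d hd1 hd
  have hK := st5_pK_real k hk
  have hn := st5_pn_ge k hk
  have hn0 : 0 < (pn k : ℝ) - 1 := by linarith only [mul_nonneg_of_nonpos_of_nonpos (Mathlib.Tactic.Linarith.sub_nonpos_of_le (Mathlib.Tactic.Linarith.natCast_nonneg ℝ (Vale.Agent.P370.Q.pK k))) (Mathlib.Tactic.Linarith.sub_nonpos_of_le hK), hn, hK]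
  have e : (q d : ℝ) / ((pn k : ℝ) - 1) - Real.cos (Real.pi * d / (2 * pK k)) =
      ((q d : ℝ) - ((pn k : ℝ) - 1) * Real.cos (Real.pi * d / (2 * pK k))) /
        ((pn k : ℝ) - 1) := by
    field_simp
  rw [e, abs_div, abs_of_pos hn0]
  have hK0 : (0 : ℝ) < pK k := by linarith only [hK]
  rw [div_le_div_iff₀ hn0 (by positivity)]
  linarith only [mul_nonneg_of_nonpos_of_nonpos (Mathlib.Tactic.Linarith.sub_nonpos_of_le (sq_nonneg ↑(Vale.Agent.P370.Q.pK k))) (Mathlib.Tactic.Linarith.sub_nonpos_of_le h), hn]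

theorem st5_x_low (k : ℕ) (hk : 10 ≤ k) (q : ℕ → ℕ) (hq : GoodQ k q) (d : ℕ) (hd1 : 1 ≤ d)
    (hd : d < pK k) :
    1 / (2 * (pK k : ℝ)) ≤ (q d : ℝ) / ((pn k : ℝ) - 1) := by
  have h := st5_x_near k hk q hq d hd1 hd
  have hK := st5_pK_real k hk
  have hK0 : (0 : ℝ) < pK k := by linarith only [hK]
  have hc : 1 / (pK k : ℝ) ≤ Real.cos (Real.pi * d / (2 * pK k)) := by
    rw [← Real.sin_pi_div_two_sub]
    have e : Real.pi / 2 - Real.pi * d / (2 * pK k) = Real.pi * (pK k - d) / (2 * pK k) := by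
      field_simp
    rw [e]
    have hd' : (d : ℝ) + 1 ≤ pK k := by exact_mod_cast hd
    have hd0 : (0 : ℝ) ≤ d := by positivity
    exact st5_sin_pos_case _ hK0 _ (by linarith only [hd']) (by linarith only [hK])
  have h1 := (abs_le.1 h).1
  have h2 : 1 / (4 * (pK k : ℝ) ^ 2) ≤ 1 / (2 * (pK k : ℝ)) := by
    apply one_div_le_one_div_of_le (by positivity)
    nlinarith only [hK]
  have h3 : 1 / (pK k : ℝ) = 1 / (2 * (pK k : ℝ)) + 1 / (2 * (pK k : ℝ)) := by field_simp; norm_num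
  linarith only [hc, h1, h2, h3]

/-- quadratic alternative -/
theorem st5_quad (K x c : ℝ) (u v : ℕ) (hK : 0 < K) (huv : u ≠ v) (hu : (u : ℝ) ≤ K)
    (hv : (v : ℝ) ≤ K) (hx : |x - Real.cos (Real.pi * v / (2 * K))| ≤ 1 / (4 * K ^ 2))
    (hc : c = Real.cos (Real.pi * u / (2 * K))) :
    1 / (64 * K ^ 4) ≤ (x - c) ^ 2 / 4 := by
  have h := st5_cos_gap_nat K u v hK huv hu hv
  rw [← hc] at h
  have h1 : 1 / (2 * K ^ 2) - 1 / (4 * K ^ 2) ≤ |x - c| := by
    have h2 : |c - Real.cos (Real.pi * v / (2 * K))| ≤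
        |x - c| + |x - Real.cos (Real.pi * v / (2 * K))| := by
      have := abs_sub_le c x (Real.cos (Real.pi * v / (2 * K)))
      rwa [abs_sub_comm c x] at this
    linarith
  have e : 1 / (2 * K ^ 2) - 1 / (4 * K ^ 2) = 1 / (4 * K ^ 2) := by field_simp; norm_num
  rw [e] at h1
  have h3 : (1 / (4 * K ^ 2)) ^ 2 ≤ |x - c| ^ 2 := by gcongr
  rw [sq_abs] at h3
  have e2 : 1 / (64 * K ^ 4) = (1 / (4 * K ^ 2)) ^ 2 / 4 := by field_simp; norm_num
  rw [e2]
  linarith only [h3]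

/-- linear alternative -/
theorem st5_lin (K x c : ℝ) (hK : 1 ≤ K) (hx : 1 / (2 * K) ≤ x) (hc : 1 / (2 * K ^ 2) ≤ 1 - c) :
    1 / (64 * K ^ 4) ≤ x * (1 - c) := by
  have hK0 : 0 < K := by linarith
  have h1 : 1 / (2 * K) * (1 / (2 * K ^ 2)) ≤ x * (1 - c) := by
    have : 0 ≤ x := le_trans (by positivity) hx
    gcongr
  refine le_trans ?_ h1
  have e : 1 / (2 * K) * (1 / (2 * K ^ 2)) = 1 / (4 * K ^ 3) := by field_simp; norm_num
  rw [e]
  apply one_div_le_one_div_of_le (by positivity)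
  have h3 : 0 < K ^ 3 := by positivity
  have e4 : K ^ 4 = K * K ^ 3 := by ring
  rw [e4]
  nlinarith only [h3, hK]

/-- the device of the pair `a < b` couples no other pair of sites -/
theorem hop_leak (k : ℕ) (hk : 10 ≤ k) (q : ℕ → ℕ) (hq : GoodQ k q) (a b : ℕ) (hab : a < b)
    (hb : b < pK k) (i j : Fin (pK k))
    (h : ¬((i : ℕ) = a ∧ (j : ℕ) = b) ∧ ¬((i : ℕ) = b ∧ (j : ℕ) = a)) :
    |hopA (pn k) (q (b - a)) ((pα k a + pα k b) / 2) (pα k i) (pα k j)| ≤
      8 * Real.exp (-(((pn k : ℝ) - 1) / (64 * (pK k : ℝ) ^ 4))) := by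
  have hd1 : 1 ≤ b - a := by omega
  have hd : b - a < pK k := by omega
  have hK := st5_pK_real k hk
  have hK0 : (0 : ℝ) < pK k := by linarith only [hK]
  have hn2 := (pn_even k hk).2
  obtain ⟨hq1, hq2⟩ := goodQ_range k hk q hq (b - a) hd1 hd
  rw [abs_of_nonneg (hopA_nonneg _ _ hn2 (by omega) _ _ _)]
  have hx := st5_x_near k hk q hq (b - a) hd1 hd
  have hxl := st5_x_low k hk q hq (b - a) hd1 hd
  have e0 : ((pn k : ℝ) - 1) / (64 * (pK k : ℝ) ^ 4) =
      ((pn k : ℝ) - 1) * (1 / (64 * (pK k : ℝ) ^ 4)) := by ring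
  rw [e0]
  have hi := i.isLt
  have hj := j.isLt
  -- the natural number `|i - j|`
  obtain ⟨w, hw⟩ : ∃ w : ℕ, w = ((i : ℤ) - (j : ℤ)).natAbs := ⟨_, rfl⟩
  have hwK : w < pK k := by omega
  have hwR : |((i : ℕ) : ℝ) - ((j : ℕ) : ℝ)| = (w : ℝ) := by
    have : ((((i : ℕ) : ℤ) - ((j : ℕ) : ℤ)).natAbs : ℝ) = |((((i : ℕ) : ℤ) - ((j : ℕ) : ℤ) : ℤ) : ℝ)| := by
      rw [Nat.cast_natAbs]
      push_cast
      rfl
    rw [hw, this]
    push_cast
    rfl
  have hwle : (w : ℝ) ≤ pK k := by exact_mod_cast hwK.le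
  have hdle : ((b - a : ℕ) : ℝ) ≤ pK k := by exact_mod_cast hd.le
  have ed : (pα k i - pα k j) / 2 =
      Real.pi * (((i : ℕ) : ℝ) - ((j : ℕ) : ℝ)) / (2 * pK k) := by
    unfold pα; field_simp
  have es : (pα k i + pα k j) / 2 - (pα k a + pα k b) / 2 =
      Real.pi * (((i : ℕ) : ℝ) + ((j : ℕ) : ℝ) - a - b) / (2 * pK k) := by
    unfold pα; field_simp; ring
  have hangle : |Real.pi * (((i : ℕ) : ℝ) - ((j : ℕ) : ℝ)) / (2 * pK k)| =
      Real.pi * w / (2 * pK k) := by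
    rw [abs_div, abs_mul, abs_of_pos Real.pi_pos, hwR, abs_of_pos (by positivity)]
  have hangle_le : Real.pi * w / (2 * pK k) ≤ Real.pi / 2 := by
    rw [div_le_div_iff₀ (by positivity) (by norm_num)]
    linarith only [mul_nonneg_of_nonpos_of_nonpos (Mathlib.Tactic.Linarith.sub_nonpos_of_le hwle) (le_of_lt (Mathlib.Tactic.Linarith.sub_neg_of_lt Real.pi_pos))]
  -- the integer `i + j - a - b`
  obtain ⟨m, hm⟩ : ∃ m : ℤ, m = (i : ℤ) + (j : ℤ) - a - b := ⟨_, rfl⟩
  have hmR : (m : ℝ) = ((i : ℕ) : ℝ) + ((j : ℕ) : ℝ) - a - b := by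
    rw [hm]; push_cast; rfl
  have hmabs : |m| ≤ 2 * (pK k : ℤ) - 1 := by
    rw [abs_le]
    constructor <;> omega
  have hmabsR : |(m : ℝ)| ≤ 2 * (pK k : ℝ) - 1 := by
    have : ((|m| : ℤ) : ℝ) ≤ ((2 * (pK k : ℤ) - 1 : ℤ) : ℝ) := by exact_mod_cast hmabs
    push_cast at this
    exact this
  apply hopA_upper _ _ hn2 hq1 hq2
  · positivity
  · rw [ed, es, ← hmR]
    by_cases hm0 : m = 0
    · left
      have hne : w ≠ b - a := by
        intro hcon
        rcases Nat.lt_or_ge (j : ℕ) (i : ℕ) with h5 | h5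
        · exact h.2 ⟨by omega, by omega⟩
        · exact h.1 ⟨by omega, by omega⟩
      refine st5_quad (pK k) _ _ w (b - a) hK0 hne hwle hdle hx ?_
      rw [← Real.cos_abs (Real.pi * (((i : ℕ) : ℝ) - ((j : ℕ) : ℝ)) / (2 * pK k)), hangle,
        abs_of_nonneg]
      apply Real.cos_nonneg_of_neg_pi_div_two_le_of_le _ hangle_le
      have : 0 ≤ Real.pi * w / (2 * pK k) := by positivity
      linarith only [this, Real.pi_pos]
    · right
      refine st5_lin (pK k) _ _ (by linarith only [hK]) hxl ?_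
      apply st5_one_sub_cos _ hK0 _ _ hmabsR
      have : (1 : ℤ) ≤ |m| := Int.one_le_abs hm0
      have h5 : ((1 : ℤ) : ℝ) ≤ ((|m| : ℤ) : ℝ) := by exact_mod_cast this
      push_cast at h5
      exact h5
  · rw [ed, es, ← hmR]
    by_cases hmK : |m| = (pK k : ℤ)
    · left
      have hne : pK k - w ≠ b - a := by
        intro hcon
        rcases abs_cases m with ⟨h6, h7⟩ | ⟨h6, h7⟩ <;>
        rcases Nat.lt_or_ge (j : ℕ) (i : ℕ) with h5 | h5 <;> omega
      have hle2 : ((pK k - w : ℕ) : ℝ) ≤ pK k := by exact_mod_cast Nat.sub_le _ _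
      refine st5_quad (pK k) _ _ (pK k - w) (b - a) hK0 hne hle2 hdle hx ?_
      rw [Nat.cast_sub hwK.le]
      have e1 : Real.pi * ((pK k : ℝ) - w) / (2 * pK k) =
          Real.pi / 2 - Real.pi * w / (2 * pK k) := by
        field_simp
      rw [e1, Real.cos_pi_div_two_sub, ← hangle]
      have hns : 0 ≤ Real.sin |Real.pi * (((i : ℕ) : ℝ) - ((j : ℕ) : ℝ)) / (2 * pK k)| := by
        apply Real.sin_nonneg_of_nonneg_of_le_pi (abs_nonneg _)
        rw [hangle]
        linarith only [hangle_le, Real.pi_pos]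
      rcases abs_cases (Real.pi * (((i : ℕ) : ℝ) - ((j : ℕ) : ℝ)) / (2 * pK k)) with
        ⟨h6, h7⟩ | ⟨h6, h7⟩
      · rw [h6] at hns ⊢
        rw [abs_of_nonneg hns]
      · rw [h6] at hns ⊢
        rw [Real.sin_neg] at hns ⊢
        rw [abs_of_nonpos (by linarith only [hns])]
    · right
      refine st5_lin (pK k) _ _ (by linarith only [hK]) hxl ?_
      apply st5_one_sub_sin _ hK0 _ _ hmabsR
      have h5 : (pK k : ℤ) - |m| ≠ 0 := by omega
      have : (1 : ℤ) ≤ abs ((pK k : ℤ) - |m|) := Int.one_le_abs h5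
      have h6 : ((1 : ℤ) : ℝ) ≤ ((abs ((pK k : ℤ) - |m|) : ℤ) : ℝ) := by exact_mod_cast this
      push_cast at h6
      exact h6

/-- the device of the pair `a < b` on its own pair -/
theorem hop_own (k : ℕ) (hk : 10 ≤ k) (q : ℕ → ℕ) (hq : GoodQ k q) (a b : ℕ) (hab : a < b)
    (hb : b < pK k) :
    hopA (pn k) (q (b - a)) ((pα k a + pα k b) / 2) (pα k a) (pα k b) = amp k q (b - a) ∧
    hopA (pn k) (q (b - a)) ((pα k a + pα k b) / 2) (pα k b) (pα k a) = amp k q (b - a) := by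
  have hd1 : 1 ≤ b - a := by omega
  have hd : b - a < pK k := by omega
  have hK := st5_pK_real k hk
  have hK0 : (0 : ℝ) < pK k := by linarith only [hK]
  have hn2 := (pn_even k hk).2
  obtain ⟨hq1, hq2⟩ := goodQ_range k hk q hq (b - a) hd1 hd
  have main : hopA (pn k) (q (b - a)) ((pα k a + pα k b) / 2) (pα k b) (pα k a) =
      amp k q (b - a) := by
    unfold amp
    rw [← hopA_shift (pn k) (q (b - a)) hn2 (by omega) 0
      (0 + Real.pi * ((b - a : ℕ) : ℝ) / (2 * pK k)) (0 - Real.pi * ((b - a : ℕ) : ℝ) / (2 * pK k))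
      ((pα k a + pα k b) / 2)]
    have hc : ((b - a : ℕ) : ℝ) = (b : ℝ) - a := by
      rw [Nat.cast_sub hab.le]
    congr 1
    · ring
    · rw [hc]; unfold pα; field_simp; ring
    · rw [hc]; unfold pα; field_simp; ring
  exact ⟨by rw [hopA_symm]; exact main, main⟩

theorem leak_small (k : ℕ) (hk : 10 ≤ k) :
    (pn k : ℝ) ^ 20 * Real.exp (-(((pn k : ℝ) - 1) / (64 * (pK k : ℝ) ^ 4))) ≤
      1 / (pn k : ℝ) ^ 4 := by
  have hK := st5_pK_real k hk
  have hK0 : (0 : ℝ) < pK k := by linarith only [hK]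
  have hn : (pn k : ℝ) = (pK k : ℝ) ^ 2048 := by exact_mod_cast pn_eq k
  have hn0 : (0 : ℝ) < pn k := by rw [hn]; positivity
  set y := ((pn k : ℝ) - 1) / (64 * (pK k : ℝ) ^ 4) with hy
  have hyl : (pK k : ℝ) ^ 2040 ≤ y := by
    rw [hy, le_div_iff₀ (by positivity), hn]
    have h1 : (pK k : ℝ) ^ 2040 * (64 * (pK k : ℝ) ^ 4) = 64 * (pK k : ℝ) ^ 2044 := by ring
    rw [h1]
    have h2 : (pK k : ℝ) ^ 2048 = (pK k : ℝ) ^ 4 * (pK k : ℝ) ^ 2044 := by ring
    rw [h2]
    have h3 : (1 : ℝ) ≤ (pK k : ℝ) ^ 2044 := one_le_pow₀ (by linarith only [hK])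
    have h4 : (65 : ℝ) ≤ (pK k : ℝ) ^ 4 := by
      calc (65 : ℝ) ≤ (1024 : ℝ) ^ 4 := by norm_num
        _ ≤ (pK k : ℝ) ^ 4 := by gcongr
    nlinarith only [h3, h4]
  have hy0 : 0 ≤ y := le_trans (by positivity) hyl
  have hexp := Real.pow_div_factorial_le_exp y hy0 26
  have h1 : ((pK k : ℝ) ^ 2040) ^ 26 / (Nat.factorial 26 : ℝ) ≤ Real.exp y := by
    refine le_trans ?_ hexp
    gcongr
  have h2 : (pn k : ℝ) ^ 24 ≤ ((pK k : ℝ) ^ 2040) ^ 26 / (Nat.factorial 26 : ℝ) := by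
    rw [le_div_iff₀ (by positivity), hn, ← pow_mul, ← pow_mul]
    have h3 : (Nat.factorial 26 : ℝ) ≤ (pK k : ℝ) ^ 9 := by
      calc (Nat.factorial 26 : ℝ) ≤ (1024 : ℝ) ^ 9 := by
            norm_num [Nat.factorial]
        _ ≤ (pK k : ℝ) ^ 9 := by gcongr
    calc (pK k : ℝ) ^ (2048 * 24) * (Nat.factorial 26 : ℝ) ≤
        (pK k : ℝ) ^ (2048 * 24) * (pK k : ℝ) ^ 9 := by gcongr
      _ = (pK k : ℝ) ^ (2048 * 24 + 9) := by rw [pow_add]
      _ ≤ (pK k : ℝ) ^ (2040 * 26) := pow_le_pow_right₀ (by linarith only [hK]) (by norm_num)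
  have h3 := le_trans h2 h1
  rw [Real.exp_neg, le_div_iff₀ (by positivity)]
  have h4 : (pn k : ℝ) ^ 20 * (Real.exp y)⁻¹ * (pn k : ℝ) ^ 4 =
      (pn k : ℝ) ^ 24 / Real.exp y := by
    rw [div_eq_mul_inv]; ring
  rw [h4, div_le_one (Real.exp_pos y)]
  exact h3

end Vale.Agent.P370.Q
end
end

section

section

/-!
Final numerical estimates for the structure theorem.
-/

namespace Vale.Agent.P370.Q

open Finset

theorem pn_pos (k : ℕ) : 0 < pn k := by unfold pn; positivity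

theorem pn_ge (k : ℕ) (hk : 10 ≤ k) : 1024 ≤ pn k := by
  rw [pn_eq]
  calc 1024 ≤ pK k := pK_ge k hk
    _ = pK k ^ 1 := (pow_one _).symm
    _ ≤ pK k ^ 2048 := Nat.pow_le_pow_right (by have := pK_ge k hk; omega) (by norm_num)

/-- powers of two beat `n^3` multiples -/
theorem two_pow_mono {a b : ℕ} (h : a ≤ b) : (2 : ℝ) ^ a ≤ 2 ^ b :=
  pow_le_pow_right₀ (by norm_num) h

theorem pn_le_two_pow (k : ℕ) : (pn k : ℝ) ≤ 2 ^ pn k := by
  have : pn k < 2 ^ pn k := Nat.lt_two_pow_self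
  exact_mod_cast this.le

theorem pn_cube_ge (k : ℕ) (hk : 10 ≤ k) : 1024 * pn k ≤ pn k ^ 3 := by
  have h := pn_ge k hk
  calc 1024 * pn k ≤ pn k ^ 2 * pn k := by
        apply Nat.mul_le_mul_right
        nlinarith
    _ = pn k ^ 3 := by ring

/-- the accuracy `pJ / K^8` is not smaller than `2 ^ (-n^3)` -/
theorem acc_ge (k : ℕ) (hk : 10 ≤ k) : 1024 / 2 ^ (pn k ^ 3) ≤ pJ k / (pK k : ℝ) ^ 8 := by
  have hK : (1024 : ℝ) ≤ pK k := by exact_mod_cast pK_ge k hk
  have hK1 : (1 : ℝ) ≤ pK k := by linarith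
  have hn : (1024 : ℝ) ≤ pn k := by exact_mod_cast pn_ge k hk
  have hKn : (pK k : ℝ) ^ 264 ≤ pn k := by
    have : pK k ^ 264 ≤ pn k := by
      rw [pn_eq]
      exact Nat.pow_le_pow_right (by have := pK_ge k hk; omega) (by norm_num)
    exact_mod_cast this
  have h1 : pJ k / (pK k : ℝ) ^ 8 = 1 / ((pn k : ℝ) ^ 2 * (pK k : ℝ) ^ 264) := by
    unfold pJ
    rw [div_div]
    congr 1
    ring
  rw [h1, div_le_div_iff₀ (by positivity) (by positivity), one_mul]
  calc 1024 * ((pn k : ℝ) ^ 2 * (pK k : ℝ) ^ 264) ≤ (pn k : ℝ) * ((pn k : ℝ) ^ 2 * pn k) := by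
        gcongr
    _ = (pn k : ℝ) ^ 4 := by ring
    _ ≤ (2 ^ pn k) ^ 4 := by
        gcongr
        exact pn_le_two_pow k
    _ = 2 ^ (4 * pn k) := by rw [← pow_mul]; ring_nf
    _ ≤ 2 ^ (pn k ^ 3) := by
        apply two_pow_mono
        have := pn_cube_ge k hk
        omega

end Vale.Agent.P370.Q
end
end

section

section

/-!
The final comparison (H9).
-/

namespace Vale.Agent.P370.H

open Finset

/-! ### auxiliary facts -/

theorem rnd_pau_smul {n : ℕ} (P i : ℕ) (c : ℝ) (v : RSt n) :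
    pau P i (c • v) = c • pau P i v := by
  unfold pau
  split_ifs
  · rfl
  · funext x; simp
  · funext x; simp only [Pi.smul_apply, smul_eq_mul]; ring
  · rfl

theorem rnd_tform_smul {n : ℕ} (L : List (Tm ℝ)) (c : ℝ) (v : RSt n) :
    tform L (c • v) = c ^ 2 * tform L v := by
  unfold tform
  rw [← List.sum_map_mul_left]
  congr 1
  refine List.map_congr_left fun t _ => ?_
  rw [rnd_pau_smul, rnd_pau_smul, clk_ip_smul_left, clk_ip_smul_right]
  ring

theorem rnd_tform_zero {n : ℕ} (L : List (Tm ℝ)) : tform L (0 : RSt n) = 0 := by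
  have := rnd_tform_smul L 0 (0 : RSt n)
  simpa using this

/-- energy of the circuit Hamiltonian, no instances -/
theorem ham_no (N m : ℕ) (hN : 1 ≤ N) (rs : List Rnd) (hok : ∀ r ∈ rs, r.Ok N)
    (hacc : ∀ φ : RSt N, ValidIn m φ → 2 / 3 * nrm2 φ ≤ nrm2 (zer 0 (runR rs φ)))
    (v : RSt (N + tc rs.length)) :
    7 / (9 * ((rs.length : ℝ) + 1)) * nrm2 v ≤ tform (ham N m rs 1 trR) v := by
  have hM : (0 : ℝ) < (rs.length : ℝ) + 1 := by (clear * -; positivity)
  have hM1 : (1 : ℝ) ≤ (rs.length : ℝ) + 1 := by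
    have : (0 : ℝ) ≤ (rs.length : ℝ) := Nat.cast_nonneg _
    linarith only []
  have h := clock_lower N m hN rs hok ((2 / 3 - 1 / 24) / (6 * ((rs.length : ℝ) + 1)))
    (by (clear * -; positivity)) (by
      rw [div_le_one (by positivity)]
      linarith only []) (hist_lower N m hN rs hok hacc) v
  have he : 8 * ((2 / 3 - 1 / 24) / (6 * ((rs.length : ℝ) + 1))) -
      1 / (18 * ((rs.length : ℝ) + 1)) = 7 / (9 * ((rs.length : ℝ) + 1)) := by
    field_simp
    norm_num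
  rwa [he] at h

/-- energy of the circuit Hamiltonian, yes instances -/
theorem ham_yes (N m : ℕ) (hN : 1 ≤ N) (rs : List Rnd) (hok : ∀ r ∈ rs, r.Ok N)
    (hacc : ∃ φ : RSt N, nrm2 φ = 1 ∧ ValidIn m φ ∧ nrm2 (zer 0 (runR rs φ)) ≤ 1 / 3) :
    ∃ v : RSt (N + tc rs.length), nrm2 v = 1 ∧
      tform (ham N m rs 1 trR) v ≤ 4 / (9 * ((rs.length : ℝ) + 1)) := by
  obtain ⟨φ, hφ1, hφ2, hφ3⟩ := hacc
  obtain ⟨a, ha1, ha2⟩ := hist_upper N m hN rs hok ((rr N rs.length : ℝ) ^ 24)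
    ((rr N rs.length : ℝ) ^ 8) 1000 φ hφ2
  have hM : (0 : ℝ) < (rs.length : ℝ) + 1 := by (clear * -; positivity)
  have hR : (0 : ℝ) < 6 * ((rs.length : ℝ) + 1) := by (clear * -; positivity)
  have hc : (1 / √(6 * ((rs.length : ℝ) + 1))) ^ 2 = 1 / (6 * ((rs.length : ℝ) + 1)) := by
    rw [div_pow, one_pow, Real.sq_sqrt hR.le]
  refine ⟨(1 / √(6 * ((rs.length : ℝ) + 1))) • lift N (tc rs.length) a, ?_, ?_⟩
  · rw [clk_nrm2_smul, hc, nrm2_lift, ha1, hφ1]
    (clear * -; field_simp)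
  · rw [rnd_tform_smul, hc, tform_lift N m hN rs hok, ha2]
    have h1 : 1 / (6 * ((rs.length : ℝ) + 1)) * (8 * nrm2 (zer 0 (runR rs φ))) ≤
        1 / (6 * ((rs.length : ℝ) + 1)) * (8 * (1 / 3)) := by
      apply mul_le_mul_of_nonneg_left _ (by (clear * -; positivity))
      linarith only [hφ3]
    refine h1.trans (le_of_eq ?_)
    field_simp
    (clear * -; norm_num)

/-- symmetry of the couplings -/
theorem rnd_jw_symm {B : Type} [Fintype B] [DecidableEq B] (s : ℝ)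
    (t : B → B → Fin 3 → Fin 3 → ℝ) (d : B → Fin 3 → ℝ)
    (hts : ∀ b b' a a', t b b' a a' = t b' b a' a) (p q : B × Fin 4) :
    jw s t d p q = jw s t d q p := by
  unfold jw
  by_cases h : p.1 = q.1
  · rw [if_pos h, if_pos h.symm]
    rw [h]
    ring
  · have h' : ¬ q.1 = p.1 := fun e => h e.symm
    simp only [h, h', if_false]
    by_cases hp : p.2 = 0 <;> by_cases hq : q.2 = 0
    · simp [hp, hq]
    · simp [hp, hq]
    · simp [hp, hq]
    · simp only [ne_eq, hp, not_false_eq_true, dif_pos, hq]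
      rw [hts]

/-- the numerical part of the final estimate -/
theorem rnd_num {r n K M : ℝ} (hr : 1000 ≤ r) (hn0 : 0 ≤ n) (hn : n ≤ 7 * r) (hM0 : 0 < M + 1)
    (hM : M + 1 ≤ r) (hK : K = n * 4) :
    4 * (10 ^ 4 * n ^ 6 * (r ^ 100) ^ 2) + 9 * K ^ 2 / 2 + 2 ≤ r ^ 234 / (36 * (M + 1)) := by
  have hr0 : (0 : ℝ) < r := by linarith only [hr]
  have h1 : r ^ 233 / 36 ≤ r ^ 234 / (36 * (M + 1)) := by
    rw [div_le_div_iff₀ (by norm_num) (by (clear * - hM0; positivity))]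
    have : r ^ 233 * (M + 1) ≤ r ^ 233 * r := mul_le_mul_of_nonneg_left hM (by (clear * - hr; positivity))
    linarith only [this]
  have h6 : n ^ 6 ≤ (7 * r) ^ 6 := pow_le_pow_left₀ hn0 hn 6
  have h2 : n ^ 2 ≤ (7 * r) ^ 2 := pow_le_pow_left₀ hn0 hn 2
  have hA : 4 * (10 ^ 4 * n ^ 6 * (r ^ 100) ^ 2) ≤ 10 ^ 10 * r ^ 206 := by
    have : n ^ 6 * (r ^ 100) ^ 2 ≤ (7 * r) ^ 6 * (r ^ 100) ^ 2 :=
      mul_le_mul_of_nonneg_right h6 (by positivity)
    have he : (7 * r) ^ 6 * (r ^ 100) ^ 2 = 117649 * r ^ 206 := by ring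
    rw [he] at this
    have h0 : (0 : ℝ) ≤ r ^ 206 := by (clear * - hr; positivity)
    linarith only [this, h0]
  have hB : 9 * K ^ 2 / 2 + 2 ≤ 10 ^ 4 * r ^ 2 := by
    rw [hK]
    linarith only [mul_nonneg_of_nonpos_of_nonpos (Mathlib.Tactic.Linarith.sub_nonpos_of_le hr) (Mathlib.Tactic.Linarith.sub_nonpos_of_le hr), h2, hr]
  have hr1 : (1 : ℝ) ≤ r := by linarith only [hr]
  have hC : 10 ^ 4 * r ^ 2 ≤ 10 ^ 4 * r ^ 206 :=
    mul_le_mul_of_nonneg_left (pow_le_pow_right₀ hr1 (by norm_num)) (by norm_num)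
  have h27 : (36 * 10 ^ 11 : ℝ) ≤ r ^ 27 := by
    calc (36 * 10 ^ 11 : ℝ) ≤ 1000 ^ 27 := by norm_num
      _ ≤ r ^ 27 := pow_le_pow_left₀ (by norm_num) hr 27
  have hD : 10 ^ 11 * r ^ 206 ≤ r ^ 233 / 36 := by
    have h3 : (36 * 10 ^ 11) * r ^ 206 ≤ r ^ 27 * r ^ 206 :=
      mul_le_mul_of_nonneg_right h27 (by (clear * - hr; positivity))
    have h4 : r ^ 27 * r ^ 206 = r ^ 233 := by ring
    rw [h4] at h3
    linarith only [h3]
  have h0 : (0 : ℝ) ≤ r ^ 206 := by (clear * - hr; positivity)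
  linarith

theorem rnd_sizes (N : ℕ) (M : ℕ) :
    (1000 : ℝ) ≤ rr N M ∧ (((N + tc M : ℕ) : ℝ) ≤ 7 * rr N M) ∧ ((M : ℝ) + 1 ≤ rr N M) ∧
      2 ≤ Fintype.card (Fin (N + tc M)) ∧
      10 ^ 4 * (Fintype.card (Fin (N + tc M)) : ℝ) ^ 6 ≤ (rr N M : ℝ) ^ 100 := by
  have h1 : 1000 ≤ rr N M := by unfold rr; omega
  have h2 : N + tc M ≤ 7 * rr N M := by unfold rr tc; omega
  have h3 : M + 1 ≤ rr N M := by unfold rr; omega
  have h1' : (1000 : ℝ) ≤ rr N M := by exact_mod_cast h1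
  have h2' : ((N + tc M : ℕ) : ℝ) ≤ 7 * rr N M := by exact_mod_cast h2
  refine ⟨h1', h2', by exact_mod_cast h3, ?_, ?_⟩
  · rw [Fintype.card_fin]
    unfold tc
    omega
  · rw [Fintype.card_fin]
    set r : ℝ := (rr N M : ℝ) with hr
    have h6 : ((N + tc M : ℕ) : ℝ) ^ 6 ≤ (7 * r) ^ 6 :=
      pow_le_pow_left₀ (Nat.cast_nonneg _) h2' 6
    have h94 : (10 ^ 4 * 117649 : ℝ) ≤ r ^ 94 := by
      calc (10 ^ 4 * 117649 : ℝ) ≤ 1000 ^ 94 := by norm_num
        _ ≤ r ^ 94 := pow_le_pow_left₀ (by norm_num) h1' 94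
    have hr0 : 0 ≤ r ^ 6 := by (clear * - h1; positivity)
    calc 10 ^ 4 * ((N + tc M : ℕ) : ℝ) ^ 6 ≤ 10 ^ 4 * (7 * r) ^ 6 :=
          mul_le_mul_of_nonneg_left h6 (by norm_num)
      _ = (10 ^ 4 * 117649) * r ^ 6 := by ring
      _ ≤ r ^ 94 * r ^ 6 := mul_le_mul_of_nonneg_right h94 hr0
      _ = r ^ 100 := by ring

/-- the effective energy, in terms of `midA` -/
theorem rnd_teff (N m : ℕ) (hN : 1 ≤ N) (rs : List Rnd) (hok : ∀ r ∈ rs, r.Ok N)
    (u : (Fin (N + tc rs.length) → Bool) → ℂ) :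
    4 * teff ((rr N rs.length : ℝ) ^ 100)
        (tR ((rr N rs.length : ℝ) ^ 66) (ham N m rs (1 : ℝ) trR))
        (dR ((rr N rs.length : ℝ) ^ 66) ((rr N rs.length : ℝ) ^ 100) (ham N m rs (1 : ℝ) trR)) u =
      -midA N m rs * (∑ x, ‖u x‖ ^ 2) + (rr N rs.length : ℝ) ^ 234 / 6 *
        (tform (ham N m rs 1 trR) (fun x => (u x).re) +
          tform (ham N m rs 1 trR) (fun x => (u x).im) -
          11 / (18 * ((rs.length : ℝ) + 1)) * ∑ x, ‖u x‖ ^ 2) := by
  obtain ⟨hr, -, -, -, -⟩ := rnd_sizes N rs.length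
  have hM0 : (0 : ℝ) < (rs.length : ℝ) + 1 := by (clear * -; positivity)
  rw [teff_eq _ (ham_ok N m hN rs hok) _ _ (by (clear * - hr; positivity))]
  unfold midA
  set r : ℝ := (rr N rs.length : ℝ) with hrd
  have hr0 : r ≠ 0 := by
    have : (0 : ℝ) < r := by linarith only [hr]
    exact this.ne'
  have h3 : (r ^ 100) ^ 3 / (24 * r ^ 66) = r ^ 234 / 24 := by
    rw [div_eq_div_iff (by (clear * - hr; positivity)) (by norm_num)]
    ring
  rw [h3]
  ring

theorem final_no (N m : ℕ) (hN : 1 ≤ N) (rs : List Rnd) (hok : ∀ r ∈ rs, r.Ok N)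
    (hacc : ∀ φ : RSt N, ValidIn m φ → 2 / 3 * nrm2 φ ≤ nrm2 (zer 0 (runR rs φ)))
    (K : ℕ) (hK : K = (N + tc rs.length) * 4) (mm : ℕ → ℕ → ℕ) (hmm : CloseW N m rs mm) (A : ℕ)
    (hA : |(A : ℝ) - midA N m rs| ≤ 1) (φ : (Fin K → Fin 2) → ℂ) (hφ : ∑ s, ‖φ s‖ ^ 2 = 1) :
    -(A : ℝ) + 1 ≤ heisenbergForm mm φ := by
  obtain ⟨hr, hn, hM, hB, hsB⟩ := rnd_sizes N rs.length
  have hM0 : (0 : ℝ) < (rs.length : ℝ) + 1 := by (clear * -; positivity)
  have hLok := ham_ok N m hN rs hok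
  have hC : (0 : ℝ) < (rr N rs.length : ℝ) ^ 66 := by (clear * - hr; positivity)
  have hL := ham_abs N m rs
  have hts := fun b b' a a' => tR_symm (n := N + tc rs.length) (ham N m rs (1 : ℝ) trR) hLok
    ((rr N rs.length : ℝ) ^ 66) b b' a a'
  obtain ⟨e, he⟩ := heis_close (N + tc rs.length) K hK mm
    (jw ((rr N rs.length : ℝ) ^ 100) (tR ((rr N rs.length : ℝ) ^ 66) (ham N m rs (1 : ℝ) trR))
      (dR ((rr N rs.length : ℝ) ^ 66) ((rr N rs.length : ℝ) ^ 100) (ham N m rs (1 : ℝ) trR)))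
    (rnd_jw_symm _ _ _ hts) hmm
  obtain ⟨he1, he2⟩ := he (e.symm φ)
  rw [Equiv.apply_symm_apply] at he1 he2
  rw [hφ] at he1
  rw [← he1, mul_one] at he2
  have hl := r2_lower ((rr N rs.length : ℝ) ^ 100)
    (tR ((rr N rs.length : ℝ) ^ 66) (ham N m rs (1 : ℝ) trR))
    (dR ((rr N rs.length : ℝ) ^ 66) ((rr N rs.length : ℝ) ^ 100) (ham N m rs (1 : ℝ) trR))
    hB hsB (fun b b' a a' => tR_nonneg _ hLok _ hC hL b b' a a')
    (fun b b' a a' => tR_le_one _ hLok _ hC hL b b' a a') hts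
    (fun b a => abs_dR_le _ hLok _ _ hC (by (clear * - hr; positivity)) hL b a)
    ((-midA N m rs + (rr N rs.length : ℝ) ^ 234 / (36 * ((rs.length : ℝ) + 1))) / 4) (by
      intro u
      have h1 := rnd_teff N m hN rs hok u
      have h2 := ham_no N m hN rs hok hacc (fun x => (u x).re)
      have h3 := ham_no N m hN rs hok hacc (fun x => (u x).im)
      have h4 : nrm2 (fun x => (u x).re) + nrm2 (fun x => (u x).im) = ∑ x, ‖u x‖ ^ 2 := by
        unfold nrm2 ip
        rw [← Finset.sum_add_distrib]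
        refine Finset.sum_congr rfl fun x _ => ?_
        rw [← Complex.normSq_eq_norm_sq, Complex.normSq_apply]
      have h5 : 7 / (9 * ((rs.length : ℝ) + 1)) * (∑ x, ‖u x‖ ^ 2) ≤
          tform (ham N m rs 1 trR) (fun x => (u x).re) +
            tform (ham N m rs 1 trR) (fun x => (u x).im) := by
        rw [← h4, mul_add]
        exact add_le_add h2 h3
      have h6 : (rr N rs.length : ℝ) ^ 234 / 6 *
          (7 / (9 * ((rs.length : ℝ) + 1)) * (∑ x, ‖u x‖ ^ 2)) ≤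
          (rr N rs.length : ℝ) ^ 234 / 6 * (tform (ham N m rs 1 trR) (fun x => (u x).re) +
            tform (ham N m rs 1 trR) (fun x => (u x).im)) :=
        mul_le_mul_of_nonneg_left h5 (by (clear * - hr; positivity))
      have h7 : (rr N rs.length : ℝ) ^ 234 / 6 *
          (7 / (9 * ((rs.length : ℝ) + 1)) * (∑ x, ‖u x‖ ^ 2)) -
          (rr N rs.length : ℝ) ^ 234 / 6 * (11 / (18 * ((rs.length : ℝ) + 1)) *
            ∑ x, ‖u x‖ ^ 2) =
          (rr N rs.length : ℝ) ^ 234 / (36 * ((rs.length : ℝ) + 1)) * ∑ x, ‖u x‖ ^ 2 := by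
        field_simp
        ring
      linarith only [h1, h6, h7]) (e.symm φ)
  rw [← he1, mul_one] at hl
  have hnum := rnd_num hr (Nat.cast_nonneg (N + tc rs.length)) hn hM0 hM
    (K := (K : ℝ)) (by rw [hK]; push_cast; ring)
  rw [Fintype.card_fin] at hl
  have hA1 := (abs_le.1 hA).1
  have he3 := (abs_le.1 he2).1
  linarith only [hl, hnum, hA1, he3]

theorem final_yes (N m : ℕ) (hN : 1 ≤ N) (rs : List Rnd) (hok : ∀ r ∈ rs, r.Ok N)
    (hacc : ∃ φ : RSt N, nrm2 φ = 1 ∧ ValidIn m φ ∧ nrm2 (zer 0 (runR rs φ)) ≤ 1 / 3)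
    (K : ℕ) (hK : K = (N + tc rs.length) * 4) (mm : ℕ → ℕ → ℕ) (hmm : CloseW N m rs mm) (A : ℕ)
    (hA : |(A : ℝ) - midA N m rs| ≤ 1) :
    ∃ φ : (Fin K → Fin 2) → ℂ, ∑ s, ‖φ s‖ ^ 2 = 1 ∧ heisenbergForm mm φ ≤ -(A : ℝ) := by
  obtain ⟨hr, hn, hM, hB, hsB⟩ := rnd_sizes N rs.length
  have hM0 : (0 : ℝ) < (rs.length : ℝ) + 1 := by (clear * -; positivity)
  have hLok := ham_ok N m hN rs hok
  have hC : (0 : ℝ) < (rr N rs.length : ℝ) ^ 66 := by (clear * - hr; positivity)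
  have hL := ham_abs N m rs
  have hts := fun b b' a a' => tR_symm (n := N + tc rs.length) (ham N m rs (1 : ℝ) trR) hLok
    ((rr N rs.length : ℝ) ^ 66) b b' a a'
  obtain ⟨v, hv1, hv2⟩ := ham_yes N m hN rs hok hacc
  obtain ⟨e, he⟩ := heis_close (N + tc rs.length) K hK mm
    (jw ((rr N rs.length : ℝ) ^ 100) (tR ((rr N rs.length : ℝ) ^ 66) (ham N m rs (1 : ℝ) trR))
      (dR ((rr N rs.length : ℝ) ^ 66) ((rr N rs.length : ℝ) ^ 100) (ham N m rs (1 : ℝ) trR)))
    (rnd_jw_symm _ _ _ hts) hmm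
  obtain ⟨Φ, hΦ1, hΦ2⟩ := r2_upper ((rr N rs.length : ℝ) ^ 100)
    (tR ((rr N rs.length : ℝ) ^ 66) (ham N m rs (1 : ℝ) trR))
    (dR ((rr N rs.length : ℝ) ^ 66) ((rr N rs.length : ℝ) ^ 100) (ham N m rs (1 : ℝ) trR))
    hB hsB (fun b b' a a' => tR_nonneg _ hLok _ hC hL b b' a a')
    (fun b b' a a' => tR_le_one _ hLok _ hC hL b b' a a') hts
    (fun b a => abs_dR_le _ hLok _ _ hC (by (clear * - hr; positivity)) hL b a) (fun x => (v x : ℂ))
  have hu : (∑ x, ‖((v x : ℝ) : ℂ)‖ ^ 2) = 1 := by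
    rw [← hv1]
    unfold nrm2 ip
    refine Finset.sum_congr rfl fun x _ => ?_
    rw [Complex.norm_real, Real.norm_eq_abs, sq_abs, sq]
  have ht := rnd_teff N m hN rs hok (fun x => (v x : ℂ))
  rw [hu] at hΦ1 hΦ2 ht
  have hre : (fun x => ((fun x => (v x : ℂ)) x).re) = v := by
    funext x
    exact Complex.ofReal_re _
  have him : (fun x => ((fun x => (v x : ℂ)) x).im) = (0 : RSt (N + tc rs.length)) := by
    funext x
    exact Complex.ofReal_im _
  rw [hre, him, rnd_tform_zero] at ht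
  obtain ⟨he1, he2⟩ := he Φ
  refine ⟨e Φ, by rw [he1, hΦ1], ?_⟩
  rw [hΦ1] at he2
  have h6 : (rr N rs.length : ℝ) ^ 234 / 6 * tform (ham N m rs 1 trR) v ≤
      (rr N rs.length : ℝ) ^ 234 / 6 * (4 / (9 * ((rs.length : ℝ) + 1))) :=
    mul_le_mul_of_nonneg_left hv2 (by (clear * - hr; positivity))
  have h7 : (rr N rs.length : ℝ) ^ 234 / 6 * (4 / (9 * ((rs.length : ℝ) + 1))) -
      (rr N rs.length : ℝ) ^ 234 / 6 * (11 / (18 * ((rs.length : ℝ) + 1))) =
      -((rr N rs.length : ℝ) ^ 234 / (36 * ((rs.length : ℝ) + 1))) := by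
    field_simp
    ring
  have hnum := rnd_num hr (Nat.cast_nonneg (N + tc rs.length)) hn hM0 hM
    (K := (K : ℝ)) (by rw [hK]; push_cast; ring)
  rw [Fintype.card_fin] at hΦ2
  have hA1 := (abs_le.1 hA).2
  have he3 := (abs_le.1 he2).2
  linarith only [hΦ2, ht, h6, h7, hnum, hA1, he3]

end Vale.Agent.P370.H
end
end

section

section

/-!
Correctness of the numerical part of the instance builder: charges and positions.
(The statements about the trigonometric table are hypotheses here.)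
-/

namespace Vale.Agent.P370.Q.Alg.N2

open MeasureTheory Finset Vale.Agent.P370 Vale.Agent.P370.Q Vale.Agent.P370.Q.Alg

/-! ### elementary facts -/

theorem idiv_err (x y : ℤ) (hy : 0 < y) : |((x / y : ℤ) : ℝ) - (x : ℝ) / (y : ℝ)| ≤ 1 := by
  have h1 := Int.emod_nonneg x hy.ne'
  have h2 := Int.emod_lt_of_pos x hy
  have h3 := Int.mul_ediv_add_emod x y
  have hy' : (0 : ℝ) < y := by exact_mod_cast hy
  have h4 : (x : ℝ) = y * ((x / y : ℤ) : ℝ) + ((x % y : ℤ) : ℝ) := by exact_mod_cast h3.symm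
  have h5 : (x : ℝ) / y = ((x / y : ℤ) : ℝ) + ((x % y : ℤ) : ℝ) / y := by
    rw [h4]
    (clear * - hy; field_simp)
  rw [h5]
  have h6 : (0 : ℝ) ≤ ((x % y : ℤ) : ℝ) / y := by
    have : (0 : ℝ) ≤ ((x % y : ℤ) : ℝ) := by exact_mod_cast h1
    (clear * - h1 hy; (clear * - h1 hy; positivity))
  have h7 : ((x % y : ℤ) : ℝ) / y ≤ 1 := by
    rw [div_le_one hy']
    exact_mod_cast h2.le
  rw [abs_le]
  constructor <;> linarith only [h6, h7]

theorem an_ge {k : ℕ} (hk : 1 ≤ k) : 2 ^ 20 ≤ an k := by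
  unfold an
  exact Nat.pow_le_pow_right (by norm_num) (by omega)

theorem an_pos (k : ℕ) : 0 < an k := by unfold an; positivity

theorem two_dvd_an {k : ℕ} (hk : 1 ≤ k) : 2 ∣ an k := by
  unfold an
  exact dvd_pow_self 2 (by omega)

theorem aK_sq_le (k : ℕ) : aK k ^ 2 * 2 ^ (2046 * k) = an k := by
  unfold aK an
  rw [← pow_mul, ← pow_add]
  congr 1
  ring

theorem aXu_eq (k N : ℕ) (hk : 1 ≤ k) (_hN : N ≤ 2 * an k - 1) :
    (aXu k N : ℝ) = Xu (pn k) N (pρ k) := by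
  have e1 : pn k = an k := rfl
  unfold aXu Xu pρ
  rw [e1]
  have h1 : ((2 * an k - 1 - N).factorial) ∣ (2 * an k).factorial :=
    Nat.factorial_dvd_factorial (by omega)
  have h2 : (((2 * an k - 1 - N).factorial : ℕ) : ℝ) ≠ 0 := by (clear * -; positivity)
  push_cast
  rw [Nat.cast_div h1 h2, Nat.cast_div (two_dvd_an hk) (by (clear * -; norm_num))]
  rw [one_div_one_div, ← pow_mul]
  push_cast
  ring

theorem aXu_le (k N : ℕ) (hk : 1 ≤ k) (hN : N ≤ 2 * an k - 1) :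
    aXu k N ≤ 2 ^ (40 * an k ^ 3) := by
  have hn := an_ge hk
  unfold aXu
  generalize an k = n at *
  have hn2 : 2 ≤ n := le_trans (by norm_num) hn
  have b1 : 2 ^ (16 * n ^ 2 * N) ≤ 2 ^ (32 * n ^ 3) := by
    refine Nat.pow_le_pow_right (by norm_num) ?_
    calc 16 * n ^ 2 * N ≤ 16 * n ^ 2 * (2 * n) := Nat.mul_le_mul_left _ (by omega)
      _ = 32 * n ^ 3 := by ring
  have b2 : 2 * N + 1 ≤ 2 ^ (4 * n) := by
    have : 4 * n < 2 ^ (4 * n) := Nat.lt_two_pow_self
    omega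
  have b3 : (2 * n).factorial / (2 * n - 1 - N).factorial ≤ 2 ^ (4 * n ^ 2) := by
    calc (2 * n).factorial / (2 * n - 1 - N).factorial ≤ (2 * n).factorial := Nat.div_le_self _ _
      _ ≤ (2 * n) ^ (2 * n) := Nat.factorial_le_pow _
      _ ≤ (2 ^ (2 * n)) ^ (2 * n) := Nat.pow_le_pow_left Nat.lt_two_pow_self.le _
      _ = 2 ^ (4 * n ^ 2) := by rw [← pow_mul]; congr 1; ring
  have b4 : (n / 2) ^ (N + 1) ≤ 2 ^ (2 * n ^ 2) := by
    calc (n / 2) ^ (N + 1) ≤ (2 ^ n) ^ (N + 1) :=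
          Nat.pow_le_pow_left ((Nat.div_le_self _ _).trans Nat.lt_two_pow_self.le) _
      _ ≤ (2 ^ n) ^ (2 * n) := Nat.pow_le_pow_right (by positivity) (by (clear * - hN hn; omega))
      _ = 2 ^ (2 * n ^ 2) := by rw [← pow_mul]; congr 1; ring
  calc _ ≤ 2 ^ (32 * n ^ 3) * 2 ^ (4 * n) * 2 ^ (4 * n ^ 2) * 2 ^ (2 * n ^ 2) :=
        Nat.mul_le_mul (Nat.mul_le_mul (Nat.mul_le_mul b1 b2) b3) b4
    _ = 2 ^ (32 * n ^ 3 + 4 * n + 4 * n ^ 2 + 2 * n ^ 2) := by rw [← pow_add, ← pow_add, ← pow_add]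
    _ ≤ 2 ^ (40 * n ^ 3) := by
        refine Nat.pow_le_pow_right (by norm_num) ?_
        have h1 : 2 * n ^ 2 ≤ n ^ 3 := by
          calc 2 * n ^ 2 ≤ n * n ^ 2 := Nat.mul_le_mul_right _ hn2
            _ = n ^ 3 := by ring
        have h2 : 2 * n ≤ n ^ 2 := by
          calc 2 * n ≤ n * n := Nat.mul_le_mul_right _ hn2
            _ = n ^ 2 := by ring
        omega

/-! ### powers -/

theorem gp_eq (c s : ℤ) (j : ℕ) :
    (((gp c s j).1 : ℂ) + ((gp c s j).2 : ℂ) * Complex.I) =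
      ((c : ℂ) + (s : ℂ) * Complex.I) ^ j := by
  induction j with
  | zero => simp only [gp_zero, Int.cast_one, Int.cast_zero, zero_mul, add_zero, pow_zero]
  | succ j ih =>
    rw [pow_succ, ← ih]
    simp only [gp_succ]
    push_cast
    linear_combination (-((gp c s j).2 : ℂ) * (s : ℂ)) * Complex.I_sq

theorem gp_re (c s : ℤ) (j : ℕ) :
    ((gp c s j).1 : ℝ) = (((c : ℂ) + (s : ℂ) * Complex.I) ^ j).re := by
  rw [← gp_eq]
  simp only [Complex.add_re, Complex.intCast_re, Complex.mul_re, Complex.I_re, mul_zero, Complex.intCast_im, Complex.I_im, mul_one, sub_self, add_zero]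

theorem pow_err (z w : ℂ) (ε : ℝ) (hz : ‖z‖ ≤ 1) (h : ‖w - z‖ ≤ ε) (N : ℕ) :
    ‖w ^ N - z ^ N‖ ≤ N * ε * (1 + ε) ^ N := by
  have hε : 0 ≤ ε := (norm_nonneg _).trans h
  have hw : ‖w‖ ≤ 1 + ε := by
    calc ‖w‖ = ‖z + (w - z)‖ := by congr 1; ring
      _ ≤ ‖z‖ + ‖w - z‖ := norm_add_le _ _
      _ ≤ 1 + ε := add_le_add hz h
  induction N with
  | zero => simp only [pow_zero, sub_self, norm_zero, CharP.cast_eq_zero, zero_mul, mul_one, Std.le_refl]
  | succ N ih =>
    have e : w ^ (N + 1) - z ^ (N + 1) = w * (w ^ N - z ^ N) + (w - z) * z ^ N := by ring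
    rw [e]
    have h1 : ‖z ^ N‖ ≤ 1 := by rw [norm_pow]; exact pow_le_one₀ (norm_nonneg _) hz
    have h2 : 1 ≤ (1 + ε) ^ (N + 1) := one_le_pow₀ (by linarith only [hε])
    calc ‖w * (w ^ N - z ^ N) + (w - z) * z ^ N‖
        ≤ ‖w * (w ^ N - z ^ N)‖ + ‖(w - z) * z ^ N‖ := norm_add_le _ _
      _ = ‖w‖ * ‖w ^ N - z ^ N‖ + ‖w - z‖ * ‖z ^ N‖ := by rw [norm_mul, norm_mul]
      _ ≤ (1 + ε) * (N * ε * (1 + ε) ^ N) + ε * 1 := by
          refine add_le_add (mul_le_mul hw ih (norm_nonneg _) (by linarith only [hε])) ?_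
          exact mul_le_mul h h1 (norm_nonneg _) hε
      _ ≤ (1 + ε) * (N * ε * (1 + ε) ^ N) + ε * (1 + ε) ^ (N + 1) := by
          have := mul_le_mul_of_nonneg_left h2 hε
          linarith only [this]
      _ = ((N + 1 : ℕ) : ℝ) * ε * (1 + ε) ^ (N + 1) := by push_cast; ring

theorem pow_le_two (ε : ℝ) (hε : 0 ≤ ε) (N : ℕ) (h : N * ε ≤ 1 / 2) (hε1 : ε ≤ 1 / 2) :
    (1 + ε) ^ N ≤ 2 := by
  have h1 : 1 + (N : ℝ) * (-ε) ≤ (1 + -ε) ^ N := one_add_mul_le_pow (by linarith only [hε1]) N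
  have h2 : (1 + ε) ^ N * (1 + -ε) ^ N ≤ 1 := by
    rw [← mul_pow]
    refine pow_le_one₀ (by nlinarith only [hε1, hε]) (by nlinarith only [hε])
  have h3 : 0 ≤ (1 + ε) ^ N := by (clear * - hε; positivity)
  exact le_of_not_gt fun hng => by linarith only [hng, mul_nonneg_of_nonpos_of_nonpos (le_of_lt (Mathlib.Tactic.Linarith.sub_neg_of_lt hng)) (Mathlib.Tactic.Linarith.sub_nonpos_of_le h1), mul_nonneg_of_nonpos_of_nonpos (le_of_lt (Mathlib.Tactic.Linarith.sub_neg_of_lt hng)) (Mathlib.Tactic.Linarith.sub_nonpos_of_le h), h1, h, h2]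

theorem two_pow_big {k : ℕ} (e : ℕ) (he : e + 64 ≤ 512 * an k ^ 3) :
    (2 : ℝ) ^ e * 2 ^ 64 ≤ 2 ^ aQ k := by
  rw [← pow_add]
  exact pow_le_pow_right₀ (by norm_num) (by unfold aQ; omega)

/-- the complex number of a node -/
theorem cdot_node (α : ℝ) (D a b : ℕ) :
    cdot (av α) (node D a b) =
      ((Real.cos (Real.pi * (2 * a + 1) / (2 * D)) : ℝ) : ℂ) +
      ((Real.sin (Real.pi * (2 * a + 1) / (2 * D)) *
        Real.cos (2 * Real.pi * b / D - α) : ℝ) : ℂ) * Complex.I := by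
  unfold cdot av node sp
  rw [Fin.sum_univ_three, Real.cos_sub]
  simp only [Complex.ofReal_cos, Complex.ofReal_sin, Fin.isValue, Matrix.cons_val_zero, Complex.ofReal_mul, Complex.ofReal_div, Complex.ofReal_add, Complex.ofReal_ofNat, Complex.ofReal_natCast, Complex.ofReal_one, Matrix.cons_val_one, Matrix.cons_val, one_mul]
  ring

theorem cdot_node_norm (α : ℝ) (D a b : ℕ) : ‖cdot (av α) (node D a b)‖ ≤ 1 := by
  rw [cdot_node]
  set θ := Real.pi * (2 * a + 1) / (2 * D)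
  set ψ := 2 * Real.pi * b / D - α
  have h1 : ‖((Real.cos θ : ℝ) : ℂ) + ((Real.sin θ * Real.cos ψ : ℝ) : ℂ) * Complex.I‖ ^ 2 ≤ 1 := by
    rw [← Complex.normSq_eq_norm_sq, Complex.normSq_add_mul_I]
    have h2 := Real.sin_sq_add_cos_sq θ
    have h3 := Real.cos_sq_le_one ψ
    have h4 := sq_nonneg (Real.sin θ)
    linarith only [mul_nonneg_of_nonpos_of_nonpos (Mathlib.Tactic.Linarith.sub_nonpos_of_le (sq_nonneg (Real.sin θ))) (Mathlib.Tactic.Linarith.sub_nonpos_of_le h3), h2]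
  have h2 := norm_nonneg (((Real.cos θ : ℝ) : ℂ) + ((Real.sin θ * Real.cos ψ : ℝ) : ℂ) * Complex.I)
  nlinarith only [h1]

/-- error of the cosine table -/
def HCs (k : ℕ) : Prop := ∀ j, j ≤ 4 * aD k ^ 2 →
  |(cs k j : ℝ) - 2 ^ aQ k * Real.cos (Real.pi * j / (2 * aD k))| ≤ 2

/-- error of the sine table -/
def HSn (k : ℕ) : Prop := ∀ j, j ≤ 4 * aD k ^ 2 →
  |(sn k j : ℝ) - 2 ^ aQ k * Real.sin (Real.pi * j / (2 * aD k))| ≤ 2

theorem aD_pos (k : ℕ) : 0 < aD k := by unfold aD an; positivity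

theorem le_aD (k : ℕ) : 16 ≤ aD k := by
  unfold aD
  have := an_pos k
  omega

theorem S_big {k : ℕ} (hk : 1 ≤ k) : (an k : ℝ) * 2 ^ 64 ≤ 2 ^ aQ k := by
  have hn := an_pos k
  have h1 : an k + 64 ≤ 512 * an k ^ 3 := by
    have h2 := an_ge hk
    have h3 : an k ≤ an k ^ 3 := Nat.le_self_pow (by norm_num) _
    (clear * - h2 h3; omega)
  refine le_trans ?_ (two_pow_big (an k) h1)
  have : (an k : ℝ) ≤ 2 ^ an k := by exact_mod_cast Nat.lt_two_pow_self.le
  gcongr

/-- product of two table values -/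
theorem prod_err (x y : ℤ) (Q : ℕ) (u v : ℝ) (hu : |u| ≤ 1) (hv : |v| ≤ 1)
    (hx : |(x : ℝ) - 2 ^ Q * u| ≤ 2) (hy : |(y : ℝ) - 2 ^ Q * v| ≤ 2)
    (hS : (4 : ℝ) ≤ 2 ^ Q) : |((x * y / 2 ^ Q : ℤ) : ℝ) - 2 ^ Q * (u * v)| ≤ 6 := by
  have h1 := idiv_err (x * y) (2 ^ Q) (by positivity)
  push_cast at h1
  set S : ℝ := 2 ^ Q with hSd
  have hS0 : 0 < S := by positivity
  have h2 : |(x : ℝ) * y / S - S * (u * v)| ≤ 5 := by
    have e : (x : ℝ) * y / S - S * (u * v) = ((x - S * u) * y + S * u * (y - S * v)) / S := by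
      field_simp
      ring
    rw [e, abs_div, abs_of_pos hS0, div_le_iff₀ hS0]
    have h3 : |(y : ℝ)| ≤ S + 2 := by
      have h4 : |S * v| ≤ S := by
        rw [abs_mul, abs_of_pos hS0]
        nlinarith only [hv, hS]
      have h5 : (y : ℝ) = (y - S * v) + S * v := by ring
      rw [h5]
      refine (abs_add_le _ _).trans ?_
      linarith only [hy, h4]
    calc |(x - S * u) * (y : ℝ) + S * u * (y - S * v)|
        ≤ |(x - S * u) * (y : ℝ)| + |S * u * (y - S * v)| := abs_add_le _ _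
      _ = |x - S * u| * |(y : ℝ)| + S * |u| * |y - S * v| := by
          rw [abs_mul, abs_mul, abs_mul, abs_of_pos hS0]
      _ ≤ 2 * (S + 2) + S * 1 * 2 := by
          refine add_le_add (mul_le_mul hx h3 (abs_nonneg _) (by norm_num)) ?_
          refine mul_le_mul (mul_le_mul_of_nonneg_left hu hS0.le) hy (abs_nonneg _) (by positivity)
      _ ≤ 5 * S := by linarith only [hS]
  calc |((x * y / 2 ^ Q : ℤ) : ℝ) - S * (u * v)|
      = |(((x * y / 2 ^ Q : ℤ) : ℝ) - (x : ℝ) * y / S) + ((x : ℝ) * y / S - S * (u * v))| := by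
        congr 1; ring
    _ ≤ _ := abs_add_le _ _
    _ ≤ 1 + 5 := add_le_add h1 h2
    _ = 6 := by norm_num

theorem gre_err (k a b g N : ℕ) (hk : 1 ≤ k) (hcs : HCs k) (hsn : HSn k) (ha : a < aD k)
    (hb : b < aD k) (hg : g ≤ 4 * aD k) (hN : N ≤ 2 * an k) :
    |(gre k a b g N : ℝ) / 2 ^ (aQ k * N) -
      (cdot (av (Real.pi * g / (2 * aD k))) (node (pD k) a b) ^ N).re| ≤ 16 * N / 2 ^ aQ k := by
  have eD : pD k = aD k := rfl
  rw [eD]
  have hDpos := aD_pos k
  have hD16 := le_aD k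
  have hDr : (0 : ℝ) < aD k := by exact_mod_cast hDpos
  have hS := S_big hk
  have hn1 : (1 : ℝ) ≤ an k := by exact_mod_cast an_pos k
  set S : ℝ := 2 ^ aQ k with hSd
  have hS64 : (2 : ℝ) ^ 64 ≤ S := by
    refine le_trans ?_ hS
    linarith only [hn1]
  have hS0 : 0 < S := by positivity
  have j1 : 2 * a + 1 ≤ 4 * aD k ^ 2 := by nlinarith only [ha]
  have j2 : 4 * b + 4 * aD k - g ≤ 4 * aD k ^ 2 := by
    have : 4 * b + 4 * aD k - g ≤ 8 * aD k := by omega
    nlinarith only [hD16, this]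
  have h1 := hcs _ j1
  have h2 := hsn _ j1
  have h3 := hcs _ j2
  set θ := Real.pi * (2 * a + 1) / (2 * aD k) with hθ
  set ψ := 2 * Real.pi * b / aD k - Real.pi * g / (2 * aD k) with hψ
  have e1 : Real.pi * ((2 * a + 1 : ℕ) : ℝ) / (2 * aD k) = θ := by rw [hθ]; push_cast; ring
  have e2 : Real.cos (Real.pi * ((4 * b + 4 * aD k - g : ℕ) : ℝ) / (2 * aD k)) = Real.cos ψ := by
    have : Real.pi * ((4 * b + 4 * aD k - g : ℕ) : ℝ) / (2 * aD k) = ψ + 2 * Real.pi := by
      rw [Nat.cast_sub (by omega), hψ]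
      push_cast
      field_simp
      ring
    rw [this, Real.cos_add_two_pi]
  rw [e1] at h1 h2
  rw [e2] at h3
  set c' := cs k (2 * a + 1) with hc'
  set s1 := sn k (2 * a + 1)
  set c2 := cs k (4 * b + 4 * aD k - g)
  have h4 := prod_err s1 c2 (aQ k) (Real.sin θ) (Real.cos ψ) (Real.abs_sin_le_one _)
    (Real.abs_cos_le_one _) h2 h3 (le_trans (by norm_num) hS64)
  set s' := s1 * c2 / 2 ^ aQ k with hs'
  have e3 : (gre k a b g N : ℝ) = (((c' : ℂ) + (s' : ℂ) * Complex.I) ^ N).re := by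
    rw [← gp_re]
    rfl
  set z : ℂ := ((Real.cos θ : ℝ) : ℂ) + ((Real.sin θ * Real.cos ψ : ℝ) : ℂ) * Complex.I with hz
  set w : ℂ := ((c' : ℂ) + (s' : ℂ) * Complex.I) / (S : ℂ) with hw
  have e4 : (gre k a b g N : ℝ) / 2 ^ (aQ k * N) = (w ^ N).re := by
    rw [e3, hw, div_pow, pow_mul, ← hSd, ← Complex.ofReal_pow, Complex.div_ofReal_re]
  have e5 : cdot (av (Real.pi * g / (2 * aD k))) (node (aD k) a b) = z := by
    rw [cdot_node]
  rw [e4, e5, ← Complex.sub_re]
  have hz1 : ‖z‖ ≤ 1 := by rw [← e5]; exact cdot_node_norm _ _ _ _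
  have hwz : ‖w - z‖ ≤ 8 / S := by
    have e6 : w - z = (((c' : ℝ) - S * Real.cos θ : ℝ) : ℂ) / S +
        (((s' : ℝ) - S * (Real.sin θ * Real.cos ψ) : ℝ) : ℂ) / S * Complex.I := by
      rw [hw, hz]
      have : (S : ℂ) ≠ 0 := by exact_mod_cast hS0.ne'
      push_cast
      field_simp
      ring
    rw [e6]
    refine (norm_add_le _ _).trans ?_
    rw [norm_mul, Complex.norm_I, mul_one, norm_div, norm_div, Complex.norm_real,
      Complex.norm_real, Complex.norm_real, Real.norm_eq_abs, Real.norm_eq_abs, Real.norm_eq_abs,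
      abs_of_pos hS0, ← add_div]
    gcongr
    linarith only [h1, h4]
  have hNn : (N : ℝ) ≤ 2 * an k := by exact_mod_cast hN
  have hε1 : 8 / S ≤ 1 / 2 := by
    rw [div_le_div_iff₀ hS0 (by norm_num)]
    linarith only [hn1, hS]
  have hε2 : (N : ℝ) * (8 / S) ≤ 1 / 2 := by
    rw [mul_div_assoc', div_le_div_iff₀ hS0 (by norm_num)]
    linarith only [hS, hNn]
  calc |(w ^ N - z ^ N).re| ≤ ‖w ^ N - z ^ N‖ := Complex.abs_re_le_norm _
    _ ≤ N * (8 / S) * (1 + 8 / S) ^ N := pow_err z w _ hz1 hwz N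
    _ ≤ N * (8 / S) * 2 := by
        refine mul_le_mul_of_nonneg_left (pow_le_two _ (by (clear * -; positivity)) N hε2 hε1) (by (clear * -; (clear * -; positivity)))
    _ = 16 * N / S := by ring

/-! ### devices -/

theorem list_sum (f : ℕ → ℤ) (n : ℕ) : ((List.range n).map f).sum = ∑ i ∈ range n, f i := by
  induction n with
  | zero => simp
  | succ n ih => rw [List.range_succ, List.map_append, List.sum_append, ih, Finset.sum_range_succ]; simp

theorem re_le_one (α : ℝ) (D a b N : ℕ) : |(cdot (av α) (node D a b) ^ N).re| ≤ 1 := by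
  refine (Complex.abs_re_le_norm _).trans ?_
  rw [norm_pow]
  exact pow_le_one₀ (norm_nonneg _) (cdot_node_norm _ _ _ _)

theorem dterm_err (k a b g N amp : ℕ) (hk : 1 ≤ k) (hcs : HCs k) (hsn : HSn k) (ha : a < aD k)
    (hb : b < aD k) (hg : g ≤ 4 * aD k) (hN : N ≤ 2 * an k) (hamp : amp ≤ 2 ^ (50 * an k ^ 3)) :
    |(dterm k a b g N amp : ℝ) -
      amp * (cdot (av (Real.pi * g / (2 * aD k))) (node (pD k) a b) ^ N).re| ≤ 2 := by
  have h1 := idiv_err ((amp : ℤ) * gre k a b g N) (2 ^ (aQ k * N)) (by (clear * -; positivity))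
  have h2 := gre_err k a b g N hk hcs hsn ha hb hg hN
  push_cast at h1
  have hn := an_ge hk
  have h3 : (2 : ℝ) ^ (50 * an k ^ 3 + an k) * 2 ^ 64 ≤ 2 ^ aQ k := by
    refine two_pow_big _ ?_
    have h3 : an k ≤ an k ^ 3 := Nat.le_self_pow (by norm_num) _
    omega
  set S : ℝ := 2 ^ aQ k with hSd
  have hS0 : 0 < S := by positivity
  have hampr : (amp : ℝ) ≤ 2 ^ (50 * an k ^ 3) := by exact_mod_cast hamp
  have hNn : (N : ℝ) ≤ 2 * an k := by exact_mod_cast hN
  have hnn : (an k : ℝ) ≤ 2 ^ an k := by exact_mod_cast Nat.lt_two_pow_self.le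
  have h4 : (amp : ℝ) * (16 * N / S) ≤ 1 := by
    rw [mul_div_assoc', div_le_one hS0]
    calc (amp : ℝ) * (16 * N) ≤ 2 ^ (50 * an k ^ 3) * (16 * (2 * 2 ^ an k)) := by
          gcongr
          linarith only [hNn, hnn]
      _ = 2 ^ (50 * an k ^ 3 + an k) * 32 := by rw [pow_add]; ring
      _ ≤ 2 ^ (50 * an k ^ 3 + an k) * 2 ^ 64 := by gcongr; norm_num
      _ ≤ S := h3
  set r := (cdot (av (Real.pi * g / (2 * aD k))) (node (pD k) a b) ^ N).re with hr
  have h5 : |(amp : ℝ) * gre k a b g N / 2 ^ (aQ k * N) - amp * r| ≤ 1 := by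
    rw [mul_div_assoc, ← mul_sub, abs_mul, abs_of_nonneg (Nat.cast_nonneg amp)]
    refine le_trans (mul_le_mul_of_nonneg_left h2 (Nat.cast_nonneg amp)) h4
  have e : (dterm k a b g N amp : ℝ) - amp * r =
      ((dterm k a b g N amp : ℝ) - (amp : ℝ) * gre k a b g N / 2 ^ (aQ k * N)) +
      ((amp : ℝ) * gre k a b g N / 2 ^ (aQ k * N) - amp * r) := by ring
  rw [e]
  refine (abs_add_le _ _).trans ?_
  have h6 : |(dterm k a b g N amp : ℝ) - (amp : ℝ) * gre k a b g N / 2 ^ (aQ k * N)| ≤ 1 := h1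
  linarith only [h5, h6]

/-- sums with termwise errors -/
theorem sum_err (m : ℕ) (f g : ℕ → ℝ) (c : ℝ) (h : ∀ i < m, |f i - g i| ≤ c) :
    |∑ i ∈ range m, f i - ∑ i ∈ range m, g i| ≤ m * c := by
  rw [← Finset.sum_sub_distrib]
  refine (Finset.abs_sum_le_sum_abs _ _).trans ?_
  calc ∑ i ∈ range m, |f i - g i| ≤ ∑ i ∈ range m, c :=
        Finset.sum_le_sum fun i hi => h i (Finset.mem_range.1 hi)
    _ = m * c := by rw [Finset.sum_const, Finset.card_range, nsmul_eq_mul]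

theorem sum_abs_le (m : ℕ) (f : ℕ → ℝ) (c : ℝ) (h : ∀ i < m, |f i| ≤ c) :
    |∑ i ∈ range m, f i| ≤ m * c := by
  have := sum_err m f (fun _ => 0) c (by simpa only [sub_zero] using h)
  simpa only [ge_iff_le, sum_const_zero, sub_zero] using this

/-- top devices, exact -/
noncomputable def topR (k a b : ℕ) : ℝ :=
  ∑ i ∈ range (pK k), pL k * Xu (pn k) (2 * (pn k - 1)) (pρ k) *
      (cdot (av (pα k i)) (node (pD k) a b) ^ (2 * (pn k - 1))).re

/-- hopping devices, exact -/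
noncomputable def hopR (k : ℕ) (q : ℕ → ℕ) (s : ℕ → ℕ → ℕ) (a b : ℕ) : ℝ :=
  ∑ j ∈ range (pK k), ∑ i ∈ range j, (s i j : ℝ) * pη k * Xu (pn k) (2 * q (j - i)) (pρ k) *
      (cdot (av ((pα k i + pα k j) / 2)) (node (pD k) a b) ^ (2 * q (j - i))).re

theorem amp_top_eq (k : ℕ) (hk : 1 ≤ k) :
    ((2 ^ (an k / (4 * aK k ^ 2)) * aXu k (2 * (an k - 1)) : ℕ) : ℝ) =
      pL k * Xu (pn k) (2 * (pn k - 1)) (pρ k) := by
  have e1 : pn k = an k := rfl
  have e2 : pK k = aK k := rfl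
  push_cast
  rw [aXu_eq k _ hk (by omega)]
  unfold pL
  rw [e1, e2]

theorem amp_top_le (k : ℕ) (hk : 1 ≤ k) :
    2 ^ (an k / (4 * aK k ^ 2)) * aXu k (2 * (an k - 1)) ≤ 2 ^ (50 * an k ^ 3) := by
  have h1 := aXu_le k (2 * (an k - 1)) hk (by (clear * -; omega))
  have hn := an_ge hk
  have h3 : an k ≤ an k ^ 3 := Nat.le_self_pow (by norm_num) _
  calc 2 ^ (an k / (4 * aK k ^ 2)) * aXu k (2 * (an k - 1))
      ≤ 2 ^ an k * 2 ^ (40 * an k ^ 3) :=
        Nat.mul_le_mul (Nat.pow_le_pow_right (by norm_num) (Nat.div_le_self _ _)) h1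
    _ = 2 ^ (an k + 40 * an k ^ 3) := by rw [pow_add]
    _ ≤ 2 ^ (50 * an k ^ 3) := Nat.pow_le_pow_right (by norm_num) (by omega)

theorem topSum_err (k a b : ℕ) (hk : 1 ≤ k) (hcs : HCs k) (hsn : HSn k) (ha : a < aD k)
    (hb : b < aD k) :
    |(topSum k a b : ℝ) - topR k a b| ≤ aK k * 2 ∧
      |topR k a b| ≤ aK k * 2 ^ (50 * an k ^ 3) := by
  have hKr : (aK k : ℝ) ≠ 0 := by unfold aK; (clear * -; positivity)
  constructor
  · unfold topSum topR
    rw [list_sum]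
    push_cast
    have e2 : pK k = aK k := rfl
    rw [e2]
    refine sum_err _ _ _ _ fun i hi => ?_
    have hg : i * 2 ^ (2047 * k + 5) ≤ 4 * aD k := by
      have h1 : i * 2 ^ (2047 * k + 5) ≤ 2 ^ k * 2 ^ (2047 * k + 5) :=
        Nat.mul_le_mul_right _ (by unfold aK at hi; (clear * - hi; omega))
      have h2 : 2 ^ k * 2 ^ (2047 * k + 5) = 2 * aD k := by
        unfold aD an
        rw [← pow_add, show k + (2047 * k + 5) = 2048 * k + 5 by ring, pow_add]
        ring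
      omega
    have h1 := dterm_err k a b (i * 2 ^ (2047 * k + 5)) (2 * (an k - 1))
      (2 ^ (an k / (4 * aK k ^ 2)) * aXu k (2 * (an k - 1))) hk hcs hsn ha hb hg (by (clear * -; omega))
      (amp_top_le k hk)
    rw [amp_top_eq k hk] at h1
    have e3 : Real.pi * ((i * 2 ^ (2047 * k + 5) : ℕ) : ℝ) / (2 * aD k) = pα k i := by
      unfold pα pK aD an
      push_cast
      rw [show 2047 * k + 5 = 2047 * k + 4 + 1 by ring, show 2048 * k = k + 2047 * k by ring,
        pow_add, pow_add, pow_add]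
      have : (2 : ℝ) ^ k ≠ 0 := by positivity
      have : (2 : ℝ) ^ (2047 * k) ≠ 0 := by positivity
      field_simp
      norm_num
    rw [e3] at h1
    exact h1
  · unfold topR
    refine sum_abs_le _ _ _ fun i _ => ?_
    rw [← amp_top_eq k hk, abs_mul, abs_of_nonneg (Nat.cast_nonneg _)]
    have h1 : ((2 ^ (an k / (4 * aK k ^ 2)) * aXu k (2 * (an k - 1)) : ℕ) : ℝ) ≤
        2 ^ (50 * an k ^ 3) := by exact_mod_cast amp_top_le k hk
    calc _ ≤ ((2 : ℝ) ^ (50 * an k ^ 3)) * 1 :=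
          mul_le_mul h1 (re_le_one _ _ _ _ _) (abs_nonneg _) (by positivity)
      _ = _ := mul_one _

theorem q_range (k : ℕ) (hk : 1 ≤ k) (q : ℕ → ℕ) (hq : GoodQ k q) (d : ℕ) (h1 : 1 ≤ d)
    (h2 : d < aK k) : 1 ≤ q d ∧ q d ≤ an k - 1 := by
  have h3 := hq d h1 h2
  have e1 : pn k = an k := rfl
  have e2 : pK k = aK k := rfl
  rw [e1, e2] at h3
  have hK : (0 : ℝ) < aK k := by unfold aK; (clear * -; positivity)
  have hd : (0 : ℝ) < d := by exact_mod_cast h1
  have hdK : (d : ℝ) + 1 ≤ aK k := by exact_mod_cast h2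
  have hn : (2 * aK k + 2 : ℝ) ≤ an k := by
    have h5 := aK_sq_le k
    have h6 : 2 ≤ aK k := by
      unfold aK
      calc 2 = 2 ^ 1 := by norm_num
        _ ≤ 2 ^ k := Nat.pow_le_pow_right (by norm_num) hk
    have h7 : 4 ≤ 2 ^ (2046 * k) := by
      calc 4 = 2 ^ 2 := by norm_num
        _ ≤ 2 ^ (2046 * k) := Nat.pow_le_pow_right (by norm_num) (by (clear * - hk; omega))
    have h8 : 2 * aK k + 2 ≤ an k := by
      rw [← h5]
      calc 2 * aK k + 2 ≤ aK k ^ 2 * 4 := by nlinarith only [h2]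
        _ ≤ aK k ^ 2 * 2 ^ (2046 * k) := Nat.mul_le_mul_left _ h7
    exact_mod_cast h8
  have hx0 : 0 < Real.pi * d / (2 * aK k) := by (clear * - h1 hK; positivity)
  have hx1 : Real.pi * d / (2 * aK k) ≤ Real.pi / 2 := by
    rw [div_le_div_iff₀ (by (clear * - hK; positivity)) (by norm_num)]
    linarith only [mul_nonneg_of_nonpos_of_nonpos (Mathlib.Tactic.Linarith.sub_nonpos_of_le hdK) (le_of_lt (Mathlib.Tactic.Linarith.sub_neg_of_lt Real.pi_pos)), Real.pi_pos]
  have hc1 : Real.cos (Real.pi * d / (2 * aK k)) < 1 := by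
    have := Real.cos_lt_cos_of_nonneg_of_le_pi_div_two le_rfl hx1 hx0
    rwa [Real.cos_zero] at this
  have hc2 := Real.one_sub_mul_le_cos hx0.le hx1
  have hc3 : 1 / (aK k : ℝ) ≤ Real.cos (Real.pi * d / (2 * aK k)) := by
    refine le_trans ?_ hc2
    have : 1 - 2 / Real.pi * (Real.pi * d / (2 * aK k)) = (aK k - d) / aK k := by
      (clear * - hK; field_simp)
    rw [this]
    gcongr
    linarith only [hdK]
  rw [abs_le] at h3
  have h4 : (0 : ℝ) < q d := by
    have h5 : 1 < ((an k : ℝ) - 1) * (1 / aK k) := by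
      rw [mul_one_div, lt_div_iff₀ hK]
      linarith only [hn]
    have h6 : ((an k : ℝ) - 1) * (1 / aK k) ≤ ((an k : ℝ) - 1) * Real.cos (Real.pi * d / (2 * aK k)) :=
      mul_le_mul_of_nonneg_left hc3 (by linarith only [hn])
    linarith only [h5, h6, h3.1]
  have h5 : (q d : ℝ) < an k := by
    have h6 : ((an k : ℝ) - 1) * Real.cos (Real.pi * d / (2 * aK k)) < ((an k : ℝ) - 1) * 1 :=
      mul_lt_mul_of_pos_left hc1 (by linarith only [hn])
    linarith only [h6, h3.2]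
  have h6 : 0 < q d := by exact_mod_cast h4
  have h7 : q d < an k := by exact_mod_cast h5
  (clear * - e1 h6 h7; omega)

theorem amp_hop (k s q : ℕ) (hk : 1 ≤ k) (hq1 : 1 ≤ q) (hq2 : q ≤ an k - 1)
    (hs : s ≤ 2 ^ (4 * an k)) :
    s * (aXu k (2 * q) / 2 ^ an k) ≤ 2 ^ (50 * an k ^ 3) ∧
    ((s * (aXu k (2 * q) / 2 ^ an k) : ℕ) : ℝ) = s * pη k * Xu (pn k) (2 * q) (pρ k) := by
  have hn := an_ge hk
  have h3 : an k ≤ an k ^ 3 := Nat.le_self_pow (by norm_num) _
  constructor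
  · calc s * (aXu k (2 * q) / 2 ^ an k) ≤ 2 ^ (4 * an k) * 2 ^ (40 * an k ^ 3) :=
          Nat.mul_le_mul hs ((Nat.div_le_self _ _).trans (aXu_le k _ hk (by omega)))
      _ = 2 ^ (4 * an k + 40 * an k ^ 3) := by rw [pow_add]
      _ ≤ 2 ^ (50 * an k ^ 3) := Nat.pow_le_pow_right (by norm_num) (by (clear * - hn h3; omega))
  · have hdvd : 2 ^ an k ∣ aXu k (2 * q) := by
      unfold aXu
      refine Dvd.dvd.mul_right (Dvd.dvd.mul_right (Dvd.dvd.mul_right ?_ _) _) _
      refine pow_dvd_pow 2 ?_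
      calc an k ≤ an k ^ 2 := Nat.le_self_pow (by norm_num) _
        _ ≤ 16 * an k ^ 2 * (2 * q) := by nlinarith only [hq1]
    rw [Nat.cast_mul, Nat.cast_div hdvd (by (clear * -; positivity)), aXu_eq k _ hk (by (clear * - hq2 hn; omega))]
    have e1 : pn k = an k := rfl
    unfold pη
    rw [e1]
    push_cast
    ring

theorem hopSum_err (k : ℕ) (s : List ℕ) (a b : ℕ) (hk : 1 ≤ k) (hcs : HCs k) (hsn : HSn k)
    (hq : GoodQ k (aq k)) (hs : ∀ i j, i < j → j < aK k → sget k s i j ≤ 2 ^ (4 * an k))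
    (ha : a < aD k) (hb : b < aD k) :
    |(hopSum k s a b : ℝ) - hopR k (aq k) (sget k s) a b| ≤ aK k * (aK k * 2) ∧
      |hopR k (aq k) (sget k s) a b| ≤ aK k * (aK k * 2 ^ (50 * an k ^ 3)) := by
  have e2 : pK k = aK k := rfl
  have e1 : pn k = an k := rfl
  constructor
  · unfold hopSum hopR
    simp only [list_sum]
    push_cast
    rw [e2]
    refine sum_err _ _ _ _ fun j hj => ?_
    refine le_trans (sum_err _ _ _ 2 fun i hi => ?_) ?_
    · obtain ⟨hq1, hq2⟩ := q_range k hk (aq k) hq (j - i) (by omega) (by omega)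
      obtain ⟨ha1, ha2⟩ := amp_hop k (sget k s i j) (aq k (j - i)) hk hq1 hq2 (hs i j hi hj)
      have hg : (i + j) * 2 ^ (2047 * k + 4) ≤ 4 * aD k := by
        have h1 : (i + j) * 2 ^ (2047 * k + 4) ≤ (2 * 2 ^ k) * 2 ^ (2047 * k + 4) :=
          Nat.mul_le_mul_right _ (by unfold aK at hj; omega)
        have h2 : (2 * 2 ^ k) * 2 ^ (2047 * k + 4) = 2 * aD k := by
          unfold aD an
          rw [mul_assoc, ← pow_add, show k + (2047 * k + 4) = 2048 * k + 4 by ring, pow_add]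
          ring
        (clear * - h1 h2; omega)
      have h1 := dterm_err k a b ((i + j) * 2 ^ (2047 * k + 4)) (2 * aq k (j - i))
        (sget k s i j * (aXu k (2 * aq k (j - i)) / 2 ^ an k)) hk hcs hsn ha hb hg (by (clear * - hq1 hq2; omega)) ha1
      rw [ha2] at h1
      have e3 : Real.pi * (((i + j) * 2 ^ (2047 * k + 4) : ℕ) : ℝ) / (2 * aD k) =
          (pα k i + pα k j) / 2 := by
        unfold pα pK aD an
        push_cast
        rw [show 2048 * k = k + 2047 * k by ring, pow_add, pow_add]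
        have : (2 : ℝ) ^ k ≠ 0 := by positivity
        have : (2 : ℝ) ^ (2047 * k) ≠ 0 := by positivity
        field_simp
        norm_num
      rw [e3] at h1
      exact h1
    · have : (j : ℝ) ≤ aK k := by exact_mod_cast hj.le
      linarith only [this]
  · unfold hopR
    rw [e2]
    refine sum_abs_le _ _ _ fun j hj => ?_
    refine le_trans (sum_abs_le _ _ (2 ^ (50 * an k ^ 3)) fun i hi => ?_) ?_
    · obtain ⟨hq1, hq2⟩ := q_range k hk (aq k) hq (j - i) (by omega) (by omega)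
      obtain ⟨ha1, ha2⟩ := amp_hop k (sget k s i j) (aq k (j - i)) hk hq1 hq2 (hs i j hi hj)
      rw [← ha2, abs_mul, abs_of_nonneg (Nat.cast_nonneg _)]
      have h1 : ((sget k s i j * (aXu k (2 * aq k (j - i)) / 2 ^ an k) : ℕ) : ℝ) ≤
          2 ^ (50 * an k ^ 3) := by exact_mod_cast ha1
      calc _ ≤ ((2 : ℝ) ^ (50 * an k ^ 3)) * 1 :=
            mul_le_mul h1 (re_le_one _ _ _ _ _) (abs_nonneg _) (by positivity)
        _ = _ := mul_one _
    · have : (j : ℝ) ≤ aK k := by exact_mod_cast hj.le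
      gcongr

/-! ### Fejér weights -/

theorem sum_Icc_shift (f : ℕ → ℝ) (m : ℕ) : ∑ j ∈ Icc 1 m, f j = ∑ j ∈ range m, f (j + 1) := by
  induction m with
  | zero => simp only [Order.lt_one_iff, Icc_eq_empty_of_lt, sum_empty, range_zero]
  | succ m ih => rw [Finset.sum_Icc_succ_top (by omega), ih, Finset.sum_range_succ]

theorem fejA_err (k a : ℕ) (hcs : HCs k) (ha : a < aD k) :
    |(fejA k a : ℝ) - 2 ^ aQ k * (aD k * fej (aD k) a)| ≤ 2 * aD k := by
  have hD0 := aD_pos k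
  have hDr : (0 : ℝ) < aD k := by exact_mod_cast hD0
  set D := aD k with hD
  set S : ℝ := 2 ^ aQ k with hS
  have e1 : (D : ℝ) * fej D a = 1 - 2 * ∑ j ∈ range (D / 2),
      Real.cos (2 * ((j : ℝ) + 1) * (Real.pi * (2 * a + 1) / (2 * D))) /
        (4 * ((j : ℝ) + 1) ^ 2 - 1) := by
    unfold fej
    rw [sum_Icc_shift, ← mul_assoc, mul_one_div_cancel hDr.ne', one_mul]
    push_cast
    rfl
  have e2 : (fejA k a : ℝ) = S - 2 * ∑ j ∈ range (D / 2),
      ((cs k (2 * (j + 1) * (2 * a + 1)) / (4 * ((j : ℤ) + 1) ^ 2 - 1) : ℤ) : ℝ) := by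
    unfold fejA
    rw [list_sum]
    push_cast
    rfl
  have e3 : (fejA k a : ℝ) - S * (D * fej D a) = -2 * (∑ j ∈ range (D / 2),
      ((cs k (2 * (j + 1) * (2 * a + 1)) / (4 * ((j : ℤ) + 1) ^ 2 - 1) : ℤ) : ℝ) -
      ∑ j ∈ range (D / 2), S * (Real.cos (2 * ((j : ℝ) + 1) * (Real.pi * (2 * a + 1) / (2 * D))) /
        (4 * ((j : ℝ) + 1) ^ 2 - 1))) := by
    rw [e1, e2, ← Finset.mul_sum]
    ring
  have h1 := sum_err (D / 2)
    (fun j => ((cs k (2 * (j + 1) * (2 * a + 1)) / (4 * ((j : ℤ) + 1) ^ 2 - 1) : ℤ) : ℝ))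
    (fun j => S * (Real.cos (2 * ((j : ℝ) + 1) * (Real.pi * (2 * a + 1) / (2 * D))) /
        (4 * ((j : ℝ) + 1) ^ 2 - 1))) 2 (fun j hj => by
      have hpos : (0 : ℤ) < 4 * ((j : ℤ) + 1) ^ 2 - 1 := by
        have : (0 : ℤ) ≤ j := by (clear * -; (clear * -; positivity))
        nlinarith
      have h2 := idiv_err (cs k (2 * (j + 1) * (2 * a + 1))) _ hpos
      have hj' : 2 * (j + 1) * (2 * a + 1) ≤ 4 * D ^ 2 := by
        have h3 : 2 * (j + 1) ≤ D := by omega
        have h4 : 2 * a + 1 ≤ 2 * D := by (clear * - ha; omega)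
        calc 2 * (j + 1) * (2 * a + 1) ≤ D * (2 * D) := Nat.mul_le_mul h3 h4
          _ ≤ 4 * D ^ 2 := by nlinarith only []
      have h3 := hcs _ hj'
      have e4 : Real.pi * ((2 * (j + 1) * (2 * a + 1) : ℕ) : ℝ) / (2 * D) =
          2 * ((j : ℝ) + 1) * (Real.pi * (2 * a + 1) / (2 * D)) := by push_cast; ring
      rw [e4] at h3
      set C := Real.cos (2 * ((j : ℝ) + 1) * (Real.pi * (2 * a + 1) / (2 * D)))
      set x := cs k (2 * (j + 1) * (2 * a + 1))
      push_cast at h2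
      have hm : (3 : ℝ) ≤ 4 * ((j : ℝ) + 1) ^ 2 - 1 := by
        have : (0 : ℝ) ≤ j := by (clear * -; (clear * -; positivity))
        nlinarith
      set m : ℝ := 4 * ((j : ℝ) + 1) ^ 2 - 1 with hmd
      have h4 : |(x : ℝ) / m - S * (C / m)| ≤ 1 := by
        have e5 : (x : ℝ) / m - S * (C / m) = (x - S * C) / m := by ring
        rw [e5, abs_div, abs_of_pos (by linarith only [hm] : (0 : ℝ) < m), div_le_one (by linarith only [hm])]
        exact h3.trans (by linarith only [hm])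
      have e6 : ((x / (4 * ((j : ℤ) + 1) ^ 2 - 1) : ℤ) : ℝ) - S * (C / m) =
          (((x / (4 * ((j : ℤ) + 1) ^ 2 - 1) : ℤ) : ℝ) - x / m) + (x / m - S * (C / m)) := by
        ring
      rw [e6]
      refine (abs_add_le _ _).trans ?_
      linarith only [h2, h4])
  rw [e3, abs_mul]
  have h2 : ((D / 2 : ℕ) : ℝ) ≤ D / 2 := Nat.cast_div_le
  have h3 : |(-2 : ℝ)| = 2 := by norm_num
  rw [h3]
  calc (2 : ℝ) * _ ≤ 2 * (((D / 2 : ℕ) : ℝ) * 2) := mul_le_mul_of_nonneg_left h1 (by norm_num)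
    _ ≤ 2 * D := by linarith only [h2]

theorem even_aD (k : ℕ) : Even (aD k) := by
  unfold aD
  exact ⟨8 * an k, by ring⟩

theorem fej_le_one (k a : ℕ) (ha : a < aD k) : fej (aD k) a ≤ 1 := by
  have h16 := le_aD k
  rw [← fej_sum (aD k) (by omega) (even_aD k)]
  refine Finset.single_le_sum (f := fun i => fej (aD k) i) (fun i hi => ?_) (Finset.mem_range.2 ha)
  refine le_trans ?_ (fej_pos (aD k) (by omega) (even_aD k) i (Finset.mem_range.1 hi))
  (clear * - h16; positivity)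

/-! ### charges -/

theorem wex_eq (k : ℕ) (q : ℕ → ℕ) (s : ℕ → ℕ → ℕ) (a b : ℕ) :
    wex k q s a b = qw (aD k) a * (2 ^ (128 * an k ^ 3) + topR k a b + hopR k q s a b) := rfl

/-- real arithmetic of the charge -/
theorem chg_arith (F f M M' S D K P : ℝ) (hD : 16 ≤ D) (hS : 0 < S)
    (hP : 0 < P) (hf0 : 1 / D ^ 2 ≤ f) (hf1 : f ≤ D)
    (hF : |F - S * f| ≤ 2 * D) (hM : |M - M'| ≤ 4 * K ^ 2) (hM'1 : |M'| ≤ 2 * P)
    (hM'2 : P / 2 ≤ M') (hKD : 16 * K ^ 2 ≤ D) (hSP : 64 * (P + K ^ 2) ≤ S)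
    (hPD : 8 * D ^ 4 ≤ P) :
    |F * M / (S * D ^ 2) - f / D ^ 2 * M'| ≤ 1 ∧ 4 ≤ f / D ^ 2 * M' := by
  have hD0 : 0 < D := by linarith only [hD]
  have hf : 0 < f := lt_of_lt_of_le (by (clear * - hD; positivity)) hf0
  constructor
  · have e : F * M / (S * D ^ 2) - f / D ^ 2 * M' =
        ((F - S * f) * M / S + f * (M - M')) / D ^ 2 := by
      field_simp
      ring
    rw [e, abs_div, abs_of_pos (by positivity : 0 < D ^ 2), div_le_one (by positivity)]
    refine (abs_add_le _ _).trans ?_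
    have hMa : |M| ≤ 2 * P + 4 * K ^ 2 := by
      have : M = (M - M') + M' := by ring
      rw [this]
      refine (abs_add_le _ _).trans ?_
      linarith only [hM, hM'1]
    have h1 : |(F - S * f) * M / S| ≤ 2 * D * (2 * P + 4 * K ^ 2) / S := by
      rw [abs_div, abs_mul, abs_of_pos hS]
      gcongr
    have h2 : 2 * D * (2 * P + 4 * K ^ 2) / S ≤ D := by
      rw [div_le_iff₀ hS]
      nlinarith only [hP, hSP, hD]
    have h3 : |f * (M - M')| ≤ D * (4 * K ^ 2) := by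
      rw [abs_mul, abs_of_pos hf]
      gcongr
    linarith only [hD, hKD, h3, h2, h1, mul_nonneg_of_nonpos_of_nonpos (Mathlib.Tactic.Linarith.sub_nonpos_of_le hD) (Mathlib.Tactic.Linarith.sub_nonpos_of_le hKD), mul_nonneg_of_nonpos_of_nonpos (Mathlib.Tactic.Linarith.sub_nonpos_of_le hD) (Mathlib.Tactic.Linarith.sub_nonpos_of_le hD)]
  · have h1 : f / D ^ 2 * M' ≥ (1 / D ^ 2) / D ^ 2 * (P / 2) := by
      have : 0 ≤ P / 2 := by (clear * - hP; positivity)
      (clear * - hf0 hD hM'2 hP hf; gcongr)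
    have h2 : (1 / D ^ 2) / D ^ 2 * (P / 2) = P / (2 * D ^ 4) := by
      field_simp
    have h3 : 4 ≤ P / (2 * D ^ 4) := by
      rw [le_div_iff₀ (by (clear * - hD; positivity))]
      linarith only [hPD]
    linarith only [h1, h2, h3]

theorem K_facts (k : ℕ) : 16 * aK k ^ 2 ≤ aD k ∧ 1 ≤ aK k ∧ aK k ≤ an k := by
  have h5 := aK_sq_le k
  have h6 : 1 ≤ 2 ^ (2046 * k) := Nat.one_le_two_pow
  have h7 : aK k ^ 2 ≤ an k := by
    rw [← h5]
    exact Nat.le_mul_of_pos_right _ (by omega)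
  refine ⟨by unfold aD; omega, by unfold aK; exact Nat.one_le_two_pow, ?_⟩
  exact (Nat.le_self_pow (by norm_num) _).trans h7

/-- **Charges.** -/
theorem chg_err (k : ℕ) (hk : 1 ≤ k) (hcs : HCs k) (hsn : HSn k) (hq : GoodQ k (aq k))
    (s : List ℕ) (hs : ∀ i j, i < j → j < aK k → sget k s i j ≤ 2 ^ (4 * an k)) (a b : ℕ)
    (ha : a < aD k) (hb : b < aD k) :
    |(chg k s a b : ℝ) - wex k (aq k) (sget k s) a b| ≤ 2 ∧ 1 ≤ chg k s a b := by
  obtain ⟨t1, t2⟩ := topSum_err k a b hk hcs hsn ha hb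
  obtain ⟨u1, u2⟩ := hopSum_err k s a b hk hcs hsn hq hs ha hb
  obtain ⟨K1, K2, K3⟩ := K_facts k
  have hF := fejA_err k a hcs ha
  have hn := an_ge hk
  have h16 := le_aD k
  have hn3 : an k ≤ an k ^ 3 := Nat.le_self_pow (by norm_num) _
  have hDn : aD k = 16 * an k := rfl
  have hnn : (an k : ℝ) ≤ 2 ^ an k := by exact_mod_cast Nat.lt_two_pow_self.le
  have hKr1 : (1 : ℝ) ≤ aK k := by exact_mod_cast K2
  have hKr : (aK k : ℝ) ≤ 2 ^ an k := by
    have : (aK k : ℝ) ≤ an k := by exact_mod_cast K3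
    linarith only [hnn, this]
  set R1 : ℝ := topR k a b
  set R2 : ℝ := hopR k (aq k) (sget k s) a b
  set P : ℝ := 2 ^ (128 * an k ^ 3) with hP
  have hP0 : 0 < P := by positivity
  have hK2 : (aK k : ℝ) ≤ (aK k : ℝ) ^ 2 := by nlinarith only [hKr1]
  have hbig : (aK k : ℝ) ^ 2 * 2 ^ (50 * an k ^ 3) * 4 ≤ P := by
    calc (aK k : ℝ) ^ 2 * 2 ^ (50 * an k ^ 3) * 4
        ≤ (2 ^ an k) ^ 2 * 2 ^ (50 * an k ^ 3) * 2 ^ 2 := by gcongr; norm_num
      _ = 2 ^ (an k * 2 + 50 * an k ^ 3 + 2) := by rw [← pow_mul, ← pow_add, ← pow_add]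
      _ ≤ P := pow_le_pow_right₀ (by norm_num) (by (clear * - hn hn3; omega))
  have hc50 : (0 : ℝ) < 2 ^ (50 * an k ^ 3) := by positivity
  have hR1 : |R1| ≤ P / 4 := by
    refine t2.trans ?_
    nlinarith only [hbig, hKr1, hP0]
  have hR2 : |R2| ≤ P / 4 := by
    refine u2.trans ?_
    linarith only [hbig]
  have hR1' := abs_le.1 hR1
  have hR2' := abs_le.1 hR2
  have hmain := chg_arith (fejA k a : ℝ) (aD k * fej (aD k) a)
    (P + (topSum k a b : ℝ) + (hopSum k s a b : ℝ)) (P + R1 + R2) (2 ^ aQ k) (aD k) (aK k) P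
    (by exact_mod_cast h16) (by positivity) hP0 (by
      have hf := fej_pos (aD k) (by omega) (even_aD k) a ha
      have hDr : (0 : ℝ) < aD k := by exact_mod_cast aD_pos k
      calc (1 : ℝ) / (aD k : ℝ) ^ 2 = aD k * (1 / (aD k : ℝ) ^ 3) := by field_simp
        _ ≤ _ := mul_le_mul_of_nonneg_left hf hDr.le)
    (by
      have hf := fej_le_one k a ha
      have hDr : (0 : ℝ) < aD k := by exact_mod_cast aD_pos k
      calc (aD k : ℝ) * fej (aD k) a ≤ aD k * 1 := mul_le_mul_of_nonneg_left hf hDr.le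
        _ = aD k := mul_one _)
    hF (by
      have e : P + (topSum k a b : ℝ) + (hopSum k s a b : ℝ) - (P + R1 + R2) =
          ((topSum k a b : ℝ) - R1) + ((hopSum k s a b : ℝ) - R2) := by ring
      rw [e]
      refine (abs_add_le _ _).trans ?_
      linarith only [t1, u1, hK2])
    (by rw [abs_le]; constructor <;> linarith only [hR1', hR2'])
    (by linarith only [hR1'.1, hR2'.1])
    (by exact_mod_cast K1)
    (by
      have h1 : (aK k : ℝ) ^ 2 ≤ P := by nlinarith only [hbig, one_le_pow₀ (n := 50 * an k ^ 3) (by norm_num : (1 : ℝ) ≤ 2)]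
      calc 64 * (P + (aK k : ℝ) ^ 2) ≤ 64 * (P + P) := by (clear * - h1; gcongr)
        _ = 2 ^ (7 + 128 * an k ^ 3) := by rw [hP, pow_add]; ring
        _ ≤ 2 ^ aQ k := pow_le_pow_right₀ (by norm_num) (by unfold aQ; (clear * - hn hn3; (clear * - hn hn3; omega))))
    (by
      rw [hDn]
      push_cast
      calc 8 * (16 * (an k : ℝ)) ^ 4 ≤ 8 * (16 * 2 ^ an k) ^ 4 := by (clear * - hn hnn; gcongr)
        _ = 2 ^ (19 + an k * 4) := by rw [pow_add, pow_mul]; ring
        _ ≤ P := pow_le_pow_right₀ (by norm_num) (by (clear * - hn hn3; omega)))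
  obtain ⟨m1, m2⟩ := hmain
  have hwex : wex k (aq k) (sget k s) a b =
      aD k * fej (aD k) a / (aD k : ℝ) ^ 2 * (P + R1 + R2) := by
    rw [wex_eq]
    have hDr : (0 : ℝ) < aD k := by exact_mod_cast aD_pos k
    unfold qw
    have : (aD k : ℝ) * fej (aD k) a / (aD k : ℝ) ^ 2 = fej (aD k) a / aD k := by
      (clear * - h16; field_simp)
    rw [this]
  rw [← hwex] at m1 m2
  have hfl := idiv_err (fejA k a * (2 ^ (128 * an k ^ 3) + topSum k a b + hopSum k s a b))
    (2 ^ aQ k * (aD k : ℤ) ^ 2) (by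
      have : (0 : ℤ) < aD k := by exact_mod_cast aD_pos k
      (clear * - h16; positivity))
  push_cast at hfl
  set Z : ℤ := fejA k a * (2 ^ (128 * an k ^ 3) + topSum k a b + hopSum k s a b) /
    (2 ^ aQ k * (aD k : ℤ) ^ 2) with hZ
  have hZerr : |(Z : ℝ) - wex k (aq k) (sget k s) a b| ≤ 2 := by
    have e : (Z : ℝ) - wex k (aq k) (sget k s) a b =
        ((Z : ℝ) - (fejA k a : ℝ) * (2 ^ (128 * an k ^ 3) + (topSum k a b : ℝ) +
          (hopSum k s a b : ℝ)) / (2 ^ aQ k * (aD k : ℝ) ^ 2)) +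
        ((fejA k a : ℝ) * (2 ^ (128 * an k ^ 3) + (topSum k a b : ℝ) +
          (hopSum k s a b : ℝ)) / (2 ^ aQ k * (aD k : ℝ) ^ 2) -
          wex k (aq k) (sget k s) a b) := by ring
    rw [e]
    refine (abs_add_le _ _).trans ?_
    linarith only [m1, hfl]
  have hZ1 : (1 : ℝ) ≤ Z := by
    have := (abs_le.1 hZerr).1
    linarith only [m2, this]
  have hZ2 : (1 : ℤ) ≤ Z := by exact_mod_cast hZ1
  have hchg : chg k s a b = Z.toNat := rfl
  have hcast : ((Z.toNat : ℕ) : ℤ) = Z := Int.toNat_of_nonneg (by omega)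
  refine ⟨?_, ?_⟩
  · rw [hchg]
    have : ((Z.toNat : ℕ) : ℝ) = (Z : ℝ) := by exact_mod_cast congrArg (fun z : ℤ => (z : ℝ)) hcast
    rw [this]
    exact hZerr
  · rw [hchg]
    omega

/-! ### positions -/

theorem norm_le_of_coord (x : R3) (c : ℝ) (h : ∀ i, |x i| ≤ c) : ‖x‖ ≤ 2 * c := by
  have hc : 0 ≤ c := (abs_nonneg _).trans (h 0)
  rw [EuclideanSpace.norm_eq, Real.sqrt_le_left (by (clear * - hc; positivity)), Fin.sum_univ_three]
  have h0 := sq_le_sq' (abs_le.1 (h 0)).1 (abs_le.1 (h 0)).2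
  have h1 := sq_le_sq' (abs_le.1 (h 1)).1 (abs_le.1 (h 1)).2
  have h2 := sq_le_sq' (abs_le.1 (h 2)).1 (abs_le.1 (h 2)).2
  simp only [Real.norm_eq_abs, sq_abs]
  linarith only [h2, h1, h0, sq_nonneg c]

theorem bexp_eq (k : ℕ) : (2 : ℝ) ^ bexp k = 2 * (aD k : ℝ) ^ 2 * 2 ^ aQ k * (1 / pρ k) * pT k := by
  have e1 : (aD k : ℝ) = 2 ^ (2048 * k + 4) := by
    unfold aD an
    push_cast
    rw [pow_add]
    norm_num
    ring
  have e2 : pn k = an k := rfl
  rw [e1]
  unfold bexp pρ pT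
  rw [e2, one_div_one_div]
  push_cast
  rw [← pow_mul, pow_add, pow_add, pow_add, pow_add, pow_one]
  ring

theorem crd_err (k a b : ℕ) (hk : 1 ≤ k) (hcs : HCs k) (hsn : HSn k) (ha : a < aD k)
    (hb : b < aD k) (c : Fin 3) :
    |(crd k a b c : ℝ) - 2 ^ aQ k * node (pD k) a b c| ≤ 6 := by
  have eD : pD k = aD k := rfl
  rw [eD]
  have hD16 := le_aD k
  have hDr : (0 : ℝ) < aD k := by exact_mod_cast aD_pos k
  have hS := S_big hk
  have hn1 : (1 : ℝ) ≤ an k := by exact_mod_cast an_pos k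
  have hS4 : (4 : ℝ) ≤ 2 ^ aQ k := by
    refine le_trans ?_ hS
    linarith only [hn1]
  have j1 : 2 * a + 1 ≤ 4 * aD k ^ 2 := by exact le_of_not_gt fun hng => by linarith only [hng, mul_nonneg_of_nonpos_of_nonpos (Mathlib.Tactic.Linarith.sub_nonpos_of_le (Mathlib.Tactic.Linarith.natCast_nonneg ℤ (Vale.Agent.P370.Q.Alg.aD k))) (Mathlib.Tactic.Linarith.sub_nonpos_of_le (Int.add_one_le_iff.mpr (id (Eq.mp Int.ofNat_lt._simp_2 ha)))), mul_nonneg_of_nonpos_of_nonpos (Mathlib.Tactic.Linarith.sub_nonpos_of_le (Mathlib.Tactic.Linarith.natCast_nonneg ℤ a)) (Mathlib.Tactic.Linarith.sub_nonpos_of_le (Mathlib.Tactic.Linarith.natCast_nonneg ℤ (Vale.Agent.P370.Q.Alg.aD k))), Int.add_one_le_iff.mpr (id (Eq.mp Int.ofNat_lt._simp_2 ha))]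
  have j2 : 4 * b ≤ 4 * aD k ^ 2 := by nlinarith only [hb]
  have h1 := hcs _ j1
  have h2 := hsn _ j1
  have h3 := hcs _ j2
  have h4 := hsn _ j2
  have e1 : Real.pi * ((2 * a + 1 : ℕ) : ℝ) / (2 * aD k) = Real.pi * (2 * a + 1) / (2 * aD k) := by
    push_cast; ring
  have e2 : Real.pi * ((4 * b : ℕ) : ℝ) / (2 * aD k) = 2 * Real.pi * b / aD k := by
    push_cast
    field_simp
    ring
  rw [e1] at h1 h2
  rw [e2] at h3 h4
  fin_cases c
  · exact prod_err _ _ (aQ k) _ _ (Real.abs_sin_le_one _) (Real.abs_cos_le_one _) h2 h3 hS4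
  · exact prod_err _ _ (aQ k) _ _ (Real.abs_sin_le_one _) (Real.abs_sin_le_one _) h2 h4 hS4
  · exact h1.trans (by norm_num)

theorem pos_err (k : ℕ) (hk : 1 ≤ k) (hcs : HCs k) (hsn : HSn k) (β : ℕ)
    (hβ : β < aD k * aD k) :
    ‖(WithLp.toLp 2 (fun c : Fin 3 =>
      (pT k : ℝ) * ((numer k (β / aD k) (β % aD k) c : ℝ) / 2 ^ bexp k)) : R3) -
        pρ k • node (pD k) (β / pD k) (β % pD k)‖ ≤ 1 / 2 ^ (200 * pn k ^ 3) := by
  have eD : pD k = aD k := rfl
  have en : pn k = an k := rfl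
  rw [eD, en]
  have hD0 := aD_pos k
  have hDr : (0 : ℝ) < aD k := by exact_mod_cast hD0
  have ha : β / aD k < aD k := Nat.div_lt_of_lt_mul hβ
  have hb : β % aD k < aD k := Nat.mod_lt _ hD0
  have hab : (β / aD k) * aD k + β % aD k = β := Nat.div_add_mod' β (aD k)
  set a := β / aD k
  set b := β % aD k
  have hS0 : (0 : ℝ) < 2 ^ aQ k := by (clear * -; positivity)
  have hρ0 : 0 < pρ k := by unfold pρ; (clear * -; positivity)
  have hρ1 : pρ k ≤ 1 := by
    unfold pρ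
    rw [div_le_one (by positivity)]
    exact one_le_pow₀ (by norm_num)
  have hT0 : (0 : ℝ) < pT k := by unfold pT; (clear * -; positivity)
  have key : ∀ c : Fin 3, |((WithLp.toLp 2 (fun c : Fin 3 =>
      (pT k : ℝ) * ((numer k a b c : ℝ) / 2 ^ bexp k)) : R3) - pρ k • node (aD k) a b) c| ≤
      7 / 2 ^ aQ k := by
    intro c
    have h1 := crd_err k a b hk hcs hsn ha hb c
    rw [eD] at h1
    rw [PiLp.sub_apply, PiLp.smul_apply, smul_eq_mul]
    change |(pT k : ℝ) * ((numer k a b c : ℝ) / 2 ^ bexp k) - pρ k * node (aD k) a b c| ≤ _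
    rw [bexp_eq]
    set S : ℝ := 2 ^ aQ k with hS
    set ν := node (aD k) a b c
    have e1 : (pT k : ℝ) * ((numer k a b c : ℝ) /
        (2 * (aD k : ℝ) ^ 2 * S * (1 / pρ k) * pT k)) - pρ k * ν =
        pρ k * (((crd k a b c : ℝ) - S * ν) / S +
          (2 * β + 1) / (2 * (aD k : ℝ) ^ 2) / S) := by
      have e2 : (numer k a b c : ℝ) =
          2 * ((crd k a b c : ℝ) * (aD k : ℝ) ^ 2 + β) + 1 := by
        unfold numer
        push_cast
        have : (a : ℝ) * aD k + b = β := by exact_mod_cast hab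
        rw [this]
      simp only [e2]
      field_simp
      ring
    rw [e1, abs_mul, abs_of_pos hρ0]
    have h2 : |((crd k a b c : ℝ) - S * ν) / S + (2 * β + 1) / (2 * (aD k : ℝ) ^ 2) / S| ≤
        7 / S := by
      refine (abs_add_le _ _).trans ?_
      have h3 : |((crd k a b c : ℝ) - S * ν) / S| ≤ 6 / S := by
        rw [abs_div, abs_of_pos hS0]
        gcongr
      have h4 : |(2 * (β : ℝ) + 1) / (2 * (aD k : ℝ) ^ 2) / S| ≤ 1 / S := by
        rw [abs_of_pos (by (clear * - hD0; (clear * - hD0; positivity)))]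
        have h5 : (2 * (β : ℝ) + 1) / (2 * (aD k : ℝ) ^ 2) ≤ 1 := by
          rw [div_le_one (by (clear * - hD0; positivity))]
          have h6 : (β : ℝ) + 1 ≤ aD k * aD k := by exact_mod_cast hβ
          linarith only [h6]
        (clear * - h5; gcongr)
      have h5 : 7 / S = 6 / S + 1 / S := by ring
      rw [h5]
      exact add_le_add h3 h4
    calc pρ k * _ ≤ 1 * (7 / S) := mul_le_mul hρ1 h2 (abs_nonneg _) (by norm_num)
      _ = 7 / S := one_mul _
  refine (norm_le_of_coord _ _ key).trans ?_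
  have h5 : (2 : ℝ) ^ (200 * an k ^ 3) * 2 ^ 64 ≤ 2 ^ aQ k := by
    refine two_pow_big _ ?_
    have hn := an_ge hk
    have h3 : an k ≤ an k ^ 3 := Nat.le_self_pow (by norm_num) _
    (clear * - hn h3; omega)
  have h6 : (0 : ℝ) < 2 ^ (200 * an k ^ 3) := by positivity
  rw [mul_div_assoc', div_le_div_iff₀ hS0 h6]
  linarith only [h5, h6]

end Vale.Agent.P370.Q.Alg.N2
end
end

section

section

/-!
Correctness of the numerical part of the instance builder.
-/

namespace Vale.Agent.P370.Q.Alg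

open MeasureTheory Finset

/-! `aN_eq`, `ch_le`, `ch_err`, `sh_err`, `gp_eq`, `cs_err`, `sn_err`, `goodQ`: file `Num1.lean`. -/

/-- **Charges.** -/
theorem chg_err (k : ℕ) (hk : 10 ≤ k) (s : List ℕ)
    (hs : ∀ i j, i < j → j < aK k → sget k s i j ≤ 2 ^ (4 * an k)) (a b : ℕ) (ha : a < aD k)
    (hb : b < aD k) :
    |(chg k s a b : ℝ) - wex k (aq k) (sget k s) a b| ≤ 2 ∧ 1 ≤ chg k s a b :=
  have hk1 : 1 ≤ k := by omega
  N2.chg_err k hk1 (fun j => cs_err k j hk1) (fun j => sn_err k j hk1) (goodQ k hk1) s hs a b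
    ha hb

/-- scaled position of the node `β` -/
noncomputable def ypos (k β : ℕ) : R3 :=
  WithLp.toLp 2 (fun c : Fin 3 =>
    (pT k : ℝ) * ((numer k (β / aD k) (β % aD k) c : ℝ) / 2 ^ bexp k))

theorem pos_err (k : ℕ) (hk : 10 ≤ k) (β : ℕ) (hβ : β < aD k * aD k) :
    ‖ypos k β - pρ k • node (pD k) (β / pD k) (β % pD k)‖ ≤ 1 / 2 ^ (200 * pn k ^ 3) :=
  have hk1 : 1 ≤ k := by omega
  N2.pos_err k hk1 (fun j => cs_err k j hk1) (fun j => sn_err k j hk1) β hβ

theorem approx_build (k : ℕ) (hk : 10 ≤ k) (s : List ℕ)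
    (hs : ∀ i j, i < j → j < aK k → sget k s i j ≤ 2 ^ (4 * an k)) :
    Approx k (aq k) (sget k s) (fun β => chg k s (β / aD k) (β % aD k)) (fun β => ypos k β) := by
  have hD : 0 < pD k := by unfold pD pn; (clear * -; positivity)
  refine ⟨fun β => ?_, fun β => ?_⟩
  · exact (chg_err k hk s hs _ _ (Nat.div_lt_of_lt_mul β.2) (Nat.mod_lt _ hD)).1
  · exact pos_err k hk β β.2

end Vale.Agent.P370.Q.Alg
end
end

section

section

/-!
KC10: hopping amplitudes and the radial factors of the devices.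
-/

namespace Vale.Agent.P370.KC

open Finset MeasureTheory Vale.Agent.P370.Q

theorem amp_eq (k : ℕ) (q : ℕ → ℕ) (d : ℕ) (hq : q d ≤ pn k - 1) :
    amp k q d = hopx (pn k) (q d) (Real.cos (Real.pi * d / (2 * pK k))) := by
  have hn : 0 < pn k := by unfold pn; positivity
  unfold amp hopx
  generalize Real.pi * d / (2 * pK k) = δ
  generalize q d = q at *
  generalize pn k = n at *
  obtain ⟨m, rfl⟩ : ∃ m, n = m + q + 1 := ⟨n - 1 - q, by omega⟩
  rw [hopA_form]
  have e1 : (0 + δ - (0 - δ)) / 2 = δ := by ring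
  have e2 : (0 + δ + (0 - δ)) / 2 - 0 = (0 : ℝ) := by ring
  rw [e1, e2, Real.cos_zero, Real.sin_zero]
  have e3 : Real.sin δ ^ 2 = 1 - Real.cos δ ^ 2 := by
    have := Real.sin_sq_add_cos_sq δ
    linarith only [this]
  have e4 : (0 - Real.sin δ) ^ (2 * q) + (0 + Real.sin δ) ^ (2 * q) =
      2 * (1 - Real.cos δ ^ 2) ^ q := by
    rw [zero_sub, zero_add, pow_mul, pow_mul, neg_sq, e3]
    ring
  rw [e4, e3]
  unfold c2Ch
  have f1 : 2 * (m + q + 1) - 1 = 2 * (m + q) + 1 := by (clear * - hn; omega)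
  have f2 : m + q + 1 - 1 + q = m + q + q := by (clear * - hn; omega)
  have f3 : 2 * (m + q + 1) + 2 * q - 1 = 2 * (m + q) + 2 * q + 1 := by (clear * - f2; omega)
  have f4 : m + q + 1 - 1 - q = m := by (clear * - f2; omega)
  have f5 : m + q - q = m := by (clear * - f2 f4; omega)
  rw [f1, f2, f3, f4, f5]

theorem hx_fac (a b c : ℕ) (h : a ≤ b) :
    (a + c).factorial * b.factorial ≤ (b + c).factorial * a.factorial := by
  rw [← Nat.add_choose_mul_factorial_mul_factorial a c,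
    ← Nat.add_choose_mul_factorial_mul_factorial b c]
  have h1 : (a + c).choose c ≤ (b + c).choose c := Nat.choose_le_choose c (by omega)
  calc (a + c).choose c * a.factorial * c.factorial * b.factorial
      = (a + c).choose c * (a.factorial * c.factorial * b.factorial) := by ring
    _ ≤ (b + c).choose c * (a.factorial * c.factorial * b.factorial) :=
        Nat.mul_le_mul_right _ h1
    _ = _ := by ring

theorem hx_const (n q : ℕ) (hn : 2 ≤ n) (hq : q ≤ n - 1) :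
    1 / 2 * (((2 * n - 1).factorial : ℝ) * ((n - 1 + q).factorial : ℝ) *
    ((2 * q).factorial : ℝ)) /
    (((2 * n + 2 * q - 1).factorial : ℝ) * ((n - 1 - q).factorial : ℝ) * (q.factorial : ℝ) ^ 2) ≤
      1 / 2 * 4 ^ q := by
  obtain ⟨m, rfl⟩ : ∃ m, n = m + q + 1 := ⟨n - 1 - q, by omega⟩
  have f1 : 2 * (m + q + 1) - 1 = 2 * (m + q) + 1 := by omega
  have f2 : m + q + 1 - 1 + q = m + 2 * q := by (clear * - hn; omega)
  have f3 : 2 * (m + q + 1) + 2 * q - 1 = 2 * (m + q) + 1 + 2 * q := by omega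
  have f4 : m + q + 1 - 1 - q = m := by (clear * - f2; omega)
  rw [f1, f2, f3, f4]
  have h1 : ((m + 2 * q).factorial : ℝ) * ((2 * (m + q) + 1).factorial : ℝ) ≤
      ((2 * (m + q) + 1 + 2 * q).factorial : ℝ) * (m.factorial : ℝ) := by
    exact_mod_cast hx_fac m (2 * (m + q) + 1) (2 * q) (by omega)
  have h2 : ((2 * q).factorial : ℝ) ≤ 4 ^ q * (q.factorial : ℝ) ^ 2 := by
    have h3 : (2 * q).choose q * q.factorial * q.factorial = (2 * q).factorial := by
      rw [two_mul]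
      exact Nat.add_choose_mul_factorial_mul_factorial q q
    have h4 : (2 * q).choose q ≤ 4 ^ q := by
      rw [← Nat.centralBinom_eq_two_mul_choose]
      exact Nat.centralBinom_le_four_pow q
    have h5 : (2 * q).factorial ≤ 4 ^ q * q.factorial ^ 2 := by
      rw [← h3, mul_assoc, ← sq]
      exact Nat.mul_le_mul_right _ h4
    exact_mod_cast h5
  rw [div_le_iff₀ (by positivity)]
  have h6 := mul_le_mul h1 h2 (by positivity) (by positivity)
  linarith only [h6]

theorem hx_pow (m : ℕ) (u v B : ℝ) (hB : 1 ≤ B) (hu : |u| ≤ B) (hv : |v| ≤ B) :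
    |u ^ m - v ^ m| ≤ m * B ^ m * |u - v| := by
  have h1 := abs_pow_sub_pow_le u v m
  have h2 : max |u| |v| ^ (m - 1) ≤ B ^ m :=
    (pow_le_pow_left₀ (le_max_of_le_left (abs_nonneg _)) (max_le hu hv) _).trans
      (pow_le_pow_right₀ hB (by omega))
  calc |u ^ m - v ^ m| ≤ |u - v| * m * max |u| |v| ^ (m - 1) := h1
    _ ≤ |u - v| * m * B ^ m := mul_le_mul_of_nonneg_left h2 (by (clear * -; positivity))
    _ = _ := by ring

theorem hx_mul {a b a' b' A B δ x y : ℝ} (ha : |a| ≤ A) (hb : |b'| ≤ B) (hx : |a - a'| ≤ x * δ)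
    (hy : |b - b'| ≤ y * δ) (hA : 0 ≤ A) (hB : 0 ≤ B) :
    |a * b - a' * b'| ≤ (A * y + x * B) * δ := by
  have e : a * b - a' * b' = a * (b - b') + (a - a') * b' := by ring
  rw [e]
  refine (abs_add_le _ _).trans ?_
  rw [abs_mul, abs_mul]
  have h1 := mul_le_mul ha hy (abs_nonneg _) hA
  have h2 := mul_le_mul hx hb (abs_nonneg _) ((abs_nonneg _).trans hx)
  linarith only [h1, h2]

/-- crude Lipschitz bound -/
theorem hopx_lip (n q : ℕ) (hn : 2 ≤ n) (hq : q ≤ n - 1) (s t : ℝ) (hs : s ∈ Set.Icc (0 : ℝ) 1)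
    (ht : t ∈ Set.Icc (0 : ℝ) 1) : |hopx n q s - hopx n q t| ≤ 2 ^ (8 * n) * |s - t| := by
  have hC := hx_const n q hn hq
  unfold hopx
  set C : ℝ := 1 / 2 * (((2 * n - 1).factorial : ℝ) * ((n - 1 + q).factorial : ℝ) *
    ((2 * q).factorial : ℝ)) /
    (((2 * n + 2 * q - 1).factorial : ℝ) * ((n - 1 - q).factorial : ℝ) * (q.factorial : ℝ) ^ 2)
    with hCd
  have hC0 : 0 ≤ C := by rw [hCd]; positivity
  clear_value C
  set a := n - 1 - q with ha
  set D := |s - t| with hD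
  have hD0 : 0 ≤ D := abs_nonneg _
  obtain ⟨hs0, hs1⟩ := hs
  obtain ⟨ht0, ht1⟩ := ht
  -- squares
  have hsq : |s ^ 2 - t ^ 2| ≤ 2 * D := by
    rw [show s ^ 2 - t ^ 2 = (s + t) * (s - t) by ring, abs_mul, ← hD]
    refine mul_le_mul_of_nonneg_right ?_ hD0
    rw [abs_of_nonneg (by linarith only [hs0, ht0])]
    linarith only [hs1, ht1]
  have hs2 : 0 ≤ s ^ 2 ∧ s ^ 2 ≤ 1 := ⟨by (clear * -; positivity), by nlinarith only [hs1, hs0]⟩
  have ht2 : 0 ≤ t ^ 2 ∧ t ^ 2 ≤ 1 := ⟨by (clear * -; positivity), by linarith only [mul_nonneg_of_nonpos_of_nonpos (Mathlib.Tactic.Linarith.sub_nonpos_of_le ht1) (Mathlib.Tactic.Linarith.sub_nonpos_of_le ht0), ht1]⟩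
  have a1 : |1 - s ^ 2| ≤ 1 := by rw [abs_le]; constructor <;> linarith only [hs2]
  have a2 : |1 - t ^ 2| ≤ 1 := by rw [abs_le]; constructor <;> linarith only [ht2]
  have a3 : |s ^ 2| ≤ 1 := by rw [abs_le]; constructor <;> linarith only [hs2]
  have a4 : |t ^ 2| ≤ 1 := by rw [abs_le]; constructor <;> linarith only [ht2]
  have hsq' : |(1 - s ^ 2) - (1 - t ^ 2)| ≤ 2 * D := by
    rw [show (1 - s ^ 2) - (1 - t ^ 2) = -(s ^ 2 - t ^ 2) by ring, abs_neg]
    exact hsq
  have one_pw : ∀ (u : ℝ) (m : ℕ), |u| ≤ 1 → |u ^ m| ≤ 1 := by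
    intro u m hu
    rw [abs_pow]
    exact pow_le_one₀ (abs_nonneg _) hu
  have l1 : ∀ m : ℕ, |(1 - s ^ 2) ^ m - (1 - t ^ 2) ^ m| ≤ (2 * m) * D := by
    intro m
    have h := hx_pow m _ _ 1 le_rfl a1 a2
    rw [one_pow, mul_one] at h
    refine h.trans ?_
    calc (m : ℝ) * |1 - s ^ 2 - (1 - t ^ 2)| ≤ m * (2 * D) :=
          mul_le_mul_of_nonneg_left hsq' (by positivity)
      _ = _ := by ring
  have l2 : ∀ m : ℕ, |(s ^ 2) ^ m - (t ^ 2) ^ m| ≤ (2 * m) * D := by
    intro m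
    have h := hx_pow m _ _ 1 le_rfl a3 a4
    rw [one_pow, mul_one] at h
    refine h.trans ?_
    calc (m : ℝ) * |s ^ 2 - t ^ 2| ≤ m * (2 * D) :=
          mul_le_mul_of_nonneg_left hsq (by (clear * -; positivity))
      _ = _ := by ring
  have b1 : |s - 1| ≤ 1 := by rw [abs_le]; constructor <;> linarith only [hs0, hs1]
  have b2 : |t - 1| ≤ 1 := by rw [abs_le]; constructor <;> linarith only [ht0, ht1]
  have b3 : |s + 1| ≤ 2 := by rw [abs_le]; constructor <;> linarith only [hs0, hs1]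
  have b4 : |t + 1| ≤ 2 := by rw [abs_le]; constructor <;> linarith only [ht0, ht1]
  have l3 : |(s - 1) ^ (2 * q) - (t - 1) ^ (2 * q)| ≤ (2 * q) * D := by
    have h := hx_pow (2 * q) _ _ 1 le_rfl b1 b2
    rw [one_pow, mul_one, show s - 1 - (t - 1) = s - t by ring, ← hD] at h
    push_cast at h
    exact h
  have h4q : (2 : ℝ) ^ (2 * q) = 4 ^ q := by rw [pow_mul]; norm_num
  have l4 : |(s + 1) ^ (2 * q) - (t + 1) ^ (2 * q)| ≤ (2 * q * 4 ^ q) * D := by
    have h := hx_pow (2 * q) _ _ 2 (by norm_num) b3 b4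
    rw [show s + 1 - (t + 1) = s - t by ring, ← hD, h4q] at h
    push_cast at h
    exact h
  have c1 : |(t - 1) ^ (2 * q) + (t + 1) ^ (2 * q)| ≤ 1 + 4 ^ q := by
    refine (abs_add_le _ _).trans ?_
    have h1 := one_pw _ (2 * q) b2
    have h2 : |(t + 1) ^ (2 * q)| ≤ 4 ^ q := by
      rw [abs_pow, ← h4q]
      exact pow_le_pow_left₀ (abs_nonneg _) b4 _
    linarith only [h1, h2]
  have c2 : |((s - 1) ^ (2 * q) + (s + 1) ^ (2 * q)) - ((t - 1) ^ (2 * q) + (t + 1) ^ (2 * q))| ≤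
      (2 * q + 2 * q * 4 ^ q) * D := by
    rw [show ((s - 1) ^ (2 * q) + (s + 1) ^ (2 * q)) - ((t - 1) ^ (2 * q) + (t + 1) ^ (2 * q)) =
      ((s - 1) ^ (2 * q) - (t - 1) ^ (2 * q)) + ((s + 1) ^ (2 * q) - (t + 1) ^ (2 * q)) by ring]
    refine (abs_add_le _ _).trans ?_
    linarith only [l3, l4]
  have m1 := hx_mul (one_pw _ a a1) c1 (l1 a) c2 zero_le_one (by positivity)
  have c3 : |2 * (1 - t ^ 2) ^ q| ≤ 2 := by
    rw [abs_mul, abs_of_pos (two_pos)]
    have := one_pw _ q a2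
    linarith only [this]
  have c4 : |2 * (1 - s ^ 2) ^ q - 2 * (1 - t ^ 2) ^ q| ≤ (4 * q) * D := by
    rw [← mul_sub, abs_mul, abs_of_pos (two_pos)]
    have := l1 q
    linarith only [this]
  have m2 := hx_mul (one_pw _ a a3) c3 (l2 a) c4 zero_le_one (by positivity)
  have key : |((1 - s ^ 2) ^ a * ((s - 1) ^ (2 * q) + (s + 1) ^ (2 * q)) +
      (s ^ 2) ^ a * (2 * (1 - s ^ 2) ^ q)) - ((1 - t ^ 2) ^ a * ((t - 1) ^ (2 * q) +
      (t + 1) ^ (2 * q)) + (t ^ 2) ^ a * (2 * (1 - t ^ 2) ^ q))| ≤ 8 * n * 4 ^ q * D := by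
    rw [show ∀ x y z w : ℝ, (x + y) - (z + w) = (x - z) + (y - w) from fun x y z w => by ring]
    refine (abs_add_le _ _).trans ((add_le_add m1 m2).trans ?_)
    rw [← add_mul]
    refine mul_le_mul_of_nonneg_right ?_ hD0
    have h1 : (a : ℝ) + q ≤ n := by
      have : a + q ≤ n := by (clear * - hn hq; omega)
      exact_mod_cast this
    have h2 : (1 : ℝ) ≤ 4 ^ q := one_le_pow₀ (by norm_num)
    have h3 : (0 : ℝ) ≤ a := Nat.cast_nonneg a
    have h4 : (0 : ℝ) ≤ q := Nat.cast_nonneg q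
    have h5 : (a : ℝ) * 1 ≤ a * 4 ^ q := mul_le_mul_of_nonneg_left h2 h3
    have h6 : (q : ℝ) * 1 ≤ q * 4 ^ q := mul_le_mul_of_nonneg_left h2 h4
    have h7 : ((a : ℝ) + q) * 4 ^ q ≤ n * 4 ^ q := mul_le_mul_of_nonneg_right h1 (by positivity)
    linarith only [h5, h6, h7]
  rw [← mul_sub, abs_mul, abs_of_nonneg hC0]
  have h8 : (n : ℝ) ≤ 2 ^ n := by exact_mod_cast (Nat.lt_two_pow_self (n := n)).le
  have h9 : (4 : ℝ) ^ q * 4 ≤ 2 ^ (2 * n) := by
    rw [pow_mul, ← pow_succ]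
    norm_num
    exact pow_le_pow_right₀ (by norm_num) (by (clear * - hn hq; omega))
  have h10 : (2 : ℝ) ^ (8 * n) = 2 ^ (2 * n) * 2 ^ (2 * n) * 2 ^ n * 2 ^ (3 * n) := by
    rw [← pow_add, ← pow_add, ← pow_add]
    congr 1
    ring
  calc C * _ ≤ (1 / 2 * 4 ^ q) * (8 * n * 4 ^ q * D) := mul_le_mul hC key (abs_nonneg _) (by positivity)
    _ = (4 ^ q * 4) * (4 ^ q * 4) * (n / 4) * D := by ring
    _ ≤ 2 ^ (2 * n) * 2 ^ (2 * n) * 2 ^ n * D := by
        refine mul_le_mul_of_nonneg_right ?_ hD0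
        refine mul_le_mul (mul_le_mul h9 h9 (by positivity) (by positivity)) ?_ (by positivity)
          (by positivity)
        have : (0 : ℝ) ≤ n := Nat.cast_nonneg n
        linarith only [h8]
    _ ≤ 2 ^ (8 * n) * D := by
        refine mul_le_mul_of_nonneg_right ?_ hD0
        rw [h10]
        exact le_mul_of_one_le_right (by positivity) (one_le_pow₀ (by norm_num))

theorem RN_low (n N : ℕ) (hN2 : N ≤ 2 * n - 2) (hn : 2 ≤ n) (ρ : ℝ) (hρ : 0 < ρ)
    (hρ2 : ρ ≤ 1 / 2) :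
    ρ ^ N / (2 * (N : ℝ) + 1) *
        ((∫ r in Set.Ioi (0 : ℝ), r ^ (2 * n - 1 - N) * Real.exp (-(2 / n * r))) - ρ) ≤
      RN n N ρ := by
  have hn0 : (0 : ℝ) < n := by
    have : (2 : ℝ) ≤ n := by exact_mod_cast hn
    linarith only [this]
  obtain ⟨m, hm⟩ : ∃ m, 2 * n = m + (N + 1) := ⟨2 * n - 1 - N, by (clear * - hN2 hn; omega)⟩
  have hm' : 2 * n - 1 - N = m := by omega
  rw [hm']
  set g : ℝ → ℝ := fun r => r ^ (2 * n) * Real.exp (-(2 * r / n)) *
    (1 / (2 * (N : ℝ) + 1) * (min r ρ ^ N / max r ρ ^ (N + 1))) with hg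
  set f : ℝ → ℝ := fun r => ρ ^ N / (2 * (N : ℝ) + 1) * (r ^ m * Real.exp (-(2 / n * r))) with hf
  have hexp : ∀ r : ℝ, Real.exp (-(2 * r / n)) = Real.exp (-(2 / n * r)) := fun r => by
    congr 1
    ring
  have hfi : IntegrableOn f (Set.Ioi 0) :=
    (rad_integrable m (c := 2 / n) (by positivity)).const_mul _
  have hle : ∀ r, 0 < r → 0 ≤ g r ∧ g r ≤ f r := by
    intro r hr
    have hmin : 0 < min r ρ := lt_min hr hρ
    have hmax : 0 < max r ρ := lt_max_of_lt_left hr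
    refine ⟨by simp only [hg]; (clear * - hr hρ; positivity), ?_⟩
    simp only [hg, hf, hexp]
    have h1 : r ^ (2 * n) * (min r ρ ^ N / max r ρ ^ (N + 1)) ≤ ρ ^ N * r ^ m := by
      rw [hm, pow_add, mul_assoc, mul_comm (ρ ^ N)]
      refine mul_le_mul_of_nonneg_left ?_ (pow_nonneg hr.le _)
      rw [mul_div_assoc', div_le_iff₀ (pow_pos hmax _), mul_comm (r ^ (N + 1))]
      exact mul_le_mul (pow_le_pow_left₀ hmin.le (min_le_right _ _) _)
        (pow_le_pow_left₀ hr.le (le_max_left _ _) _) (pow_nonneg hr.le _) (pow_nonneg hρ.le _)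
    calc r ^ (2 * n) * Real.exp (-(2 / n * r)) *
          (1 / (2 * (N : ℝ) + 1) * (min r ρ ^ N / max r ρ ^ (N + 1)))
        = (Real.exp (-(2 / n * r)) / (2 * (N : ℝ) + 1)) *
          (r ^ (2 * n) * (min r ρ ^ N / max r ρ ^ (N + 1))) := by ring
      _ ≤ (Real.exp (-(2 / n * r)) / (2 * (N : ℝ) + 1)) * (ρ ^ N * r ^ m) :=
          mul_le_mul_of_nonneg_left h1 (by (clear * -; positivity))
      _ = ρ ^ N / (2 * (N : ℝ) + 1) * (r ^ m * Real.exp (-(2 / n * r))) := by ring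
  have heq : ∀ r, ρ ≤ r → g r = f r := by
    intro r hr
    have hr0 : 0 < r := hρ.trans_le hr
    simp only [hg, hf, hexp]
    rw [min_eq_right hr, max_eq_left hr, hm, pow_add r m (N + 1)]
    (clear * - hr0 hρ; field_simp)
  have hgm : AEStronglyMeasurable g (volume.restrict (Set.Ioi 0)) := by
    apply Measurable.aestronglyMeasurable
    simp only [hg]
    fun_prop
  have hgi : IntegrableOn g (Set.Ioi 0) := by
    refine Integrable.mono' hfi hgm ?_
    rw [ae_restrict_iff' measurableSet_Ioi]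
    refine Filter.Eventually.of_forall fun r hr => ?_
    rw [Real.norm_of_nonneg (hle r hr).1]
    exact (hle r hr).2
  have hRN : RN n N ρ = ∫ r in Set.Ioi (0 : ℝ), g r := rfl
  have hfint : ρ ^ N / (2 * (N : ℝ) + 1) *
      ∫ r in Set.Ioi (0 : ℝ), r ^ m * Real.exp (-(2 / n * r)) = ∫ r in Set.Ioi (0 : ℝ), f r := by
    rw [← integral_const_mul]
  rw [mul_sub, hfint, hRN]
  have hsplit : Set.Ioi (0 : ℝ) = Set.Ioc 0 ρ ∪ Set.Ioi ρ := (Set.Ioc_union_Ioi_eq_Ioi hρ.le).symm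
  have h1 : ∫ r in Set.Ioi (0 : ℝ), f r =
      (∫ r in Set.Ioc 0 ρ, f r) + ∫ r in Set.Ioi ρ, f r := by
    rw [← setIntegral_union (Set.Ioc_disjoint_Ioi le_rfl) measurableSet_Ioi
      (hfi.mono_set (by rw [hsplit]; exact Set.subset_union_left))
      (hfi.mono_set (by rw [hsplit]; exact Set.subset_union_right)), ← hsplit]
  have h2 : ∫ r in Set.Ioi ρ, f r = ∫ r in Set.Ioi ρ, g r :=
    setIntegral_congr_fun measurableSet_Ioi fun r hr => (heq r (le_of_lt hr)).symm
  have h3 : ∫ r in Set.Ioi ρ, g r ≤ ∫ r in Set.Ioi (0 : ℝ), g r := by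
    refine setIntegral_mono_set hgi ?_ ?_
    · rw [Filter.EventuallyLE, ae_restrict_iff' measurableSet_Ioi]
      exact Filter.Eventually.of_forall fun r hr => (hle r hr).1
    · exact (Set.Ioi_subset_Ioi hρ.le).eventuallyLE
  have h4 : ∫ r in Set.Ioc 0 ρ, f r ≤ ρ ^ N / (2 * (N : ℝ) + 1) * ρ := by
    have h5 : ∫ r in Set.Ioc 0 ρ, f r ≤ ∫ r in Set.Ioc 0 ρ, ρ ^ N / (2 * (N : ℝ) + 1) := by
      refine setIntegral_mono_on (hfi.mono_set (by rw [hsplit]; exact Set.subset_union_left))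
        (integrableOn_const (by simp only [Real.volume_Ioc, sub_zero, ne_eq, ENNReal.ofReal_ne_top, not_false_eq_true])) measurableSet_Ioc fun r hr => ?_
      simp only [hf]
      have h6 : r ^ m ≤ 1 := pow_le_one₀ hr.1.le (hr.2.trans (hρ2.trans (by norm_num)))
      have h7 : Real.exp (-(2 / n * r)) ≤ 1 := by
        rw [Real.exp_le_one_iff]
        have := hr.1
        have : 0 ≤ 2 / (n : ℝ) * r := by (clear * - hn this; positivity)
        linarith only [this]
      have h8 : r ^ m * Real.exp (-(2 / n * r)) ≤ 1 := by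
        have := mul_le_mul h6 h7 (Real.exp_pos _).le zero_le_one
        rwa [one_mul] at this
      calc ρ ^ N / (2 * (N : ℝ) + 1) * (r ^ m * Real.exp (-(2 / n * r)))
          ≤ ρ ^ N / (2 * (N : ℝ) + 1) * 1 := mul_le_mul_of_nonneg_left h8 (by (clear * - hρ; positivity))
        _ = _ := mul_one _
    refine h5.trans ?_
    rw [setIntegral_const, Real.volume_real_Ioc_of_le hρ.le, sub_zero, smul_eq_mul, mul_comm]
  linarith only [h1, h2, h3, h4]

/-- the radial factors are almost one -/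
theorem zt_near (k N : ℕ) (hk : 10 ≤ k) (hN1 : 1 ≤ N) (hN : N ≤ 2 * pn k - 2) :
    |zt k N - 1| ≤ 1 / 2 ^ (16 * pn k ^ 2) := by
  have hn : 2 ≤ pn k := (pn_even k hk).2
  have hρ := St1_rho_pos k
  have hρe : pρ k = 1 / 2 ^ (16 * pn k ^ 2) := rfl
  rw [← hρe]
  unfold zt
  have hρ3 : pρ k ≤ 1 / 2 := by
    rw [hρe]
    refine one_div_le_one_div_of_le (by norm_num) ?_
    calc (2 : ℝ) = 2 ^ 1 := (pow_one 2).symm
      _ ≤ 2 ^ (16 * pn k ^ 2) := pow_le_pow_right₀ (by norm_num) (by nlinarith only [hn])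
  clear hρe
  generalize pρ k = ρ at *
  generalize pn k = n at *
  have hn0 : (0 : ℝ) < n := by
    have : (2 : ℝ) ≤ n := by exact_mod_cast hn
    linarith only [this]
  have hn1 : (1 : ℝ) ≤ (n : ℝ) / 2 := by
    have : (2 : ℝ) ≤ n := by exact_mod_cast hn
    linarith only [this]
  have h1 := RN_low n N hN hn ρ hρ hρ3
  have h2 := (RN_aux n N hN hn ρ hρ hρ3).2
  rw [rad_integral _ (by positivity), one_div_div] at h1 h2
  obtain ⟨m, hm⟩ : ∃ m, 2 * n = m + (N + 1) := ⟨2 * n - 1 - N, by omega⟩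
  have hm' : 2 * n - 1 - N = m := by omega
  rw [hm'] at h1 h2
  set F : ℝ := (m.factorial : ℝ) * ((n : ℝ) / 2) ^ (m + 1) with hF
  have hF1 : 1 ≤ F := by
    have h3 : (1 : ℝ) ≤ m.factorial := by exact_mod_cast Nat.one_le_iff_ne_zero.2 m.factorial_ne_zero
    have h4 : (1 : ℝ) ≤ ((n : ℝ) / 2) ^ (m + 1) := one_le_pow₀ hn1
    nlinarith only [h3, h4]
  have hI : Xu n N ρ * (ρ ^ N / (2 * (N : ℝ) + 1) * F) = I0 n := by
    rw [I0_eq' n (by omega), Xu, hm', hF]
    have h5 : ((n : ℝ) / 2) ^ (2 * n + 1) = ((n : ℝ) / 2) ^ (N + 1) * ((n : ℝ) / 2) ^ (m + 1) := by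
      rw [← pow_add]
      congr 1
      omega
    rw [h5]
    have h6 : (m.factorial : ℝ) ≠ 0 := by exact_mod_cast m.factorial_ne_zero
    have h7 : ρ ^ N ≠ 0 := pow_ne_zero _ hρ.ne'
    have h8 : (2 * (N : ℝ) + 1) ≠ 0 := by positivity
    rw [one_div, inv_pow]
    field_simp
  have hX : 0 < Xu n N ρ := by
    unfold Xu
    positivity
  have hI0 : 0 < I0 n := by
    rw [← hI]
    positivity
  rw [abs_le]
  constructor
  · rw [neg_le_sub_iff_le_add, ← sub_le_iff_le_add, le_div_iff₀ hI0]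
    calc (1 - ρ) * I0 n = Xu n N ρ * (ρ ^ N / (2 * (N : ℝ) + 1) * (F - ρ * F)) := by
          rw [← hI]; ring
      _ ≤ Xu n N ρ * (ρ ^ N / (2 * (N : ℝ) + 1) * (F - ρ)) := by
          refine mul_le_mul_of_nonneg_left ?_ hX.le
          refine mul_le_mul_of_nonneg_left ?_ (by positivity)
          nlinarith only [hρ, hF1]
      _ ≤ Xu n N ρ * RN n N ρ := mul_le_mul_of_nonneg_left h1 hX.le
  · have : Xu n N ρ * RN n N ρ / I0 n ≤ 1 := by
      rw [div_le_one hI0]
      calc Xu n N ρ * RN n N ρ ≤ Xu n N ρ * (ρ ^ N / (2 * (N : ℝ) + 1) * F) :=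
            mul_le_mul_of_nonneg_left h2 hX.le
        _ = I0 n := hI
    linarith only [hρ, this]

end Vale.Agent.P370.KC
end
end

section

section

/-!
Energies of configurations with filled closed shells.
-/

namespace Vale.Agent.P370.NB.U

open MeasureTheory Function ComplexConjugate Finset Vale.Agent.P370.Q

section linear

variable {N : ℕ} {P : Type} [Fintype P] [DecidableEq P]

theorem oneE_comb {m : ℕ} (w : Fin m → ℝ) (h : Fin m → P → P → ℝ) (c : Tens N P) :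
    oneE (fun p q => ∑ b, w b * h b p q) c = ∑ b, w b * oneE (h b) c := by
  unfold oneE
  simp only [Complex.re_sum, Complex.re_ofReal_mul, sum_mul, mul_sum]
  conv_rhs => rw [Finset.sum_comm]
  refine Finset.sum_congr rfl fun I _ => ?_
  conv_rhs => rw [Finset.sum_comm]
  refine Finset.sum_congr rfl fun i _ => ?_
  conv_rhs => rw [Finset.sum_comm]
  refine Finset.sum_congr rfl fun a _ => ?_
  refine Finset.sum_congr rfl fun b _ => ?_
  ring

theorem oneE_sub_half (h h' : P → P → ℝ) (c : Tens N P) :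
    1 / 2 * oneE h c - oneE h' c = oneE (fun p q => 1 / 2 * h p q - h' p q) c := by
  unfold oneE
  simp only [Complex.re_sum, Complex.re_ofReal_mul, mul_sum, ← sum_sub_distrib]
  refine Finset.sum_congr rfl fun I _ => Finset.sum_congr rfl fun i _ =>
    Finset.sum_congr rfl fun a _ => ?_
  ring

theorem oneE_diag (e : P → ℝ) (c : Tens N P) :
    oneE (fun p q => if p = q then e p else 0) c = ∑ I, (∑ i, e (I i)) * ‖c I‖ ^ 2 := by
  unfold oneE
  rw [Complex.re_sum]
  refine Finset.sum_congr rfl fun I _ => ?_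
  rw [Complex.re_sum, Finset.sum_mul]
  refine Finset.sum_congr rfl fun i _ => ?_
  rw [Finset.sum_eq_single (I i)]
  · beta_reduce
    rw [if_pos rfl, update_eq_self, Complex.re_ofReal_mul, Complex.conj_mul']
    congr 1
    exact_mod_cast Complex.ofReal_re _
  · intro a _ ha
    beta_reduce
    rw [if_neg ha.symm]
    simp only [Complex.ofReal_zero, zero_mul]
  · simp only [mem_univ, not_true_eq_false, ↓reduceIte, update_eq_self, mul_eq_zero, Complex.ofReal_eq_zero, map_eq_zero, or_self, IsEmpty.forall_iff]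

theorem anti_inj {c : Tens N P} (hc : IsAnti c) {I : Fin N → P} (hI : c I ≠ 0) :
    Injective I := by
  intro i j hij
  by_contra hne
  apply hI
  have h := hc (Equiv.swap i j) I
  have h1 : (fun l => I (Equiv.swap i j l)) = I := by
    funext l
    rw [Equiv.swap_apply_def]
    split_ifs with h1 h2
    · rw [h1, hij]
    · rw [h2, hij]
    · rfl
  rw [h1, Equiv.Perm.sign_swap hne] at h
  simp only [Units.val_neg, Units.val_one, Int.cast_neg, Int.cast_one, neg_mul, one_mul] at h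
  have h3 : (2 : ℂ) * c I = 0 := by linear_combination h
  simpa using h3

end linear

section closed

variable {n K M : ℕ} {C O : Type} [Fintype C] [DecidableEq C] [Fintype O] [DecidableEq O]

theorem closed_card (B : ShellBasis n (C ⊕ O)) (hO : ∀ o, B.lev (Sum.inr o) = n) {k : ℕ}
    (hk1 : 1 ≤ k) (hk : k < n) :
    #(univ.filter (fun c : C => B.lev (Sum.inl c) = k)) = k ^ 2 := by
  rw [← B.card k hk1 hk.le, Finset.card_filter, Finset.card_filter, Fintype.sum_sum_type]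
  have : ∑ o : O, (if B.lev (Sum.inr o) = k then 1 else 0) = 0 := by
    refine Finset.sum_eq_zero fun o _ => ?_
    rw [hO o, if_neg (by omega)]
  rw [this, add_zero]

theorem closed_sum (hn : 1 ≤ n) (B : ShellBasis n (C ⊕ O)) (hC : ∀ c, B.lev (Sum.inl c) < n)
    (hO : ∀ o, B.lev (Sum.inr o) = n) :
    ∑ c : C, -(1 / (2 * (B.lev (Sum.inl c) : ℝ) ^ 2)) = -(((n : ℝ) - 1) / 2) := by
  have hmap : ∀ c ∈ (univ : Finset C), B.lev (Sum.inl c) ∈ Finset.Icc 1 (n - 1) := by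
    intro c _
    have := hC c
    have := B.lev_pos (Sum.inl c)
    exact Finset.mem_Icc.2 ⟨this, by omega⟩
  rw [← Finset.sum_fiberwise_of_maps_to hmap]
  have h1 : ∀ k ∈ Finset.Icc 1 (n - 1),
      ∑ c ∈ univ.filter (fun c : C => B.lev (Sum.inl c) = k),
        -(1 / (2 * (B.lev (Sum.inl c) : ℝ) ^ 2)) = -(1 / 2) := by
    intro k hk
    have hk' := Finset.mem_Icc.1 hk
    have h2 : ∀ c ∈ univ.filter (fun c : C => B.lev (Sum.inl c) = k),
        -(1 / (2 * (B.lev (Sum.inl c) : ℝ) ^ 2)) = -(1 / (2 * (k : ℝ) ^ 2)) := by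
      intro c hc
      rw [(Finset.mem_filter.1 hc).2]
    rw [Finset.sum_congr rfl h2, Finset.sum_const, closed_card B hO hk'.1 (by (clear * - hn hk'; omega)),
      nsmul_eq_mul]
    have : (k : ℝ) ≠ 0 := by
      have : 0 < k := hk'.1
      positivity
    push_cast
    field_simp
  rw [Finset.sum_congr rfl h1, Finset.sum_const, Nat.card_Icc, nsmul_eq_mul]
  rw [Nat.add_sub_cancel, Nat.cast_sub hn]
  push_cast
  ring

theorem config_energy (hn : 1 ≤ n) (B : ShellBasis n (C ⊕ O)) (hC : ∀ c, B.lev (Sum.inl c) < n)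
    (hO : ∀ o, B.lev (Sum.inr o) = n) (hM : M = 2 * Fintype.card C)
    {c : Tens (M + K) ((C ⊕ O) × Fin 2)} (hc : IsAnti c) (hg : Good c)
    {I : Fin (M + K) → (C ⊕ O) × Fin 2} (hI : c I ≠ 0) :
    ∑ i, -(1 / (2 * (B.lev (I i).1 : ℝ) ^ 2)) = -((n : ℝ) - 1) - K / (2 * (n : ℝ) ^ 2) := by
  have hinj := anti_inj hc hI
  set e : (C ⊕ O) × Fin 2 → ℝ := fun p => -(1 / (2 * (B.lev p.1 : ℝ) ^ 2)) with he
  set Cl : Finset ((C ⊕ O) × Fin 2) :=
    univ.image (fun q : C × Fin 2 => ((Sum.inl q.1 : C ⊕ O), q.2)) with hCl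
  have hinjC : Injective (fun q : C × Fin 2 => ((Sum.inl q.1 : C ⊕ O), q.2)) := by
    rintro ⟨a, s⟩ ⟨b, t⟩ h
    simp only [Prod.mk.injEq, Sum.inl.injEq] at h
    exact Prod.ext h.1 h.2
  have hsub : Cl ⊆ univ.image I := by
    intro p hp
    obtain ⟨q, _, rfl⟩ := Finset.mem_image.1 hp
    obtain ⟨i, hi⟩ := hg I hI q.1 q.2
    exact Finset.mem_image.2 ⟨i, Finset.mem_univ i, hi⟩
  have h1 : ∑ i, e (I i) = ∑ p ∈ univ.image I, e p := by
    rw [Finset.sum_image fun i _ j _ h => hinj h]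
  have h2 : ∑ p ∈ Cl, e p = -((n : ℝ) - 1) := by
    rw [hCl, Finset.sum_image fun i _ j _ h => hinjC h, Fintype.sum_prod_type]
    have := closed_sum hn B hC hO
    simp only [he, sum_const, card_univ, Fintype.card_fin, nsmul_eq_mul]
    rw [← Finset.mul_sum, this]
    push_cast
    ring
  have h3 : #(univ.image I \ Cl) = K := by
    rw [Finset.card_sdiff_of_subset hsub, Finset.card_image_of_injective _ hinj, hCl,
      Finset.card_image_of_injective _ hinjC, Finset.card_univ, Finset.card_univ,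
      Fintype.card_fin, Fintype.card_prod, Fintype.card_fin]
    omega
  have h4 : ∑ p ∈ univ.image I \ Cl, e p = -(K / (2 * (n : ℝ) ^ 2)) := by
    have h5 : ∀ p ∈ univ.image I \ Cl, e p = -(1 / (2 * (n : ℝ) ^ 2)) := by
      rintro ⟨a | o, σ⟩ hp
      · exfalso
        apply (Finset.mem_sdiff.1 hp).2
        exact Finset.mem_image.2 ⟨(a, σ), Finset.mem_univ _, rfl⟩
      · simp only [he, hO]
    rw [Finset.sum_congr rfl h5, Finset.sum_const, h3, nsmul_eq_mul]
    ring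
  have h6 := Finset.sum_sdiff (f := e) hsub
  change ∑ i, e (I i) = _
  rw [h1, ← h6, h2, h4]
  ring

/-- energy of a good tensor in the hydrogenic Hamiltonian -/
theorem shell_energy (hn : 1 ≤ n) (B : ShellBasis n (C ⊕ O)) (hC : ∀ c, B.lev (Sum.inl c) < n)
    (hO : ∀ o, B.lev (Sum.inr o) = n) (hM : M = 2 * Fintype.card C)
    {c : Tens (M + K) ((C ⊕ O) × Fin 2)} (hc : IsAnti c) (hg : Good c) :
    1 / 2 * oneE (spin1 (fun a b => dir (B.χ a) (B.χ b))) c -
      oneE (spin1 (fun a b => rinv (B.χ a) (B.χ b))) c =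
      (-((n : ℝ) - 1) - K / (2 * (n : ℝ) ^ 2)) * nsq c := by
  rw [oneE_sub_half]
  have h1 : (fun p q : (C ⊕ O) × Fin 2 => 1 / 2 * spin1 (fun a b => dir (B.χ a) (B.χ b)) p q -
      spin1 (fun a b => rinv (B.χ a) (B.χ b)) p q) =
      fun p q => if p = q then -(1 / (2 * (B.lev p.1 : ℝ) ^ 2)) else 0 := by
    funext p q
    have h2 := shell_form (B.lev_pos p.1) (B.mem p.1) (SB_nice B q.1)
    rw [B.ortho] at h2
    unfold spin1
    by_cases hpq : p = q
    · subst hpq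
      simp only [if_true] at h2 ⊢
      rw [h2]
      ring
    · rw [if_neg hpq]
      by_cases h3 : p.2 = q.2
      · have h4 : p.1 ≠ q.1 := fun h => hpq (Prod.ext h h3)
        rw [if_neg h4, mul_zero] at h2
        rw [if_pos h3, if_pos h3, h2]
      · rw [if_neg h3, if_neg h3]
        ring
  rw [h1, oneE_diag (fun p : (C ⊕ O) × Fin 2 => -(1 / (2 * (B.lev p.1 : ℝ) ^ 2)))]
  unfold nsq
  rw [Finset.mul_sum]
  refine Finset.sum_congr rfl fun I _ => ?_
  by_cases hI : c I = 0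
  · rw [hI]
    simp only [one_div, mul_inv_rev, sum_neg_distrib, norm_zero, ne_eq, OfNat.ofNat_ne_zero, not_false_eq_true, zero_pow, mul_zero, neg_sub]
  · rw [config_energy hn B hC hO hM hc hg hI]

end closed

end Vale.Agent.P370.NB.U
end
end

section

section

/-!
First order degenerate perturbation theory: upper bound.
-/

namespace Vale.Agent.P370.Q

open MeasureTheory Finset ComplexConjugate

open Filter Topology NB NB.U in
theorem nbody_upper {n K M m : ℕ} {C O : Type} [Fintype C] [DecidableEq C] [Fintype O]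
    [DecidableEq O] (hn : 1 ≤ n)
    (B : ShellBasis n (C ⊕ O)) (hC : ∀ c, B.lev (Sum.inl c) < n) (hO : ∀ o, B.lev (Sum.inr o) = n)
    (hM : M = 2 * Fintype.card C) (hK0 : 1 ≤ K)
    (lam : ℝ) (w : Fin m → ℝ) (y : Fin m → R3) (hw : ∀ b, 0 ≤ w b) (hlam : 0 < lam)
    (c : Tens (M + K) ((C ⊕ O) × Fin 2)) (hc : IsAnti c) (hg : Good c) (hc1 : nsq c = 1)
    (ε : ℝ) (hε : 0 < ε) :
    ∃ ψ : Wave (M + K), IsTestState ψ ∧ normSq ψ = 1 ∧
      scaledE lam w y ψ ≤ -((n : ℝ) - 1) - K / (2 * (n : ℝ) ^ 2) +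
        lam * enT (nucM B.χ w y) (coulM B.χ) c + ε := by
  have hf : ∀ a, ∃ f, ApproxSeq (B.χ a) f := fun a => exists_approxSeq (B.lev_pos a) (B.mem a)
  choose f hf using hf
  set g : ℕ → C ⊕ O → R3 → ℝ := fun j a => f a j with hgd
  have hTF : ∀ j, TF (g j) := fun j => ⟨fun a => (hf a).smooth j, fun a => (hf a).compact j⟩
  -- convergence of the matrices
  have spin1_tendsto : ∀ {h : ℕ → C ⊕ O → C ⊕ O → ℝ} {h' : C ⊕ O → C ⊕ O → ℝ},
      (∀ a b, Tendsto (fun j => h j a b) atTop (𝓝 (h' a b))) →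
      ∀ p q, Tendsto (fun j => spin1 (h j) p q) atTop (𝓝 (spin1 h' p q)) := by
    intro h h' hh p q
    unfold spin1
    by_cases hpq : p.2 = q.2
    · simp only [hpq, if_true]
      exact hh _ _
    · simp only [hpq, if_false]
      exact tendsto_const_nhds
  have hS := spin1_tendsto (h := fun j a b => ov (g j a) (g j b))
    (h' := fun a b => ov (B.χ a) (B.χ b)) fun a b => (hf a).tendsto_ov (hf b)
  have hD := spin1_tendsto (h := fun j a b => dir (g j a) (g j b))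
    (h' := fun a b => dir (B.χ a) (B.χ b)) fun a b => (hf a).tendsto_dir (hf b)
  have hR := spin1_tendsto (h := fun j a b => rinv (g j a) (g j b))
    (h' := fun a b => rinv (B.χ a) (B.χ b)) fun a b => (hf a).tendsto_rinv (hf b)
  have hG := fun β => spin1_tendsto (h := fun j a b => gm (y β) (g j a) (g j b))
    (h' := fun a b => gm (y β) (B.χ a) (B.χ b)) fun a b => (hf a).tendsto_gm (hf b) (y β)
  have hV : ∀ p a q b, Tendsto (fun j => spin2 (coulM (g j)) p a q b) atTop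
      (𝓝 (spin2 (coulM B.χ) p a q b)) := by
    intro p a q b
    unfold spin2 coulM
    split_ifs
    · exact (hf _).tendsto_coul (hf _) (hf _) (hf _)
    · exact tendsto_const_nhds
  have hdelta : spin1 (fun a b => ov (B.χ a) (B.χ b)) = fun p q => if p = q then (1 : ℝ) else 0 := by
    funext p q
    unfold spin1
    beta_reduce
    rw [B.ortho]
    by_cases hpq : p = q
    · subst hpq
      simp
    · rw [if_neg hpq]
      by_cases h3 : p.2 = q.2
      · have h4 : p.1 ≠ q.1 := fun h => hpq (Prod.ext h h3)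
        rw [if_pos h3, if_neg h4]
      · rw [if_neg h3]
  rw [hdelta] at hS
  -- limits of norm and energy
  have hN0 := G0_tendsto hS c
  rw [G0_delta, hc1] at hN0
  have hE0 : Tendsto (fun j => EF (spin1 (fun a b => ov (g j a) (g j b)))
      (spin1 (fun a b => dir (g j a) (g j b))) (spin1 (fun a b => rinv (g j a) (g j b)))
      (spin2 (coulM (g j))) (fun b => spin1 (fun a a' => gm (y b) (g j a) (g j a'))) lam w c)
      atTop (𝓝 (-((n : ℝ) - 1) - K / (2 * (n : ℝ) ^ 2) +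
        lam * enT (nucM B.χ w y) (coulM B.χ) c)) := by
    have h1 := ((G1_tendsto hS hD c).const_mul (1 / 2)).add
      ((G1_tendsto hS hR c).neg.add
        (((G2_tendsto hS hV c).add
          (tendsto_finsetSum univ fun β (_ : β ∈ (univ : Finset (Fin m))) =>
            (G1_tendsto hS (hG β) c).const_mul (w β))).const_mul lam))
    simp only [G1_delta, G2_delta] at h1
    have h2 : oneE (spin1 (nucM B.χ w y)) c =
        ∑ β, w β * oneE (spin1 (fun a b => gm (y β) (B.χ a) (B.χ b))) c := by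
      rw [← oneE_comb]
      congr 1
      funext p q
      unfold spin1 nucM
      split_ifs <;> simp
    have h3 := shell_energy hn B hC hO hM hc hg
    rw [hc1, mul_one] at h3
    have h4 : 1 / 2 * oneE (spin1 (fun a b => dir (B.χ a) (B.χ b))) c +
        (-oneE (spin1 (fun a b => rinv (B.χ a) (B.χ b))) c +
          lam * (twoE (spin2 (coulM B.χ)) c +
            ∑ β, w β * oneE (spin1 (fun a b => gm (y β) (B.χ a) (B.χ b))) c)) =
        -((n : ℝ) - 1) - K / (2 * (n : ℝ) ^ 2) + lam * enT (nucM B.χ w y) (coulM B.χ) c := by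
      unfold enT
      rw [h2, ← h3]
      ring
    rw [h4] at h1
    exact h1
  set L : ℝ := -((n : ℝ) - 1) - K / (2 * (n : ℝ) ^ 2) +
    lam * enT (nucM B.χ w y) (coulM B.χ) c with hL
  have hq := hE0.div hN0 one_ne_zero
  rw [div_one] at hq
  have ev1 := hq.eventually_lt_const (show L < L + ε by linarith only [hε])
  have ev2 := hN0.eventually_const_lt (show (0 : ℝ) < 1 by norm_num)
  obtain ⟨j, hj1, hj2⟩ := (ev1.and ev2).exists
  set G : ℝ := G0 (spin1 (fun a b => ov (g j a) (g j b))) c with hGd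
  set r : ℝ := (Real.sqrt G)⁻¹ with hr
  have hr2 : r ^ 2 = G⁻¹ := by
    rw [hr, inv_pow, Real.sq_sqrt hj2.le]
  have hca : IsAnti (fun I => (r : ℂ) * c I) := by
    intro π I
    simp only
    rw [hc π I]
    ring
  refine ⟨tw (g j) (fun I => (r : ℂ) * c I), tw_test (hTF j).smooth (hTF j).compact hca, ?_, ?_⟩
  · rw [(hTF j).normSq_eq, G0_smul, hr2]
    exact inv_mul_cancel₀ hj2.ne'
  · rw [(hTF j).scaledE_eq, EF_smul, hr2, inv_mul_eq_div]
    exact hj1.le

end Vale.Agent.P370.Q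
end
end

section

section

/-!
The Turing reduction, from the structure theorem.
-/

namespace Vale.Agent.P370.Q.Alg

open Finset

end Vale.Agent.P370.Q.Alg
end
end

section

section

/-!
Solid Legendre polynomials are harmonic; harmonic polynomials are determined by their values on
the null vectors `av α`; the addition theorem.
-/

namespace Vale.Agent.P370.KC

open MeasureTheory Finset ComplexConjugate MvPolynomial Vale.Agent.P370.Q Vale.Agent.P370.Hyd

theorem pl_C_two : (C 2 : Pl) = 2 := by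
  rw [show (2 : ℝ) = ((2 : ℕ) : ℝ) by norm_num, map_natCast]; norm_num

theorem lapP_ylin_mul (y : R3) (P : Pl) :
    lapP (ylin y * P) = ylin y * lapP P + 2 * yd y P := by
  unfold lapP yd
  rw [Finset.mul_sum, Finset.mul_sum, ← Finset.sum_add_distrib]
  refine Finset.sum_congr rfl fun k _ => ?_
  rw [Derivation.leibniz, map_add]
  simp only [smul_eq_mul]
  rw [Derivation.leibniz, Derivation.leibniz, pderiv_ylin, pderiv_C]
  simp only [smul_eq_mul]
  ring

theorem lapP_C_mul (a : ℝ) (P : Pl) : lapP (C a * P) = C a * lapP P := by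
  unfold lapP
  rw [Finset.mul_sum]
  refine Finset.sum_congr rfl fun k _ => ?_
  rw [Derivation.leibniz, pderiv_C, smul_zero, add_zero, smul_eq_mul, Derivation.leibniz, pderiv_C,
    smul_zero, add_zero, smul_eq_mul]

theorem lapP_sub (P Q : Pl) : lapP (P - Q) = lapP P - lapP Q := by
  unfold lapP
  rw [← Finset.sum_sub_distrib]
  refine Finset.sum_congr rfl fun k _ => ?_
  rw [map_sub, map_sub]

theorem lapP_zonP (y : R3) (l : ℕ) : lapP (zonP y l) = 0 := by
  induction l using Nat.twoStepInduction with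
  | zero =>
    rw [zonP_zero]
    unfold lapP
    refine Finset.sum_eq_zero fun k _ => ?_
    rw [show (1 : Pl) = C 1 by rw [C_1], pderiv_C, map_zero]
  | one =>
    rw [zonP_one]
    unfold lapP
    refine Finset.sum_eq_zero fun k _ => ?_
    rw [pderiv_ylin, pderiv_C]
  | more n ih0 ih1 =>
    rw [zonP_succ, lapP_C_mul, lapP_sub, lapP_C_mul, lapP_C_mul, lapP_ylin_mul,
      lapP_nsq_mul (zonP_hom y n), ih0, ih1, yd_zonP, mul_zero, mul_zero, zero_add, add_zero]
    have h1 : (C (2 * (n : ℝ) + 3) : Pl) * 2 * C (((n : ℝ) + 1) * ‖y‖ ^ 2) =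
        C (((n : ℝ) + 1) * ‖y‖ ^ 2) * C (4 * (n : ℝ) + 6) := by
      rw [← pl_C_two, ← C_mul, ← C_mul, ← C_mul]
      congr 1
      ring
    linear_combination (C (1 / ((n : ℝ) + 2)) * zonP y n) * h1

theorem zonP_mem (y : R3) (l : ℕ) : zonP y l ∈ Hyd.Harm l :=
  mem_Harm.2 ⟨zonP_hom y l, lapP_zonP y l⟩

/-! ### values on null vectors -/

theorem pc_mul (P P' : Poly3) (c : C3) : pc (P * P') c = pc P c * pc P' c := by
  unfold pc; simp

theorem pc_C (a : ℝ) (c : C3) : pc (C a) c = a := by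
  unfold pc; simp

theorem pc_sub (P P' : Poly3) (c : C3) : pc (P - P') c = pc P c - pc P' c := by
  unfold pc; simp

theorem pc_ylin (y : R3) (c : C3) : pc (ylin y) c = cdot c y := by
  unfold pc ylin cdot
  simp only [eval₂_sum, eval₂_mul, eval₂_C, eval₂_X]
  refine Finset.sum_congr rfl fun k _ => ?_
  rw [mul_comm]
  rfl

theorem pc_nsq (c : C3) (hc : cc c c = 0) : pc nsq c = 0 := by
  rw [← hc]
  unfold pc Hyd.nsq cc
  simp only [eval₂_sum, eval₂_pow, eval₂_X]
  refine Finset.sum_congr rfl fun k _ => ?_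
  ring

theorem Am_succ (m : ℕ) : (2 * (m : ℝ) + 3) * Am (m + 1) = ((m : ℝ) + 1) * Am m := by
  unfold Am
  have h1 : ((2 * (m + 1) + 1).factorial : ℝ) = (2 * m + 3) * ((2 * m + 2) *
      ((2 * m + 1).factorial : ℝ)) := by
    rw [show 2 * (m + 1) + 1 = (2 * m + 2) + 1 by ring, Nat.factorial_succ,
      show 2 * m + 2 = (2 * m + 1) + 1 by ring, Nat.factorial_succ]
    push_cast
    ring
  rw [h1, Nat.factorial_succ]
  have h2 : ((2 * m + 1).factorial : ℝ) ≠ 0 := by positivity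
  have h3 : (2 * (m : ℝ) + 3) ≠ 0 := by positivity
  have h4 : (2 * (m : ℝ) + 2) ≠ 0 := by positivity
  push_cast
  field_simp
  ring

theorem Am_zero : Am 0 = 1 := by
  unfold Am
  simp

theorem pc_zonP (y : R3) (c : C3) (hc : cc c c = 0) (l : ℕ) :
    (((2 * (l : ℝ) + 1) * Am l : ℝ) : ℂ) * pc (zonP y l) c = cdot c y ^ l := by
  induction l using Nat.twoStepInduction with
  | zero =>
    rw [zonP_zero, Am_zero, show (1 : Pl) = C 1 by rw [C_1], pc_C]
    simp
  | one =>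
    rw [zonP_one, pc_ylin]
    have := Am_succ 0
    rw [Am_zero] at this
    norm_num at this
    have h1 : Am 1 = 1 / 3 := by linarith
    rw [h1]
    push_cast
    ring
  | more n ih0 ih1 =>
    rw [zonP_succ, pc_mul, pc_sub, pc_mul, pc_mul, pc_mul, pc_mul, pc_ylin, pc_nsq c hc, pc_C,
      pc_C, pc_C, zero_mul, mul_zero, sub_zero, pow_succ, ← ih1]
    have h1 := Am_succ (n + 1)
    have h2 : ((n : ℝ) + 2) ≠ 0 := by positivity
    have h3 : (2 * (((n + 2 : ℕ) : ℝ)) + 1) * Am (n + 2) * (1 / ((n : ℝ) + 2)) = Am (n + 1) := by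
      push_cast at h1 ⊢
      field_simp
      linarith
    have h4 : (((2 * (((n + 2 : ℕ) : ℝ)) + 1) * Am (n + 2) * (1 / ((n : ℝ) + 2)) : ℝ) : ℂ) =
        ((Am (n + 1) : ℝ) : ℂ) := by rw [h3]
    push_cast at h4 ⊢
    linear_combination ((2 * (n : ℂ) + 3) * (cdot c y * pc (zonP y (n + 1)) c)) * h4

/-! ### division by `nsq` -/

theorem div_nsq (P : Pl) : ∃ (Q : Pl) (A B : MvPolynomial (Fin 2) ℝ),
    P = nsq * Q + rename Fin.castSucc A + X 2 * rename Fin.castSucc B := by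
  induction P using MvPolynomial.induction_on with
  | C a => exact ⟨0, C a, 0, by simp⟩
  | add p q hp hq =>
    obtain ⟨Q, A, B, rfl⟩ := hp
    obtain ⟨Q', A', B', rfl⟩ := hq
    exact ⟨Q + Q', A + A', B + B', by rw [map_add, map_add]; ring⟩
  | mul_X p i hp =>
    obtain ⟨Q, A, B, rfl⟩ := hp
    have h0 : (rename Fin.castSucc (X 0 : MvPolynomial (Fin 2) ℝ) : Pl) = X 0 := by
      rw [rename_X]; rfl
    have h1 : (rename Fin.castSucc (X 1 : MvPolynomial (Fin 2) ℝ) : Pl) = X 1 := by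
      rw [rename_X]; rfl
    have hn : nsq = X 0 ^ 2 + X 1 ^ 2 + X 2 ^ 2 := by
      unfold Hyd.nsq
      rw [Fin.sum_univ_three]
    fin_cases i
    · refine ⟨Q * X 0, A * X 0, B * X 0, ?_⟩
      simp only [map_mul, h0]
      simp only [Fin.zero_eta, Fin.isValue]
      ring
    · refine ⟨Q * X 1, A * X 1, B * X 1, ?_⟩
      simp only [map_mul, h1]
      simp only [Fin.mk_one, Fin.isValue]
      ring
    · refine ⟨Q * X 2 + rename Fin.castSucc B, -(B * (X 0 ^ 2 + X 1 ^ 2)), A, ?_⟩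
      simp only [map_mul, map_neg, map_add, map_pow, h0, h1]
      simp only [Fin.reduceFinMk]
      rw [hn]
      ring

theorem pc_add (P P' : Poly3) (c : C3) : pc (P + P') c = pc P c + pc P' c := by
  unfold pc; simp

theorem pc_smul_av {l : ℕ} {P : Pl} (hP : P.IsHomogeneous l) (t : ℂ) (c : C3) :
    pc P (fun k => t * c k) = t ^ l * pc P c := by
  unfold pc
  rw [eval₂_eq', eval₂_eq', Finset.mul_sum]
  refine Finset.sum_congr rfl fun d hd => ?_
  have h1 : d.degree = l := by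
    by_contra hcon
    exact (mem_support_iff.1 hd) (hP.coeff_eq_zero hcon)
  have h2 : ∏ i, (t * c i) ^ d i = t ^ l * ∏ i, c i ^ d i := by
    simp only [mul_pow, Finset.prod_mul_distrib]
    rw [Finset.prod_pow_eq_pow_sum, ← h1, Finsupp.degree_eq_sum]
  rw [h2]
  ring

/-- a real polynomial in two variables vanishing on `i ℝ × i ℝ` -/
theorem two_zero {A : MvPolynomial (Fin 2) ℝ}
    (h : ∀ x y : ℝ, eval₂ (algebraMap ℝ ℂ) ![Complex.I * x, Complex.I * y] A = 0) : A = 0 := by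
  apply MvPolynomial.map_injective (algebraMap ℝ ℂ) (algebraMap ℝ ℂ).injective
  rw [map_zero]
  refine MvPolynomial.funext_set (fun _ => Set.range (fun t : ℝ => Complex.I * (t : ℂ))) ?_ ?_
  · intro _
    refine Set.infinite_range_of_injective fun a b hab => ?_
    exact Complex.ofReal_injective (mul_left_cancel₀ Complex.I_ne_zero hab)
  · intro x hx
    have hx' : ∀ i, ∃ t : ℝ, Complex.I * (t : ℂ) = x i := fun i => hx i (Set.mem_univ i)
    choose w hw using hx'
    rw [map_zero, eval_map, ← h (w 0) (w 1)]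
    congr 1
    funext i
    rw [← hw i]
    fin_cases i <;> rfl

/-- a homogeneous polynomial vanishing on the null vectors `av α` is divisible by `nsq` -/
theorem null_div {l : ℕ} {P : Pl} (hP : P.IsHomogeneous l) (h : ∀ α : ℝ, pc P (av α) = 0) :
    ∃ Q, P = nsq * Q := by
  obtain ⟨Q, A, B, hPQ⟩ := div_nsq P
  have hval : ∀ (t α : ℝ), eval₂ (algebraMap ℝ ℂ)
      ![Complex.I * ((t * Real.cos α : ℝ) : ℂ), Complex.I * ((t * Real.sin α : ℝ) : ℂ)] A +
      (t : ℂ) * eval₂ (algebraMap ℝ ℂ)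
      ![Complex.I * ((t * Real.cos α : ℝ) : ℂ), Complex.I * ((t * Real.sin α : ℝ) : ℂ)] B = 0 := by
    intro t α
    have h1 : pc P (fun k => (t : ℂ) * av α k) = 0 := by
      rw [pc_smul_av hP, h, mul_zero]
    have hnull : cc (fun k => (t : ℂ) * av α k) (fun k => (t : ℂ) * av α k) = 0 := by
      have h2 := c1_null α
      unfold cc at h2 ⊢
      have h3 : ∑ k, (t : ℂ) * av α k * ((t : ℂ) * av α k) =
          (t : ℂ) ^ 2 * ∑ k, av α k * av α k := by
        rw [Finset.mul_sum]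
        refine Finset.sum_congr rfl fun k _ => ?_
        ring
      rw [h3, h2, mul_zero]
    have hcomp : ((fun k => (t : ℂ) * av α k) ∘ Fin.castSucc : Fin 2 → ℂ) =
        ![Complex.I * ((t * Real.cos α : ℝ) : ℂ), Complex.I * ((t * Real.sin α : ℝ) : ℂ)] := by
      funext i
      fin_cases i
      · simp [av]
        ring
      · simp [av]
        ring
    rw [hPQ, pc_add, pc_add, pc_mul, pc_mul, pc_nsq _ hnull, zero_mul, zero_add] at h1
    unfold pc at h1
    rw [eval₂_rename, eval₂_rename, hcomp, eval₂_X] at h1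
    have h4 : (t : ℂ) * av α 2 = t := by simp [av]
    rw [h4] at h1
    exact h1
  have hboth : ∀ x y : ℝ, eval₂ (algebraMap ℝ ℂ) ![Complex.I * x, Complex.I * y] A = 0 ∧
      ((Real.sqrt (x ^ 2 + y ^ 2) : ℝ) : ℂ) *
        eval₂ (algebraMap ℝ ℂ) ![Complex.I * x, Complex.I * y] B = 0 := by
    intro x y
    obtain ⟨t, ht⟩ : ∃ t : ℝ, t = Real.sqrt (x ^ 2 + y ^ 2) := ⟨_, rfl⟩
    have hz : ‖(⟨x, y⟩ : ℂ)‖ = t := by
      rw [ht, Complex.norm_eq_sqrt_sq_add_sq]
    have hx : t * Real.cos (Complex.arg ⟨x, y⟩) = x := by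
      rw [← hz, Complex.norm_mul_cos_arg]
    have hy : t * Real.sin (Complex.arg ⟨x, y⟩) = y := by
      rw [← hz, Complex.norm_mul_sin_arg]
    have h1 := hval t (Complex.arg ⟨x, y⟩)
    have h2 := hval (-t) (Complex.arg ⟨x, y⟩ + Real.pi)
    rw [hx, hy] at h1
    rw [Real.cos_add_pi, Real.sin_add_pi, neg_mul_neg, neg_mul_neg, hx, hy] at h2
    rw [← ht]
    push_cast at h2
    constructor
    · linear_combination (h1 + h2) / 2
    · linear_combination (h1 - h2) / 2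
  have hA : A = 0 := two_zero fun x y => (hboth x y).1
  have hB : B = 0 := by
    have h1 : (X 0 ^ 2 + X 1 ^ 2 : MvPolynomial (Fin 2) ℝ) * B = 0 := by
      refine two_zero fun x y => ?_
      have h2 := (hboth x y).2
      rw [eval₂_mul]
      simp only [eval₂_add, eval₂_pow, eval₂_X, Matrix.cons_val_zero, Matrix.cons_val_one]
      have h3 : ((Real.sqrt (x ^ 2 + y ^ 2) : ℝ) : ℂ) ^ 2 = (x : ℂ) ^ 2 + (y : ℂ) ^ 2 := by
        rw [← Complex.ofReal_pow, Real.sq_sqrt (by positivity)]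
        push_cast
        ring
      have h4 : (Complex.I * (x : ℂ)) ^ 2 + (Complex.I * (y : ℂ)) ^ 2 =
          -(((Real.sqrt (x ^ 2 + y ^ 2) : ℝ) : ℂ) ^ 2) := by
        rw [h3, mul_pow, mul_pow, Complex.I_sq]
        ring
      rw [h4]
      linear_combination (-((Real.sqrt (x ^ 2 + y ^ 2) : ℝ) : ℂ)) * h2
    rcases mul_eq_zero.1 h1 with h2 | h2
    · exfalso
      have h3 := congrArg (MvPolynomial.eval (fun _ : Fin 2 => (1 : ℝ))) h2
      simp at h3
    · exact h2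
  refine ⟨Q, ?_⟩
  rw [hA, hB] at hPQ
  rw [hPQ]
  simp

theorem harm_null_zero {l : ℕ} {P : Pl} (hP : P ∈ Hyd.Harm l) (h : ∀ α : ℝ, pc P (av α) = 0) :
    P = 0 := by
  obtain ⟨Q, hQ⟩ := null_div (mem_Harm.1 hP).1 h
  exact harm_nsq_zero hP hQ

end Vale.Agent.P370.KC
end
end

section

section

/-!
The addition theorem and the explicit kernel of a shell.
-/

namespace Vale.Agent.P370.KC

open MeasureTheory Finset ComplexConjugate MvPolynomial Vale.Agent.P370.Q Vale.Agent.P370.Hyd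

/-- the two sphere integrals -/
theorem hsph_eq (P P' : Pl) :
    Hyd.sph P P' = 4 * Real.pi * Vale.Agent.P370.Q.sph (fun u => pe P u * pe P' u) := by
  have hc : Continuous fun u : R3 => pe P u * pe P' u :=
    (continuous_pe' P).mul (continuous_pe' P')
  rw [sph_eq_toSphere _ hc.continuousOn]
  unfold Hyd.sph
  rw [smul_eq_mul, ← mul_assoc, mul_one_div_cancel (by positivity), one_mul]
  rfl

variable {p : (l : ℕ) → Fin (2 * l + 1) → Pl}

theorem harm_expand (hp : HarmFam p) {l : ℕ} {h : Pl} (hh : h ∈ Hyd.Harm l) :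
    h = ∑ i, Hyd.sph (p l i) h • p l i := by
  let f : Fin (2 * l + 1) → Hyd.Harm l := fun i => ⟨p l i, hp.mem l i⟩
  let v : Hyd.Harm l := ⟨h, hh⟩ - ∑ i, Hyd.sph (p l i) h • f i
  have hB : ∀ a b : Hyd.Harm l, (sphB.domRestrict₁₂ (Hyd.Harm l) (Hyd.Harm l)) a b =
      Hyd.sph a.1 b.1 := fun a b => rfl
  have hv : v = 0 := by
    refine orthonormal_complete (sphB.domRestrict₁₂ (Hyd.Harm l) (Hyd.Harm l)) f
      (fun i j => by rw [hB]; exact hp.orth l i j) ?_ fun i => ?_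
    · rw [finrank_Harm, Fintype.card_fin]
    · show (sphB.domRestrict₁₂ (Hyd.Harm l) (Hyd.Harm l)) (f i)
        (⟨h, hh⟩ - ∑ j, Hyd.sph (p l j) h • f j) = 0
      rw [map_sub, map_sum, Finset.sum_eq_single i]
      · rw [map_smul, hB, hB]
        show Hyd.sph (p l i) h - Hyd.sph (p l i) h • Hyd.sph (p l i) (p l i) = 0
        rw [hp.orth, if_pos rfl, smul_eq_mul, mul_one, sub_self]
      · intro b _ hb
        rw [map_smul, hB]
        show Hyd.sph (p l b) h • Hyd.sph (p l i) (p l b) = 0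
        rw [hp.orth, if_neg hb.symm, smul_zero]
      · intro h'
        exact absurd (Finset.mem_univ i) h'
  have h1 := congrArg (Submodule.subtype (Hyd.Harm l)) hv
  rw [map_sub, map_sum, map_zero, sub_eq_zero] at h1
  exact h1

theorem hsph_null (l : ℕ) (α : ℝ) {P : Pl} (hP : P ∈ Hyd.Harm l) :
    Hyd.sph P (c1A α l) = 4 * Real.pi * (Am l * (pc P (av α)).re) ∧
    Hyd.sph P (c1B α l) = 4 * Real.pi * (Am l * (pc P (av α)).im) := by
  have hcont : Continuous (fun u : R3 => cdot (av α) u ^ l * (pe P u : ℂ)) :=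
    ((continuous_cdot' _).pow _).mul (Complex.continuous_ofReal.comp (continuous_pe' P))
  have hE := sph_eval (av α) (c1_null α) l P (mem_Harm.1 hP).1
  constructor
  · rw [hsph_eq]
    congr 1
    have h1 : Vale.Agent.P370.Q.sph (fun u => pe P u * pe (c1A α l) u) =
        Vale.Agent.P370.Q.sph (fun u => (cdot (av α) u ^ l * (pe P u : ℂ)).re) := by
      refine sph_congr fun u _ => ?_
      rw [(c1_pe α l u).1, Complex.mul_re, Complex.ofReal_re, Complex.ofReal_im]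
      ring
    rw [h1, sph_re _ hcont, hE, Complex.mul_re, Complex.ofReal_re, Complex.ofReal_im]
    ring
  · rw [hsph_eq]
    congr 1
    have h1 : Vale.Agent.P370.Q.sph (fun u => pe P u * pe (c1B α l) u) =
        Vale.Agent.P370.Q.sph (fun u => (cdot (av α) u ^ l * (pe P u : ℂ)).im) := by
      refine sph_congr fun u _ => ?_
      rw [(c1_pe α l u).2, Complex.mul_im, Complex.ofReal_re, Complex.ofReal_im]
      ring
    rw [h1, sph_im _ hcont, hE, Complex.mul_im, Complex.ofReal_re, Complex.ofReal_im]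
    ring

theorem pc_sum {ι : Type*} (s : Finset ι) (f : ι → Poly3) (c : C3) :
    pc (∑ i ∈ s, f i) c = ∑ i ∈ s, pc (f i) c := by
  unfold pc
  exact eval₂_sum _ _ _ _

theorem Am_pos (l : ℕ) : 0 < Am l := by
  unfold Am
  positivity

/-- **Addition theorem** for orthonormal families of harmonic polynomials. -/
theorem addition_thm (hp : HarmFam p) (l : ℕ) (x y : R3) :
    ∑ i, ev (p l i) x * ev (p l i) y = (2 * (l : ℝ) + 1) / (4 * Real.pi) * zon l x y := by
  let K : Pl := ∑ i, C (ev (p l i) y) * p l i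
  have hK : K ∈ Hyd.Harm l := by
    refine Submodule.sum_mem _ fun i _ => ?_
    rw [← smul_eq_C_mul]
    exact Submodule.smul_mem _ _ (hp.mem l i)
  let D : Pl := C (4 * Real.pi / (2 * (l : ℝ) + 1)) * K - zonP y l
  have hD : D ∈ Hyd.Harm l := by
    refine Submodule.sub_mem _ ?_ (zonP_mem y l)
    rw [← smul_eq_C_mul]
    exact Submodule.smul_mem _ _ hK
  have hpcK : ∀ α : ℝ, ((4 * Real.pi * Am l : ℝ) : ℂ) * pc K (av α) = cdot (av α) y ^ l := by
    intro α
    have hA := harm_expand hp (mem_Harm.2 (c1_harm α l).1)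
    have hB := harm_expand hp (mem_Harm.2 (c1_harm α l).2)
    have hA1 : pe (c1A α l) y = ∑ i, (4 * Real.pi * (Am l * (pc (p l i) (av α)).re)) *
        ev (p l i) y := by
      conv_lhs => rw [hA]
      rw [pe_eq]
      unfold ev
      rw [map_sum]
      refine Finset.sum_congr rfl fun i _ => ?_
      rw [smul_eval, (hsph_null l α (hp.mem l i)).1]
    have hB1 : pe (c1B α l) y = ∑ i, (4 * Real.pi * (Am l * (pc (p l i) (av α)).im)) *
        ev (p l i) y := by
      conv_lhs => rw [hB]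
      rw [pe_eq]
      unfold ev
      rw [map_sum]
      refine Finset.sum_congr rfl fun i _ => ?_
      rw [smul_eval, (hsph_null l α (hp.mem l i)).2]
    have h1 : cdot (av α) y ^ l = ((pe (c1A α l) y : ℝ) : ℂ) +
        ((pe (c1B α l) y : ℝ) : ℂ) * Complex.I := by
      rw [(c1_pe α l y).1, (c1_pe α l y).2, Complex.re_add_im]
    rw [h1, hA1, hB1, pc_sum, Finset.mul_sum]
    push_cast
    rw [Finset.sum_mul, ← Finset.sum_add_distrib]
    refine Finset.sum_congr rfl fun i _ => ?_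
    rw [pc_mul, pc_C]
    conv_lhs => rw [← Complex.re_add_im (pc (p l i) (av α))]
    ring
  have hD0 : D = 0 := by
    refine harm_null_zero hD fun α => ?_
    have h2 : (((2 * (l : ℝ) + 1) * Am l : ℝ) : ℂ) ≠ 0 := by
      rw [Complex.ofReal_ne_zero]
      exact (mul_pos (by positivity) (Am_pos l)).ne'
    refine (mul_eq_zero.1 (?_ : (((2 * (l : ℝ) + 1) * Am l : ℝ) : ℂ) * pc D (av α) = 0)).resolve_left h2
    rw [pc_sub, pc_mul, pc_C, mul_sub, pc_zonP y (av α) (c1_null α) l, ← hpcK α, ← mul_assoc,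
      ← Complex.ofReal_mul]
    have h3 : (2 * (l : ℝ) + 1) * Am l * (4 * Real.pi / (2 * (l : ℝ) + 1)) =
        4 * Real.pi * Am l := by
      have : (2 * (l : ℝ) + 1) ≠ 0 := by positivity
      field_simp
    rw [h3, sub_self]
  have h4 : C (4 * Real.pi / (2 * (l : ℝ) + 1)) * K = zonP y l := sub_eq_zero.1 hD0
  have h5 : ev (C (4 * Real.pi / (2 * (l : ℝ) + 1)) * K) x = ev (zonP y l) x := by rw [h4]
  rw [ev_mul, ev_C, ev_zonP] at h5
  have h6 : ev K x = ∑ i, ev (p l i) x * ev (p l i) y := by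
    show MvPolynomial.eval _ (∑ i, C (ev (p l i) y) * p l i) = _
    rw [map_sum]
    refine Finset.sum_congr rfl fun i _ => ?_
    rw [map_mul, eval_C, mul_comm]
    rfl
  rw [← h6, ← h5]
  have : (2 * (l : ℝ) + 1) ≠ 0 := by positivity
  have hpi := Real.pi_ne_zero
  field_simp

/-! ### the explicit basis -/

theorem gS_isShell {k l : ℕ} (hl : l ≤ k) {h : Pl} (hh : h ∈ Hyd.Harm l) :
    IsShell (k + 1) (gS k l h).1.1 := by
  refine (isShell_iff (Nat.succ_pos k)).2 ⟨zf (Hyd.kap k) l (k + 1 - l) h, ?_, ?_⟩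
  · rw [mem_Eig]
    have h1 : (1 / ((k + 1 : ℕ) : ℝ)) = Hyd.kap k := by
      unfold Hyd.kap
      push_cast
      rfl
    rw [h1]
    refine ⟨?_, TL_zf' hl hh⟩
    unfold zf
    refine Submodule.sum_mem _ fun j hj => Submodule.smul_mem _ _ ?_
    rw [Finset.mem_range] at hj
    have hhom := (mem_Harm.1 hh).1
    unfold pw E
    rw [Submodule.mem_prod]
    by_cases he : Even j
    · rw [if_pos he]
      obtain ⟨i, rfl⟩ := he
      have e1 : (i + i) / 2 = i := by omega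
      refine ⟨?_, Submodule.zero_mem _⟩
      rw [e1]
      exact isHomogeneous_mem_lt (isHomogeneous_nsq_pow_mul hhom i) (by omega)
    · rw [if_neg he]
      obtain ⟨i, rfl⟩ := Nat.not_even_iff_odd.1 he
      have e1 : (2 * i + 1) / 2 = i := by omega
      refine ⟨Submodule.zero_mem _, ?_⟩
      rw [e1]
      exact isHomogeneous_mem_lt (isHomogeneous_nsq_pow_mul hhom i) (by omega)
  · have h1 : (1 / ((k + 1 : ℕ) : ℝ)) = Hyd.kap k := by
      unfold Hyd.kap
      push_cast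
      rfl
    rw [h1]
    rfl

/-- the explicit shell basis -/
noncomputable def orbBasis (hp : HarmFam p) (n : ℕ) : ShellBasis n (Orb n) where
  χ a := (orb p a).1.1
  lev a := a.1.1 + 1
  lev_pos _ := Nat.succ_pos _
  lev_le a := a.1.2
  mem a := by
    have h1 := gS_isShell (k := a.1) (l := a.2.1) (by omega) (hp.mem a.2.1 a.2.2)
    obtain ⟨z, hz, hz2⟩ := (isShell_iff (Nat.succ_pos _)).1 h1
    refine (isShell_iff (Nat.succ_pos _)).2 ⟨(Real.sqrt (radN a.1 a.2.1))⁻¹ • z,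
      Submodule.smul_mem _ _ hz, ?_⟩
    have h2 : (orb p a).1.1 = fun x => (Real.sqrt (radN a.1 a.2.1))⁻¹ *
        (gS a.1 a.2.1 (p a.2.1 a.2.2)).1.1 x := rfl
    rw [h2, hz2]
    funext x
    unfold xp
    simp only [Prod.smul_fst, Prod.smul_snd]
    have e3 : ∀ (c : ℝ) (P : Pl), ev (c • P) x = c * ev P x := fun c P => by
      simp [ev, smul_eval]
    rw [e3, e3]
    ring
  ortho a b := orb_orth hp a b
  card k hk1 hk := by
    rw [Finset.card_filter, Fintype.sum_sigma, Finset.sum_eq_single (⟨k - 1, by omega⟩ : Fin n)]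
    · have h1 : k - 1 + 1 = k := by omega
      simp only [h1, if_true]
      rw [Finset.sum_const, Finset.card_univ, Fintype.card_sigma, smul_eq_mul, mul_one]
      simp only [Fintype.card_fin]
      rw [h1, Fin.sum_univ_eq_sum_range (fun l => 2 * l + 1)]
      have : ∀ k : ℕ, ∑ l ∈ Finset.range k, (2 * l + 1) = k ^ 2 := by
        intro k
        induction k with
        | zero => simp
        | succ k ih =>
          rw [Finset.sum_range_succ, ih]
          ring
      exact this k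
    · intro b _ hb
      refine Finset.sum_eq_zero fun x _ => ?_
      rw [if_neg]
      intro h
      apply hb
      refine Fin.ext ?_
      show b.1 = k - 1
      have : b.1 + 1 = k := h
      omega
    · intro h
      exact absurd (Finset.mem_univ _) h

theorem ov_symm (f g : R3 → ℝ) : ov f g = ov g f := by
  unfold ov
  simp only [mul_comm]

/-- the kernel of a shell does not depend on the basis -/
theorem kernel_indep {n n' : ℕ} (hn : 1 ≤ n) (hn' : 1 ≤ n') {A A' : Type} [Fintype A]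
    [DecidableEq A] [Fintype A'] [DecidableEq A'] (B : ShellBasis n A) (B' : ShellBasis n' A')
    {k : ℕ} (hk : 1 ≤ k) (hkn : k ≤ n) (hkn' : k ≤ n') (x y : R3) :
    ∑ a ∈ univ.filter (fun a => B.lev a = k), B.χ a x * B.χ a y =
      ∑ a ∈ univ.filter (fun a => B'.lev a = k), B'.χ a x * B'.χ a y := by
  have h1 : ∀ b ∈ univ.filter (fun a => B'.lev a = k), B'.χ b y =
      ∑ a ∈ univ.filter (fun a => B.lev a = k), ov (B.χ a) (B'.χ b) * B.χ a y := by
    intro b hb
    rw [Finset.mem_filter] at hb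
    have h2 := shell_expand hn B hk hkn (φ := B'.χ b) (by rw [← hb.2]; exact B'.mem b)
    conv_lhs => rw [h2]
    rw [Finset.sum_filter]
    refine Finset.sum_congr rfl fun a _ => ?_
    split_ifs <;> simp
  have h2 : ∀ a ∈ univ.filter (fun a => B.lev a = k), B.χ a x =
      ∑ b ∈ univ.filter (fun a => B'.lev a = k), ov (B.χ a) (B'.χ b) * B'.χ b x := by
    intro a ha
    rw [Finset.mem_filter] at ha
    have h2 := shell_expand hn' B' hk hkn' (φ := B.χ a) (by rw [← ha.2]; exact B.mem a)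
    conv_lhs => rw [h2]
    rw [Finset.sum_filter]
    refine Finset.sum_congr rfl fun b _ => ?_
    rw [ov_symm (B.χ a)]
    split_ifs <;> simp
  rw [Finset.sum_congr rfl fun a ha => by rw [h2 a ha],
    Finset.sum_congr rfl (g := fun b => B'.χ b x * _) fun b hb => by rw [h1 b hb]]
  simp only [Finset.sum_mul, Finset.mul_sum]
  rw [Finset.sum_comm]
  refine Finset.sum_congr rfl fun b _ => Finset.sum_congr rfl fun a _ => ?_
  ring

/-- kernel of the subshell `(k + 1, l)` -/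
noncomputable def subK (k l : ℕ) (x y : R3) : ℝ :=
  (2 * (l : ℝ) + 1) / (4 * Real.pi * radN k l) * (rad k l ‖x‖ * rad k l ‖y‖) * zon l x y

theorem sub_kernel (hp : HarmFam p) {n : ℕ} (k : Fin n) (l : Fin (k.1 + 1)) (x y : R3) :
    ∑ i, (orb p (⟨k, l, i⟩ : Orb n)).1.1 x * (orb p (⟨k, l, i⟩ : Orb n)).1.1 y =
      subK k l x y := by
  have h1 : ∀ (i : Fin (2 * l.1 + 1)) (z : R3), (orb p (⟨k, l, i⟩ : Orb n)).1.1 z =
      (Real.sqrt (radN k l))⁻¹ * (ev (p l i) z * rad k l ‖z‖) := by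
    intro i z
    rw [← gS_apply]
    rfl
  simp only [h1]
  have hR := radN_pos (k := k) (l := l) (by omega)
  have h2 : (Real.sqrt (radN k l))⁻¹ * (Real.sqrt (radN k l))⁻¹ = (radN k l)⁻¹ := by
    rw [← mul_inv, Real.mul_self_sqrt hR.le]
  have h3 : ∀ i : Fin (2 * l.1 + 1), (Real.sqrt (radN k l))⁻¹ * (ev (p l i) x * rad k l ‖x‖) *
      ((Real.sqrt (radN k l))⁻¹ * (ev (p l i) y * rad k l ‖y‖)) =
      (radN k l)⁻¹ * (rad k l ‖x‖ * rad k l ‖y‖) * (ev (p l i) x * ev (p l i) y) := by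
    intro i
    rw [← h2]
    ring
  rw [Finset.sum_congr rfl fun i _ => h3 i, ← Finset.mul_sum, addition_thm hp]
  unfold subK
  have hpi := Real.pi_ne_zero
  have := hR.ne'
  field_simp

/-- **Explicit kernel of a shell.** -/
theorem shell_kernel {n : ℕ} {A : Type} [Fintype A] [DecidableEq A] (B : ShellBasis n A)
    {k : ℕ} (hkn : k < n) (x y : R3) :
    ∑ a ∈ univ.filter (fun a => B.lev a = k + 1), B.χ a x * B.χ a y =
      ∑ l ∈ range (k + 1), subK k l x y := by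
  obtain ⟨p, hp⟩ := exists_harmFam
  rw [kernel_indep (by omega) (by omega) B (orbBasis hp n) (Nat.succ_pos k) hkn hkn,
    Finset.sum_filter, Fintype.sum_sigma, Finset.sum_eq_single (⟨k, hkn⟩ : Fin n)]
  · rw [Fintype.sum_sigma, ← Fin.sum_univ_eq_sum_range]
    refine Finset.sum_congr rfl fun l _ => ?_
    rw [← sub_kernel hp (⟨k, hkn⟩ : Fin n) l]
    refine Finset.sum_congr rfl fun i _ => ?_
    exact if_pos rfl
  · intro b _ hb
    refine Finset.sum_eq_zero fun x _ => ?_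
    rw [if_neg]
    intro h
    apply hb
    refine Fin.ext ?_
    show b.1 = k
    have : b.1 + 1 = k + 1 := h
    omega
  · intro h
    exact absurd (Finset.mem_univ _) h

/-- **Explicit kernel of the closed shells.** -/
theorem zclosed_kernel {n : ℕ} {C O : Type} [Fintype C] [DecidableEq C] [Fintype O]
    [DecidableEq O] (B : ShellBasis n (C ⊕ O)) (hC : ∀ c, B.lev (Sum.inl c) < n)
    (hO : ∀ o, B.lev (Sum.inr o) = n) (x y : R3) :
    ∑ c : C, B.χ (Sum.inl c) x * B.χ (Sum.inl c) y =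
      ∑ k ∈ range (n - 1), ∑ l ∈ range (k + 1), subK k l x y := by
  have h1 : ∀ k ∈ range (n - 1), ∑ l ∈ range (k + 1), subK k l x y =
      ∑ c : C, if B.lev (Sum.inl c) = k + 1 then
        B.χ (Sum.inl c) x * B.χ (Sum.inl c) y else 0 := by
    intro k hk
    rw [Finset.mem_range] at hk
    rw [← shell_kernel B (show k < n by omega), Finset.sum_filter, Fintype.sum_sum_type]
    have h2 : ∑ o : O, (if B.lev (Sum.inr o) = k + 1 then
        B.χ (Sum.inr o) x * B.χ (Sum.inr o) y else 0) = 0 := by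
      refine Finset.sum_eq_zero fun o _ => ?_
      rw [if_neg]
      rw [hO]
      omega
    rw [h2, add_zero]
  rw [Finset.sum_congr rfl h1, Finset.sum_comm]
  refine Finset.sum_congr rfl fun c _ => ?_
  have h3 := B.lev_pos (Sum.inl c)
  have h4 := hC c
  rw [Finset.sum_eq_single (B.lev (Sum.inl c) - 1)]
  · rw [if_pos (by omega)]
  · intro b _ hb
    rw [if_neg (by omega)]
  · intro h
    exfalso
    apply h
    rw [Finset.mem_range]
    omega

end Vale.Agent.P370.KC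
end
end

section

section

/-!
Funk-Hecke formula for null powers and Legendre polynomials.
-/

namespace Vale.Agent.P370.KC

open MeasureTheory intervalIntegral ComplexConjugate
open Vale.Agent.P370.Q
open Vale.Agent.P370.Q.S3 (ez norm_ez cdotL cdotL_apply rot cdot_rot cc_rot sph_zonal_null laplace_eq
  lp_continuous Xf)

theorem exists_rot (e v : R3) (h : ‖e‖ = ‖v‖) : ∃ g : R3 ≃ₗᵢ[ℝ] R3, g e = v :=
  ⟨_, Submodule.reflection_sub (v := e) (w := v) h⟩

theorem continuous_cdot (c : C3) : Continuous (cdot c) := (cdotL c).continuous_of_finiteDimensional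

theorem inner_mem_Icc {u v : R3} (hu : ‖u‖ = 1) (hv : ‖v‖ = 1) :
    inner ℝ u v ∈ Set.Icc (-1 : ℝ) 1 := by
  have h := abs_real_inner_le_norm u v
  rw [hu, hv, mul_one] at h
  exact ⟨(abs_le.1 h).1, (abs_le.1 h).2⟩

/-- Funk-Hecke for null powers, general axis -/
theorem sph_zonal_null' (v : R3) (hv : ‖v‖ = 1) (c : C3) (hc : cc c c = 0) (N : ℕ) (f : ℝ → ℝ)
    (hf : ContinuousOn f (Set.Icc (-1) 1)) :
    sph (fun u => (f (inner ℝ v u) : ℝ) • cdot c u ^ N) = (lc f N : ℝ) • cdot c v ^ N := by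
  obtain ⟨g, hg⟩ := exists_rot ez v (by rw [norm_ez, hv])
  have h0 : ContinuousOn (fun u : R3 => (f (inner ℝ v u) : ℝ) • cdot c u ^ N)
      (Metric.sphere 0 1) := by
    have hA : ContinuousOn (fun u : R3 => f (inner ℝ v u)) (Metric.sphere 0 1) :=
      hf.comp (by fun_prop) fun u hu => inner_mem_Icc hv (by simpa using hu)
    exact hA.smul ((continuous_cdot c).pow N).continuousOn
  rw [← sph_rot g _ h0]
  have h1 : sph (fun u => (f (inner ℝ v (g u)) : ℝ) • cdot c (g u) ^ N) =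
      sph (fun u => (f (inner ℝ ez u) : ℝ) • cdot (rot g c) u ^ N) := by
    refine sph_congr fun u _ => ?_
    rw [cdot_rot, ← hg, g.inner_map_map]
  rw [h1, sph_zonal_null (rot g c) (by rw [cc_rot, hc]) N f hf]
  have h2 : rot g c 2 = cdot c v := by
    unfold rot
    rw [← hg]
    rfl
  rw [h2]
  rfl

theorem continuous_cdot_av : Continuous fun p : ℝ × R3 => cdot (av p.1) p.2 := by
  have h : (fun p : ℝ × R3 => cdot (av p.1) p.2) = fun p : ℝ × R3 =>
      Complex.I * (Real.cos p.1 : ℂ) * (p.2 0 : ℂ) + Complex.I * (Real.sin p.1 : ℂ) * (p.2 1 : ℂ) +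
        (p.2 2 : ℂ) := by
    funext p
    unfold cdot
    rw [Fin.sum_univ_three]
    simp [av]
  rw [h]
  fun_prop

/-- Laplace's integral as an average over null vectors -/
theorem laplace_av (N : ℕ) (u : R3) (hu : ‖u‖ = 1) :
    ∫ ψ in (0 : ℝ)..(2 * Real.pi), cdot (av ψ) u ^ N = 2 * Real.pi * (S3.lp N (inner ℝ ez u) : ℂ) := by
  have hin : inner ℝ ez u = u 2 := by
    simp [ez, EuclideanSpace.inner_single_left]
  have hn : u 0 ^ 2 + u 1 ^ 2 + u 2 ^ 2 = 1 := by
    have := EuclideanSpace.norm_sq_eq u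
    rw [hu, Fin.sum_univ_three] at this
    simp only [Real.norm_eq_abs, sq_abs] at this
    linarith
  rw [hin]
  set σ := √(u 0 ^ 2 + u 1 ^ 2) with hσ
  have hσ2 : σ ^ 2 = u 0 ^ 2 + u 1 ^ 2 := Real.sq_sqrt (by positivity)
  have hexp : ∀ ψ : ℝ, cdot (av ψ) u = Complex.I * (Real.cos ψ : ℂ) * (u 0 : ℂ) +
      Complex.I * (Real.sin ψ : ℂ) * (u 1 : ℂ) + (u 2 : ℂ) := by
    intro ψ
    unfold cdot
    rw [Fin.sum_univ_three]
    simp [av]
  rcases eq_or_ne σ 0 with h0 | h0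
  · have h1 : u 0 = 0 ∧ u 1 = 0 := by
      rw [h0] at hσ2
      constructor
      · nlinarith [sq_nonneg (u 0), sq_nonneg (u 1)]
      · nlinarith [sq_nonneg (u 0), sq_nonneg (u 1)]
    have h := laplace_eq Complex.I 0 1 σ (u 2) (by simp) (by rw [hσ2]; linarith) N
    rw [one_pow, mul_one] at h
    rw [← h]
    refine integral_congr fun ψ _ => ?_
    simp only [hexp, h1.1, h1.2]
    unfold Xf
    rw [h0]
    simp
  · have hc : (σ : ℂ) ≠ 0 := by exact_mod_cast h0
    have h := laplace_eq (Complex.I * (u 0 : ℂ) / σ) (Complex.I * (u 1 : ℂ) / σ) 1 σ (u 2)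
      (by
        have e : ((u 0 : ℂ)) ^ 2 + (u 1 : ℂ) ^ 2 = (σ : ℂ) ^ 2 := by exact_mod_cast hσ2.symm
        rw [div_pow, div_pow, mul_pow, mul_pow, Complex.I_sq, ← add_div]
        have e2 : -1 * (u 0 : ℂ) ^ 2 + -1 * (u 1 : ℂ) ^ 2 = -(σ : ℂ) ^ 2 := by rw [← e]; ring
        rw [e2]
        field_simp
        ring) (by rw [hσ2]; linarith) N
    rw [one_pow, mul_one] at h
    rw [← h]
    refine integral_congr fun ψ _ => ?_
    simp only [hexp]
    unfold Xf
    congr 1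
    field_simp
    ring

/-- interchange of a sphere average and an interval integral -/
theorem sph_integral_swap (F : ℝ → R3 → ℂ) (hF : Continuous fun p : ℝ × R3 => F p.1 p.2)
    {a b : ℝ} (hab : a ≤ b) :
    sph (fun u => ∫ ψ in a..b, F ψ u) = ∫ ψ in a..b, sph (F ψ) := by
  have h1 : ∀ ψ, ContinuousOn (F ψ) (Metric.sphere 0 1) := fun ψ =>
    (hF.comp (by fun_prop : Continuous fun u : R3 => (ψ, u))).continuousOn
  have h2 : Continuous fun u => ∫ ψ in a..b, F ψ u :=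
    intervalIntegral.continuous_parametric_intervalIntegral_of_continuous'
      (f := fun u ψ => F ψ u) (hF.comp continuous_swap) a b
  rw [sph_eq_toSphere _ h2.continuousOn]
  have h3 : ∀ ψ, sph (F ψ) = (1 / (4 * Real.pi)) • ∫ ω : Metric.sphere (0 : R3) 1, F ψ ω
      ∂(volume : Measure R3).toSphere := fun ψ => sph_eq_toSphere _ (h1 ψ)
  simp only [h3]
  rw [intervalIntegral.integral_smul]
  congr 1
  simp only [intervalIntegral.integral_of_le hab]
  refine integral_integral_swap ?_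
  have hc : Continuous (Function.uncurry fun (ω : Metric.sphere (0 : R3) 1) (ψ : ℝ) => F ψ ω) :=
    hF.comp (by fun_prop : Continuous fun p : Metric.sphere (0 : R3) 1 × ℝ => (p.2, (p.1 : R3)))
  obtain ⟨C, hC⟩ := (isCompact_univ (X := Metric.sphere (0 : R3) 1)).prod
    (isCompact_Icc (a := a) (b := b)) |>.exists_bound_of_continuousOn hc.continuousOn
  refine Integrable.of_bound hc.aestronglyMeasurable C ?_
  have hae : ∀ᵐ ψ ∂(volume.restrict (Set.Ioc a b)), ψ ∈ Set.Ioc a b :=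
    ae_restrict_mem measurableSet_Ioc
  have : ∀ᵐ p ∂(((volume : Measure R3).toSphere).prod (volume.restrict (Set.Ioc a b))),
      p.2 ∈ Set.Ioc a b := Measure.quasiMeasurePreserving_snd.ae hae
  filter_upwards [this] with p hp
  exact hC p ⟨Set.mem_univ _, Set.Ioc_subset_Icc_self hp⟩

/-- extension of a function on `[-1,1]` -/
noncomputable def ext1 (f : ℝ → ℝ) : ℝ → ℝ := Set.IccExtend (by norm_num : (-1 : ℝ) ≤ 1)
  (fun t => f t)

theorem ext1_eq (f : ℝ → ℝ) {t : ℝ} (ht : t ∈ Set.Icc (-1 : ℝ) 1) : ext1 f t = f t := by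
  unfold ext1
  rw [Set.IccExtend_of_mem _ _ ht]

theorem continuous_ext1 {f : ℝ → ℝ} (hf : ContinuousOn f (Set.Icc (-1) 1)) :
    Continuous (ext1 f) := by
  unfold ext1
  refine Continuous.Icc_extend' ?_
  exact continuousOn_iff_continuous_domRestrict.1 hf

/-- **Funk-Hecke formula** for Legendre polynomials -/
theorem funk_hecke_ez (v : R3) (hv : ‖v‖ = 1) (N : ℕ) (f : ℝ → ℝ)
    (hf : ContinuousOn f (Set.Icc (-1) 1)) :
    sph (fun u => S3.lp N (inner ℝ ez u) * f (inner ℝ v u)) = lc f N * S3.lp N (inner ℝ ez v) := by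
  have hfe := continuous_ext1 hf
  have hcont : Continuous fun p : ℝ × R3 => (ext1 f (inner ℝ v p.2) : ℝ) • cdot (av p.1) p.2 ^ N :=
    Continuous.smul (hfe.comp (by fun_prop)) (continuous_cdot_av.pow N)
  have h1 := sph_integral_swap
    (fun ψ u => (ext1 f (inner ℝ v u) : ℝ) • cdot (av ψ) u ^ N) hcont
    (a := 0) (b := 2 * Real.pi) (by positivity)
  have h2 : ∀ ψ, sph (fun u => (ext1 f (inner ℝ v u) : ℝ) • cdot (av ψ) u ^ N) =
      (lc f N : ℝ) • cdot (av ψ) v ^ N := by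
    intro ψ
    have hnull : cc (av ψ) (av ψ) = 0 := by
      rw [cc_eq, av_eq, GC.dd_av_self]
    rw [← sph_zonal_null' v hv (av ψ) hnull N f hf]
    refine sph_congr fun u hu => ?_
    rw [ext1_eq f (inner_mem_Icc hv hu)]
  simp only [h2] at h1
  rw [intervalIntegral.integral_smul, laplace_av N v hv] at h1
  have h3 : sph (fun u => ∫ ψ in (0 : ℝ)..(2 * Real.pi),
      (ext1 f (inner ℝ v u) : ℝ) • cdot (av ψ) u ^ N) =
      sph (fun u => (2 * Real.pi) • ((S3.lp N (inner ℝ ez u) * f (inner ℝ v u) : ℝ) : ℂ)) := by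
    refine sph_congr fun u hu => ?_
    rw [intervalIntegral.integral_smul, laplace_av N u hu, ext1_eq f (inner_mem_Icc hv hu)]
    simp only [Complex.real_smul]
    push_cast
    ring
  rw [h3, sph_smul] at h1
  have hco : ContinuousOn (fun u : R3 => S3.lp N (inner ℝ ez u) * f (inner ℝ v u))
      (Metric.sphere 0 1) := by
    refine ContinuousOn.mul ((lp_continuous N).comp (by fun_prop)).continuousOn ?_
    exact hf.comp (by fun_prop) fun u hu => inner_mem_Icc hv (by simpa using hu)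
  have h4 : sph (fun u => ((S3.lp N (inner ℝ ez u) * f (inner ℝ v u) : ℝ) : ℂ)) =
      ((sph (fun u => S3.lp N (inner ℝ ez u) * f (inner ℝ v u)) : ℝ) : ℂ) := by
    have hco' : ContinuousOn (fun u : R3 => ((S3.lp N (inner ℝ ez u) * f (inner ℝ v u) : ℝ) : ℂ))
      (Metric.sphere 0 1) := Complex.continuous_ofReal.comp_continuousOn hco
    rw [sph_eq_toSphere _ hco, sph_eq_toSphere _ hco', integral_complex_ofReal]
    simp
  rw [h4] at h1
  have hpi : (2 * Real.pi : ℂ) ≠ 0 := by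
    exact_mod_cast (by positivity : (2 * Real.pi : ℝ) ≠ 0)
  simp only [Complex.real_smul] at h1
  have h5 : (2 * Real.pi : ℂ) * ((sph (fun u => S3.lp N (inner ℝ ez u) * f (inner ℝ v u)) : ℝ) : ℂ) =
      (2 * Real.pi : ℂ) * ((lc f N * S3.lp N (inner ℝ ez v) : ℝ) : ℂ) := by
    push_cast at h1 ⊢
    linear_combination h1
  exact_mod_cast mul_left_cancel₀ hpi h5

/-- **Funk-Hecke formula** -/
theorem funk_hecke (e v : R3) (he : ‖e‖ = 1) (hv : ‖v‖ = 1) (N : ℕ) (f : ℝ → ℝ)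
    (hf : ContinuousOn f (Set.Icc (-1) 1)) :
    sph (fun u => S3.lp N (inner ℝ e u) * f (inner ℝ v u)) = lc f N * S3.lp N (inner ℝ e v) := by
  obtain ⟨g, hg⟩ := exists_rot ez e (by rw [norm_ez, he])
  have hco : ContinuousOn (fun u : R3 => S3.lp N (inner ℝ e u) * f (inner ℝ v u))
      (Metric.sphere 0 1) := by
    refine ContinuousOn.mul ((lp_continuous N).comp (by fun_prop)).continuousOn ?_
    exact hf.comp (by fun_prop) fun u hu => inner_mem_Icc hv (by simpa using hu)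
  rw [← sph_rot g _ hco]
  have h1 : sph (fun u => S3.lp N (inner ℝ e (g u)) * f (inner ℝ v (g u))) =
      sph (fun u => S3.lp N (inner ℝ ez u) * f (inner ℝ (g.symm v) u)) := by
    refine sph_congr fun u _ => ?_
    have e1 : inner ℝ e (g u) = inner ℝ ez u := by rw [← hg, g.inner_map_map]
    have e2 : inner ℝ v (g u) = inner ℝ (g.symm v) u := by
      rw [← g.inner_map_map (g.symm v) u, g.apply_symm_apply]
    rw [e1, e2]
  rw [h1, funk_hecke_ez (g.symm v) (by rw [g.symm.norm_map, hv]) N f hf]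
  have e3 : inner ℝ ez (g.symm v) = inner ℝ e v := by
    rw [← g.inner_map_map ez (g.symm v), g.apply_symm_apply, hg]
  rw [e3]

end Vale.Agent.P370.KC
end
end

section

section

/-!
Reproducing property of Legendre polynomials on harmonic polynomials, addition theorem.
-/

namespace Vale.Agent.P370.KC

open MeasureTheory ComplexConjugate
open Vale.Agent.P370.Q
open MvPolynomial (C X pderiv)

end Vale.Agent.P370.KC
end
end

section

section

/-!
Reproducing property on the sphere, addition theorem.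
-/

namespace Vale.Agent.P370.KC

open MeasureTheory
open Vale.Agent.P370.Q
open MvPolynomial (C X pderiv)

end Vale.Agent.P370.KC
end
end

section

section

/-!
KC3: the kernel of the closed shells.
-/

namespace Vale.Agent.P370.KC

open Finset MeasureTheory Vale.Agent.P370.Q

/-- cosine of the angle -/
noncomputable def ca (x y : R3) : ℝ := inner ℝ x y / (‖x‖ * ‖y‖)

/-- kernel of the subshell `(k, l)` divided by `2 l + 1` -/
noncomputable def Qk (k l : ℕ) (x y : R3) : ℝ :=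
  (‖x‖ * ‖y‖) ^ l * (Hyd.rad k l ‖x‖ * Hyd.rad k l ‖y‖) * S3.lp l (ca x y) /
    (4 * Real.pi * Hyd.radN k l)

theorem subK_eq (k l : ℕ) (x y : R3) : subK k l x y = (2 * (l : ℝ) + 1) * Qk k l x y := by
  unfold subK Qk zon ca
  rw [mul_pow]
  ring

/-- the kernel of the closed shells -/
theorem closed_kernel_eq {n : ℕ} {C O : Type} [Fintype C] [DecidableEq C] [Fintype O]
    [DecidableEq O] (B : ShellBasis n (C ⊕ O)) (hC : ∀ c, B.lev (Sum.inl c) < n)
    (hO : ∀ o, B.lev (Sum.inr o) = n) (x y : R3) (hx : x ≠ 0) (hy : y ≠ 0) :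
    ∑ c : C, B.χ (Sum.inl c) x * B.χ (Sum.inl c) y =
      ∑ k ∈ range (n - 1), ∑ l ∈ range (k + 1), (2 * (l : ℝ) + 1) * Qk k l x y := by
  rw [zclosed_kernel B hC hO x y]
  refine Finset.sum_congr rfl fun k _ => Finset.sum_congr rfl fun l _ => ?_
  exact subK_eq k l x y

end Vale.Agent.P370.KC
end
end

section

section

/-!
KC5: Coulomb integrals of the subshell kernels; Coulomb energy of the closed shells.
-/

namespace Vale.Agent.P370.KC

open Finset MeasureTheory Vale.Agent.P370.Q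

/-- Legendre products against the Coulomb kernel -/
theorem leg_coul (a b : ℕ) {r s : ℝ} (hr : 0 < r) (hs : 0 < s) (hne : r ≠ s) :
    (1 / 2) * ∫ t in (-1 : ℝ)..1, S3.lp a t * S3.lp b t / √(S3.Dd r s t) =
      ∑ L ∈ range (a + b + 1), tri a b L * (min r s ^ L / max r s ^ (L + 1)) := by
  have h1 : ∀ t : ℝ, S3.lp a t * S3.lp b t / √(S3.Dd r s t) =
      ∑ L ∈ range (a + b + 1), ((2 * (L : ℝ) + 1) * tri a b L) *
        (1 / √(S3.Dd r s t) * S3.lp L t) := by
    intro t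
    rw [lp_mul, Finset.sum_div]
    exact Finset.sum_congr rfl fun L _ => by ring
  simp only [h1]
  rw [intervalIntegral.integral_finsetSum fun L _ => (S3.aI_int hr hs hne L).const_mul _,
    Finset.mul_sum]
  refine Finset.sum_congr rfl fun L _ => ?_
  rw [intervalIntegral.integral_const_mul]
  have h2 := S3.aI_eq hr hs hne L
  unfold S3.aI at h2
  have h3 : (1 / 2) * ((2 * (L : ℝ) + 1) * tri a b L *
      ∫ t in (-1 : ℝ)..1, 1 / √(S3.Dd r s t) * S3.lp L t) =
      (2 * (L : ℝ) + 1) * tri a b L *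
        ((1 / 2) * ∫ t in (-1 : ℝ)..1, 1 / √(S3.Dd r s t) * S3.lp L t) := by ring
  rw [h3, h2]
  have h4 : (2 * (L : ℝ) + 1) ≠ 0 := by positivity
  field_simp

/-- the kernel as a sum over orbitals -/
theorem Qk_sum {k l : ℕ} (hl : l ≤ k) : ∃ f : Fin (2 * l + 1) → R3 → ℝ, (∀ i, Nice (f i)) ∧
    ∀ x y, Qk k l x y = (1 / (2 * (l : ℝ) + 1)) * ∑ i, f i x * f i y := by
  obtain ⟨p, hp⟩ := Hyd.exists_harmFam
  refine ⟨fun i => (Hyd.orb p (⟨⟨k, Nat.lt_succ_self k⟩, ⟨l, Nat.lt_succ_of_le hl⟩, i⟩ :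
    Hyd.Orb (k + 1))).1.1, fun i => ?_, fun x y => ?_⟩
  · exact ((orbBasis hp (k + 1)).mem _).nice ((orbBasis hp (k + 1)).lev_pos _)
  · have h := sub_kernel hp (n := k + 1) ⟨k, Nat.lt_succ_self k⟩ ⟨l, Nat.lt_succ_of_le hl⟩ x y
    rw [subK_eq] at h
    have h2 : (2 * (l : ℝ) + 1) ≠ 0 := by positivity
    have h3 : Qk k l x y = (1 / (2 * (l : ℝ) + 1)) * ((2 * (l : ℝ) + 1) * Qk k l x y) := by
      field_simp
    rw [h3]
    exact congrArg _ h.symm

/-- integrability of the exchange integrand -/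
theorem exch_int {k l k' l' : ℕ} (hl : l ≤ k) (hl' : l' ≤ k') :
    (∀ y : R3, y ≠ 0 → Integrable (fun x => Qk k l x y * Qk k' l' x y / dist x y)) ∧
      Integrable (fun y => ∫ x, Qk k l x y * Qk k' l' x y / dist x y) := by
  obtain ⟨f, hf, hfe⟩ := Qk_sum hl
  obtain ⟨f', hf', hfe'⟩ := Qk_sum hl'
  have h1 : ∀ x y : R3, Qk k l x y * Qk k' l' x y / dist x y =
      ∑ i, ∑ j, (1 / (2 * (l : ℝ) + 1) * (1 / (2 * (l' : ℝ) + 1)) * (f i y * f' j y)) *
        (f i x * f' j x / dist x y) := by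
    intro x y
    rw [hfe, hfe']
    have e1 : 1 / (2 * (l : ℝ) + 1) * ∑ i, f i x * f i y =
        ∑ i, 1 / (2 * (l : ℝ) + 1) * (f i x * f i y) := Finset.mul_sum _ _ _
    have e2 : 1 / (2 * (l' : ℝ) + 1) * ∑ i, f' i x * f' i y =
        ∑ i, 1 / (2 * (l' : ℝ) + 1) * (f' i x * f' i y) := Finset.mul_sum _ _ _
    rw [e1, e2, Finset.sum_mul_sum, Finset.sum_div]
    refine Finset.sum_congr rfl fun i _ => ?_
    rw [Finset.sum_div]
    refine Finset.sum_congr rfl fun j _ => ?_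
    ring
  have hint : ∀ y : R3, Integrable (fun x => Qk k l x y * Qk k' l' x y / dist x y) := by
    intro y
    simp only [h1]
    exact integrable_finsetSum _ fun i _ => integrable_finsetSum _ fun j _ =>
      (nice_integrable_nuc (hf i) (hf' j) y).const_mul _
  refine ⟨fun y _ => hint y, ?_⟩
  have h2 : ∀ y : R3, ∫ x, Qk k l x y * Qk k' l' x y / dist x y =
      ∑ i, ∑ j, (1 / (2 * (l : ℝ) + 1) * (1 / (2 * (l' : ℝ) + 1))) *
        (nuc y (f i) (f' j) * (f i y * f' j y)) := by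
    intro y
    simp only [h1]
    rw [integral_finsetSum _ fun i _ => integrable_finsetSum _ fun j _ =>
      (nice_integrable_nuc (hf i) (hf' j) y).const_mul _]
    refine Finset.sum_congr rfl fun i _ => ?_
    rw [integral_finsetSum _ fun j _ => (nice_integrable_nuc (hf i) (hf' j) y).const_mul _]
    refine Finset.sum_congr rfl fun j _ => ?_
    rw [integral_const_mul]
    unfold nuc
    ring
  simp only [h2]
  exact integrable_finsetSum _ fun i _ => integrable_finsetSum _ fun j _ =>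
    (coul_integrable (hf i) (hf' j) (hf i) (hf' j)).const_mul _

/-- integrability of the direct integrand -/
theorem dir_int {k l k' l' : ℕ} (hl : l ≤ k) (hl' : l' ≤ k') :
    (∀ y : R3, Integrable (fun x => Qk k l x x / dist x y)) ∧
      Integrable (fun y => (∫ x, Qk k l x x / dist x y) * Qk k' l' y y) := by
  obtain ⟨f, hf, hfe⟩ := Qk_sum hl
  obtain ⟨f', hf', hfe'⟩ := Qk_sum hl'
  have h1 : ∀ x y : R3, Qk k l x x / dist x y =
      ∑ i, (1 / (2 * (l : ℝ) + 1)) * (f i x * f i x / dist x y) := by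
    intro x y
    rw [hfe, Finset.mul_sum, Finset.sum_div]
    exact Finset.sum_congr rfl fun i _ => by ring
  have hint : ∀ y : R3, Integrable (fun x => Qk k l x x / dist x y) := by
    intro y
    simp only [h1]
    exact integrable_finsetSum _ fun i _ => (nice_integrable_nuc (hf i) (hf i) y).const_mul _
  refine ⟨hint, ?_⟩
  have h2 : ∀ y : R3, (∫ x, Qk k l x x / dist x y) * Qk k' l' y y =
      ∑ i, ∑ j, (1 / (2 * (l : ℝ) + 1) * (1 / (2 * (l' : ℝ) + 1))) *
        (nuc y (f i) (f i) * (f' j y * f' j y)) := by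
    intro y
    simp only [h1]
    rw [integral_finsetSum _ fun i _ => (nice_integrable_nuc (hf i) (hf i) y).const_mul _, hfe']
    have e2 : 1 / (2 * (l' : ℝ) + 1) * ∑ i, f' i y * f' i y =
        ∑ i, 1 / (2 * (l' : ℝ) + 1) * (f' i y * f' i y) := Finset.mul_sum _ _ _
    rw [e2, Finset.sum_mul_sum]
    refine Finset.sum_congr rfl fun i _ => Finset.sum_congr rfl fun j _ => ?_
    rw [integral_const_mul]
    unfold nuc
    ring
  simp only [h2]
  exact integrable_finsetSum _ fun i _ => integrable_finsetSum _ fun j _ =>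
    (coul_integrable (hf i) (hf i) (hf' j) (hf' j)).const_mul _

/-! ### radial functions -/

/-- radial function of the exchange density -/
noncomputable def rx (k l k' l' : ℕ) (r : ℝ) : ℝ :=
  r ^ (l + l' + 2) * (Hyd.rad k l r * Hyd.rad k' l' r)

theorem rx_eq (k l k' l' : ℕ) (r : ℝ) : rx k l k' l' r =
    ∑ z ∈ range (k + 1 - l) ×ˢ range (k' + 1 - l'), (lag k l z.1 * lag k' l' z.2) *
      me (l + l' + 2 + z.1 + z.2) (kp k + kp k') r := by
  unfold rx
  rw [rad_eq, rad_eq, Finset.sum_product]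
  have h1 : r ^ (l + l' + 2) * ((∑ j ∈ Finset.range (k + 1 - l), lag k l j * r ^ j) *
      Real.exp (-(kp k * r)) * ((∑ j ∈ Finset.range (k' + 1 - l'), lag k' l' j * r ^ j) *
      Real.exp (-(kp k' * r)))) = ((∑ j ∈ Finset.range (k + 1 - l), lag k l j * r ^ j) *
      (∑ j ∈ Finset.range (k' + 1 - l'), lag k' l' j * r ^ j)) *
      (r ^ (l + l' + 2) * Real.exp (-((kp k + kp k') * r))) := by
    rw [show -((kp k + kp k') * r) = -(kp k * r) + -(kp k' * r) by ring, Real.exp_add]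
    ring
  rw [h1, Finset.sum_mul_sum, Finset.sum_mul]
  refine Finset.sum_congr rfl fun i _ => ?_
  rw [Finset.sum_mul]
  refine Finset.sum_congr rfl fun j _ => ?_
  unfold me
  rw [pow_add, pow_add]
  ring

theorem kp_pos (k : ℕ) : 0 < kp k := by
  unfold kp
  positivity

theorem Jf_TT (p q : ℕ) (α β : ℝ) : Jf p q α β = TT q p β α := by
  unfold Jf TT
  refine Finset.sum_congr rfl fun i hi => ?_
  rw [Finset.mem_range] at hi
  rw [show q + 1 - i = q - i + 1 by omega, add_comm α β]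

theorem RL_Phi (L p q : ℕ) {α β : ℝ} (hα : 0 < α) (hβ : 0 < β) (hp : L + 1 ≤ p)
    (hq : L + 1 ≤ q) : RL L (me p α) (me q β) = Phi p q L α β := by
  rw [RL_me L p q hα hβ hp hq]
  unfold Phi
  rw [Jf_TT, Jf_TT]
  ring

theorem RL_rx (k l k' l' L : ℕ) (hL : L ≤ l + l') :
    RL L (rx k l k' l') (rx k l k' l') =
      ∑ i ∈ range (k + 1 - l), ∑ j ∈ range (k + 1 - l), ∑ i' ∈ range (k' + 1 - l'),
        ∑ j' ∈ range (k' + 1 - l'), lag k l i * lag k l j * lag k' l' i' * lag k' l' j' *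
          Phi (l + l' + 2 + i + i') (l + l' + 2 + j + j') L (kp k + kp k') (kp k + kp k') := by
  have hα : 0 < kp k + kp k' := add_pos (kp_pos k) (kp_pos k')
  have h1 : rx k l k' l' = fun r => ∑ z ∈ range (k + 1 - l) ×ˢ range (k' + 1 - l'),
      (lag k l z.1 * lag k' l' z.2) * me (l + l' + 2 + z.1 + z.2) (kp k + kp k') r := by
    funext r
    exact rx_eq k l k' l' r
  conv_lhs => rw [h1]
  rw [RL_sum _ _ _ _ _ _ L hα hα (fun i _ => by omega), Finset.sum_product]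
  refine Finset.sum_congr rfl fun i _ => ?_
  have h2 : ∀ i' : ℕ, ∑ z ∈ range (k + 1 - l) ×ˢ range (k' + 1 - l'),
      (lag k l i * lag k' l' i') * (lag k l z.1 * lag k' l' z.2) *
        RL L (me (l + l' + 2 + i + i') (kp k + kp k'))
          (me (l + l' + 2 + z.1 + z.2) (kp k + kp k')) =
      ∑ j ∈ range (k + 1 - l), ∑ j' ∈ range (k' + 1 - l'),
        lag k l i * lag k l j * lag k' l' i' * lag k' l' j' *
          Phi (l + l' + 2 + i + i') (l + l' + 2 + j + j') L (kp k + kp k') (kp k + kp k') := by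
    intro i'
    rw [Finset.sum_product]
    refine Finset.sum_congr rfl fun j _ => Finset.sum_congr rfl fun j' _ => ?_
    rw [RL_Phi L _ _ hα hα (by omega) (by omega)]
    ring
  simp only [h2]
  rw [Finset.sum_comm]

/-- radial function of the density -/
noncomputable def rd (k l : ℕ) (r : ℝ) : ℝ := r ^ (2 * l + 2) * Hyd.rad k l r ^ 2

theorem rd_eq (k l : ℕ) (r : ℝ) : rd k l r =
    ∑ z ∈ range (k + 1 - l) ×ˢ range (k + 1 - l), (lag k l z.1 * lag k l z.2) *
      me (2 * l + 2 + z.1 + z.2) (2 * kp k) r := by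
  have h := rx_eq k l k l r
  unfold rx at h
  unfold rd
  rw [pow_two, show 2 * l + 2 = l + l + 2 by ring, h, show 2 * kp k = kp k + kp k by ring]

theorem RL_rd (k l k' l' : ℕ) :
    RL 0 (rd k l) (rd k' l') =
      ∑ i ∈ range (k + 1 - l), ∑ j ∈ range (k + 1 - l), ∑ i' ∈ range (k' + 1 - l'),
        ∑ j' ∈ range (k' + 1 - l'), lag k l i * lag k l j * lag k' l' i' * lag k' l' j' *
          Phi (2 * l + 2 + i + j) (2 * l' + 2 + i' + j') 0 (2 * kp k) (2 * kp k') := by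
  have hα : 0 < 2 * kp k := by have := kp_pos k; positivity
  have hβ : 0 < 2 * kp k' := by have := kp_pos k'; positivity
  have h1 : rd k l = fun r => ∑ z ∈ range (k + 1 - l) ×ˢ range (k + 1 - l),
      (lag k l z.1 * lag k l z.2) * me (2 * l + 2 + z.1 + z.2) (2 * kp k) r := by
    funext r
    exact rd_eq k l r
  have h1' : rd k' l' = fun r => ∑ z ∈ range (k' + 1 - l') ×ˢ range (k' + 1 - l'),
      (lag k' l' z.1 * lag k' l' z.2) * me (2 * l' + 2 + z.1 + z.2) (2 * kp k') r := by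
    funext r
    exact rd_eq k' l' r
  rw [h1, h1', RL_sum _ _ _ _ _ _ 0 hα hβ (fun i _ => by omega), Finset.sum_product]
  refine Finset.sum_congr rfl fun i _ => Finset.sum_congr rfl fun j _ => ?_
  rw [Finset.sum_product]
  refine Finset.sum_congr rfl fun i' _ => Finset.sum_congr rfl fun j' _ => ?_
  rw [RL_Phi 0 _ _ hα hβ (by omega) (by omega)]
  ring

theorem rx_inner_int (k l k' l' L : ℕ) {s : ℝ} (hs : 0 < s) :
    IntegrableOn (fun r => rx k l k' l' r * mk L r s) (Set.Ioi 0) := by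
  have hα : 0 < kp k + kp k' := add_pos (kp_pos k) (kp_pos k')
  simp only [rx_eq, Finset.sum_mul]
  refine integrable_finsetSum _ fun z _ => ?_
  refine ((inner_int L (l + l' + 2 + z.1 + z.2) hα (by omega) hs).const_mul
    (lag k l z.1 * lag k' l' z.2)).congr (Filter.Eventually.of_forall fun r => ?_)
  show _ * (_ * _) = _ * _ * _
  ring

/-! ### polar coordinates -/

theorem ca_smul {u v : R3} (hu : ‖u‖ = 1) (hv : ‖v‖ = 1) {r s : ℝ} (hr : 0 < r) (hs : 0 < s) :
    ca (r • u) (s • v) = inner ℝ v u := by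
  unfold ca
  rw [norm_smul, norm_smul, hu, hv, inner_smul_left, inner_smul_right, Real.norm_of_nonneg hr.le,
    Real.norm_of_nonneg hs.le, real_inner_comm]
  simp only [conj_trivial]
  have := hr.ne'
  have := hs.ne'
  field_simp

theorem Qk_polar (k l : ℕ) {u v : R3} (hu : ‖u‖ = 1) (hv : ‖v‖ = 1) {r s : ℝ} (hr : 0 < r)
    (hs : 0 < s) : Qk k l (r • u) (s • v) =
      (r * s) ^ l * (Hyd.rad k l r * Hyd.rad k l s) * S3.lp l (inner ℝ v u) /
        (4 * Real.pi * Hyd.radN k l) := by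
  unfold Qk
  rw [ca_smul hu hv hr hs, norm_smul, norm_smul, hu, hv, Real.norm_of_nonneg hr.le,
    Real.norm_of_nonneg hs.le, mul_one, mul_one]

theorem exch_inner {k l k' l' : ℕ} (hl : l ≤ k) (hl' : l' ≤ k') {v : R3} (hv : ‖v‖ = 1) {s : ℝ}
    (hs : 0 < s) : ∫ x, Qk k l x (s • v) * Qk k' l' x (s • v) / dist x (s • v) =
      s ^ (l + l') * (Hyd.rad k l s * Hyd.rad k' l' s) /
        (4 * Real.pi * (Hyd.radN k l * Hyd.radN k' l')) *
        ∑ L ∈ range (l + l' + 1), tri l l' L *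
          ∫ r in Set.Ioi (0 : ℝ), rx k l k' l' r * mk L r s := by
  have hy : s • v ≠ 0 := by
    intro h
    have := congrArg norm h
    rw [norm_smul, hv, norm_zero, mul_one, Real.norm_of_nonneg hs.le] at this
    exact hs.ne' this
  have hN := (Hyd.radN_pos hl).ne'
  have hN' := (Hyd.radN_pos hl').ne'
  have hpi := Real.pi_ne_zero
  rw [polar_sph _ ((exch_int hl hl').1 (s • v) hy)]
  have h1 : ∀ᵐ r ∂((volume : Measure ℝ).restrict (Set.Ioi 0)), (4 * Real.pi * r ^ 2) •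
      sph (fun u => Qk k l (r • u) (s • v) * Qk k' l' (r • u) (s • v) /
        dist (r • u) (s • v)) = s ^ (l + l') * (Hyd.rad k l s * Hyd.rad k' l' s) /
        (4 * Real.pi * (Hyd.radN k l * Hyd.radN k' l')) *
        ∑ L ∈ range (l + l' + 1), tri l l' L * (rx k l k' l' r * mk L r s) := by
    have hne : ∀ᵐ r ∂((volume : Measure ℝ).restrict (Set.Ioi 0)), r ≠ s := by
      refine ae_restrict_of_ae ?_
      rw [ae_iff]
      convert measure_singleton (μ := (volume : Measure ℝ)) s using 2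
      ext r
      simp
    filter_upwards [ae_restrict_mem measurableSet_Ioi, hne] with r hr hrs
    have hr' : 0 < r := hr
    have h2 : sph (fun u => Qk k l (r • u) (s • v) * Qk k' l' (r • u) (s • v) /
        dist (r • u) (s • v)) = sph (fun u => (fun t => (((r * s) ^ l *
          (Hyd.rad k l r * Hyd.rad k l s) / (4 * Real.pi * Hyd.radN k l)) *
          ((r * s) ^ l' * (Hyd.rad k' l' r * Hyd.rad k' l' s) / (4 * Real.pi * Hyd.radN k' l'))) *
          (S3.lp l t * S3.lp l' t / √(S3.Dd r s t))) (inner ℝ v u)) := by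
      refine sph_congr fun u hu => ?_
      rw [Qk_polar k l hu hv hr' hs, Qk_polar k' l' hu hv hr' hs, dist_comm,
        S3.dist_eq v u hv hu]
      have h3 : S3.Dd s r (inner ℝ v u) = S3.Dd r s (inner ℝ v u) := by
        unfold S3.Dd
        ring
      rw [h3]
      ring
    have hc : ContinuousOn (fun t => S3.lp l t * S3.lp l' t / √(S3.Dd r s t))
        (Set.Icc (-1) 1) := by
      have h4 := S3.cA hr' hs hrs
      rw [Set.uIcc_of_le (by norm_num)] at h4
      refine (((S3.lp_continuous l).mul (S3.lp_continuous l')).continuousOn.mul h4).congr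
        fun t _ => ?_
      show S3.lp l t * S3.lp l' t / √(S3.Dd r s t) =
        S3.lp l t * S3.lp l' t * (1 / √(S3.Dd r s t))
      ring
    have hzr : ∀ A : ℝ, sph (fun u => (fun t => A * (S3.lp l t * S3.lp l' t /
        √(S3.Dd r s t))) (inner ℝ v u)) = (1 / 2) * ∫ t in (-1 : ℝ)..1, A *
        (S3.lp l t * S3.lp l' t / √(S3.Dd r s t)) := fun A =>
      S3.sph_zonal_real (fun t => A * (S3.lp l t * S3.lp l' t / √(S3.Dd r s t))) v hv
        (continuousOn_const.mul hc)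
    rw [h2, hzr, intervalIntegral.integral_const_mul, smul_eq_mul]
    have h5 := leg_coul l l' hr' hs hrs
    have h6 : ∀ A : ℝ, (1 / 2) * (A * ∫ t in (-1 : ℝ)..1, S3.lp l t * S3.lp l' t /
        √(S3.Dd r s t)) = A * ((1 / 2) * ∫ t in (-1 : ℝ)..1, S3.lp l t * S3.lp l' t /
        √(S3.Dd r s t)) := fun A => by ring
    rw [h6, h5, Finset.mul_sum, Finset.mul_sum, Finset.mul_sum]
    refine Finset.sum_congr rfl fun L _ => ?_
    unfold rx mk
    rw [mul_pow, mul_pow, pow_add s l l']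
    field_simp
    ring
  rw [integral_congr_ae h1, integral_const_mul]
  congr 1
  rw [integral_finsetSum _ fun L _ => (rx_inner_int k l k' l' L hs).const_mul _]
  exact Finset.sum_congr rfl fun L _ => integral_const_mul _ _

theorem exch_eq {k l k' l' : ℕ} (hl : l ≤ k) (hl' : l' ≤ k') :
    ∫ y, ∫ x, Qk k l x y * Qk k' l' x y / dist x y =
      ∑ L ∈ range (l + l' + 1), tri l l' L * slx k l k' l' L := by
  have hN := (Hyd.radN_pos hl).ne'
  have hN' := (Hyd.radN_pos hl').ne'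
  have hpi := Real.pi_ne_zero
  have hα : 0 < kp k + kp k' := add_pos (kp_pos k) (kp_pos k')
  rw [polar_sph _ (exch_int hl hl').2]
  have h1 : ∀ s ∈ Set.Ioi (0 : ℝ), (4 * Real.pi * s ^ 2) •
      sph (fun v => ∫ x, Qk k l x (s • v) * Qk k' l' x (s • v) / dist x (s • v)) =
      ∑ L ∈ range (l + l' + 1), tri l l' L / (Hyd.radN k l * Hyd.radN k' l') *
        ((∫ r in Set.Ioi (0 : ℝ), rx k l k' l' r * mk L r s) * rx k l k' l' s) := by
    intro s hs
    have hs' : 0 < s := hs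
    have h2 : sph (fun v => ∫ x, Qk k l x (s • v) * Qk k' l' x (s • v) / dist x (s • v)) =
        sph (fun _ => s ^ (l + l') * (Hyd.rad k l s * Hyd.rad k' l' s) /
        (4 * Real.pi * (Hyd.radN k l * Hyd.radN k' l')) *
        ∑ L ∈ range (l + l' + 1), tri l l' L *
          ∫ r in Set.Ioi (0 : ℝ), rx k l k' l' r * mk L r s) :=
      sph_congr fun v hv => exch_inner hl hl' hv hs'
    rw [h2, sph_const, smul_eq_mul, Finset.mul_sum, Finset.mul_sum]
    refine Finset.sum_congr rfl fun L _ => ?_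
    have h3 : rx k l k' l' s = s ^ (l + l') * s ^ 2 * (Hyd.rad k l s * Hyd.rad k' l' s) := by
      unfold rx
      rw [pow_add _ (l + l') 2]
    rw [h3]
    field_simp
  rw [setIntegral_congr_fun measurableSet_Ioi h1]
  have hoi : ∀ L, IntegrableOn (fun s => (∫ r in Set.Ioi (0 : ℝ), rx k l k' l' r * mk L r s) *
      rx k l k' l' s) (Set.Ioi 0) := by
    intro L
    have h4 : ∀ s ∈ Set.Ioi (0 : ℝ), (∫ r in Set.Ioi (0 : ℝ), rx k l k' l' r * mk L r s) *
        rx k l k' l' s = ∑ z ∈ range (k + 1 - l) ×ˢ range (k' + 1 - l'),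
          ∑ w ∈ range (k + 1 - l) ×ˢ range (k' + 1 - l'),
          ((lag k l z.1 * lag k' l' z.2) * (lag k l w.1 * lag k' l' w.2)) *
          ((∫ r in Set.Ioi (0 : ℝ), me (l + l' + 2 + z.1 + z.2) (kp k + kp k') r * mk L r s) *
            me (l + l' + 2 + w.1 + w.2) (kp k + kp k') s) := by
      intro s hs
      have hs' : 0 < s := hs
      have h5 : ∫ r in Set.Ioi (0 : ℝ), rx k l k' l' r * mk L r s =
          ∑ z ∈ range (k + 1 - l) ×ˢ range (k' + 1 - l'), (lag k l z.1 * lag k' l' z.2) *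
          ∫ r in Set.Ioi (0 : ℝ), me (l + l' + 2 + z.1 + z.2) (kp k + kp k') r * mk L r s := by
        have h6 : ∀ r, rx k l k' l' r * mk L r s =
            ∑ z ∈ range (k + 1 - l) ×ˢ range (k' + 1 - l'), (lag k l z.1 * lag k' l' z.2) *
            (me (l + l' + 2 + z.1 + z.2) (kp k + kp k') r * mk L r s) := by
          intro r
          rw [rx_eq, Finset.sum_mul]
          exact Finset.sum_congr rfl fun z _ => by ring
        simp only [h6]
        rw [integral_finsetSum _ fun z _ => (inner_int L _ hα (by omega) hs').const_mul _]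
        exact Finset.sum_congr rfl fun z _ => integral_const_mul _ _
      rw [h5, rx_eq k l k' l' s, Finset.sum_mul_sum]
      exact Finset.sum_congr rfl fun z _ => Finset.sum_congr rfl fun w _ => by ring
    refine IntegrableOn.congr_fun ?_ (fun s hs => (h4 s hs).symm) measurableSet_Ioi
    exact integrable_finsetSum _ fun z _ => integrable_finsetSum _ fun w _ =>
      (outer_int L _ _ hα hα (by omega)).const_mul _
  rw [integral_finsetSum _ fun L _ => (hoi L).const_mul _]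
  refine Finset.sum_congr rfl fun L hL => ?_
  rw [Finset.mem_range] at hL
  rw [integral_const_mul]
  have h7 : ∫ s in Set.Ioi (0 : ℝ), (∫ r in Set.Ioi (0 : ℝ), rx k l k' l' r * mk L r s) *
      rx k l k' l' s = RL L (rx k l k' l') (rx k l k' l') := rfl
  rw [h7, RL_rx k l k' l' L (by omega)]
  unfold slx
  rw [← nrm_eq, ← nrm_eq]
  ring

theorem Qk_diag (k l : ℕ) {u : R3} (hu : ‖u‖ = 1) {r : ℝ} (hr : 0 < r) :
    Qk k l (r • u) (r • u) = r ^ (2 * l) * Hyd.rad k l r ^ 2 / (4 * Real.pi * Hyd.radN k l) := by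
  rw [Qk_polar k l hu hu hr hr]
  have h1 : inner ℝ u u = (1 : ℝ) := by
    rw [real_inner_self_eq_norm_sq, hu, one_pow]
  rw [h1, S3.lp_one, mul_pow, ← pow_add, two_mul]
  ring

theorem dir_inner {k l : ℕ} (hl : l ≤ k) {v : R3} (hv : ‖v‖ = 1) {s : ℝ} (hs : 0 < s) :
    ∫ x, Qk k l x x / dist x (s • v) =
      1 / Hyd.radN k l * ∫ r in Set.Ioi (0 : ℝ), rd k l r * mk 0 r s := by
  have hN := (Hyd.radN_pos hl).ne'
  have hpi := Real.pi_ne_zero
  rw [polar_sph _ ((dir_int hl hl).1 (s • v)), ← integral_const_mul]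
  refine integral_congr_ae ?_
  have hne : ∀ᵐ r ∂((volume : Measure ℝ).restrict (Set.Ioi 0)), r ≠ s := by
    refine ae_restrict_of_ae ?_
    rw [ae_iff]
    convert measure_singleton (μ := (volume : Measure ℝ)) s using 2
    ext r
    simp
  filter_upwards [ae_restrict_mem measurableSet_Ioi, hne] with r hr hrs
  have hr' : 0 < r := hr
  have h2 : sph (fun u => Qk k l (r • u) (r • u) / dist (r • u) (s • v)) =
      sph (fun u => (r ^ (2 * l) * Hyd.rad k l r ^ 2 / (4 * Real.pi * Hyd.radN k l)) •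
        (1 / dist (s • v) (r • u) : ℝ)) := by
    refine sph_congr fun u hu => ?_
    rw [Qk_diag k l hu hr', dist_comm, smul_eq_mul]
    ring
  have hns : ‖s • v‖ = s := by rw [norm_smul, hv, mul_one, Real.norm_of_nonneg hs.le]
  rw [h2, sph_smul, sph_newton_zero r hr' (s • v) (by rw [hns]; exact hrs.symm), hns,
    smul_eq_mul, smul_eq_mul]
  unfold rd mk
  rw [pow_add, max_comm r s, pow_zero, zero_add, pow_one]
  field_simp

theorem dir_eq {k l k' l' : ℕ} (hl : l ≤ k) (hl' : l' ≤ k') :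
    ∫ y, (∫ x, Qk k l x x / dist x y) * Qk k' l' y y = sld k l k' l' := by
  have hN := (Hyd.radN_pos hl).ne'
  have hN' := (Hyd.radN_pos hl').ne'
  have hpi := Real.pi_ne_zero
  rw [polar_sph _ (dir_int hl hl').2]
  have h1 : ∀ s ∈ Set.Ioi (0 : ℝ), (4 * Real.pi * s ^ 2) •
      sph (fun v => (∫ x, Qk k l x x / dist x (s • v)) * Qk k' l' (s • v) (s • v)) =
      1 / (Hyd.radN k l * Hyd.radN k' l') *
        ((∫ r in Set.Ioi (0 : ℝ), rd k l r * mk 0 r s) * rd k' l' s) := by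
    intro s hs
    have hs' : 0 < s := hs
    have h2 : sph (fun v => (∫ x, Qk k l x x / dist x (s • v)) * Qk k' l' (s • v) (s • v)) =
        sph (fun _ => (1 / Hyd.radN k l * ∫ r in Set.Ioi (0 : ℝ), rd k l r * mk 0 r s) *
          (s ^ (2 * l') * Hyd.rad k' l' s ^ 2 / (4 * Real.pi * Hyd.radN k' l'))) :=
      sph_congr fun v hv => by rw [dir_inner hl hv hs', Qk_diag k' l' hv hs']
    rw [h2, sph_const, smul_eq_mul]
    have h3 : rd k' l' s = s ^ (2 * l') * s ^ 2 * Hyd.rad k' l' s ^ 2 := by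
      unfold rd
      rw [pow_add]
    rw [h3]
    field_simp
  rw [setIntegral_congr_fun measurableSet_Ioi h1, integral_const_mul]
  have h7 : ∫ s in Set.Ioi (0 : ℝ), (∫ r in Set.Ioi (0 : ℝ), rd k l r * mk 0 r s) *
      rd k' l' s = RL 0 (rd k l) (rd k' l') := rfl
  rw [h7, RL_rd]
  unfold sld
  rw [← nrm_eq, ← nrm_eq]
  ring

end Vale.Agent.P370.KC
end
end

section

section

/-!
KC6: Coulomb energy of the closed shells.
-/

namespace Vale.Agent.P370.KC

open Finset MeasureTheory Vale.Agent.P370.Q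

theorem ae_ne_zero : ∀ᵐ x : R3, x ≠ 0 :=
  compl_mem_ae_iff.2 (measure_singleton (0 : R3))

/-- labels of the closed subshells -/
def clS (n : ℕ) : Finset ((_ : ℕ) × ℕ) := (range (n - 1)).sigma fun k => range (k + 1)

theorem clS_le {n : ℕ} {a : (_ : ℕ) × ℕ} (ha : a ∈ clS n) : a.2 ≤ a.1 := by
  have := (Finset.mem_sigma.1 ha).2
  rw [Finset.mem_range] at this
  omega

theorem closed3_eq (n : ℕ) : closed3 n = ∑ a ∈ clS n, ∑ b ∈ clS n,
    (2 * (a.2 : ℝ) + 1) * (2 * (b.2 : ℝ) + 1) * pe2 a.1 a.2 b.1 b.2 := by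
  unfold closed3 clS
  rw [Finset.sum_sigma]
  refine Finset.sum_congr rfl fun k _ => Finset.sum_congr rfl fun l _ => ?_
  rw [Finset.sum_sigma]

section

variable {C : Type} [Fintype C] {χ : C → R3 → ℝ}

/-- direct energy from the density -/
theorem direct_kernel (hχ : ∀ c, Nice (χ c)) :
    ∑ a, ∑ b, coul (χ a) (χ a) (χ b) (χ b) =
      ∫ y, (∫ x, (∑ a, χ a x * χ a x) / dist x y) * ∑ b, χ b y * χ b y := by
  have h1 : ∀ a, ∑ b, coul (χ a) (χ a) (χ b) (χ b) =
      ∫ y, nuc y (χ a) (χ a) * ∑ c, χ c y * χ c y := fun a => kernel_direct hχ (hχ a) (hχ a)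
  simp only [h1]
  rw [← integral_finsetSum]
  · refine integral_congr_ae (Filter.Eventually.of_forall fun y => ?_)
    show ∑ a, nuc y (χ a) (χ a) * ∑ c, χ c y * χ c y = _
    rw [← Finset.sum_mul]
    congr 1
    unfold nuc
    rw [← integral_finsetSum _ fun a _ => nice_integrable_nuc (hχ a) (hχ a) y]
    refine integral_congr_ae (Filter.Eventually.of_forall fun x => ?_)
    show _ = (∑ a, χ a x * χ a x) / dist x y
    rw [Finset.sum_div]
  · intro a _
    have h2 : (fun y => nuc y (χ a) (χ a) * ∑ c, χ c y * χ c y) =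
        fun y => ∑ c, nuc y (χ a) (χ a) * (χ c y * χ c y) := by
      funext y
      rw [Finset.mul_sum]
    rw [h2]
    exact integrable_finsetSum _ fun c _ => coul_integrable (hχ a) (hχ a) (hχ c) (hχ c)

/-- exchange energy from the kernel -/
theorem exch_kernel (hχ : ∀ c, Nice (χ c)) :
    ∑ a, ∑ b, coul (χ a) (χ b) (χ b) (χ a) =
      ∫ y, ∫ x, (∑ c, χ c x * χ c y) * (∑ c, χ c x * χ c y) / dist x y := by
  have h1 : ∀ y : R3, ∫ x, (∑ c, χ c x * χ c y) * (∑ c, χ c x * χ c y) / dist x y =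
      ∑ a, ∑ b, nuc y (χ a) (χ b) * (χ b y * χ a y) := by
    intro y
    unfold nuc
    have h2 : ∀ a b, (∫ x, χ a x * χ b x / dist x y) * (χ b y * χ a y) =
        ∫ x, χ a x * χ b x / dist x y * (χ b y * χ a y) := fun a b =>
      (integral_mul_const _ _).symm
    simp only [h2]
    have h3 : ∀ a, ∑ b, ∫ x, χ a x * χ b x / dist x y * (χ b y * χ a y) =
        ∫ x, ∑ b, χ a x * χ b x / dist x y * (χ b y * χ a y) := fun a =>
      (integral_finsetSum _ fun b _ => (nice_integrable_nuc (hχ a) (hχ b) y).mul_const _).symm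
    simp only [h3]
    rw [← integral_finsetSum _ fun a _ => integrable_finsetSum _ fun b _ =>
      (nice_integrable_nuc (hχ a) (hχ b) y).mul_const _]
    refine integral_congr_ae (Filter.Eventually.of_forall fun x => ?_)
    show (∑ c, χ c x * χ c y) * (∑ c, χ c x * χ c y) / dist x y =
      ∑ a, ∑ b, χ a x * χ b x / dist x y * (χ b y * χ a y)
    rw [Finset.sum_mul_sum, Finset.sum_div]
    refine Finset.sum_congr rfl fun a _ => ?_
    rw [Finset.sum_div]
    exact Finset.sum_congr rfl fun b _ => by ring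
  simp only [h1]
  rw [integral_finsetSum _ fun a _ => integrable_finsetSum _ fun b _ =>
    coul_integrable (hχ a) (hχ b) (hχ b) (hχ a)]
  refine Finset.sum_congr rfl fun a _ => ?_
  rw [integral_finsetSum _ fun b _ => coul_integrable (hχ a) (hχ b) (hχ b) (hχ a)]
  rfl

end

/-- direct energy of the subshells -/
theorem direct_sub (n : ℕ) :
    ∫ y, (∫ x, (∑ a ∈ clS n, (2 * (a.2 : ℝ) + 1) * Qk a.1 a.2 x x) / dist x y) *
      (∑ b ∈ clS n, (2 * (b.2 : ℝ) + 1) * Qk b.1 b.2 y y) =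
    ∑ a ∈ clS n, ∑ b ∈ clS n, (2 * (a.2 : ℝ) + 1) * (2 * (b.2 : ℝ) + 1) *
      sld a.1 a.2 b.1 b.2 := by
  have h1 : ∀ y : R3, (∫ x, (∑ a ∈ clS n, (2 * (a.2 : ℝ) + 1) * Qk a.1 a.2 x x) / dist x y) *
      (∑ b ∈ clS n, (2 * (b.2 : ℝ) + 1) * Qk b.1 b.2 y y) =
      ∑ a ∈ clS n, ∑ b ∈ clS n, (2 * (a.2 : ℝ) + 1) * (2 * (b.2 : ℝ) + 1) *
        ((∫ x, Qk a.1 a.2 x x / dist x y) * Qk b.1 b.2 y y) := by
    intro y
    have h2 : ∫ x, (∑ a ∈ clS n, (2 * (a.2 : ℝ) + 1) * Qk a.1 a.2 x x) / dist x y =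
        ∑ a ∈ clS n, (2 * (a.2 : ℝ) + 1) * ∫ x, Qk a.1 a.2 x x / dist x y := by
      have e : ∀ x : R3, (∑ a ∈ clS n, (2 * (a.2 : ℝ) + 1) * Qk a.1 a.2 x x) / dist x y =
          ∑ a ∈ clS n, (2 * (a.2 : ℝ) + 1) * (Qk a.1 a.2 x x / dist x y) := by
        intro x
        rw [Finset.sum_div]
        exact Finset.sum_congr rfl fun a _ => by ring
      simp only [e]
      rw [integral_finsetSum _ fun a ha => ((dir_int (k' := a.1) (clS_le ha) (clS_le ha)).1 y).const_mul _]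
      exact Finset.sum_congr rfl fun a _ => integral_const_mul _ _
    rw [h2, Finset.sum_mul_sum]
    exact Finset.sum_congr rfl fun a _ => Finset.sum_congr rfl fun b _ => by ring
  simp only [h1]
  rw [integral_finsetSum _ fun a ha => integrable_finsetSum _ fun b hb =>
    (dir_int (clS_le ha) (clS_le hb)).2.const_mul _]
  refine Finset.sum_congr rfl fun a ha => ?_
  rw [integral_finsetSum _ fun b hb => (dir_int (clS_le ha) (clS_le hb)).2.const_mul _]
  refine Finset.sum_congr rfl fun b hb => ?_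
  rw [integral_const_mul, dir_eq (clS_le ha) (clS_le hb)]

/-- exchange energy of the subshells -/
theorem exch_sub (n : ℕ) :
    ∫ y : R3, ∫ x, (∑ a ∈ clS n, (2 * (a.2 : ℝ) + 1) * Qk a.1 a.2 x y) *
      (∑ b ∈ clS n, (2 * (b.2 : ℝ) + 1) * Qk b.1 b.2 x y) / dist x y =
    ∑ a ∈ clS n, ∑ b ∈ clS n, (2 * (a.2 : ℝ) + 1) * (2 * (b.2 : ℝ) + 1) *
      ∑ L ∈ range (a.2 + b.2 + 1), tri a.2 b.2 L * slx a.1 a.2 b.1 b.2 L := by
  have h1 : ∀ y : R3, y ≠ 0 → ∫ x, (∑ a ∈ clS n, (2 * (a.2 : ℝ) + 1) * Qk a.1 a.2 x y) *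
      (∑ b ∈ clS n, (2 * (b.2 : ℝ) + 1) * Qk b.1 b.2 x y) / dist x y =
      ∑ a ∈ clS n, ∑ b ∈ clS n, (2 * (a.2 : ℝ) + 1) * (2 * (b.2 : ℝ) + 1) *
        ∫ x, Qk a.1 a.2 x y * Qk b.1 b.2 x y / dist x y := by
    intro y hy
    have e : ∀ x : R3, (∑ a ∈ clS n, (2 * (a.2 : ℝ) + 1) * Qk a.1 a.2 x y) *
        (∑ b ∈ clS n, (2 * (b.2 : ℝ) + 1) * Qk b.1 b.2 x y) / dist x y =
        ∑ a ∈ clS n, ∑ b ∈ clS n, (2 * (a.2 : ℝ) + 1) * (2 * (b.2 : ℝ) + 1) *
          (Qk a.1 a.2 x y * Qk b.1 b.2 x y / dist x y) := by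
      intro x
      rw [Finset.sum_mul_sum, Finset.sum_div]
      refine Finset.sum_congr rfl fun a _ => ?_
      rw [Finset.sum_div]
      exact Finset.sum_congr rfl fun b _ => by ring
    simp only [e]
    rw [integral_finsetSum _ fun a ha => integrable_finsetSum _ fun b hb =>
      ((exch_int (clS_le ha) (clS_le hb)).1 y hy).const_mul _]
    refine Finset.sum_congr rfl fun a ha => ?_
    rw [integral_finsetSum _ fun b hb => ((exch_int (clS_le ha) (clS_le hb)).1 y hy).const_mul _]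
    exact Finset.sum_congr rfl fun b _ => integral_const_mul _ _
  rw [integral_congr_ae (ae_ne_zero.mono fun y hy => h1 y hy)]
  rw [integral_finsetSum _ fun a ha => integrable_finsetSum _ fun b hb =>
    (exch_int (clS_le ha) (clS_le hb)).2.const_mul _]
  refine Finset.sum_congr rfl fun a ha => ?_
  rw [integral_finsetSum _ fun b hb => (exch_int (clS_le ha) (clS_le hb)).2.const_mul _]
  refine Finset.sum_congr rfl fun b hb => ?_
  rw [integral_const_mul, exch_eq (clS_le ha) (clS_le hb)]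

theorem closed_energy {n : ℕ} {C O : Type} [Fintype C] [DecidableEq C] [Fintype O]
    [DecidableEq O] (B : ShellBasis n (C ⊕ O)) (hC : ∀ c, B.lev (Sum.inl c) < n)
    (hO : ∀ o, B.lev (Sum.inr o) = n) :
    ∑ a : C, ∑ b : C, (2 * coulM B.χ (Sum.inl a) (Sum.inl a) (Sum.inl b) (Sum.inl b) -
      coulM B.χ (Sum.inl a) (Sum.inl b) (Sum.inl b) (Sum.inl a)) = closed3 n := by
  have hχ : ∀ c : C, Nice (B.χ (Sum.inl c)) := fun c => nice_basis B (Sum.inl c)
  have hK : ∀ x y : R3, x ≠ 0 → y ≠ 0 →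
      ∑ c : C, B.χ (Sum.inl c) x * B.χ (Sum.inl c) y =
        ∑ a ∈ clS n, (2 * (a.2 : ℝ) + 1) * Qk a.1 a.2 x y := by
    intro x y hx hy
    rw [closed_kernel_eq B hC hO x y hx hy]
    unfold clS
    rw [Finset.sum_sigma]
  have hD : ∑ a : C, ∑ b : C, coulM B.χ (Sum.inl a) (Sum.inl a) (Sum.inl b) (Sum.inl b) =
      ∑ a ∈ clS n, ∑ b ∈ clS n, (2 * (a.2 : ℝ) + 1) * (2 * (b.2 : ℝ) + 1) *
        sld a.1 a.2 b.1 b.2 := by
    rw [← direct_sub]
    refine (direct_kernel (χ := fun c => B.χ (Sum.inl c)) hχ).trans ?_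
    refine integral_congr_ae (ae_ne_zero.mono fun y hy => ?_)
    simp only
    rw [hK y y hy hy]
    congr 1
    refine integral_congr_ae (ae_ne_zero.mono fun x hx => ?_)
    simp only
    rw [hK x x hx hx]
  have hX : ∑ a : C, ∑ b : C, coulM B.χ (Sum.inl a) (Sum.inl b) (Sum.inl b) (Sum.inl a) =
      ∑ a ∈ clS n, ∑ b ∈ clS n, (2 * (a.2 : ℝ) + 1) * (2 * (b.2 : ℝ) + 1) *
        ∑ L ∈ range (a.2 + b.2 + 1), tri a.2 b.2 L * slx a.1 a.2 b.1 b.2 L := by
    rw [← exch_sub]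
    refine (exch_kernel (χ := fun c => B.χ (Sum.inl c)) hχ).trans ?_
    refine integral_congr_ae (ae_ne_zero.mono fun y hy => ?_)
    simp only
    refine integral_congr_ae (ae_ne_zero.mono fun x hx => ?_)
    simp only
    rw [hK x y hx hy]
  simp only [Finset.sum_sub_distrib, ← Finset.mul_sum]
  rw [hD, hX, closed3_eq, Finset.mul_sum, ← Finset.sum_sub_distrib]
  refine Finset.sum_congr rfl fun a _ => ?_
  rw [Finset.mul_sum, ← Finset.sum_sub_distrib]
  refine Finset.sum_congr rfl fun b _ => ?_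
  unfold pe2
  ring

end Vale.Agent.P370.KC
end
end

section

section

/-!
KC7: one-body integrals over the small ball and their truncated series.
-/

namespace Vale.Agent.P370.KC

open Finset MeasureTheory Vale.Agent.P370.Q

theorem gm_ca_self {x : R3} (hx : x ≠ 0) : ca x x = 1 := by
  unfold ca
  have h : 0 < ‖x‖ := norm_pos_iff.mpr hx
  rw [real_inner_self_eq_norm_sq]
  field_simp

/-- density of the closed shells -/
theorem gm_density {n : ℕ} {C O : Type} [Fintype C] [DecidableEq C] [Fintype O]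
    [DecidableEq O] (B : ShellBasis n (C ⊕ O)) (hC : ∀ c, B.lev (Sum.inl c) < n)
    (hO : ∀ o, B.lev (Sum.inr o) = n) (x : R3) (hx : x ≠ 0) :
    ∑ c : C, B.χ (Sum.inl c) x * B.χ (Sum.inl c) x =
      ∑ k ∈ range (n - 1), ∑ l ∈ range (k + 1), (2 * (l : ℝ) + 1) *
        (‖x‖ ^ (2 * l) * Hyd.rad k l ‖x‖ ^ 2 / (4 * Real.pi * Hyd.radN k l)) := by
  rw [closed_kernel_eq B hC hO x x hx hx]
  refine Finset.sum_congr rfl fun k _ => Finset.sum_congr rfl fun l _ => ?_
  unfold Qk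
  rw [gm_ca_self hx, S3.lp_one]
  ring

/-- average of the potential difference over a sphere -/
theorem gm_sph {y : R3} {r : ℝ} (hr : 0 < r) (hne : ‖y‖ ≠ r) (c : ℝ) :
    sph (fun u : R3 => c * (1 / ‖r • u‖ - 1 / dist (r • u) y)) =
      c * (1 / r - 1 / max ‖y‖ r) := by
  have hcont : ContinuousOn (fun u : R3 => (1 / dist y (r • u) : ℝ)) (Metric.sphere 0 1) := by
    refine ContinuousOn.div continuousOn_const (by fun_prop) fun u hu => ?_
    have hu1 : ‖u‖ = 1 := mem_sphere_zero_iff_norm.mp hu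
    intro h0
    rw [dist_eq_zero] at h0
    apply hne
    rw [h0, norm_smul, hu1, mul_one, Real.norm_of_nonneg hr.le]
  have h1 : sph (fun u : R3 => c * (1 / ‖r • u‖ - 1 / dist (r • u) y)) =
      sph (fun u : R3 => c • ((fun _ : R3 => (1 / r : ℝ)) u +
        (fun u : R3 => (-1 : ℝ) • (1 / dist y (r • u) : ℝ)) u)) := by
    refine sph_congr fun u hu => ?_
    rw [norm_smul, hu, mul_one, Real.norm_of_nonneg hr.le, dist_comm]
    simp only [smul_eq_mul]
    ring
  have hcont' : ContinuousOn (fun u : R3 => (-1 : ℝ) • (1 / dist y (r • u) : ℝ))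
      (Metric.sphere 0 1) := hcont.const_smul (-1 : ℝ)
  rw [h1, sph_smul, sph_add continuousOn_const hcont', sph_const, sph_smul,
    sph_newton_zero r hr y hne]
  simp only [smul_eq_mul]
  ring

/-- trace of `gm` over the closed shells -/
theorem gm_closed {n : ℕ} {C O : Type} [Fintype C] [DecidableEq C] [Fintype O]
    [DecidableEq O] (B : ShellBasis n (C ⊕ O)) (hC : ∀ c, B.lev (Sum.inl c) < n)
    (hO : ∀ o, B.lev (Sum.inr o) = n) (y : R3) (hy : y ≠ 0) :
    ∑ c : C, gm y (B.χ (Sum.inl c)) (B.χ (Sum.inl c)) =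
      ∑ k ∈ range (n - 1), ∑ l ∈ range (k + 1), (2 * (l : ℝ) + 1) * gI k l ‖y‖ := by
  have hy0 : 0 < ‖y‖ := norm_pos_iff.mpr hy
  have hnice : ∀ c, Nice (B.χ (Sum.inl c)) := fun c => (B.mem _).nice (B.lev_pos _)
  -- the radial density
  set K : ℝ → ℝ := fun r => ∑ k ∈ range (n - 1), ∑ l ∈ range (k + 1), (2 * (l : ℝ) + 1) *
        (r ^ (2 * l) * Hyd.rad k l r ^ 2 / (4 * Real.pi * Hyd.radN k l)) with hK
  have hsum : ∑ c : C, gm y (B.χ (Sum.inl c)) (B.χ (Sum.inl c))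
      = ∫ x, (∑ c : C, B.χ (Sum.inl c) x * B.χ (Sum.inl c) x) * (1 / ‖x‖ - 1 / dist x y) := by
    unfold gm
    rw [← integral_finsetSum _ fun c _ => integrable_gm (hnice c) (hnice c) y]
    refine integral_congr_ae (Filter.Eventually.of_forall fun x => ?_)
    simp only
    rw [Finset.sum_mul]
  have hint : Integrable fun x : R3 =>
      (∑ c : C, B.χ (Sum.inl c) x * B.χ (Sum.inl c) x) * (1 / ‖x‖ - 1 / dist x y) := by
    have h := integrable_finsetSum Finset.univ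
      (fun c (_ : c ∈ Finset.univ) => integrable_gm (hnice c) (hnice c) y)
    refine h.congr (Filter.Eventually.of_forall fun x => ?_)
    simp only [Finset.sum_mul]
  rw [hsum, polar_sph _ hint]
  -- the inner average
  have hin : ∀ r : ℝ, 0 < r → r ≠ ‖y‖ →
      (4 * Real.pi * r ^ 2) • sph (fun u : R3 =>
        (∑ c : C, B.χ (Sum.inl c) (r • u) * B.χ (Sum.inl c) (r • u)) *
          (1 / ‖r • u‖ - 1 / dist (r • u) y)) =
      (4 * Real.pi * r ^ 2) * (K r * (1 / r - 1 / max ‖y‖ r)) := by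
    intro r hr hne
    rw [← gm_sph hr hne.symm (K r), smul_eq_mul]
    congr 1
    refine sph_congr fun u hu => ?_
    have hru : ‖r • u‖ = r := by rw [norm_smul, hu, mul_one, Real.norm_of_nonneg hr.le]
    have hne0 : r • u ≠ 0 := by
      rw [← norm_pos_iff, hru]; exact hr
    rw [gm_density B hC hO (r • u) hne0, hru]
  have hae : ∀ᵐ r : ℝ ∂(volume.restrict (Set.Ioi (0 : ℝ))),
      (4 * Real.pi * r ^ 2) • sph (fun u : R3 =>
        (∑ c : C, B.χ (Sum.inl c) (r • u) * B.χ (Sum.inl c) (r • u)) *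
          (1 / ‖r • u‖ - 1 / dist (r • u) y)) =
      (Set.Ioc (0 : ℝ) ‖y‖).indicator (fun r => ∑ k ∈ range (n - 1), ∑ l ∈ range (k + 1),
        (2 * (l : ℝ) + 1) * (r ^ (2 * l + 2) * Hyd.rad k l r ^ 2 * (1 / r - 1 / ‖y‖) /
          Hyd.radN k l)) r := by
    have h1 : ∀ᵐ r : ℝ ∂(volume.restrict (Set.Ioi (0 : ℝ))), r ≠ ‖y‖ :=
      ae_restrict_of_ae (by
        rw [ae_iff]
        have : {a : ℝ | ¬a ≠ ‖y‖} = {‖y‖} := by ext a; simp
        rw [this]
        exact measure_singleton _)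
    filter_upwards [h1, ae_restrict_mem measurableSet_Ioi] with r hne hr
    have hr0 : 0 < r := hr
    rw [hin r hr0 hne]
    by_cases hle : r ≤ ‖y‖
    · have hm : r ∈ Set.Ioc (0 : ℝ) ‖y‖ := ⟨hr0, hle⟩
      rw [Set.indicator_of_mem hm, max_eq_left hle]
      simp only [hK]
      rw [Finset.sum_mul, Finset.mul_sum]
      refine Finset.sum_congr rfl fun k _ => ?_
      rw [Finset.sum_mul, Finset.mul_sum]
      refine Finset.sum_congr rfl fun l hl => ?_
      have hl' : l ≤ k := Nat.lt_succ_iff.mp (Finset.mem_range.mp hl)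
      have hN := (Hyd.radN_pos hl').ne'
      have hpi := Real.pi_ne_zero
      have e : 4 * Real.pi * r ^ 2 * ((2 * (l : ℝ) + 1) *
          (r ^ (2 * l) * Hyd.rad k l r ^ 2 / (4 * Real.pi * Hyd.radN k l)) *
            (1 / r - 1 / ‖y‖)) = (4 * Real.pi * r ^ 2) * ((2 * (l : ℝ) + 1) *
          (r ^ (2 * l) * Hyd.rad k l r ^ 2 / (4 * Real.pi * Hyd.radN k l))) *
            (1 / r - 1 / ‖y‖) := by ring
      rw [e, pow_add]
      generalize (1 / r - 1 / ‖y‖) = W
      field_simp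
    · push Not at hle
      have hm : r ∉ Set.Ioc (0 : ℝ) ‖y‖ := fun h => absurd h.2 (not_le.mpr hle)
      rw [Set.indicator_of_notMem hm, max_eq_right hle.le]
      simp
  rw [integral_congr_ae hae, setIntegral_indicator measurableSet_Ioc]
  have hset : Set.Ioi (0 : ℝ) ∩ Set.Ioc 0 ‖y‖ = Set.Ioc 0 ‖y‖ := by
    ext r
    simp only [Set.mem_inter_iff, Set.mem_Ioi, Set.mem_Ioc]
    tauto
  rw [hset, ← intervalIntegral.integral_of_le hy0.le]
  have hii : ∀ k l : ℕ, IntervalIntegrable (fun r : ℝ =>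
      (2 * (l : ℝ) + 1) * (r ^ (2 * l + 2) * Hyd.rad k l r ^ 2 * (1 / r - 1 / ‖y‖) /
          Hyd.radN k l)) volume 0 ‖y‖ := by
    intro k l
    have hc : Continuous (Hyd.rad k l) := by
      have := Hyd.continuous_Lr (Hyd.kap k) l (k + 1 - l)
      unfold Hyd.rad
      fun_prop
    have h1 : Continuous fun r : ℝ =>
        (2 * (l : ℝ) + 1) * (r ^ (2 * l + 1) * (1 - r / ‖y‖) * Hyd.rad k l r ^ 2 /
          Hyd.radN k l) := by fun_prop
    refine (h1.intervalIntegrable 0 ‖y‖).congr ?_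
    rw [Set.uIoc_of_le hy0.le]
    refine fun r hr => ?_
    have hr0 : r ≠ 0 := hr.1.ne'
    show (2 * (l : ℝ) + 1) * (r ^ (2 * l + 1) * (1 - r / ‖y‖) * Hyd.rad k l r ^ 2 /
      Hyd.radN k l) = (2 * (l : ℝ) + 1) * (r ^ (2 * l + 2) * Hyd.rad k l r ^ 2 *
        (1 / r - 1 / ‖y‖) / Hyd.radN k l)
    have : r ^ (2 * l + 1) * (1 - r / ‖y‖) = r ^ (2 * l + 2) * (1 / r - 1 / ‖y‖) := by
      field_simp
      ring
    rw [this]
    ring
  have hio : ∀ k ∈ range (n - 1), IntervalIntegrable (fun r : ℝ => ∑ l ∈ range (k + 1),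
      (2 * (l : ℝ) + 1) * (r ^ (2 * l + 2) * Hyd.rad k l r ^ 2 * (1 / r - 1 / ‖y‖) /
          Hyd.radN k l)) volume 0 ‖y‖ := by
    intro k _
    have h := IntervalIntegrable.sum (range (k + 1)) (fun l _ => hii k l)
    refine h.congr fun r _ => ?_
    simp only [Finset.sum_apply]
  rw [intervalIntegral.integral_finsetSum hio]
  refine Finset.sum_congr rfl fun k _ => ?_
  rw [intervalIntegral.integral_finsetSum fun l _ => hii k l]
  refine Finset.sum_congr rfl fun l _ => ?_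
  unfold gI
  rw [intervalIntegral.integral_const_mul, intervalIntegral.integral_div]

theorem gm_eN_hasDerivAt (N : ℕ) (y : ℝ) : HasDerivAt (eN (N + 1)) (-(eN N y)) y := by
  have h1 : HasDerivAt (fun y : ℝ => ∑ i ∈ range (N + 1), (-y) ^ i / (i.factorial : ℝ))
      (∑ i ∈ range (N + 1), ((i : ℝ) * (-y) ^ (i - 1) * (-1)) / (i.factorial : ℝ)) y := by
    refine HasDerivAt.fun_sum fun i _ => ?_
    exact ((hasDerivAt_neg y).pow i).div_const _
  have h2 : ∑ i ∈ range (N + 1), ((i : ℝ) * (-y) ^ (i - 1) * (-1)) / (i.factorial : ℝ) =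
      -(eN N y) := by
    rw [Finset.sum_range_succ']
    unfold eN
    rw [← Finset.sum_neg_distrib]
    simp only [Nat.cast_zero, zero_mul, zero_div, add_zero]
    refine Finset.sum_congr rfl fun i _ => ?_
    rw [Nat.factorial_succ, Nat.add_sub_cancel]
    push_cast
    have : ((i : ℝ) + 1) ≠ 0 := by positivity
    have : (i.factorial : ℝ) ≠ 0 := by positivity
    field_simp
  rw [← h2]
  exact h1

theorem gm_eN_continuous (N : ℕ) : Continuous (eN N) := by
  unfold eN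
  fun_prop

theorem gm_eN_zero (N : ℕ) : eN (N + 1) 0 = 1 := by
  unfold eN
  rw [Finset.sum_range_succ']
  simp

theorem gm_eN_sign (N : ℕ) : ∀ x : ℝ, 0 ≤ x →
    0 ≤ (-1) ^ N * (Real.exp (-x) - eN N x) ∧
      (-1) ^ N * (Real.exp (-x) - eN N x) ≤ x ^ N / N.factorial := by
  induction N with
  | zero =>
    intro x hx
    have : Real.exp (-x) ≤ 1 := Real.exp_le_one_iff.mpr (by linarith)
    simp only [eN, range_zero, sum_empty, pow_zero, sub_zero, one_mul, Nat.factorial_zero,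
      Nat.cast_one, div_one]
    exact ⟨(Real.exp_pos _).le, this⟩
  | succ N ih =>
    intro x hx
    set f : ℝ → ℝ := fun y => (-1) ^ (N + 1) * (Real.exp (-y) - eN (N + 1) y) with hf
    set g : ℝ → ℝ := fun y => (-1) ^ N * (Real.exp (-y) - eN N y) with hg
    have hder : ∀ y : ℝ, HasDerivAt f (g y) y := by
      intro y
      have h1 : HasDerivAt (fun y : ℝ => Real.exp (-y)) (Real.exp (-y) * (-1)) y :=
        (hasDerivAt_neg y).exp
      have h2 := (h1.sub (gm_eN_hasDerivAt N y)).const_mul ((-1 : ℝ) ^ (N + 1))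
      refine h2.congr_deriv ?_
      simp only [hg]
      ring
    have hgc : Continuous g := by
      have := gm_eN_continuous N
      simp only [hg]
      fun_prop
    have hf0 : f 0 = 0 := by
      simp only [hf, gm_eN_zero, neg_zero, Real.exp_zero, sub_self, mul_zero]
    have hint : ∫ y in (0 : ℝ)..x, g y = f x := by
      rw [intervalIntegral.integral_eq_sub_of_hasDerivAt (fun y _ => hder y)
        (hgc.intervalIntegrable _ _), hf0, sub_zero]
    show 0 ≤ f x ∧ f x ≤ _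
    rw [← hint]
    constructor
    · exact intervalIntegral.integral_nonneg hx fun y hy => (ih y hy.1).1
    · have h3 : ∫ y in (0 : ℝ)..x, g y ≤ ∫ y in (0 : ℝ)..x, y ^ N / N.factorial :=
        intervalIntegral.integral_mono_on hx (hgc.intervalIntegrable _ _)
          ((by fun_prop : Continuous fun y : ℝ => y ^ N / (N.factorial : ℝ)).intervalIntegrable _ _)
          fun y hy => (ih y hy.1).2
      refine h3.trans (le_of_eq ?_)
      rw [intervalIntegral.integral_div, integral_pow, Nat.factorial_succ]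
      push_cast
      have : (N.factorial : ℝ) ≠ 0 := by positivity
      have : ((N : ℝ) + 1) ≠ 0 := by positivity
      field_simp
      ring

/-- alternating Taylor remainder -/
theorem eN_err (N : ℕ) (x : ℝ) (hx : 0 ≤ x) : |eN N x - Real.exp (-x)| ≤ x ^ N / N.factorial := by
  obtain ⟨h1, h2⟩ := gm_eN_sign N x hx
  have h3 : |(-1 : ℝ) ^ N * (Real.exp (-x) - eN N x)| = |eN N x - Real.exp (-x)| := by
    rw [abs_mul, abs_pow, abs_neg, abs_one, one_pow, one_mul, abs_sub_comm]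
  rw [← h3, abs_of_nonneg h1]
  exact h2

/-- removing the singularity of the weight -/
theorem gm_w (a : ℕ) (ρ : ℝ) (hρ : 0 < ρ) (F : ℝ → ℝ) :
    ∫ r in (0 : ℝ)..ρ, r ^ (a + 1) * F r * (1 / r - 1 / ρ) =
      ∫ r in (0 : ℝ)..ρ, r ^ a * (1 - r / ρ) * F r := by
  rw [intervalIntegral.integral_of_le hρ.le, intervalIntegral.integral_of_le hρ.le]
  refine setIntegral_congr_fun measurableSet_Ioc fun r hr => ?_
  have hr0 : r ≠ 0 := hr.1.ne'
  show r ^ (a + 1) * F r * (1 / r - 1 / ρ) = r ^ a * (1 - r / ρ) * F r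
  field_simp
  ring

theorem ser_eq (N a : ℕ) (ha : 1 ≤ a) (α ρ : ℝ) (hρ : 0 < ρ) :
    ∫ r in (0 : ℝ)..ρ, r ^ a * eN N (α * r) * (1 / r - 1 / ρ) = ser N a α ρ := by
  obtain ⟨b, rfl⟩ : ∃ b, a = b + 1 := ⟨a - 1, by omega⟩
  rw [gm_w b ρ hρ (fun r => eN N (α * r))]
  have h1 : ∀ r : ℝ, r ^ b * (1 - r / ρ) * eN N (α * r) =
      ∑ i ∈ range N, ((-α) ^ i / (i.factorial : ℝ)) * (r ^ (b + i) - r ^ (b + i + 1) / ρ) := by
    intro r
    unfold eN
    rw [Finset.mul_sum]
    refine Finset.sum_congr rfl fun i _ => ?_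
    rw [show -(α * r) = (-α) * r by ring, mul_pow]
    field_simp
    ring
  simp only [h1]
  rw [intervalIntegral.integral_finsetSum]
  · unfold ser
    refine Finset.sum_congr rfl fun i _ => ?_
    rw [intervalIntegral.integral_const_mul, intervalIntegral.integral_sub
      ((by fun_prop : Continuous fun r : ℝ => r ^ (b + i)).intervalIntegrable _ _)
      ((by fun_prop : Continuous fun r : ℝ => r ^ (b + i + 1) / ρ).intervalIntegrable _ _),
      intervalIntegral.integral_div, integral_pow, integral_pow]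
    have e1 : ((b : ℝ) + i + 1) ≠ 0 := by positivity
    have e2 : ((b : ℝ) + i + 1 + 1) ≠ 0 := by positivity
    push_cast
    rw [show b + 1 + i = b + i + 1 by ring]
    simp only [ne_eq, Nat.add_eq_zero_iff, one_ne_zero, and_false, not_false_eq_true, zero_pow,
      sub_zero]
    have e3 : (b : ℝ) + 1 + i = b + i + 1 := by ring
    rw [e3]
    field_simp
    ring
  · intro i _
    exact (by fun_prop : Continuous fun r : ℝ => ((-α) ^ i / (i.factorial : ℝ)) *
      (r ^ (b + i) - r ^ (b + i + 1) / ρ)).intervalIntegrable _ _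

theorem gm_exp_two : Real.exp 2 ≤ 8 := by
  have h : Real.exp 1 < 2.7182818286 := Real.exp_one_lt_d9
  have h2 : Real.exp 2 = Real.exp 1 * Real.exp 1 := by rw [← Real.exp_add]; norm_num
  have h0 := Real.exp_pos 1
  rw [h2]
  linarith only [mul_pos_of_neg_of_neg (Mathlib.Tactic.Linarith.sub_neg_of_lt h) (Mathlib.Tactic.Linarith.sub_neg_of_lt h0), h]

/-- replacing the exponential by its Taylor polynomial in a nonnegative integral -/
theorem gm_trunc (N a : ℕ) {α ρ : ℝ} (hα : 0 ≤ α) (hα2 : α ≤ 2) (hρ : 0 < ρ) (hρ1 : ρ ≤ 1)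
    {P : ℝ → ℝ} (hP : Continuous P) :
    |(∫ r in (0 : ℝ)..ρ, r ^ a * (1 - r / ρ) * (P r ^ 2 * eN N (α * r))) -
      ∫ r in (0 : ℝ)..ρ, r ^ a * (1 - r / ρ) * (P r ^ 2 * Real.exp (-(α * r)))| ≤
      8 * (2 * ρ) ^ N *
        ∫ r in (0 : ℝ)..ρ, r ^ a * (1 - r / ρ) * (P r ^ 2 * Real.exp (-(α * r))) := by
  have he := gm_eN_continuous N
  have c1 : Continuous fun r : ℝ => r ^ a * (1 - r / ρ) * (P r ^ 2 * eN N (α * r)) := by
    fun_prop
  have c2 : Continuous fun r : ℝ => r ^ a * (1 - r / ρ) * (P r ^ 2 * Real.exp (-(α * r))) := by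
    fun_prop
  rw [← intervalIntegral.integral_sub (c1.intervalIntegrable _ _) (c2.intervalIntegrable _ _),
    ← intervalIntegral.integral_const_mul]
  refine (intervalIntegral.abs_integral_le_integral_abs hρ.le).trans ?_
  refine intervalIntegral.integral_mono_on hρ.le ((c1.sub c2).abs.intervalIntegrable _ _)
    ((c2.const_mul _).intervalIntegrable _ _) fun r hr => ?_
  obtain ⟨h0, h1⟩ := hr
  have hw : 0 ≤ r ^ a * (1 - r / ρ) := by
    have : r / ρ ≤ 1 := (div_le_one hρ).mpr h1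
    have : 0 ≤ 1 - r / ρ := by linarith
    positivity
  have hx0 : 0 ≤ α * r := mul_nonneg hα h0
  have hx1 : α * r ≤ 2 * ρ := mul_le_mul hα2 h1 h0 (by norm_num)
  have hx2 : α * r ≤ 2 := by linarith
  have herr : |eN N (α * r) - Real.exp (-(α * r))| ≤
      8 * (2 * ρ) ^ N * Real.exp (-(α * r)) := by
    refine (eN_err N _ hx0).trans ?_
    have e1 : (α * r) ^ N / (N.factorial : ℝ) ≤ (2 * ρ) ^ N := by
      refine (div_le_self (by positivity) ?_).trans (pow_le_pow_left₀ hx0 hx1 N)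
      exact_mod_cast Nat.one_le_iff_ne_zero.mpr (Nat.factorial_ne_zero N)
    have e2 : 1 ≤ 8 * Real.exp (-(α * r)) := by
      rw [Real.exp_neg, ← div_eq_mul_inv, le_div_iff₀ (Real.exp_pos _), one_mul]
      exact (Real.exp_le_exp.mpr hx2).trans gm_exp_two
    calc (α * r) ^ N / (N.factorial : ℝ) ≤ (2 * ρ) ^ N * 1 := by rw [mul_one]; exact e1
      _ ≤ (2 * ρ) ^ N * (8 * Real.exp (-(α * r))) := by gcongr
      _ = _ := by ring
  calc |r ^ a * (1 - r / ρ) * (P r ^ 2 * eN N (α * r)) -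
        r ^ a * (1 - r / ρ) * (P r ^ 2 * Real.exp (-(α * r)))|
      = (r ^ a * (1 - r / ρ)) * P r ^ 2 * |eN N (α * r) - Real.exp (-(α * r))| := by
        rw [show r ^ a * (1 - r / ρ) * (P r ^ 2 * eN N (α * r)) -
          r ^ a * (1 - r / ρ) * (P r ^ 2 * Real.exp (-(α * r))) =
          (r ^ a * (1 - r / ρ) * P r ^ 2) * (eN N (α * r) - Real.exp (-(α * r))) by ring,
          abs_mul, abs_of_nonneg (mul_nonneg hw (sq_nonneg _))]
    _ ≤ (r ^ a * (1 - r / ρ)) * P r ^ 2 * (8 * (2 * ρ) ^ N * Real.exp (-(α * r))) := by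
        gcongr
    _ = _ := by ring

theorem gm_kp_pos (k : ℕ) : 0 < kp k := by unfold kp; positivity

theorem gm_kp_le (k : ℕ) : kp k ≤ 1 := by
  unfold kp
  rw [div_le_one (by positivity)]
  have : (0 : ℝ) ≤ k := by positivity
  linarith

theorem gIs_err (N k l : ℕ) (hl : l ≤ k) (ρ : ℝ) (hρ : 0 < ρ) (hρ1 : ρ ≤ 1) :
    |gIs N k l ρ - gI k l ρ| ≤ 8 * (2 * ρ) ^ N * gI k l ρ := by
  set P : ℝ → ℝ := fun r => ∑ j ∈ range (k + 1 - l), lag k l j * r ^ j with hPdef
  have hP : Continuous P := by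
    simp only [hPdef]
    fun_prop
  have hn := nrm_pos k l hl
  have he := gm_eN_continuous N
  have e1 : gI k l ρ = (∫ r in (0 : ℝ)..ρ, r ^ (2 * l + 1) * (1 - r / ρ) *
      (P r ^ 2 * Real.exp (-((2 * kp k) * r)))) / nrm k l := by
    unfold gI
    rw [nrm_eq, gm_w (2 * l + 1) ρ hρ (fun r => Hyd.rad k l r ^ 2)]
    congr 1
    refine intervalIntegral.integral_congr fun r _ => ?_
    simp only [rad_eq, hPdef]
    rw [mul_pow, ← Real.exp_nat_mul]
    congr 3
    push_cast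
    ring
  have e2 : gIs N k l ρ = (∫ r in (0 : ℝ)..ρ, r ^ (2 * l + 1) * (1 - r / ρ) *
      (P r ^ 2 * eN N ((2 * kp k) * r))) / nrm k l := by
    unfold gIs
    congr 1
    have h1 : ∀ r : ℝ, r ^ (2 * l + 1) * (1 - r / ρ) * (P r ^ 2 * eN N ((2 * kp k) * r)) =
        ∑ i ∈ range (k + 1 - l), ∑ j ∈ range (k + 1 - l), (lag k l i * lag k l j) *
          (r ^ (2 * l + 1 + i + j) * (1 - r / ρ) * eN N ((2 * kp k) * r)) := by
      intro r
      simp only [hPdef]
      rw [pow_two, Finset.sum_mul_sum, Finset.sum_mul, Finset.mul_sum]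
      refine Finset.sum_congr rfl fun i _ => ?_
      rw [Finset.sum_mul, Finset.mul_sum]
      refine Finset.sum_congr rfl fun j _ => ?_
      ring
    simp only [h1]
    rw [intervalIntegral.integral_finsetSum fun i _ =>
      (by fun_prop : Continuous fun r : ℝ => ∑ j ∈ range (k + 1 - l), (lag k l i * lag k l j) *
          (r ^ (2 * l + 1 + i + j) * (1 - r / ρ) *
            eN N ((2 * kp k) * r))).intervalIntegrable _ _]
    refine Finset.sum_congr rfl fun i _ => ?_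
    rw [intervalIntegral.integral_finsetSum fun j _ =>
      (by fun_prop : Continuous fun r : ℝ => (lag k l i * lag k l j) *
          (r ^ (2 * l + 1 + i + j) * (1 - r / ρ) *
            eN N ((2 * kp k) * r))).intervalIntegrable _ _]
    refine Finset.sum_congr rfl fun j _ => ?_
    rw [intervalIntegral.integral_const_mul, ← ser_eq N (2 * l + 2 + i + j) (by omega) _ ρ hρ,
      show 2 * l + 2 + i + j = (2 * l + 1 + i + j) + 1 by ring,
      gm_w (2 * l + 1 + i + j) ρ hρ (fun r => eN N (2 * kp k * r))]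
  rw [e1, e2, ← sub_div, abs_div, abs_of_pos hn, ← mul_div_assoc]
  have hk := gm_kp_pos k
  have hk1 := gm_kp_le k
  exact div_le_div_of_nonneg_right (gm_trunc N (2 * l + 1) (by positivity) (by linarith only [hk1]) hρ hρ1 hP)
    hn.le

theorem xrs_err (N n : ℕ) (hn : 1 ≤ n) (ρ : ℝ) (hρ : 0 < ρ) (hρ1 : ρ ≤ 1) :
    |xrs N n ρ - xr n ρ| ≤ 8 * (2 * ρ) ^ N * xr n ρ := by
  have hn0 : (0 : ℝ) < n := by exact_mod_cast hn
  have hn1 : (1 : ℝ) ≤ n := by exact_mod_cast hn
  have hα : (0 : ℝ) < 2 / n := by positivity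
  have hα2 : (2 : ℝ) / n ≤ 2 := div_le_self (by norm_num) hn1
  obtain ⟨b, hb⟩ : ∃ b, 2 * n = b + 1 := ⟨2 * n - 1, by omega⟩
  have hexp : ∀ r : ℝ, Real.exp (-(2 * r / n)) = Real.exp (-(2 / n * r)) := by
    intro r
    congr 2
    ring
  have hI0 : I0 n = ((2 * n).factorial : ℝ) * ((n : ℝ) / 2) ^ (2 * n + 1) := by
    unfold I0
    simp only [hexp]
    rw [(rad_int (2 * n) hα).2, div_pow, div_pow]
    field_simp
  have hI0pos : 0 < I0 n := by rw [hI0]; positivity
  have e1 : xr n ρ = (∫ r in (0 : ℝ)..ρ, r ^ b * (1 - r / ρ) *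
      ((1 : ℝ) ^ 2 * Real.exp (-(2 / n * r)))) / I0 n := by
    unfold xr
    simp only [hexp, hb]
    rw [gm_w b ρ hρ (fun r => Real.exp (-(2 / n * r)))]
    simp
  have e2 : xrs N n ρ = (∫ r in (0 : ℝ)..ρ, r ^ b * (1 - r / ρ) *
      ((1 : ℝ) ^ 2 * eN N (2 / n * r))) / I0 n := by
    unfold xrs
    rw [hI0, ← ser_eq N (2 * n) (by omega) _ ρ hρ]
    congr 1
    rw [hb, gm_w b ρ hρ (fun r => eN N (2 / n * r))]
    simp
  rw [e1, e2, ← sub_div, abs_div, abs_of_pos hI0pos, ← mul_div_assoc]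
  exact div_le_div_of_nonneg_right
    (gm_trunc N b hα.le hα2 hρ hρ1 (P := fun _ => (1 : ℝ)) continuous_const) hI0pos.le

end Vale.Agent.P370.KC
end
end

section

section

/-!
Angular integrals for the direct Coulomb integral of two great circle orbitals.
-/

namespace Vale.Agent.P370.KC

open MeasureTheory intervalIntegral
open Vale.Agent.P370.Q

/-- Legendre coefficients of `(1 - t ^ 2) ^ m` -/
noncomputable def eL (m L : ℕ) : ℝ := lc (fun t => (1 - t ^ 2) ^ m) L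

theorem norm_sq_av (α : ℝ) (u : R3) (hu : ‖u‖ = 1) :
    ‖cdot (av α) u‖ ^ 2 = 1 - (inner ℝ (nuv α) u) ^ 2 := by
  have h := GC.norm_sq_eq_add α u
  rw [hu] at h
  rw [cdot_eq_lf, av_eq, nuv_inner]
  linarith

theorem norm_nuv (α : ℝ) : ‖nuv α‖ = 1 := by
  have h : ‖nuv α‖ ^ 2 = 1 := by
    rw [EuclideanSpace.norm_sq_eq, Fin.sum_univ_three]
    simp [nuv]
  have := norm_nonneg (nuv α)
  nlinarith

/-- Legendre expansion of `(1 - t ^ 2) ^ m` -/
theorem expand_m (m : ℕ) (t : ℝ) :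
    (1 - t ^ 2) ^ m = ∑ L ∈ Finset.range (2 * m + 1), (2 * (L : ℝ) + 1) * eL m L * S3.lp L t := by
  have h := LP_expand (2 * m + 1) ((1 - Polynomial.X ^ 2) ^ m) (by
    refine lt_of_le_of_lt (Polynomial.degree_le_natDegree) ?_
    have h1 : ((1 - Polynomial.X ^ 2 : Polynomial ℝ) ^ m).natDegree ≤ 2 * m := by
      refine Polynomial.natDegree_pow_le.trans ?_
      have h2 : (1 - Polynomial.X ^ 2 : Polynomial ℝ).natDegree ≤ 2 := by
        refine (Polynomial.natDegree_sub_le _ _).trans ?_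
        simp
      calc m * (1 - Polynomial.X ^ 2 : Polynomial ℝ).natDegree ≤ m * 2 := Nat.mul_le_mul_left _ h2
        _ = 2 * m := by ring
    exact_mod_cast Nat.lt_succ_of_le h1) t
  have e : ∀ s : ℝ, Polynomial.eval s ((1 - Polynomial.X ^ 2 : Polynomial ℝ) ^ m) =
      (1 - s ^ 2) ^ m := by
    intro s
    simp
  simp only [e] at h
  exact h

/-- the multipole kernel -/
noncomputable def mkl (L : ℕ) (r s : ℝ) : ℝ := min r s ^ L / max r s ^ (L + 1)

theorem sph_sum_on {ι : Type*} (s : Finset ι) (f : ι → R3 → ℝ)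
    (hf : ∀ i, ContinuousOn (f i) (Metric.sphere 0 1)) :
    sph (fun u => ∑ i ∈ s, f i u) = ∑ i ∈ s, sph (f i) := by
  classical
  induction s using Finset.induction_on with
  | empty => simp [sph_const]
  | insert a s ha ih =>
    simp only [Finset.sum_insert ha]
    rw [sph_add (hf a) (continuousOn_finsetSum s fun i _ => hf i), ih]

theorem sph_const_mul (c : ℝ) (f : R3 → ℝ) : sph (fun u => c * f u) = c * sph f := by
  have := sph_smul c f
  simpa only [smul_eq_mul] using this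

theorem lc_inv_sqrt {r s : ℝ} (hr : 0 < r) (hs : 0 < s) (hne : r ≠ s) (L : ℕ) :
    lc (fun t => 1 / √(S3.Dd r s t)) L = 1 / (2 * (L : ℝ) + 1) * mkl L r s :=
  S3.aI_eq hr hs hne L

theorem continuousOn_inv_sqrt {r s : ℝ} (hr : 0 < r) (hs : 0 < s) (hne : r ≠ s) :
    ContinuousOn (fun t => 1 / √(S3.Dd r s t)) (Set.Icc (-1 : ℝ) 1) := by
  have := S3.cA hr hs hne
  rwa [Set.uIcc_of_le (by norm_num)] at this

/-- potential of the axisymmetric part -/
theorem ang_pot1 {r s : ℝ} (hr : 0 < r) (hs : 0 < s) (hne : r ≠ s) (m : ℕ) (e v : R3)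
    (he : ‖e‖ = 1) (hv : ‖v‖ = 1) :
    sph (fun u => (1 - (inner ℝ e u) ^ 2) ^ m * (1 / √(S3.Dd r s (inner ℝ v u)))) =
      ∑ L ∈ Finset.range (2 * m + 1), eL m L * mkl L r s * S3.lp L (inner ℝ e v) := by
  have hk := continuousOn_inv_sqrt hr hs hne
  have hkc : ContinuousOn (fun u : R3 => 1 / √(S3.Dd r s (inner ℝ v u))) (Metric.sphere 0 1) :=
    hk.comp (by fun_prop) fun u hu => inner_mem_Icc hv (by simpa using hu)
  have h1 : sph (fun u => (1 - (inner ℝ e u) ^ 2) ^ m * (1 / √(S3.Dd r s (inner ℝ v u)))) =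
      sph (fun u => ∑ L ∈ Finset.range (2 * m + 1), ((2 * (L : ℝ) + 1) * eL m L) *
        (S3.lp L (inner ℝ e u) * (1 / √(S3.Dd r s (inner ℝ v u))))) := by
    congr 1
    funext u
    rw [expand_m m, Finset.sum_mul]
    refine Finset.sum_congr rfl fun L _ => ?_
    ring
  have hc : ∀ L : ℕ, ContinuousOn (fun u : R3 => ((2 * (L : ℝ) + 1) * eL m L) *
      (S3.lp L (inner ℝ e u) * (1 / √(S3.Dd r s (inner ℝ v u))))) (Metric.sphere 0 1) := by
    intro L
    exact continuousOn_const.mul (((S3.lp_continuous L).comp (by fun_prop)).continuousOn.mul hkc)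
  rw [h1, sph_sum_on _ _ hc]
  refine Finset.sum_congr rfl fun L _ => ?_
  rw [sph_const_mul, funk_hecke e v he hv L _ hk, lc_inv_sqrt hr hs hne]
  have : (2 * (L : ℝ) + 1) ≠ 0 := by positivity
  field_simp

/-- Funk-Hecke for real parts of null powers -/
theorem sph_zonal_re (v : R3) (hv : ‖v‖ = 1) (α : ℝ) (N : ℕ) (f : ℝ → ℝ)
    (hf : ContinuousOn f (Set.Icc (-1) 1)) :
    sph (fun u => f (inner ℝ v u) * (cdot (av α) u ^ N).re) = lc f N * (cdot (av α) v ^ N).re := by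
  have hfe := continuous_ext1 hf
  have h := sph_zonal_null' v hv (av α) (av_null α) N f hf
  have h1 : sph (fun u => (ext1 f (inner ℝ v u) : ℝ) • cdot (av α) u ^ N) =
      (lc f N : ℝ) • cdot (av α) v ^ N := by
    rw [← h]
    refine sph_congr fun u hu => ?_
    rw [ext1_eq f (inner_mem_Icc hv hu)]
  have h2 := sph_re (fun u => (ext1 f (inner ℝ v u) : ℝ) • cdot (av α) u ^ N)
    (by
      have hA : Continuous fun u : R3 => ext1 f (inner ℝ v u) := hfe.comp (by fun_prop)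
      exact hA.smul ((continuous_cdot (av α)).pow N))
  rw [h1] at h2
  simp only [Complex.real_smul, Complex.re_ofReal_mul] at h2
  rw [← h2]
  refine sph_congr fun u hu => ?_
  rw [ext1_eq f (inner_mem_Icc hv hu)]

/-- potential of the oscillating part -/
theorem ang_pot2 {r s : ℝ} (hr : 0 < r) (hs : 0 < s) (hne : r ≠ s) (N : ℕ) (α : ℝ) (v : R3)
    (hv : ‖v‖ = 1) :
    sph (fun u => (cdot (av α) u ^ N).re * (1 / √(S3.Dd r s (inner ℝ v u)))) =
      1 / (2 * (N : ℝ) + 1) * mkl N r s * (cdot (av α) v ^ N).re := by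
  have hk := continuousOn_inv_sqrt hr hs hne
  rw [← lc_inv_sqrt hr hs hne N, ← sph_zonal_re v hv α N _ hk]
  congr 1
  funext u
  ring

theorem inner_nuv (α β : ℝ) : inner ℝ (nuv α) (nuv β) = Real.cos (α - β) := by
  rw [nuv_inner, GC.nu, Real.cos_sub]
  simp [nuv]
  ring

/-- axisymmetric against axisymmetric -/
theorem ang_rr (L m : ℕ) (α β : ℝ) :
    sph (fun u => S3.lp L (inner ℝ (nuv α) u) * (1 - (inner ℝ (nuv β) u) ^ 2) ^ m) =
      eL m L * S3.lp L (Real.cos (α - β)) := by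
  rw [funk_hecke (nuv α) (nuv β) (norm_nuv α) (norm_nuv β) L (fun t => (1 - t ^ 2) ^ m)
    (by fun_prop), inner_nuv]
  rfl

end Vale.Agent.P370.KC
end
end

section

section

/-!
KC9: the direct Coulomb integrals of the sites.
-/

namespace Vale.Agent.P370.KC

open Finset MeasureTheory Vale.Agent.P370.Q

/-- prefactor of the densities -/
noncomputable def pre (n : ℕ) : ℝ := 4 / ((n : ℝ) ^ (2 * n + 2) * ((n - 1).factorial : ℝ) ^ 2)

theorem wd_nf_pos (n : ℕ) (hn : 1 ≤ n) : 0 < nf n := by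
  have : (0 : ℝ) < n := by exact_mod_cast hn
  have := Real.pi_pos
  unfold nf
  positivity

theorem pre_eq (n : ℕ) (hn : 1 ≤ n) : 4 * Real.pi / (2 * nf n) = pre n := by
  have h0 : (n : ℝ) ≠ 0 := by
    have : (0 : ℝ) < n := by exact_mod_cast hn
    exact this.ne'
  have h1 := Real.pi_ne_zero
  have h2 : ((n - 1).factorial : ℝ) ≠ 0 := by positivity
  unfold nf pre
  field_simp

theorem pre_nonneg (n : ℕ) : 0 ≤ pre n := by
  unfold pre
  positivity

/-- oscillating part of the density of a site -/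
noncomputable def rho1 (n : ℕ) (α : ℝ) : R3 → ℝ := fun x => fh n α x ^ 2 - rho0 n α x

theorem continuous_rho1 (n : ℕ) (hn : 1 ≤ n) (α : ℝ) : Continuous (rho1 n α) :=
  ((continuous_fh n α).pow 2).sub (continuous_rho0 n hn α)

theorem abs_rho1_le (n : ℕ) (hn : 1 ≤ n) (α : ℝ) (x : R3) : |rho1 n α x| ≤ rho0 n α x := by
  have h1 := fh_sq_le n hn α x
  have h2 := sq_nonneg (fh n α x)
  unfold rho1
  rw [abs_le]
  constructor <;> linarith

theorem rho1_eq (n : ℕ) (hn : 1 ≤ n) (α : ℝ) (x : R3) :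
    rho1 n α x = (cdot (av α) x ^ (2 * (n - 1))).re * Real.exp (-(2 * ‖x‖ / n)) / (2 * nf n) := by
  have hnf := wd_nf_pos n hn
  unfold rho1 fh fsite rho0
  rw [div_pow, Real.sq_sqrt hnf.le, mul_pow, ← Real.exp_nat_mul]
  have e1 : ((2 : ℕ) : ℝ) * -(‖x‖ / n) = -(2 * ‖x‖ / n) := by
    push_cast
    ring
  rw [e1]
  have e2 : ((cdot (av α) x ^ (n - 1)).re) ^ 2 =
      (‖cdot (av α) x‖ ^ (2 * (n - 1)) + (cdot (av α) x ^ (2 * (n - 1))).re) / 2 := by
    have h1 : cdot (av α) x ^ (2 * (n - 1)) = (cdot (av α) x ^ (n - 1)) ^ 2 := by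
      rw [← pow_mul, mul_comm]
    have h2 : ‖cdot (av α) x‖ ^ (2 * (n - 1)) = ‖cdot (av α) x ^ (n - 1)‖ ^ 2 := by
      rw [norm_pow, ← pow_mul, mul_comm]
    rw [h1, h2, ← Complex.normSq_eq_norm_sq, Complex.normSq_apply, sq, sq, Complex.mul_re]
    ring
  rw [e2]
  field_simp
  ring

theorem wd_cdot_smul (c : C3) (r : ℝ) (x : R3) : cdot c (r • x) = (r : ℂ) * cdot c x := by
  unfold cdot
  rw [Finset.mul_sum]
  refine Finset.sum_congr rfl fun k _ => ?_
  simp
  ring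

theorem rho0_smul (n : ℕ) (hn : 1 ≤ n) (α : ℝ) (u : R3) (hu : ‖u‖ = 1) {r : ℝ} (hr : 0 < r) :
    4 * Real.pi * r ^ 2 * rho0 n α (r • u) = pre n * (r ^ (2 * n) * Real.exp (-(2 / n * r))) *
      (1 - (inner ℝ (nuv α) u) ^ 2) ^ (n - 1) := by
  have hnf := wd_nf_pos n hn
  have n1 : ‖r • u‖ = r := by rw [norm_smul, hu, mul_one, Real.norm_eq_abs, abs_of_pos hr]
  have n2 : ‖cdot (av α) (r • u)‖ ^ (2 * (n - 1)) =
      r ^ (2 * (n - 1)) * (1 - (inner ℝ (nuv α) u) ^ 2) ^ (n - 1) := by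
    rw [wd_cdot_smul, norm_mul, mul_pow, Complex.norm_real, Real.norm_eq_abs, abs_of_pos hr,
      ← norm_sq_av α u hu, pow_mul ‖cdot (av α) u‖]
  have n3 : -(2 * r / (n : ℝ)) = -(2 / n * r) := by ring
  have n4 : r ^ (2 * n) = r ^ 2 * r ^ (2 * (n - 1)) := by
    rw [← pow_add]
    congr 1
    omega
  unfold rho0
  rw [n1, n2, n3, ← pre_eq n hn, n4]
  ring

theorem rho1_smul (n : ℕ) (hn : 1 ≤ n) (α : ℝ) (u : R3) (hu : ‖u‖ = 1) {r : ℝ} (hr : 0 < r) :
    4 * Real.pi * r ^ 2 * rho1 n α (r • u) = pre n * (r ^ (2 * n) * Real.exp (-(2 / n * r))) *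
      (cdot (av α) u ^ (2 * (n - 1))).re := by
  have n1 : ‖r • u‖ = r := by rw [norm_smul, hu, mul_one, Real.norm_eq_abs, abs_of_pos hr]
  have n2 : (cdot (av α) (r • u) ^ (2 * (n - 1))).re =
      r ^ (2 * (n - 1)) * (cdot (av α) u ^ (2 * (n - 1))).re := by
    rw [wd_cdot_smul, mul_pow, ← Complex.ofReal_pow, Complex.re_ofReal_mul]
  have n3 : -(2 * r / (n : ℝ)) = -(2 / n * r) := by ring
  have n4 : r ^ (2 * n) = r ^ 2 * r ^ (2 * (n - 1)) := by
    rw [← pow_add]
    congr 1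
    omega
  rw [rho1_eq n hn, n1, n2, n3, ← pre_eq n hn, n4]
  ring

/-- potentials in polar coordinates -/
theorem pot_polar (n : ℕ) (F A : R3 → ℝ)
    (hA : ∀ u : R3, ‖u‖ = 1 → ∀ r : ℝ, 0 < r → 4 * Real.pi * r ^ 2 * F (r • u) =
      pre n * (r ^ (2 * n) * Real.exp (-(2 / n * r))) * A u)
    (s : ℝ) (v : R3) (hv : ‖v‖ = 1) (hint : Integrable (fun x => F x / dist x (s • v))) :
    ∫ x, F x / dist x (s • v) = ∫ r in Set.Ioi (0 : ℝ),
      pre n * (r ^ (2 * n) * Real.exp (-(2 / n * r))) *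
        sph (fun u => A u * (1 / √(S3.Dd r s (inner ℝ v u)))) := by
  rw [polar_sph _ hint]
  refine setIntegral_congr_fun measurableSet_Ioi fun r hr => ?_
  have hr0 : 0 < r := hr
  simp only [smul_eq_mul]
  rw [← sph_const_mul, ← sph_const_mul]
  refine sph_congr fun u hu => ?_
  have h := hA u hu r hr0
  rw [S3.dist_eq u v hu hv r s, real_inner_comm v u]
  calc 4 * Real.pi * r ^ 2 * (F (r • u) / √(S3.Dd r s (inner ℝ v u)))
      = (4 * Real.pi * r ^ 2 * F (r • u)) * (1 / √(S3.Dd r s (inner ℝ v u))) := by ring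
    _ = _ := by
        rw [h]
        ring

theorem ae_ne_Ioi (s : ℝ) : ∀ᵐ r ∂(volume.restrict (Set.Ioi (0 : ℝ))), r ≠ s ∧ 0 < r := by
  have h1 : ∀ᵐ r ∂(volume.restrict (Set.Ioi (0 : ℝ))), r ≠ s := by
    refine ae_restrict_of_ae ?_
    rw [ae_iff]
    simp
  have h2 : ∀ᵐ r ∂(volume.restrict (Set.Ioi (0 : ℝ))), r ∈ Set.Ioi (0 : ℝ) :=
    ae_restrict_mem measurableSet_Ioi
  filter_upwards [h1, h2] with r a b
  exact ⟨a, b⟩

/-- radial factor of the potential -/
noncomputable def IL (n L : ℕ) (s : ℝ) : ℝ := ∫ r in Set.Ioi (0 : ℝ),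
  r ^ (2 * n) * Real.exp (-(2 / n * r)) * (min r s ^ L / max r s ^ (L + 1))

theorem alpha_pos (n : ℕ) (hn : 1 ≤ n) : (0 : ℝ) < 2 / n := by
  have : (0 : ℝ) < n := by exact_mod_cast hn
  positivity

theorem IL_integrable (n : ℕ) (hn : 1 ≤ n) {L : ℕ} (hL : L + 1 ≤ 2 * n) {s : ℝ} (hs : 0 < s) :
    IntegrableOn (fun r => r ^ (2 * n) * Real.exp (-(2 / n * r)) *
      (min r s ^ L / max r s ^ (L + 1))) (Set.Ioi 0) :=
  (Phi_eq (2 * n) (2 * n) L (alpha_pos n hn) (alpha_pos n hn) hL hL).1 s hs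

/-- potential of the symmetric density -/
theorem pot0 (n : ℕ) (hn : 2 ≤ n) (α : ℝ) {s : ℝ} (hs : 0 < s) (v : R3) (hv : ‖v‖ = 1) :
    ∫ x, rho0 n α x / dist x (s • v) = ∑ L ∈ range (2 * n - 1),
      (pre n * eL (n - 1) L * S3.lp L (inner ℝ (nuv α) v)) * IL n L s := by
  rw [pot_polar n (rho0 n α) (fun u => (1 - (inner ℝ (nuv α) u) ^ 2) ^ (n - 1))
    (fun u hu r hr => rho0_smul n (by omega) α u hu hr) s v hv (rho0_pot n hn α _).1]
  have h1 : ∫ r in Set.Ioi (0 : ℝ), pre n * (r ^ (2 * n) * Real.exp (-(2 / n * r))) *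
        sph (fun u => (1 - (inner ℝ (nuv α) u) ^ 2) ^ (n - 1) *
          (1 / √(S3.Dd r s (inner ℝ v u)))) =
      ∫ r in Set.Ioi (0 : ℝ), ∑ L ∈ range (2 * n - 1),
        (pre n * eL (n - 1) L * S3.lp L (inner ℝ (nuv α) v)) *
          (r ^ (2 * n) * Real.exp (-(2 / n * r)) * (min r s ^ L / max r s ^ (L + 1))) := by
    refine integral_congr_ae ?_
    filter_upwards [ae_ne_Ioi s] with r hr
    rw [ang_pot1 hr.2 hs hr.1 (n - 1) (nuv α) v (norm_nuv α) hv,
      show 2 * (n - 1) + 1 = 2 * n - 1 by omega, Finset.mul_sum]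
    refine Finset.sum_congr rfl fun L _ => ?_
    unfold mkl
    ring
  rw [h1, integral_finsetSum]
  · refine Finset.sum_congr rfl fun L _ => ?_
    rw [integral_const_mul]
    rfl
  · intro L hL
    rw [Finset.mem_range] at hL
    exact (IL_integrable n (by omega) (by omega) hs).const_mul _

/-- potential of the oscillating density -/
theorem pot1 (n : ℕ) (hn : 2 ≤ n) (α : ℝ) {s : ℝ} (hs : 0 < s) (v : R3) (hv : ‖v‖ = 1)
    (hint : Integrable (fun x => rho1 n α x / dist x (s • v))) :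
    ∫ x, rho1 n α x / dist x (s • v) =
      (pre n * (1 / (2 * ((2 * (n - 1) : ℕ) : ℝ) + 1)) * (cdot (av α) v ^ (2 * (n - 1))).re) *
        IL n (2 * (n - 1)) s := by
  rw [pot_polar n (rho1 n α) (fun u => (cdot (av α) u ^ (2 * (n - 1))).re)
    (fun u hu r hr => rho1_smul n (by omega) α u hu hr) s v hv hint]
  unfold IL
  rw [← integral_const_mul]
  refine integral_congr_ae ?_
  filter_upwards [ae_ne_Ioi s] with r hr
  rw [ang_pot2 hr.2 hs hr.1 (2 * (n - 1)) α v hv]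
  unfold mkl
  ring

theorem IL_nonneg (n L : ℕ) {s : ℝ} (hs : 0 < s) : 0 ≤ IL n L s := by
  unfold IL
  refine setIntegral_nonneg measurableSet_Ioi fun r hr => ?_
  have hr0 : 0 < r := hr
  have : 0 < max r s := lt_max_of_lt_left hr0
  have : 0 < min r s := lt_min hr0 hs
  positivity

theorem min_max_le (L : ℕ) {r s : ℝ} (hr : 0 < r) (hs : 0 < s) :
    min r s ^ L / max r s ^ (L + 1) ≤ 1 / r := by
  have h1 : 0 < max r s := lt_max_of_lt_left hr
  have h2 : 0 < min r s := lt_min hr hs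
  have h3 : min r s ≤ max r s := min_le_max
  rw [div_le_div_iff₀ (by positivity) hr, one_mul, pow_succ]
  have h4 : min r s ^ L ≤ max r s ^ L := pow_le_pow_left₀ h2.le h3 L
  have h5 : r ≤ max r s := le_max_left _ _
  exact mul_le_mul h4 h5 hr.le (by positivity)

theorem IL_le (n : ℕ) (hn : 1 ≤ n) {L : ℕ} (hL : L + 1 ≤ 2 * n) {s : ℝ} (hs : 0 < s) :
    IL n L s ≤ ((2 * n - 1).factorial : ℝ) * ((n : ℝ) / 2) ^ (2 * n) := by
  have hα := alpha_pos n hn
  have hn0 : (0 : ℝ) < n := by exact_mod_cast hn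
  have h := rad_int (2 * n - 1) hα
  have e : ((2 * n - 1).factorial : ℝ) * ((n : ℝ) / 2) ^ (2 * n) =
      ((2 * n - 1).factorial : ℝ) / (2 / (n : ℝ)) ^ (2 * n - 1 + 1) := by
    rw [show 2 * n - 1 + 1 = 2 * n by omega, div_pow, div_pow]
    field_simp
  rw [e, ← h.2]
  unfold IL
  refine setIntegral_mono_on (IL_integrable n hn hL hs) h.1 measurableSet_Ioi fun r hr => ?_
  have hr0 : 0 < r := hr
  have h1 := min_max_le L hr0 hs
  calc r ^ (2 * n) * Real.exp (-(2 / n * r)) * (min r s ^ L / max r s ^ (L + 1))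
      ≤ r ^ (2 * n) * Real.exp (-(2 / n * r)) * (1 / r) := by gcongr
    _ = r ^ (2 * n - 1) * Real.exp (-(2 / n * r)) := by
        obtain ⟨k, hk⟩ : ∃ k, 2 * n = k + 1 := ⟨2 * n - 1, by omega⟩
        rw [hk, Nat.add_sub_cancel, pow_succ]
        field_simp

theorem pair_int (n : ℕ) (hn : 2 ≤ n) (α β : ℝ) (F G : R3 → ℝ) (hF : Continuous F)
    (hG : Continuous G) (hFa : ∀ x, |F x| ≤ rho0 n α x) (hGb : ∀ x, |G x| ≤ rho0 n β x) :
    (∀ y, Integrable (fun x => F x / dist x y)) ∧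
    Integrable (fun p : R3 × R3 => F p.1 / dist p.1 p.2 * G p.2) (volume.prod volume) := by
  have hmeas : Measurable (fun p : R3 × R3 => F p.1 / dist p.1 p.2 * G p.2) := by
    exact ((hF.measurable.comp measurable_fst).div (by fun_prop)).mul
      (hG.measurable.comp measurable_snd)
  have hx : ∀ y : R3, Integrable (fun x : R3 => F x / dist x y) := by
    intro y
    have h1 := rho0_pot n hn α y
    refine h1.1.mono' ?_ (.of_forall fun x => ?_)
    · exact (hF.measurable.div (by fun_prop)).aestronglyMeasurable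
    · rw [Real.norm_eq_abs, abs_div, abs_of_nonneg (dist_nonneg (x := x) (y := y))]
      gcongr
      exact hFa x
  have hGi : Integrable G := (rho0_integral n hn β).1.mono' hG.aestronglyMeasurable
    (.of_forall fun x => hGb x)
  refine ⟨hx, ?_⟩
  rw [integrable_prod_iff' hmeas.aestronglyMeasurable]
  refine ⟨.of_forall fun y => (hx y).mul_const (G y), ?_⟩
  have hb : ∀ y : R3, ∫ x : R3, ‖F x / dist x y * G y‖ ≤
      (21 + 3 * Real.log n) / (n : ℝ) ^ 2 * |G y| := by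
    intro y
    simp only [norm_mul]
    rw [integral_mul_const, Real.norm_eq_abs (G y)]
    refine mul_le_mul_of_nonneg_right ?_ (abs_nonneg _)
    have h1 := rho0_pot n hn α y
    refine le_trans ?_ h1.2
    refine integral_mono_of_nonneg (.of_forall fun x => norm_nonneg _) h1.1
      (.of_forall fun x => ?_)
    show ‖F x / dist x y‖ ≤ rho0 n α x / dist x y
    rw [Real.norm_eq_abs, abs_div, abs_of_nonneg (dist_nonneg (x := x) (y := y))]
    gcongr
    exact hFa x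
  refine (hGi.abs.const_mul _).mono' ?_
    (.of_forall fun y => (Real.norm_of_nonneg (integral_nonneg fun x => norm_nonneg _)).le.trans
      (hb y))
  exact (hmeas.norm.stronglyMeasurable.integral_prod_left'
    (μ := (volume : Measure R3))).aestronglyMeasurable

theorem pair_int' {F G : R3 → ℝ}
    (h : Integrable (fun p : R3 × R3 => F p.1 / dist p.1 p.2 * G p.2) (volume.prod volume)) :
    Integrable (fun y => (∫ x, F x / dist x y) * G y) := by
  have h1 := h.integral_prod_right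
  refine h1.congr (.of_forall fun y => ?_)
  simp only
  rw [integral_mul_const]

theorem pair_swap {F G : R3 → ℝ}
    (h : Integrable (fun p : R3 × R3 => F p.1 / dist p.1 p.2 * G p.2) (volume.prod volume)) :
    ∫ y, (∫ x, F x / dist x y) * G y = ∫ y, (∫ x, G x / dist x y) * F y := by
  have e1 : ∫ y, (∫ x, F x / dist x y) * G y = ∫ y, ∫ x, F x / dist x y * G y := by
    refine integral_congr_ae (.of_forall fun y => ?_)
    simp only
    rw [integral_mul_const]
  have e2 : ∫ y, (∫ x, G x / dist x y) * F y = ∫ x, ∫ y, F x / dist x y * G y := by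
    refine integral_congr_ae (.of_forall fun x => ?_)
    simp only
    rw [← integral_mul_const]
    refine integral_congr_ae (.of_forall fun y => ?_)
    simp only
    rw [dist_comm y x]
    ring
  rw [e1, e2]
  exact (integral_integral_swap (f := fun x y => F x / dist x y * G y) h).symm

theorem abs_rho0_le (n : ℕ) (hn : 1 ≤ n) (α : ℝ) (x : R3) : |rho0 n α x| ≤ rho0 n α x :=
  (abs_of_nonneg (rho0_nonneg n hn α x)).le

theorem eL_zc (n L : ℕ) (hn : 1 ≤ n) : eL (n - 1) L = zc n L := zc_eq n L hn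

/-- Coulomb energy of the azimuthally symmetric densities -/
theorem W0_eq (n : ℕ) (hn : 2 ≤ n) (δ : ℝ) :
    ∫ y, (∫ x, rho0 n δ x / dist x y) * rho0 n 0 y = W0 n (Real.cos δ) := by
  have hc := fun ζ => continuous_rho0 n (by omega) ζ
  have hI := (pair_int n hn δ 0 _ _ (hc δ) (hc 0) (abs_rho0_le n (by omega) δ)
    (abs_rho0_le n (by omega) 0)).2
  rw [polar_sph _ (pair_int' hI)]
  have h1 : ∀ s ∈ Set.Ioi (0 : ℝ), (4 * Real.pi * s ^ 2) • sph (fun v =>
      (∫ x, rho0 n δ x / dist x (s • v)) * rho0 n 0 (s • v)) =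
      ∑ L ∈ range (2 * n - 1), (pre n ^ 2 * (zc n L ^ 2 * lpv L (Real.cos δ))) *
        (s ^ (2 * n) * Real.exp (-(2 / n * s)) * IL n L s) := by
    intro s hs
    have hs0 : 0 < s := hs
    rw [smul_eq_mul, ← sph_const_mul]
    have h2 : sph (fun v => 4 * Real.pi * s ^ 2 *
        ((∫ x, rho0 n δ x / dist x (s • v)) * rho0 n 0 (s • v))) =
        sph (fun v => ∑ L ∈ range (2 * n - 1),
          (pre n ^ 2 * eL (n - 1) L * (s ^ (2 * n) * Real.exp (-(2 / n * s)) * IL n L s)) *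
            (S3.lp L (inner ℝ (nuv δ) v) * (1 - (inner ℝ (nuv 0) v) ^ 2) ^ (n - 1))) := by
      refine sph_congr fun v hv => ?_
      rw [pot0 n hn δ hs0 v hv]
      calc 4 * Real.pi * s ^ 2 * ((∑ L ∈ range (2 * n - 1),
            (pre n * eL (n - 1) L * S3.lp L (inner ℝ (nuv δ) v)) * IL n L s) * rho0 n 0 (s • v))
          = (∑ L ∈ range (2 * n - 1),
            (pre n * eL (n - 1) L * S3.lp L (inner ℝ (nuv δ) v)) * IL n L s) *
              (4 * Real.pi * s ^ 2 * rho0 n 0 (s • v)) := by ring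
        _ = _ := by
            rw [rho0_smul n (by omega) 0 v hv hs0, Finset.sum_mul]
            refine Finset.sum_congr rfl fun L _ => ?_
            ring
    rw [h2, sph_sum_on]
    · refine Finset.sum_congr rfl fun L _ => ?_
      rw [sph_const_mul, ang_rr, sub_zero, eL_zc n L (by omega), ← lpv_eq]
      ring
    · intro L
      exact (continuous_const.mul (((S3.lp_continuous L).comp (by fun_prop)).mul
        (by fun_prop))).continuousOn
  rw [setIntegral_congr_fun measurableSet_Ioi h1]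
  have hα := alpha_pos n (by omega)
  have hP : ∀ L ∈ range (2 * n - 1), IntegrableOn (fun s => s ^ (2 * n) *
      Real.exp (-(2 / n * s)) * IL n L s) (Set.Ioi 0) ∧ ∫ s in Set.Ioi (0 : ℝ), s ^ (2 * n) *
      Real.exp (-(2 / n * s)) * IL n L s = Phi (2 * n) (2 * n) L (2 / n) (2 / n) := by
    intro L hL
    rw [Finset.mem_range] at hL
    have h := Phi_eq (2 * n) (2 * n) L hα hα (by omega) (by omega)
    exact h.2
  rw [integral_finsetSum]
  · unfold W0
    rw [Finset.mul_sum]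
    refine Finset.sum_congr rfl fun L hL => ?_
    rw [integral_const_mul, (hP L hL).2]
    unfold pre
    ring
  · intro L hL
    exact (hP L hL).1.const_mul _

theorem cb_le (n : ℕ) : (n.centralBinom : ℝ) ^ 2 * (2 * n + 1) ≤ 16 ^ n := by
  induction n with
  | zero => simp
  | succ k ih =>
    have h : ((k : ℝ) + 1) * ((k + 1).centralBinom : ℝ) = 2 * (2 * k + 1) * (k.centralBinom : ℝ) := by
      exact_mod_cast Nat.succ_mul_centralBinom_succ k
    have hk : (0 : ℝ) < (k : ℝ) + 1 := by positivity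
    have h1 : (((k : ℝ) + 1) * ((k + 1).centralBinom : ℝ)) ^ 2 * (2 * ((k + 1 : ℕ) : ℝ) + 1) ≤
        ((k : ℝ) + 1) ^ 2 * 16 ^ (k + 1) := by
      rw [h]
      push_cast
      calc (2 * (2 * (k : ℝ) + 1) * (k.centralBinom : ℝ)) ^ 2 * (2 * ((k : ℝ) + 1) + 1)
          = 4 * ((2 * (k : ℝ) + 1) * (2 * k + 3)) * ((k.centralBinom : ℝ) ^ 2 * (2 * k + 1)) := by
            ring
        _ ≤ 4 * (4 * ((k : ℝ) + 1) ^ 2) * 16 ^ k := by
            have h3 : (2 * (k : ℝ) + 1) * (2 * k + 3) ≤ 4 * ((k : ℝ) + 1) ^ 2 := by linarith only []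
            exact mul_le_mul (mul_le_mul_of_nonneg_left h3 (by norm_num)) ih (by (clear * -; positivity))
              (by positivity)
        _ = _ := by ring
    have h2 : ((k : ℝ) + 1) ^ 2 * (((k + 1).centralBinom : ℝ) ^ 2 * (2 * ((k + 1 : ℕ) : ℝ) + 1)) ≤
        ((k : ℝ) + 1) ^ 2 * 16 ^ (k + 1) := by
      calc _ = (((k : ℝ) + 1) * ((k + 1).centralBinom : ℝ)) ^ 2 * (2 * ((k + 1 : ℕ) : ℝ) + 1) := by
            ring
        _ ≤ _ := h1
    exact le_of_mul_le_mul_left h2 (by positivity)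

/-- normalised radial bound -/
theorem pre_rad (n : ℕ) (hn : 1 ≤ n) :
    pre n * (((2 * n - 1).factorial : ℝ) * ((n : ℝ) / 2) ^ (2 * n)) =
      2 * ((n.centralBinom : ℝ) / 4 ^ n) / n := by
  obtain ⟨m, rfl⟩ : ∃ m, n = m + 1 := ⟨n - 1, by omega⟩
  have h0 : ((m : ℝ) + 1) ≠ 0 := by positivity
  have h1 : (((m + 1).centralBinom : ℕ) : ℝ) * ((m + 1).factorial : ℝ) ^ 2 =
      ((2 * (m + 1)).factorial : ℝ) := by
    have h := Nat.choose_mul_factorial_mul_factorial (n := 2 * (m + 1)) (k := m + 1) (by omega)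
    rw [show 2 * (m + 1) - (m + 1) = m + 1 by omega] at h
    rw [Nat.centralBinom_eq_two_mul_choose, ← h]
    push_cast
    ring
  have h2 : ((2 * (m + 1)).factorial : ℝ) = 2 * ((m : ℝ) + 1) * ((2 * (m + 1) - 1).factorial : ℝ) := by
    rw [show 2 * (m + 1) = (2 * (m + 1) - 1) + 1 by omega, Nat.factorial_succ]
    rw [show 2 * (m + 1) - 1 + 1 - 1 = 2 * (m + 1) - 1 by omega]
    push_cast [show 2 * (m + 1) - 1 + 1 = 2 * (m + 1) by omega]
    ring
  have h3 : ((m + 1).factorial : ℝ) = ((m : ℝ) + 1) * (m.factorial : ℝ) := by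
    rw [Nat.factorial_succ]
    push_cast
    ring
  rw [h3, h2] at h1
  have f1 : (m.factorial : ℝ) ≠ 0 := by positivity
  have h4 : (((m + 1).centralBinom : ℕ) : ℝ) =
      2 * ((m : ℝ) + 1) * ((2 * (m + 1) - 1).factorial : ℝ) /
        (((m : ℝ) + 1) * (m.factorial : ℝ)) ^ 2 := by
    rw [eq_div_iff (by positivity)]
    exact h1
  unfold pre
  rw [Nat.add_sub_cancel, h4]
  push_cast
  have e4 : (2 : ℝ) ^ (2 * (m + 1)) = 4 ^ (m + 1) := by
    rw [pow_mul]
    norm_num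
  rw [div_pow, e4, show 2 * (m + 1) + 2 = 2 * (m + 1) + 2 from rfl, pow_add ((m : ℝ) + 1) _ 2]
  field_simp
  norm_num

theorem cb_div_le (n : ℕ) : (n.centralBinom : ℝ) / 4 ^ n ≤ 1 / √(2 * n + 1) := by
  have h := cb_le n
  have h4 : (0 : ℝ) < 4 ^ n := by positivity
  have hs : 0 < √(2 * (n : ℝ) + 1) := Real.sqrt_pos.2 (by positivity)
  rw [div_le_div_iff₀ h4 hs, one_mul]
  refine le_of_sq_le_sq ?_ h4.le
  rw [mul_pow, Real.sq_sqrt (by positivity), ← pow_mul, mul_comm n 2, pow_mul]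
  norm_num
  linarith

theorem abs_re_av_le (α : ℝ) (v : R3) (hv : ‖v‖ = 1) (m : ℕ) :
    |(cdot (av α) v ^ (2 * m)).re| ≤ 1 := by
  refine (Complex.abs_re_le_norm _).trans ?_
  rw [norm_pow, pow_mul, norm_sq_av α v hv]
  refine pow_le_one₀ ?_ ?_
  · rw [← norm_sq_av α v hv]
    positivity
  · linarith only [sq_nonneg (inner ℝ (nuv α) v)]

/-- the potential of the oscillating density is small -/
theorem pot1_abs (n : ℕ) (hn : 2 ≤ n) (α : ℝ) (y : R3) (hy : y ≠ 0) :
    |∫ x, rho1 n α x / dist x y| ≤ 1 / ((n : ℝ) ^ 2 * √n) := by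
  have hs : 0 < ‖y‖ := norm_pos_iff.2 hy
  have hv : ‖(‖y‖⁻¹ • y)‖ = 1 := by
    rw [norm_smul, norm_inv, norm_norm, inv_mul_cancel₀ hs.ne']
  have hyy : y = ‖y‖ • (‖y‖⁻¹ • y) := by
    rw [smul_smul, mul_inv_cancel₀ hs.ne', one_smul]
  have hint := (pair_int n hn α 0 _ _ (continuous_rho1 n (by omega) α)
    (continuous_rho0 n (by omega) 0) (abs_rho1_le n (by omega) α)
    (abs_rho0_le n (by omega) 0)).1 (‖y‖ • (‖y‖⁻¹ • y))
  have h1 := pot1 n hn α hs (‖y‖⁻¹ • y) hv hint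
  rw [← hyy] at h1
  rw [h1, abs_mul, abs_mul, abs_mul, abs_of_nonneg (pre_nonneg n),
    abs_of_nonneg (IL_nonneg n _ hs), abs_of_nonneg (by (clear * -; positivity))]
  have h2 := abs_re_av_le α _ hv (n - 1)
  have h3 := IL_le n (by omega) (L := 2 * (n - 1)) (by omega) hs
  have h4 := pre_rad n (by omega)
  have h5 := cb_div_le n
  have hn2 : (2 : ℝ) ≤ n := by exact_mod_cast hn
  have hc : (2 * ((2 * (n - 1) : ℕ) : ℝ) + 1) = 4 * n - 3 := by
    rw [Nat.cast_mul, Nat.cast_sub (by omega)]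
    push_cast
    ring
  rw [hc]
  obtain ⟨x, hx⟩ : ∃ x : ℝ, x = (n.centralBinom : ℝ) / 4 ^ n := ⟨_, rfl⟩
  rw [← hx] at h4 h5
  have hp : (0 : ℝ) < 4 * n - 3 := by linarith only [hn2]
  have hsn : 0 < √(n : ℝ) := Real.sqrt_pos.2 (by linarith only [hn2])
  have hsn2 : √(n : ℝ) ≤ √(2 * n + 1) := Real.sqrt_le_sqrt (by linarith only [])
  calc pre n * (1 / (4 * (n : ℝ) - 3)) * |(cdot (av α) (‖y‖⁻¹ • y) ^ (2 * (n - 1))).re| *
        IL n (2 * (n - 1)) ‖y‖
      ≤ pre n * (1 / (4 * (n : ℝ) - 3)) * 1 *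
        (((2 * n - 1).factorial : ℝ) * ((n : ℝ) / 2) ^ (2 * n)) := by
        have := pre_nonneg n
        have := IL_nonneg n (2 * (n - 1)) hs
        gcongr
    _ = (1 / (4 * (n : ℝ) - 3)) * (2 * x / n) := by
        rw [← h4]
        ring
    _ ≤ (1 / (2 * (n : ℝ))) * (2 * (1 / √(n : ℝ)) / n) := by
        have h7 : x ≤ 1 / √(n : ℝ) := h5.trans (one_div_le_one_div_of_le hsn hsn2)
        have h8 : 0 ≤ x := by rw [hx]; (clear * -; positivity)
        have h9 : 0 ≤ 2 * x / (n : ℝ) := by (clear * - h8 hn; positivity)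
        gcongr
        linarith only [hn2]
    _ = 1 / ((n : ℝ) ^ 2 * √n) := by
        field_simp

theorem wd_ae_ne_zero : ∀ᵐ y : R3, y ≠ 0 := by
  rw [ae_iff]
  simp

theorem pot1_int (n : ℕ) (hn : 2 ≤ n) (α : ℝ) (G : R3 → ℝ) (hG : Integrable G) :
    |∫ y, (∫ x, rho1 n α x / dist x y) * G y| ≤ 1 / ((n : ℝ) ^ 2 * √n) * ∫ y, |G y| := by
  rw [← integral_const_mul]
  refine abs_integral_le_integral_abs.trans ?_
  refine integral_mono_of_nonneg (.of_forall fun x => abs_nonneg _) (hG.abs.const_mul _) ?_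
  filter_upwards [wd_ae_ne_zero] with y hy
  rw [abs_mul]
  exact mul_le_mul_of_nonneg_right (pot1_abs n hn α y hy) (abs_nonneg _)

/-- the oscillating parts are negligible -/
theorem wdir_near (n : ℕ) (hn : 2 ≤ n) (δ : ℝ) :
    |wdir n δ - W0 n (Real.cos δ)| ≤ 2 / ((n : ℝ) ^ 2 * √n) := by
  have hn1 : 1 ≤ n := by omega
  have c0 := fun ζ => continuous_rho0 n hn1 ζ
  have c1 := fun ζ => continuous_rho1 n hn1 ζ
  have a0 := fun ζ => abs_rho0_le n hn1 ζ
  have a1 := fun ζ => abs_rho1_le n hn1 ζ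
  have i00 := pair_int n hn δ 0 _ _ (c0 δ) (c0 0) (a0 δ) (a0 0)
  have i01 := pair_int n hn δ 0 _ _ (c0 δ) (c1 0) (a0 δ) (a1 0)
  have i10 := pair_int n hn δ 0 _ _ (c1 δ) (c0 0) (a1 δ) (a0 0)
  have i11 := pair_int n hn δ 0 _ _ (c1 δ) (c1 0) (a1 δ) (a1 0)
  have hfi := integrable_fh_mul n hn 0 0
  have e1 : wdir n δ = (∫ y, (∫ x, rho0 n δ x / dist x y) * rho0 n 0 y) +
      (∫ y, (∫ x, rho0 n δ x / dist x y) * rho1 n 0 y) +
      ∫ y, (∫ x, rho1 n δ x / dist x y) * (fh n 0 y * fh n 0 y) := by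
    have j10 := pair_int' i10.2
    have j11 := pair_int' i11.2
    have j1 : Integrable (fun y => (∫ x, rho1 n δ x / dist x y) * (fh n 0 y * fh n 0 y)) := by
      refine (j10.add j11).congr (.of_forall fun y => ?_)
      simp only [Pi.add_apply]
      unfold rho1
      ring
    have e0 : wdir n δ = ∫ y, (((∫ x, rho0 n δ x / dist x y) * rho0 n 0 y +
        (∫ x, rho0 n δ x / dist x y) * rho1 n 0 y) +
        (∫ x, rho1 n δ x / dist x y) * (fh n 0 y * fh n 0 y)) := ?_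
    · have j0 : Integrable (fun y => (∫ x, rho0 n δ x / dist x y) * rho0 n 0 y +
          (∫ x, rho0 n δ x / dist x y) * rho1 n 0 y) := (pair_int' i00.2).add (pair_int' i01.2)
      rw [e0, integral_add j0 j1, integral_add (pair_int' i00.2) (pair_int' i01.2)]
    unfold wdir coul nuc
    refine integral_congr_ae (.of_forall fun y => ?_)
    simp only
    have e2 : ∫ x, fh n δ x * fh n δ x / dist x y =
        (∫ x, rho0 n δ x / dist x y) + ∫ x, rho1 n δ x / dist x y := by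
      rw [← integral_add (i00.1 y) (i10.1 y)]
      refine integral_congr_ae (.of_forall fun x => ?_)
      simp only
      unfold rho1
      ring
    rw [e2]
    unfold rho1
    ring
  rw [e1, W0_eq n hn δ, pair_swap i01.2]
  have b1 := pot1_int n hn 0 (rho0 n δ) (rho0_integral n hn δ).1
  have b2 := pot1_int n hn δ (fun y => fh n 0 y * fh n 0 y) hfi
  have e3 : ∫ y, |rho0 n δ y| = 1 := by
    rw [← (rho0_integral n hn δ).2]
    exact integral_congr_ae (.of_forall fun y => abs_of_nonneg (rho0_nonneg n hn1 δ y))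
  have e4 : ∫ y, |fh n 0 y * fh n 0 y| = 1 := by
    have h2 := ov_fh_self n hn 0
    unfold ov at h2
    rw [← h2]
    exact integral_congr_ae (.of_forall fun x => abs_of_nonneg (mul_self_nonneg _))
  rw [e3, mul_one] at b1
  simp only [e4, mul_one] at b2
  have e5 : (2 : ℝ) / ((n : ℝ) ^ 2 * √n) = 1 / ((n : ℝ) ^ 2 * √n) + 1 / ((n : ℝ) ^ 2 * √n) := by
    ring
  rw [e5, add_assoc, add_sub_cancel_left]
  exact (abs_add_le _ _).trans (add_le_add b1 b2)

theorem zc_sq_le (n : ℕ) (hn : 1 ≤ n) (L : ℕ) : zc n L ^ 2 ≤ 9 ^ L := by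
  have h : |zc n L| ≤ 3 ^ L := by
    rw [← zc_eq n L hn, abs_mul]
    have h1 := intervalIntegral.norm_integral_le_of_norm_le_const (a := -1) (b := 1)
      (f := fun t : ℝ => (1 - t ^ 2) ^ (n - 1) * S3.lp L t) (C := 3 ^ L) (by
        intro t ht
        rw [Set.uIoc_of_le (by norm_num)] at ht
        have ht' : t ∈ Set.Icc (-1 : ℝ) 1 := ⟨ht.1.le, ht.2⟩
        have h2 := lp_abs_le L t ht'
        have h3 : t ^ 2 ≤ 1 := by linarith only [mul_nonneg_of_nonpos_of_nonpos (Mathlib.Tactic.Linarith.sub_nonpos_of_le ht'.left) (Mathlib.Tactic.Linarith.sub_nonpos_of_le ht'.right)]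
        have h4 : |(1 - t ^ 2) ^ (n - 1)| ≤ 1 := by
          rw [abs_of_nonneg (pow_nonneg (by linarith only [h3]) _)]
          exact pow_le_one₀ (by linarith only [h3]) (by linarith only [sq_nonneg t])
        rw [norm_mul, Real.norm_eq_abs, Real.norm_eq_abs]
        calc |(1 - t ^ 2) ^ (n - 1)| * |S3.lp L t| ≤ 1 * 3 ^ L := by gcongr
          _ = 3 ^ L := one_mul _)
    rw [Real.norm_eq_abs] at h1
    have h5 : |(1 : ℝ) - (-1)| = 2 := by norm_num
    rw [h5] at h1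
    have h6 : |(1 / 2 : ℝ)| = 1 / 2 := by norm_num
    rw [h6]
    linarith only [h1]
  calc zc n L ^ 2 = |zc n L| ^ 2 := (sq_abs _).symm
    _ ≤ (3 ^ L) ^ 2 := by gcongr
    _ = 9 ^ L := by
        rw [← pow_mul, mul_comm, pow_mul]
        norm_num

theorem pre_sq_Phi_le (n : ℕ) (hn : 1 ≤ n) {L : ℕ} (hL : L + 1 ≤ 2 * n) :
    pre n ^ 2 * Phi (2 * n) (2 * n) L (2 / n) (2 / n) ≤ 4 := by
  have hα := alpha_pos n hn
  have hn0 : (0 : ℝ) < n := by exact_mod_cast hn
  have h := Phi_eq (2 * n) (2 * n) L hα hα hL hL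
  have hr := rad_int (2 * n) hα
  have h1 : Phi (2 * n) (2 * n) L (2 / n) (2 / n) ≤
      (((2 * n - 1).factorial : ℝ) * ((n : ℝ) / 2) ^ (2 * n)) *
        (((2 * n).factorial : ℝ) / (2 / (n : ℝ)) ^ (2 * n + 1)) := by
    rw [← h.2.2, ← hr.2, ← integral_const_mul]
    refine setIntegral_mono_on h.2.1 (hr.1.const_mul _) measurableSet_Ioi fun s hs => ?_
    have hs0 : 0 < s := hs
    rw [mul_comm]
    have h3 := IL_le n hn hL hs0
    unfold IL at h3
    exact mul_le_mul_of_nonneg_right h3 (by positivity)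
  have h2 : ((2 * n).factorial : ℝ) / (2 / (n : ℝ)) ^ (2 * n + 1) =
      (((2 * n - 1).factorial : ℝ) * ((n : ℝ) / 2) ^ (2 * n)) * (n : ℝ) ^ 2 := by
    obtain ⟨k, hk⟩ : ∃ k, 2 * n = k + 1 := ⟨2 * n - 1, by omega⟩
    have hk' : (2 * (n : ℝ)) = k + 1 := by exact_mod_cast hk
    rw [show 2 * n - 1 = k by omega, hk, Nat.factorial_succ, div_pow, div_pow, pow_succ (2 : ℝ) (k + 1),
      pow_succ (n : ℝ) (k + 1)]
    push_cast
    rw [← hk']
    field_simp
  have h4 := pre_rad n hn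
  have h5 := cb_le n
  calc pre n ^ 2 * Phi (2 * n) (2 * n) L (2 / n) (2 / n)
      ≤ pre n ^ 2 * ((((2 * n - 1).factorial : ℝ) * ((n : ℝ) / 2) ^ (2 * n)) *
        ((((2 * n - 1).factorial : ℝ) * ((n : ℝ) / 2) ^ (2 * n)) * (n : ℝ) ^ 2)) := by
        rw [← h2]
        gcongr
    _ = (pre n * (((2 * n - 1).factorial : ℝ) * ((n : ℝ) / 2) ^ (2 * n))) ^ 2 * (n : ℝ) ^ 2 := by
        ring
    _ = 4 * ((n.centralBinom : ℝ) ^ 2 / 16 ^ n) := by
        rw [h4]
        have e : (16 : ℝ) ^ n = 4 ^ n * 4 ^ n := by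
          rw [← mul_pow]
          norm_num
        rw [e]
        field_simp
        ring
    _ ≤ 4 * 1 := by
        gcongr
        rw [div_le_one (by positivity)]
        refine le_trans ?_ h5
        have : (0 : ℝ) ≤ (n.centralBinom : ℝ) ^ 2 := by (clear * -; positivity)
        nlinarith only []
    _ = 4 := by norm_num

theorem sum_144 (N : ℕ) : ∑ L ∈ range N, (4 : ℝ) * 144 ^ L ≤ 256 ^ N := by
  induction N with
  | zero => simp
  | succ N ih =>
    rw [Finset.sum_range_succ, pow_succ]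
    have h : (144 : ℝ) ^ N ≤ 256 ^ N := by gcongr; norm_num
    have h2 : (0 : ℝ) < 256 ^ N := by positivity
    linarith

/-- crude Lipschitz bound -/
theorem W0_lip (n : ℕ) (hn : 2 ≤ n) (s t : ℝ) (hs : s ∈ Set.Icc (-1 : ℝ) 1)
    (ht : t ∈ Set.Icc (-1 : ℝ) 1) : |W0 n s - W0 n t| ≤ 2 ^ (16 * n) * |s - t| := by
  have hα := alpha_pos n (by omega)
  have e : W0 n s - W0 n t = ∑ L ∈ range (2 * n - 1), (pre n ^ 2 *
      Phi (2 * n) (2 * n) L (2 / n) (2 / n)) * zc n L ^ 2 * (S3.lp L s - S3.lp L t) := by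
    unfold W0
    rw [Finset.mul_sum, Finset.mul_sum, ← Finset.sum_sub_distrib]
    refine Finset.sum_congr rfl fun L _ => ?_
    rw [lpv_eq, lpv_eq]
    unfold pre
    ring
  rw [e]
  have h1 : ∀ L ∈ range (2 * n - 1), |(pre n ^ 2 *
      Phi (2 * n) (2 * n) L (2 / n) (2 / n)) * zc n L ^ 2 * (S3.lp L s - S3.lp L t)| ≤
      (4 * 144 ^ L) * |s - t| := by
    intro L hL
    rw [Finset.mem_range] at hL
    have a1 := pre_sq_Phi_le n (by omega) (L := L) (by omega)
    have a2 := zc_sq_le n (by omega) L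
    have a3 := lp_lip L s t hs ht
    have a4 : 0 ≤ pre n ^ 2 * Phi (2 * n) (2 * n) L (2 / n) (2 / n) :=
      mul_nonneg (sq_nonneg _) (Phi_nonneg _ _ _ hα hα)
    rw [abs_mul, abs_mul, abs_of_nonneg a4, abs_of_nonneg (sq_nonneg (zc n L))]
    calc (pre n ^ 2 * Phi (2 * n) (2 * n) L (2 / n) (2 / n)) * zc n L ^ 2 *
          |S3.lp L s - S3.lp L t| ≤ 4 * 9 ^ L * (16 ^ L * |s - t|) := by gcongr
      _ = (4 * 144 ^ L) * |s - t| := by
          rw [show (144 : ℝ) = 9 * 16 by norm_num, mul_pow]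
          ring
  calc |∑ L ∈ range (2 * n - 1), (pre n ^ 2 *
        Phi (2 * n) (2 * n) L (2 / n) (2 / n)) * zc n L ^ 2 * (S3.lp L s - S3.lp L t)|
      ≤ ∑ L ∈ range (2 * n - 1), (4 * 144 ^ L) * |s - t| :=
        (Finset.abs_sum_le_sum_abs _ _).trans (Finset.sum_le_sum h1)
    _ = (∑ L ∈ range (2 * n - 1), (4 : ℝ) * 144 ^ L) * |s - t| := by rw [Finset.sum_mul]
    _ ≤ 2 ^ (16 * n) * |s - t| := by
        gcongr
        refine (sum_144 _).trans ?_
        calc (256 : ℝ) ^ (2 * n - 1) ≤ 256 ^ (2 * n) := by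
              gcongr
              · norm_num
              · omega
          _ = 2 ^ (16 * n) := by
              rw [show 16 * n = 8 * (2 * n) by ring, pow_mul (2 : ℝ) 8 (2 * n)]
              congr 1
              norm_num

end Vale.Agent.P370.KC
end
end

section

section

/-!
KC12: the explicit constants are computable in polynomial time.
-/

namespace Vale.Agent.P370.KC

open Vale.Agent.Lib.PolyTime Finset Vale.Agent.P370.Q

variable {A : Set Word} {α β : Type*} [Enc α] [Enc β]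

/-! ### numerical parameters: computable and polynomially bounded -/

/-- numerical functions which are computable in polynomial time and polynomially bounded -/
def PTB (A : Set Word) {α : Type*} [Enc α] (f : α → ℕ) : Prop := PT A f ∧ PBd f

theorem PTB.const (n : ℕ) : PTB A (fun _ : α => n) := ⟨PT.const n, PBd.const n⟩

theorem PTB.add {f g : α → ℕ} (hf : PTB A f) (hg : PTB A g) : PTB A (fun a => f a + g a) :=
  ⟨hf.1.add hg.1, hf.2.add hg.2⟩

theorem PTB.mul {f g : α → ℕ} (hf : PTB A f) (hg : PTB A g) : PTB A (fun a => f a * g a) :=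
  ⟨hf.1.mul hg.1, hf.2.mul hg.2⟩

theorem PTB.sub {f g : α → ℕ} (hf : PTB A f) (hg : PTB A g) : PTB A (fun a => f a - g a) :=
  ⟨hf.1.sub hg.1, hf.2.mono fun _ => Nat.sub_le _ _⟩

theorem PTB.div {f g : α → ℕ} (hf : PTB A f) (hg : PTB A g) : PTB A (fun a => f a / g a) :=
  ⟨hf.1.div hg.1, hf.2.mono fun _ => Nat.div_le_self _ _⟩

theorem PTB.powC {f : α → ℕ} (hf : PTB A f) (n : ℕ) : PTB A (fun a => f a ^ n) :=
  ⟨hf.1.powConst n, hf.2.pow n⟩

theorem PTB.succ {f : α → ℕ} (hf : PTB A f) : PTB A (fun a => f a + 1) := hf.add (PTB.const 1)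

theorem PTB.two {f : α → ℕ} (hf : PTB A f) : PTB A (fun a => 2 * f a) := (PTB.const 2).mul hf

/-- weakening of the context -/
theorem PTB.w {f : α → ℕ} (hf : PTB A f) : PTB A (fun p : α × β => f p.1) :=
  ⟨hf.1.comp PT.fst', hf.2.compFst⟩

/-- the last summation variable -/
theorem PTB.u : PTB A (fun p : α × Un => p.2.v) := ⟨PT.snd'.unVal, PBd.unSnd⟩

/-- weakening of the context -/
theorem PTQ.w {f : α → ℝ} (hf : PTQ A f) : PTQ A (fun p : α × β => f p.1) := hf.comp PT.fst'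

theorem PTB.q {f : α → ℕ} (hf : PTB A f) : PTQ A (fun a => (f a : ℝ)) := PTQ.ofNat hf.1

theorem PTB.fac {f : α → ℕ} (hf : PTB A f) : PTQ A (fun a => ((f a).factorial : ℝ)) :=
  PTQ.factorial hf.1 hf.2

theorem PTB.cho {f g : α → ℕ} (hf : PTB A f) (hg : PTB A g) :
    PTQ A (fun a => ((f a).choose (g a) : ℝ)) := PTQ.choose hf.1 hf.2 hg.1 hg.2

theorem PTQ.pw {f : α → ℝ} {e : α → ℕ} (hf : PTQ A f) (he : PTB A e) :
    PTQ A (fun a => f a ^ e a) := hf.pow he.1 he.2

theorem PTQ.sm {m : α → ℕ} {f : α → ℕ → ℝ} (hm : PTB A m)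
    (hf : PTQ A (fun p : α × Un => f p.1 p.2.v)) :
    PTQ A (fun a => ∑ i ∈ range (m a), f a i) := PTQ.sum hm.1 hm.2 hf

theorem PTQ.pr {m : α → ℕ} {f : α → ℕ → ℝ} (hm : PTB A m)
    (hf : PTQ A (fun p : α × Un => f p.1 p.2.v)) :
    PTQ A (fun a => ∏ i ∈ range (m a), f a i) := PTQ.prod hm.1 hm.2 hf

theorem PTQ.lit (n : ℕ) [n.AtLeastTwo] : PTQ A (fun _ : α => (OfNat.ofNat n : ℝ)) :=
  (PTQ.constZ (A := A) (α := α) (n : ℤ)).congr fun _ => by push_cast; rfl

theorem pt_even {m : α → ℕ} (hm : PT A m) : PT A (fun a => decide (Even (m a))) :=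
  (PT.odd hm).not.congr fun a => by
    rw [← decide_not]
    exact decide_eq_decide.2 (by rw [Nat.even_iff]; omega)

/-! ### Legendre polynomials -/

theorem ptq_mom {m : α → ℕ} (hm : PTB A m) : PTQ A (fun a => mom (m a)) := by
  unfold mom
  exact PTQ.ite (pt_even hm.1) (PTQ.one.div (hm.q.add PTQ.one)) PTQ.zero

theorem ptq_lpc {l m : α → ℕ} (hl : PTB A l) (hm : PTB A m) :
    PTQ A (fun a => lpc (l a) (m a)) := by
  have h1 : PTB A (fun a => (l a - m a) / 2) := (hl.sub hm).div (PTB.const 2)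
  have h2 : PTB A (fun a => (l a + m a) / 2) := (hl.add hm).div (PTB.const 2)
  unfold lpc
  exact PTQ.ite (PT.decide_and (PT.le hm.1 hl.1) (pt_even (hl.sub hm).1))
    (((PTQ.one.neg.pw h1).mul (hl.add hm).fac).div
      ((((PTQ.lit 2).pw hl).mul h1.fac).mul h2.fac |>.mul hm.fac)) PTQ.zero

theorem ptq_mu {m L : α → ℕ} (hm : PTB A m) (hL : PTB A L) :
    PTQ A (fun a => mu (m a) (L a)) := by
  unfold mu
  exact PTQ.sm hL.succ ((ptq_lpc hL.w PTB.u).mul (ptq_mom (hm.w.add PTB.u)))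

theorem ptq_tri {x y z : α → ℕ} (hx : PTB A x) (hy : PTB A y) (hz : PTB A z) :
    PTQ A (fun a => tri (x a) (y a) (z a)) := by
  unfold tri
  exact PTQ.sm hx.succ (PTQ.sm hy.succ.w (((ptq_lpc hx.w.w PTB.u.w).mul
    (ptq_lpc hy.w.w PTB.u)).mul (ptq_mu (PTB.u.w.add PTB.u) hz.w.w)))

theorem ptq_zc {n L : α → ℕ} (hn : PTB A n) (hL : PTB A L) :
    PTQ A (fun a => zc (n a) (L a)) := by
  unfold zc
  exact PTQ.sm hn (((PTQ.one.neg.pw PTB.u).mul ((hn.sub (PTB.const 1)).w.cho PTB.u)).mul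
    (ptq_mu PTB.u.two hL.w))

theorem ptq_lpv {l : α → ℕ} {x : α → ℝ} (hl : PTB A l) (hx : PTQ A x) :
    PTQ A (fun a => lpv (l a) (x a)) := by
  unfold lpv
  exact PTQ.sm hl.succ ((ptq_lpc hl.w PTB.u).mul (hx.w.pw PTB.u))

/-! ### radial integrals -/

theorem ptq_Jf {p q : α → ℕ} {x y : α → ℝ} (hp : PTB A p) (hq : PTB A q) (hx : PTQ A x)
    (hy : PTQ A y) : PTQ A (fun a => Jf (p a) (q a) (x a) (y a)) := by
  unfold Jf
  exact PTQ.sm hq.succ (((hq.w.fac.div PTB.u.fac).mul (hp.w.add PTB.u).fac).div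
    ((hy.w.pw (hq.succ.w.sub PTB.u)).mul ((hx.w.add hy.w).pw (hp.w.add PTB.u).succ)))

theorem ptq_Phi {u v L : α → ℕ} {x y : α → ℝ} (hu : PTB A u) (hv : PTB A v) (hL : PTB A L)
    (hx : PTQ A x) (hy : PTQ A y) : PTQ A (fun a => Phi (u a) (v a) (L a) (x a) (y a)) := by
  unfold Phi
  exact (ptq_Jf (hu.add hL) ((hv.sub hL).sub (PTB.const 1)) hx hy).add
    (ptq_Jf (hv.add hL) ((hu.sub hL).sub (PTB.const 1)) hy hx)

theorem ptq_kp {k : α → ℕ} (hk : PTB A k) : PTQ A (fun a => kp (k a)) := by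
  unfold kp
  exact PTQ.one.div (hk.q.add PTQ.one)

theorem ptq_lag {k l j : α → ℕ} (hk : PTB A k) (hl : PTB A l) (hj : PTB A j) :
    PTQ A (fun a => lag (k a) (l a) (j a)) := by
  unfold lag
  exact PTQ.pr hj (((PTQ.lit 2).mul (((ptq_kp hk.w).mul ((PTB.u.q.add hl.w.q).add
    PTQ.one)).sub PTQ.one)).div ((PTB.u.q.add PTQ.one).mul
    ((PTB.u.q.add ((PTQ.lit 2).mul hl.w.q)).add (PTQ.lit 2))))

theorem ptq_nrm {k l : α → ℕ} (hk : PTB A k) (hl : PTB A l) :
    PTQ A (fun a => nrm (k a) (l a)) := by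
  unfold nrm
  exact PTQ.sm (hk.succ.sub hl) (PTQ.sm (hk.succ.sub hl).w
    (((ptq_lag hk.w.w hl.w.w PTB.u.w).mul (ptq_lag hk.w.w hl.w.w PTB.u)).mul
      (((((hl.w.w.two.add (PTB.const 2)).add PTB.u.w).add PTB.u).fac).div
        (((PTQ.lit 2).mul (ptq_kp hk.w.w)).pw
          (((hl.w.w.two.add (PTB.const 3)).add PTB.u.w).add PTB.u)))))

theorem ptq_sld {k l k' l' : α → ℕ} (hk : PTB A k) (hl : PTB A l) (hk' : PTB A k')
    (hl' : PTB A l') : PTQ A (fun a => sld (k a) (l a) (k' a) (l' a)) := by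
  unfold sld
  refine PTQ.div (PTQ.sm (hk.succ.sub hl) (PTQ.sm (hk.succ.sub hl).w
    (PTQ.sm (hk'.succ.sub hl').w.w (PTQ.sm (hk'.succ.sub hl').w.w.w ?_))))
    ((ptq_nrm hk hl).mul (ptq_nrm hk' hl'))
  exact ((((ptq_lag hk.w.w.w.w hl.w.w.w.w PTB.u.w.w.w).mul
    (ptq_lag hk.w.w.w.w hl.w.w.w.w PTB.u.w.w)).mul
    (ptq_lag hk'.w.w.w.w hl'.w.w.w.w PTB.u.w)).mul
    (ptq_lag hk'.w.w.w.w hl'.w.w.w.w PTB.u)).mul
    (ptq_Phi (((hl.w.w.w.w.two.add (PTB.const 2)).add PTB.u.w.w.w).add PTB.u.w.w)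
      (((hl'.w.w.w.w.two.add (PTB.const 2)).add PTB.u.w).add PTB.u) (PTB.const 0)
      ((PTQ.lit 2).mul (ptq_kp hk.w.w.w.w)) ((PTQ.lit 2).mul (ptq_kp hk'.w.w.w.w)))

theorem ptq_slx {k l k' l' L : α → ℕ} (hk : PTB A k) (hl : PTB A l) (hk' : PTB A k')
    (hl' : PTB A l') (hL : PTB A L) :
    PTQ A (fun a => slx (k a) (l a) (k' a) (l' a) (L a)) := by
  unfold slx
  refine PTQ.div (PTQ.sm (hk.succ.sub hl) (PTQ.sm (hk.succ.sub hl).w
    (PTQ.sm (hk'.succ.sub hl').w.w (PTQ.sm (hk'.succ.sub hl').w.w.w ?_))))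
    ((ptq_nrm hk hl).mul (ptq_nrm hk' hl'))
  have hll : PTB A (fun a => l a + l' a + 2) := (hl.add hl').add (PTB.const 2)
  have hkk : PTQ A (fun a => kp (k a) + kp (k' a)) := (ptq_kp hk).add (ptq_kp hk')
  exact ((((ptq_lag hk.w.w.w.w hl.w.w.w.w PTB.u.w.w.w).mul
    (ptq_lag hk.w.w.w.w hl.w.w.w.w PTB.u.w.w)).mul
    (ptq_lag hk'.w.w.w.w hl'.w.w.w.w PTB.u.w)).mul
    (ptq_lag hk'.w.w.w.w hl'.w.w.w.w PTB.u)).mul
    (ptq_Phi ((hll.w.w.w.w.add PTB.u.w.w.w).add PTB.u.w)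
      ((hll.w.w.w.w.add PTB.u.w.w).add PTB.u) hL.w.w.w.w hkk.w.w.w.w hkk.w.w.w.w)

theorem ptq_pe2 {k l k' l' : α → ℕ} (hk : PTB A k) (hl : PTB A l) (hk' : PTB A k')
    (hl' : PTB A l') : PTQ A (fun a => pe2 (k a) (l a) (k' a) (l' a)) := by
  unfold pe2
  exact ((PTQ.lit 2).mul (ptq_sld hk hl hk' hl')).sub (PTQ.sm (hl.add hl').succ
    ((ptq_tri hl.w hl'.w PTB.u).mul (ptq_slx hk.w hl.w hk'.w hl'.w PTB.u)))

theorem ptq_closed3 {n : α → ℕ} (hn : PTB A n) : PTQ A (fun a => closed3 (n a)) := by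
  unfold closed3
  have h1 : PTB A (fun a => n a - 1) := hn.sub (PTB.const 1)
  exact PTQ.sm h1 (PTQ.sm PTB.u.succ (PTQ.sm h1.w.w (PTQ.sm PTB.u.succ
    (((((PTQ.lit 2).mul PTB.u.w.w.q).add PTQ.one).mul
      (((PTQ.lit 2).mul PTB.u.q).add PTQ.one)).mul
      (ptq_pe2 PTB.u.w.w.w PTB.u.w.w PTB.u.w PTB.u)))))

theorem ptq_mf {n : α → ℕ} (hn : PTB A n) : PTQ A (fun a => mf (n a)) := by
  unfold mf
  have h1 : PTB A (fun a => n a - 1) := hn.sub (PTB.const 1)
  exact PTQ.sm h1 (PTQ.sm PTB.u.succ ((((PTQ.lit 2).mul PTB.u.q).add PTQ.one).mul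
    (ptq_pe2 h1.w.w h1.w.w PTB.u.w PTB.u)))

/-! ### truncated series -/

theorem ptq_ser {N c : α → ℕ} {x ρ : α → ℝ} (hN : PTB A N) (hc : PTB A c) (hx : PTQ A x)
    (hρ : PTQ A ρ) : PTQ A (fun a => ser (N a) (c a) (x a) (ρ a)) := by
  unfold ser
  exact PTQ.sm hN ((((hx.w.neg.pw PTB.u).div PTB.u.fac).mul (hρ.w.pw (hc.w.add PTB.u))).mul
    ((PTQ.one.div (hc.w.q.add PTB.u.q)).sub
      (PTQ.one.div ((hc.w.q.add PTB.u.q).add PTQ.one))))

theorem ptq_gIs {N k l : α → ℕ} {ρ : α → ℝ} (hN : PTB A N) (hk : PTB A k) (hl : PTB A l)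
    (hρ : PTQ A ρ) : PTQ A (fun a => gIs (N a) (k a) (l a) (ρ a)) := by
  unfold gIs
  exact PTQ.div (PTQ.sm (hk.succ.sub hl) (PTQ.sm (hk.succ.sub hl).w
    (((ptq_lag hk.w.w hl.w.w PTB.u.w).mul (ptq_lag hk.w.w hl.w.w PTB.u)).mul
      (ptq_ser hN.w.w (((hl.w.w.two.add (PTB.const 2)).add PTB.u.w).add PTB.u)
        ((PTQ.lit 2).mul (ptq_kp hk.w.w)) hρ.w.w)))) (ptq_nrm hk hl)

theorem ptq_gms {N n : α → ℕ} {ρ : α → ℝ} (hN : PTB A N) (hn : PTB A n) (hρ : PTQ A ρ) :
    PTQ A (fun a => gms (N a) (n a) (ρ a)) := by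
  unfold gms
  exact PTQ.sm (hn.sub (PTB.const 1)) (PTQ.sm PTB.u.succ
    ((((PTQ.lit 2).mul PTB.u.q).add PTQ.one).mul (ptq_gIs hN.w.w PTB.u.w PTB.u hρ.w.w)))

theorem ptq_xrs {N n : α → ℕ} {ρ : α → ℝ} (hN : PTB A N) (hn : PTB A n) (hρ : PTQ A ρ) :
    PTQ A (fun a => xrs (N a) (n a) (ρ a)) := by
  unfold xrs
  exact (ptq_ser hN hn.two ((PTQ.lit 2).div hn.q) hρ).div (hn.two.fac.mul
    ((hn.q.div (PTQ.lit 2)).pw hn.two.succ))

/-! ### the sites -/

theorem ptq_W0 {n : α → ℕ} {x : α → ℝ} (hn : PTB A n) (hx : PTQ A x) :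
    PTQ A (fun a => W0 (n a) (x a)) := by
  unfold W0
  exact (((PTQ.lit 4).div ((hn.q.pw (hn.two.add (PTB.const 2))).mul
    ((hn.sub (PTB.const 1)).fac.pw (PTB.const 2)))).pw (PTB.const 2)).mul
    (PTQ.sm (hn.two.sub (PTB.const 1)) ((((ptq_zc hn.w PTB.u).pw (PTB.const 2)).mul
      (ptq_Phi hn.two.w hn.two.w PTB.u ((PTQ.lit 2).div hn.q).w
        ((PTQ.lit 2).div hn.q).w)).mul (ptq_lpv PTB.u hx.w)))

theorem ptq_hopx {n q : α → ℕ} {x : α → ℝ} (hn : PTB A n) (hq : PTB A q) (hx : PTQ A x) :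
    PTQ A (fun a => hopx (n a) (q a) (x a)) := by
  have h1 : PTB A (fun a => n a - 1) := hn.sub (PTB.const 1)
  have h2 : PTB A (fun a => n a - 1 - q a) := h1.sub hq
  have h3 : PTQ A (fun a => 1 - x a ^ 2) := PTQ.one.sub (hx.pw (PTB.const 2))
  unfold hopx
  exact (((PTQ.one.div (PTQ.lit 2)).mul (((hn.two.sub (PTB.const 1)).fac.mul
    (h1.add hq).fac).mul hq.two.fac)).div
    ((((hn.two.add hq.two).sub (PTB.const 1)).fac.mul h2.fac).mul
      (hq.fac.pw (PTB.const 2)))).mul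
    (((h3.pw h2).mul (((hx.sub PTQ.one).pw hq.two).add ((hx.add PTQ.one).pw hq.two))).add
      (((hx.pw (PTB.const 2)).pw h2).mul ((PTQ.lit 2).mul (h3.pw hq))))

/-! ### the parameters -/

theorem ptb_pK {k : α → ℕ} (hk : PT A k) (hK : PBd (fun a => 2 ^ k a)) :
    PTB A (fun a => pK (k a)) := ⟨Alg.pt_aK hk hK, Alg.pbd_aK hK⟩

theorem ptb_pn {k : α → ℕ} (hk : PT A k) (hK : PBd (fun a => 2 ^ k a)) :
    PTB A (fun a => pn (k a)) := ⟨Alg.pt_an hk hK, Alg.pbd_an hK⟩

theorem ptb_pNs {k : α → ℕ} (hk : PT A k) (hK : PBd (fun a => 2 ^ k a)) :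
    PTB A (fun a => pNs (k a)) := (PTB.const 32).mul (ptb_pn hk hK)

theorem ptq_pρ {k : α → ℕ} (hk : PT A k) (hK : PBd (fun a => 2 ^ k a)) :
    PTQ A (fun a => pρ (k a)) := by
  unfold pρ
  exact PTQ.one.div ((PTQ.lit 2).pw ((PTB.const 16).mul ((ptb_pn hk hK).powC 2)))

theorem ptq_pL {k : α → ℕ} (hk : PT A k) (hK : PBd (fun a => 2 ^ k a)) :
    PTQ A (fun a => pL (k a)) := by
  unfold pL
  exact (PTQ.lit 2).pw ((ptb_pn hk hK).div ((PTB.const 4).mul ((ptb_pK hk hK).powC 2)))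

theorem ptq_pW {k : α → ℕ} (hk : PT A k) (hK : PBd (fun a => 2 ^ k a)) :
    PTQ A (fun a => pW (k a)) := by
  unfold pW
  exact (PTQ.lit 2).pw ((PTB.const 128).mul ((ptb_pn hk hK).powC 3))

theorem ptq_pT {k : α → ℕ} (hk : PT A k) (hK : PBd (fun a => 2 ^ k a)) :
    PTQ A (fun a => (pT (k a) : ℝ)) :=
  ((PTQ.lit 2).pw ((PTB.const 2000).mul ((ptb_pn hk hK).powC 3))).congr fun a => by
    rw [pT]
    push_cast
    rfl

theorem ptq_pη {k : α → ℕ} (hk : PT A k) (hK : PBd (fun a => 2 ^ k a)) :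
    PTQ A (fun a => pη (k a)) := by
  unfold pη
  exact PTQ.one.div ((PTQ.lit 2).pw (ptb_pn hk hK))

theorem ptq_Am {m : α → ℕ} (hm : PTB A m) : PTQ A (fun a => Am (m a)) := by
  unfold Am
  exact (((PTQ.lit 2).pw hm).mul (hm.fac.pw (PTB.const 2))).div hm.two.succ.fac

theorem ptq_gam {n : α → ℕ} (hn : PTB A n) : PTQ A (fun a => gam (n a)) := by
  have h1 : PTB A (fun a => n a - 1) := hn.sub (PTB.const 1)
  unfold gam
  exact ((ptq_Am h1.two).mul ((PTQ.lit 2).pw h1)).div ((PTQ.lit 2).mul (ptq_Am h1))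

/-! ### the cosines -/

/-- integer approximation of `2 ^ Q cos (π d / (2 K))`, clamped to the right interval -/
def xqn (k d : ℕ) : ℤ := min (2 ^ Alg.aQ k) (max 0 (Alg.cs k (d * 2 ^ (2047 * k + 4))))

/-- the cosines used by the algorithm -/
noncomputable def xq (k d : ℕ) : ℝ := (xqn k d : ℝ) / 2 ^ Alg.aQ k

theorem pt_xqn {k d : α → ℕ} (hk : PT A k) (hK : PBd (fun a => 2 ^ k a)) (hd : PT A d)
    (hdb : PBd d) : PT A (fun a => xqn (k a) (d a)) := by
  have hkb := Alg.pbd_k hK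
  have h1 : PT A (fun a => 2 ^ (2047 * k a + 4)) :=
    PT.twoPow (((PT.const 2047).mul hk).add (PT.const 4)) (by fun_prop)
  have h1b : PBd (fun a => 2 ^ (2047 * k a + 4)) :=
    ((hK.pow 2047).mul (PBd.const 16)).mono fun a => by
      rw [← pow_mul, pow_add, mul_comm (k a) 2047]; norm_num
  have h2 : PT A (fun a => Alg.cs (k a) (d a * 2 ^ (2047 * k a + 4))) :=
    Alg.pt_cs hk hK (hd.mul h1) (hdb.mul h1b)
  have h3 : PT A (fun a => (2 : ℤ) ^ Alg.aQ (k a)) :=
    PT.twoPowInt (Alg.pt_aQ hk hK) (Alg.pbd_aQ hK)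
  have h4 : PT A (fun a => max 0 (Alg.cs (k a) (d a * 2 ^ (2047 * k a + 4)))) :=
    (PT.ite (PT.intLe (PT.const 0) h2) h2 (PT.const 0)).congr fun a => by
      rw [max_def]
  exact (PT.ite (PT.intLe h3 h4) h3 h4).congr fun a => by
    rw [xqn, min_def]

theorem ptq_xq {k d : α → ℕ} (hk : PT A k) (hK : PBd (fun a => 2 ^ k a)) (hd : PT A d)
    (hdb : PBd d) : PTQ A (fun a => xq (k a) (d a)) := by
  unfold xq
  exact (PTQ.ofInt (pt_xqn hk hK hd hdb)).div ((PTQ.lit 2).pow (Alg.pt_aQ hk hK)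
    (Alg.pbd_aQ hK))

theorem ptq_erefx {k : α → ℕ} (hk : PT A k) (hK : PBd (fun a => 2 ^ k a)) :
    PTQ A (fun a => erefx (k a) (xq (k a))) := by
  have hn := ptb_pn hk hK
  have hN := ptb_pNs hk hK
  have hKK := ptb_pK hk hK
  have hT := ptq_pT hk hK
  have hW := ptq_pW hk hK
  have hρ := ptq_pρ hk hK
  have hL := ptq_pL hk hK
  have hx : PTQ A (fun p : α × Un => xq (k p.1) p.2.v) :=
    ptq_xq (k := fun p : α × Un => k p.1) (d := fun p : α × Un => p.2.v) (hk.comp PT.fst')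
      hK.compFst PTB.u.1 PBd.unSnd
  have hsum : PTQ A (fun a => ∑ d ∈ range (pK (k a)), if d = 0 then 0 else
        ((pK (k a) : ℝ) - d) * W0 (pn (k a)) (2 * xq (k a) d ^ 2 - 1)) :=
    PTQ.sm hKK (PTQ.ite (PT.eqNat PTB.u.1 (PT.const 0)) PTQ.zero
      ((hKK.w.q.sub PTB.u.q).mul (ptq_W0 hn.w
        (((PTQ.lit 2).mul (hx.pw (PTB.const 2))).sub PTQ.one))))
  unfold erefx
  exact ((hT.pw (PTB.const 2)).mul (((hn.q.sub PTQ.one).neg).sub
    (hKK.q.div ((PTQ.lit 2).mul (hn.q.pw (PTB.const 2)))))).add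
    (hT.mul (((((PTQ.lit 2).mul (hW.mul (ptq_gms hN hn hρ))).add (ptq_closed3 hn)).add
      (hKK.q.mul (((hW.mul (ptq_xrs hN hn hρ)).add (ptq_mf hn)).sub
        (hL.mul (ptq_gam hn))))).add hsum))

theorem ptq_kapx {k q d : α → ℕ} (hk : PT A k) (hK : PBd (fun a => 2 ^ k a)) (hq : PT A q)
    (hqb : PBd q) (hd : PT A d) (hdb : PBd d) :
    PTQ A (fun a => kapx (k a) (q a) (xq (k a) (d a))) := by
  have hn := ptb_pn hk hK
  have hx := ptq_xq hk hK hd hdb
  unfold kapx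
  exact ((PTQ.lit 2).mul (((ptq_pη hk hK).mul (ptq_hopx hn ⟨hq, hqb⟩ hx)).pw
    (PTB.const 2))).div ((ptq_W0 hn PTQ.one).sub (ptq_W0 hn
      (((PTQ.lit 2).mul (hx.pw (PTB.const 2))).sub PTQ.one)))

theorem ptq_pJ {k : α → ℕ} (hk : PT A k) (hK : PBd (fun a => 2 ^ k a)) :
    PTQ A (fun a => pJ (k a)) := by
  unfold pJ
  exact PTQ.one.div (((ptb_pn hk hK).q.pw (PTB.const 2)).mul
    ((ptb_pK hk hK).q.pw (PTB.const 256)))

end Vale.Agent.P370.KC
end
end

section

section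

/-!
Rounding errors and amplitude bounds.
-/

namespace Vale.Agent.P370.Q

open MeasureTheory Finset

namespace S4

theorem K_ge (k : ℕ) (hk : 10 ≤ k) : (1024 : ℝ) ≤ (pK k : ℝ) := by
  exact_mod_cast pK_ge k hk

theorem n_eq (k : ℕ) : (pn k : ℝ) = (pK k : ℝ) ^ 2048 := by
  exact_mod_cast pn_eq k

/-- small powers of `K` are below `n` -/
theorem Kpow_le_n (k : ℕ) (hk : 10 ≤ k) (c : ℕ) (hc : c ≤ 2048) :
    (pK k : ℝ) ^ c ≤ (pn k : ℝ) := by
  rw [n_eq]
  exact pow_le_pow_right₀ (by linarith only [K_ge k hk]) hc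

theorem n_ge (k : ℕ) (hk : 10 ≤ k) : (2 : ℝ) ^ 100 ≤ (pn k : ℝ) := by
  have h1 := Kpow_le_n k hk 10 (by norm_num)
  have h2 : (1024 : ℝ) ^ 10 ≤ (pK k : ℝ) ^ 10 := pow_le_pow_left₀ (by norm_num) (K_ge k hk) 10
  have h3 : (2 : ℝ) ^ 100 = 1024 ^ 10 := by norm_num
  linarith only [h1, h2]

theorem n_one_le (k : ℕ) (hk : 10 ≤ k) : (1 : ℝ) ≤ (pn k : ℝ) :=
  le_trans (by norm_num) (n_ge k hk)

theorem pe0_le (k : ℕ) : pe0 k ≤ pn k := Nat.div_le_self _ _

theorem npow_le (k : ℕ) (hk : 10 ≤ k) (c : ℕ) (hc : c ≤ 64) :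
    (pn k : ℝ) ^ c ≤ 2 ^ pn k := by
  refine (pn_pow_le k hk c hc).trans (pow_le_pow_right₀ (by norm_num) ?_)
  exact (Nat.div_le_self _ _).trans (pe0_le k)

theorem two_le_pn (k : ℕ) (hk : 10 ≤ k) : 2 ≤ pn k := (pn_even k hk).2

theorem norm_cdot_av_le (α : ℝ) (x : R3) : ‖cdot (av α) x‖ ≤ ‖x‖ := by
  rw [cdot_eq_lf, av_eq]
  exact GC.norm_lf_av_le α x

theorem abs_re_pow_le (α : ℝ) (x : R3) (hx : ‖x‖ = 1) (N : ℕ) :
    |(cdot (av α) x ^ N).re| ≤ 1 := by
  refine (Complex.abs_re_le_norm _).trans ?_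
  rw [norm_pow]
  refine pow_le_one₀ (norm_nonneg _) ?_
  rw [← hx]
  exact norm_cdot_av_le α x

end S4

/-- angular amplitudes -/
theorem amp_bounds (k : ℕ) (hk : 10 ≤ k) (q : ℕ → ℕ) (hq : GoodQ k q) (d : ℕ) (h1 : 1 ≤ d)
    (hd : d < pK k) : 1 / (64 * (pn k : ℝ) ^ 4) ≤ amp k q d ∧ amp k q d ≤ 1 := by
  have hn2 := S4.two_le_pn k hk
  have hqr := goodQ_range k hk q hq d h1 hd
  have hK := S4.K_ge k hk
  have hK0 : (0 : ℝ) < pK k := by linarith only [hK]
  have hpi := Real.pi_pos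
  have hd1 : (1 : ℝ) ≤ d := by exact_mod_cast h1
  have hd2 : (d : ℝ) + 1 ≤ pK k := by exact_mod_cast hd
  constructor
  · unfold amp
    have hδ0 : 0 < Real.pi * d / (2 * pK k) := by positivity
    have hδ1 : Real.pi * d / (2 * pK k) < Real.pi / 2 := by
      rw [div_lt_div_iff₀ (by (clear * - hK; (clear * - hK; positivity))) (by norm_num)]
      linarith only [hpi, mul_nonneg_of_nonpos_of_nonpos (le_of_lt (Mathlib.Tactic.Linarith.sub_neg_of_lt hpi)) (Mathlib.Tactic.Linarith.sub_nonpos_of_le hd2)]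
    refine hopA_lower (pn k) (q d) hn2 (Real.pi * d / (2 * pK k)) hδ0 hδ1 hqr.1 hqr.2
      (hq d h1 hd) ?_ 0
    -- lower bounds of sine and cosine
    have hsin : 1 / (pK k : ℝ) ≤ Real.sin (Real.pi * d / (2 * pK k)) := by
      have h := Real.mul_le_sin hδ0.le hδ1.le
      refine le_trans ?_ h
      have : 2 / Real.pi * (Real.pi * d / (2 * pK k)) = d / pK k := by
        field_simp
      rw [this]
      (clear * - hd1 hK; gcongr)
    have hcos : 1 / (pK k : ℝ) ≤ Real.cos (Real.pi * d / (2 * pK k)) := by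
      have h := Real.mul_le_sin (x := Real.pi / 2 - Real.pi * d / (2 * pK k)) (by linarith only [hδ1])
        (by linarith only [hδ0])
      rw [Real.sin_pi_div_two_sub] at h
      refine le_trans ?_ h
      have : 2 / Real.pi * (Real.pi / 2 - Real.pi * d / (2 * pK k)) = (pK k - d) / pK k := by
        (clear * - hK; field_simp)
      rw [this]
      gcongr
      linarith only [hd2]
    have h0 : 0 < 1 / (pK k : ℝ) := by positivity
    have hs2 : (1 / (pK k : ℝ)) ^ 2 ≤ Real.sin (Real.pi * d / (2 * pK k)) ^ 2 :=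
      pow_le_pow_left₀ h0.le hsin 2
    have hc2 : (1 / (pK k : ℝ)) ^ 2 ≤ Real.cos (Real.pi * d / (2 * pK k)) ^ 2 :=
      pow_le_pow_left₀ h0.le hcos 2
    have hn5 := S4.Kpow_le_n k hk 5 (by norm_num)
    have hnn : (0 : ℝ) ≤ (pn k : ℝ) - 1 := by linarith only [S4.n_one_le k hk]
    calc (64 : ℝ) ≤ ((pn k : ℝ) - 1) * ((1 / (pK k : ℝ)) ^ 2 * (1 / (pK k : ℝ)) ^ 2) := by
          have : ((pn k : ℝ) - 1) * ((1 / (pK k : ℝ)) ^ 2 * (1 / (pK k : ℝ)) ^ 2) =
              ((pn k : ℝ) - 1) / (pK k : ℝ) ^ 4 := by (clear * - hK; field_simp)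
          rw [this, le_div_iff₀ (by (clear * - hK; positivity))]
          have h5 : (1024 : ℝ) * (pK k : ℝ) ^ 4 ≤ (pK k : ℝ) ^ 5 := by
            rw [pow_succ (pK k : ℝ) 4, mul_comm]
            (clear * - hK; gcongr)
          have h6 : (1 : ℝ) ≤ (pK k : ℝ) ^ 4 := one_le_pow₀ (by linarith only [hK])
          linarith only [hn5, h5, h6]
      _ ≤ ((pn k : ℝ) - 1) * (Real.cos (Real.pi * d / (2 * pK k)) ^ 2 *
            Real.sin (Real.pi * d / (2 * pK k)) ^ 2) := by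
          (clear * - hc2 hs2 hK hnn; gcongr)
      _ = _ := by ring
  · unfold amp
    set α : ℝ := 0 + Real.pi * d / (2 * pK k) with hα
    set β : ℝ := 0 - Real.pi * d / (2 * pK k) with hβ
    obtain ⟨P, hP, hPe⟩ := fsite_InV (pn k) (by (clear * - hn2; omega)) α
    obtain ⟨P', hP', hPe'⟩ := fsite_InV (pn k) (by omega) β
    have h := dev_contr (pn k) (q d) hn2 0 hP hP'
    rw [← hPe, ← hPe', site_ov_ff (pn k) hn2, site_ov_ff (pn k) hn2] at h
    have hnf := nf_pos (pn k) (by omega)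
    have hone : nf (pn k) * (((1 + Real.cos (α - α)) / 2) ^ (pn k - 1) +
        ((1 - Real.cos (α - α)) / 2) ^ (pn k - 1)) = nf (pn k) := by
      rw [sub_self, Real.cos_zero]
      norm_num
      rw [zero_pow (by omega), add_zero, mul_one]
    have hone' : nf (pn k) * (((1 + Real.cos (β - β)) / 2) ^ (pn k - 1) +
        ((1 - Real.cos (β - β)) / 2) ^ (pn k - 1)) = nf (pn k) := by
      rw [sub_self, Real.cos_zero]
      norm_num
      rw [zero_pow (by omega), add_zero, mul_one]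
    rw [hone, hone', Real.sqrt_mul_self hnf.le] at h
    have hpe : ∀ {Q : Poly3} {γ : ℝ}, fsite (pn k) γ = vfun (pn k) Q → ∀ x : R3,
        (cdot (av γ) x ^ (pn k - 1)).re = pe Q x := by
      intro Q γ hQ x
      have h1 := congrFun hQ x
      unfold fsite vfun at h1
      exact mul_right_cancel₀ (Real.exp_ne_zero _) h1
    unfold hopA
    simp only [hpe hPe, hpe hPe']
    have h2 := (le_abs_self _).trans h
    rw [div_mul_eq_mul_div, div_le_one hnf]
    exact h2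

/-- gaps of the direct Coulomb matrix -/
theorem gap_bounds (k : ℕ) (hk : 10 ≤ k) (d : ℕ) (h1 : 1 ≤ d) (hd : d < pK k) :
    1 / (2 ^ 31 * (pK k : ℝ) ^ 2 * (pn k : ℝ) ^ 2) ≤
        wdir (pn k) 0 - wdir (pn k) (Real.pi * d / pK k) ∧
      wdir (pn k) 0 - wdir (pn k) (Real.pi * d / pK k) ≤ (pK k : ℝ) ^ 2 / (pn k : ℝ) ^ 2 := by
  have hn2 := S4.two_le_pn k hk
  have hK := S4.K_ge k hk
  have hKn := pK_ge k hk
  have hnpos : (0 : ℝ) < pn k := lt_of_lt_of_le one_pos (S4.n_one_le k hk)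
  constructor
  · have hcond : 2 ^ 30 * pK k ^ 4 ≤ pn k := by
      have h7 : pK k ^ 7 ≤ pn k := by
        rw [pn_eq]
        exact pow_le_pow_right₀ (le_trans (by norm_num) hKn) (by norm_num)
      refine le_trans ?_ h7
      rw [show (7 : ℕ) = 3 + 4 from rfl, pow_add]
      refine Nat.mul_le_mul_right _ ?_
      calc 2 ^ 30 = 1024 ^ 3 := by norm_num
        _ ≤ pK k ^ 3 := Nat.pow_le_pow_left hKn 3
    let i0 : Fin (pK k) := ⟨0, by omega⟩
    let i1 : Fin (pK k) := ⟨d, hd⟩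
    have hne : i0 ≠ i1 := by
      intro h
      have := congrArg Fin.val h
      simp only [i0, i1] at this
      omega
    have h := wdir_pd (pn k) (pK k) (by omega) hcond
      (fun i => if i = i0 then 1 else if i = i1 then -1 else 0)
      (by
        intro i
        by_cases ha : i = i0
        · simp [ha]
        · by_cases hb : i = i1
          · simp [hb, hne.symm]
          · simp only [ha, ↓reduceIte, hb, abs_zero, zero_le_one])
      (by
        intro h0
        have := congrFun h0 i0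
        simp only [↓reduceIte, Pi.zero_apply, one_ne_zero] at this)
    have hsum : ∀ F : Fin (pK k) → Fin (pK k) → ℝ,
        ∑ i, ∑ j, (((if i = i0 then (1 : ℤ) else if i = i1 then -1 else 0 : ℤ) : ℝ) *
          ((if j = i0 then (1 : ℤ) else if j = i1 then -1 else 0 : ℤ) : ℝ)) * F i j =
        F i0 i0 - F i0 i1 - F i1 i0 + F i1 i1 := by
      intro F
      have hx : ∀ G : Fin (pK k) → ℝ,
          ∑ i, ((if i = i0 then (1 : ℤ) else if i = i1 then -1 else 0 : ℤ) : ℝ) * G i =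
            G i0 - G i1 := by
        intro G
        rw [← Finset.sum_subset (s₁ := {i0, i1}) (subset_univ _)]
        · rw [Finset.sum_pair hne]
          simp only [↓reduceIte, Int.cast_one, one_mul, hne.symm, Int.reduceNeg, Int.cast_neg, neg_mul]
          ring
        · intro i _ hi
          simp only [mem_insert, mem_singleton, not_or] at hi
          simp [hi.1, hi.2]
      have : ∀ i, ∑ j, (((if i = i0 then (1 : ℤ) else if i = i1 then -1 else 0 : ℤ) : ℝ) *
          ((if j = i0 then (1 : ℤ) else if j = i1 then -1 else 0 : ℤ) : ℝ)) * F i j =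
          ((if i = i0 then (1 : ℤ) else if i = i1 then -1 else 0 : ℤ) : ℝ) *
            (F i i0 - F i i1) := by
        intro i
        rw [← hx (F i), Finset.mul_sum]
        refine Finset.sum_congr rfl fun j _ => ?_
        ring
      rw [Finset.sum_congr rfl fun i _ => this i, hx (fun i => F i i0 - F i i1)]
      ring
    rw [hsum (fun i j => wdir (pn k) (Real.pi * (i : ℕ) / pK k - Real.pi * (j : ℕ) / pK k))] at h
    simp only [i0, i1, Nat.cast_zero, mul_zero, zero_div, sub_self, sub_zero, zero_sub,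
      wdir_even (pn k) hn2] at h
    have he : (1 : ℝ) / (2 ^ 31 * (pK k : ℝ) ^ 2 * (pn k : ℝ) ^ 2) =
        (1 / (2 ^ 30 * (pK k : ℝ) ^ 2 * (pn k : ℝ) ^ 2)) / 2 := by
      have hK0 : (0 : ℝ) < pK k := by linarith only [hK]
      (clear * - hn2 hKn; field_simp)
    rw [he]
    linarith only [h]
  · have ha := (wdir_bounds (pn k) hn2 0).2
    have hb := (wdir_bounds (pn k) hn2 (Real.pi * d / pK k)).1
    have hc : (42 + 6 * Real.log (pn k)) / (pn k : ℝ) ^ 2 ≤ (pK k : ℝ) ^ 2 / (pn k : ℝ) ^ 2 := by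
      gcongr
      exact (log_pn_le k hk).2
    linarith only [ha, hb, hc]

theorem kap_bounds (k : ℕ) (hk : 10 ≤ k) (q : ℕ → ℕ) (hq : GoodQ k q) (d : ℕ) (h1 : 1 ≤ d)
    (hd : d < pK k) : 1 / 2 ^ (4 * pn k) ≤ kap k q d ∧ kap k q d ≤ 1 / 2 ^ pn k := by
  have hqr := goodQ_range k hk q hq d h1 hd
  have hn1 := S4.n_one_le k hk
  have hK := S4.K_ge k hk
  obtain ⟨ha1, ha2⟩ := amp_bounds k hk q hq d h1 hd
  obtain ⟨hz1, hz2⟩ := zt_bounds k (2 * q d) hk (by omega) (by omega)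
  obtain ⟨hg1, hg2⟩ := gap_bounds k hk d h1 hd
  have hN2 := S4.Kpow_le_n k hk 2 (by norm_num)
  have hN4 := S4.Kpow_le_n k hk 4 (by norm_num)
  have hbig := S4.n_ge k hk
  have hp := S4.npow_le k hk 10 (by norm_num)
  have hE : (2 : ℝ) ^ (4 * pn k) = ((2 : ℝ) ^ pn k) ^ 4 := by rw [mul_comm, pow_mul]
  rw [hE]
  unfold kap pη
  set n : ℝ := (pn k : ℝ) with hn
  set K : ℝ := (pK k : ℝ) with hKdef
  set E : ℝ := (2 : ℝ) ^ pn k with hEdef
  set z := zt k (2 * q d)
  set a := amp k q d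
  set G := wdir (pn k) 0 - wdir (pn k) (Real.pi * d / pK k)
  have hE0 : 0 < E := by (clear * -; positivity)
  have hn0 : 0 < n := by linarith only [hbig]
  have hK0 : 0 < K := by linarith only [hK]
  have hG0 : 0 < G := lt_of_lt_of_le (by (clear * - hK hn1; (clear * - hK hn1; positivity))) hg1
  have hz0 : 0 < z := by linarith only [hz1]
  have ha0 : 0 < a := lt_of_lt_of_le (by (clear * - hn1; positivity)) ha1
  constructor
  · rw [le_div_iff₀ hG0]
    have h2 : 1 / E * (1 / 2) * (1 / (64 * n ^ 4)) ≤ 1 / E * z * a := by (clear * - hz1 ha1 hn1; gcongr)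
    have h3 : (1 / E * (1 / 2) * (1 / (64 * n ^ 4))) ^ 2 ≤ (1 / E * z * a) ^ 2 :=
      pow_le_pow_left₀ (by (clear * - hn1; positivity)) h2 2
    refine le_trans ?_ (mul_le_mul_of_nonneg_left h3 (by norm_num : (0 : ℝ) ≤ 2))
    refine (mul_le_mul_of_nonneg_left hg2 (by positivity)).trans ?_
    rw [div_mul_div_comm, one_mul, div_le_iff₀ (by positivity)]
    have e : 2 * (1 / E * (1 / 2) * (1 / (64 * n ^ 4))) ^ 2 * (E ^ 4 * n ^ 2) =
        E ^ 2 / (8192 * n ^ 6) := by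
      field_simp
      norm_num
    rw [e, le_div_iff₀ (by (clear * - hn1; positivity))]
    have h4 : E ^ 2 ≥ n ^ 10 * 1 := by
      have : (1 : ℝ) ≤ E := one_le_pow₀ (by norm_num)
      nlinarith only [hp, this]
    have h5 : K ^ 2 * (8192 * n ^ 6) ≤ n ^ 10 := by
      have h6 : (8192 : ℝ) ≤ n := le_trans (by norm_num) hbig
      calc K ^ 2 * (8192 * n ^ 6) ≤ n * (n * n ^ 6) := by (clear * - hN2 h6 hn1; gcongr)
        _ = n ^ 8 := by ring
        _ ≤ n ^ 10 := pow_le_pow_right₀ hn1 (by norm_num)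
    linarith only [h4, h5]
  · rw [div_le_iff₀ hG0]
    have h2 : 1 / E * z * a ≤ 1 / E * 2 * 1 := by gcongr
    have h3 : (1 / E * z * a) ^ 2 ≤ (1 / E * 2 * 1) ^ 2 :=
      pow_le_pow_left₀ (by (clear * - hz1 ha0; (clear * - hz1 ha0; positivity))) h2 2
    refine le_trans (mul_le_mul_of_nonneg_left h3 (by norm_num : (0 : ℝ) ≤ 2)) ?_
    refine le_trans ?_ (mul_le_mul_of_nonneg_left hg1 (by positivity))
    rw [one_div_mul_one_div_rev, le_div_iff₀ (by (clear * - hK hn1; positivity))]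
    have e : 2 * (1 / E * 2 * 1) ^ 2 * (2 ^ 31 * K ^ 2 * n ^ 2 * E) =
        (2 ^ 34 * K ^ 2 * n ^ 2) / E := by
      (clear * - hn1 hK hE0; field_simp)
    rw [e, div_le_one hE0]
    refine le_trans ?_ hp
    have h6 : (2 : ℝ) ^ 34 ≤ n := le_trans (by norm_num) hbig
    calc (2 : ℝ) ^ 34 * K ^ 2 * n ^ 2 ≤ n * n * n ^ 2 := by (clear * - h6 hN2 hK hn1; gcongr)
      _ = n ^ 4 := by ring
      _ ≤ n ^ 10 := pow_le_pow_right₀ hn1 (by norm_num)

/-- amplitudes are moderate -/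
theorem goodS_bound (k : ℕ) (hk : 10 ≤ k) (q : ℕ → ℕ) (hq : GoodQ k q) (s : ℕ → ℕ → ℕ)
    (hs : GoodS k q s) (i j : ℕ) (hij : i < j) (hj : j < pK k) :
    (s i j : ℝ) * pη k ≤ (pn k : ℝ) ^ 5 ∧
      |thop k q (j - i) (s i j)| ≤ 1 / ((pn k : ℝ) ^ 2 * (pK k : ℝ) ^ 126) := by
  have hd1 : 1 ≤ j - i := by omega
  have hd2 : j - i < pK k := by omega
  have hqr := goodQ_range k hk q hq (j - i) hd1 hd2
  have hn1 := S4.n_one_le k hk
  have hK := S4.K_ge k hk
  obtain ⟨ha1, ha2⟩ := amp_bounds k hk q hq (j - i) hd1 hd2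
  obtain ⟨hz1, hz2⟩ := zt_bounds k (2 * q (j - i)) hk (by omega) (by omega)
  obtain ⟨hg1, hg2⟩ := gap_bounds k hk (j - i) hd1 hd2
  have hbig := S4.n_ge k hk
  have h := hs i j hij hj
  unfold kap pJ at h
  unfold thop
  set n : ℝ := (pn k : ℝ) with hn
  set K : ℝ := (pK k : ℝ) with hKdef
  set z := zt k (2 * q (j - i))
  set a := amp k q (j - i)
  set G := wdir (pn k) 0 - wdir (pn k) (Real.pi * ((j - i : ℕ) : ℝ) / pK k)
  set e := pη k with he
  set x : ℝ := (s i j : ℝ)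
  have hn0 : 0 < n := by linarith only [hbig]
  have hK0 : 0 < K := by linarith only [hK]
  have hG0 : 0 < G := lt_of_lt_of_le (by (clear * - hK hn1; (clear * - hK hn1; positivity))) hg1
  have hz0 : 0 < z := by linarith only [hz1]
  have ha0 : 0 < a := lt_of_lt_of_le (by (clear * - hn1; positivity)) ha1
  have he0 : 0 < e := by rw [he]; unfold pη; positivity
  have hx0 : 0 ≤ x := Nat.cast_nonneg _
  have hT : 0 ≤ x * e * z * a := by (clear * - he0 hz1 ha0; positivity)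
  -- the main inequality
  have hsq : (x * e * z * a) ^ 2 ≤ (1 / (n ^ 2 * K ^ 126)) ^ 2 := by
    have h2 : 2 * (x * e * z * a) ^ 2 ≤ 16 * (1 / (n ^ 2 * K ^ 256)) * G := by
      rw [div_mul_eq_mul_div, div_le_iff₀ hG0] at h
      calc 2 * (x * e * z * a) ^ 2 = 2 * (e * z * a) ^ 2 * x ^ 2 := by ring
        _ ≤ _ := h
    have h3 : 16 * (1 / (n ^ 2 * K ^ 256)) * G ≤ 16 * (1 / (n ^ 2 * K ^ 256)) * (K ^ 2 / n ^ 2) := by
      (clear * - hg2 hn1 hK; gcongr)
    have h4 : 16 * (1 / (n ^ 2 * K ^ 256)) * (K ^ 2 / n ^ 2) =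
        (16 / K ^ 2) * (1 / (n ^ 2 * K ^ 126)) ^ 2 := by
      (clear * - hK hn1; field_simp)
    have h5 : 16 / K ^ 2 ≤ 2 := by
      rw [div_le_iff₀ (by (clear * - hK; (clear * - hK; positivity)))]
      nlinarith only [hK]
    have h6 : (0 : ℝ) ≤ (1 / (n ^ 2 * K ^ 126)) ^ 2 := by (clear * - hn1 hK; (clear * - hn1 hK; positivity))
    linarith only [mul_nonneg_of_nonpos_of_nonpos (Mathlib.Tactic.Linarith.sub_nonpos_of_le (sq_nonneg (1 / (n ^ 2 * K ^ 126)))) (Mathlib.Tactic.Linarith.sub_nonpos_of_le h5), h4, h3, h2]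
  have hle : x * e * z * a ≤ 1 / (n ^ 2 * K ^ 126) :=
    (pow_le_pow_iff_left₀ hT (by (clear * - hn1 hK; positivity)) (by norm_num)).1 hsq
  constructor
  · -- divide by `z a`
    have h7 : x * e * (1 / 2) * (1 / (64 * n ^ 4)) ≤ 1 := by
      calc x * e * (1 / 2) * (1 / (64 * n ^ 4)) ≤ x * e * z * a := by (clear * - hz1 he0 ha1 hn1; gcongr)
        _ ≤ 1 / (n ^ 2 * K ^ 126) := hle
        _ ≤ 1 := by
          rw [div_le_one (by (clear * - hn1 hK; positivity))]
          have : (1 : ℝ) ≤ n ^ 2 := one_le_pow₀ hn1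
          have : (1 : ℝ) ≤ K ^ 126 := one_le_pow₀ (by linarith only [hK])
          (clear hk q hq s hs i j hij hj hd1 hd2 hqr hbig hn hKdef z hz1 hz2 a ha2 ha1 G hg1 hg2 e he x h hn0 hK0 hG0 hz0 ha0 he0 hx0 hT hsq hle; nlinarith)
    have h8 : x * e * (1 / 2) * (1 / (64 * n ^ 4)) = x * e / (128 * n ^ 4) := by
      field_simp
      ring
    rw [h8, div_le_one (by (clear * - hn1; positivity))] at h7
    refine h7.trans ?_
    have h9 : (128 : ℝ) ≤ n := le_trans (by norm_num) hbig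
    calc 128 * n ^ 4 ≤ n * n ^ 4 := by (clear * - h9 hn1; gcongr)
      _ = n ^ 5 := by ring
  · rw [abs_neg, abs_of_nonneg hT]
    exact hle

namespace S4

theorem qw_nonneg (k : ℕ) (hk : 10 ≤ k) (a : ℕ) (ha : a < pD k) : 0 ≤ qw (pD k) a := by
  have h2 := two_le_pn k hk
  have hD : 2 ≤ pD k := by unfold pD; (clear * - h2; omega)
  have hE : Even (pD k) := by unfold pD; exact ⟨8 * pn k, by ring⟩
  unfold qw
  exact div_nonneg (le_trans (by (clear * - hD; positivity)) (fej_pos (pD k) hD hE a ha)) (Nat.cast_nonneg _)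

theorem qw_sum (k : ℕ) (hk : 10 ≤ k) :
    ∑ a ∈ range (pD k), ∑ _b ∈ range (pD k), qw (pD k) a = 1 := by
  have h2 := two_le_pn k hk
  have hD : 2 ≤ pD k := by unfold pD; omega
  have hE : Even (pD k) := by unfold pD; exact ⟨8 * pn k, by ring⟩
  rw [← fej_sum (pD k) hD hE]
  refine sum_congr rfl fun a _ => ?_
  rw [sum_const, card_range, nsmul_eq_mul]
  unfold qw
  have : (pD k : ℝ) ≠ 0 := by (clear * - hD; positivity)
  field_simp

/-- total strength of the devices -/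
noncomputable def tot (k : ℕ) : ℝ :=
  pW k + (pK k * (pL k * 2 ^ (34 * pn k ^ 3)) +
    pK k * (pK k * ((pn k : ℝ) ^ 5 * 2 ^ (34 * pn k ^ 3))))

theorem wex_le (k : ℕ) (hk : 10 ≤ k) (q : ℕ → ℕ) (hq : GoodQ k q) (s : ℕ → ℕ → ℕ)
    (hs : GoodS k q s) (a b : ℕ) (ha : a < pD k) :
    |wex k q s a b| ≤ qw (pD k) a * tot k := by
  have hn2 := two_le_pn k hk
  have hn1 := n_one_le k hk
  have hx : ‖node (pD k) a b‖ = 1 := norm_sp _ _
  have hW : 0 < pW k := by unfold pW; positivity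
  have hL : 0 < pL k := by unfold pL; positivity
  have hη : 0 < pη k := by unfold pη; positivity
  unfold wex tot
  rw [abs_mul, abs_of_nonneg (qw_nonneg k hk a ha)]
  refine mul_le_mul_of_nonneg_left ?_ (qw_nonneg k hk a ha)
  rw [add_assoc]
  refine (abs_add_le _ _).trans ?_
  rw [abs_of_pos hW]
  refine add_le_add le_rfl ?_
  refine (abs_add_le _ _).trans (add_le_add ?_ ?_)
  · refine (abs_sum_le_sum_abs _ _).trans ?_
    refine (sum_le_card_nsmul _ _ (pL k * 2 ^ (34 * pn k ^ 3)) fun i _ => ?_).trans ?_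
    · obtain ⟨hx1, hx2⟩ := Xu_le k (2 * (pn k - 1)) hk (by (clear * - hn2; omega))
      rw [abs_mul, abs_of_pos (mul_pos hL hx1)]
      calc pL k * Xu (pn k) (2 * (pn k - 1)) (pρ k) *
            |(cdot (av (pα k i)) (node (pD k) a b) ^ (2 * (pn k - 1))).re|
          ≤ pL k * Xu (pn k) (2 * (pn k - 1)) (pρ k) * 1 :=
            mul_le_mul_of_nonneg_left (abs_re_pow_le _ _ hx _) (mul_pos hL hx1).le
        _ ≤ pL k * 2 ^ (34 * pn k ^ 3) := by
            rw [mul_one]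
            exact mul_le_mul_of_nonneg_left hx2 hL.le
    · rw [card_range, nsmul_eq_mul]
  · refine (abs_sum_le_sum_abs _ _).trans ?_
    refine (sum_le_card_nsmul _ _ (pK k * ((pn k : ℝ) ^ 5 * 2 ^ (34 * pn k ^ 3)))
      fun j hj => ?_).trans ?_
    · rw [mem_range] at hj
      refine (abs_sum_le_sum_abs _ _).trans ?_
      refine (sum_le_card_nsmul _ _ ((pn k : ℝ) ^ 5 * 2 ^ (34 * pn k ^ 3))
        fun i hi => ?_).trans ?_
      · rw [mem_range] at hi
        have hqr := goodQ_range k hk q hq (j - i) (by omega) (by omega)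
        obtain ⟨hx1, hx2⟩ := Xu_le k (2 * q (j - i)) hk (by (clear * - hn2 hqr; omega))
        have hb := (goodS_bound k hk q hq s hs i j hi hj).1
        have hb0 : 0 ≤ (s i j : ℝ) * pη k := by (clear * - hη; positivity)
        rw [abs_mul, abs_of_nonneg (mul_nonneg hb0 hx1.le)]
        calc (s i j : ℝ) * pη k * Xu (pn k) (2 * q (j - i)) (pρ k) *
            |(cdot (av ((pα k i + pα k j) / 2)) (node (pD k) a b) ^ (2 * q (j - i))).re|
            ≤ (s i j : ℝ) * pη k * Xu (pn k) (2 * q (j - i)) (pρ k) * 1 :=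
              mul_le_mul_of_nonneg_left (abs_re_pow_le _ _ hx _) (mul_nonneg hb0 hx1.le)
          _ ≤ (pn k : ℝ) ^ 5 * 2 ^ (34 * pn k ^ 3) := by
              rw [mul_one]
              exact mul_le_mul hb hx2 hx1.le (by positivity)
      · rw [card_range, nsmul_eq_mul]
        refine mul_le_mul_of_nonneg_right ?_ (by positivity)
        exact_mod_cast hj.le
    · rw [card_range, nsmul_eq_mul]

theorem tot_le (k : ℕ) (hk : 10 ≤ k) : tot k ≤ 2 * pW k := by
  have hn1 := n_one_le k hk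
  have hn1' := two_le_pn k hk
  have hKn := Kpow_le_n k hk 1 (by norm_num)
  rw [pow_one] at hKn
  have hL : pL k ≤ 2 ^ pn k := by
    unfold pL
    exact pow_le_pow_right₀ (by norm_num) (Nat.div_le_self _ _)
  have hL0 : 0 < pL k := by unfold pL; positivity
  have h7 := npow_le k hk 7 (by norm_num)
  have h1 := npow_le k hk 1 (by norm_num)
  rw [pow_one] at h1
  have hK0 : (0 : ℝ) ≤ pK k := Nat.cast_nonneg _
  have hA : (pK k : ℝ) * (pL k * 2 ^ (34 * pn k ^ 3)) ≤
      2 ^ pn k * (2 ^ pn k * 2 ^ (34 * pn k ^ 3)) := by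
    gcongr
    exact hKn.trans h1
  have hB : (pK k : ℝ) * (pK k * ((pn k : ℝ) ^ 5 * 2 ^ (34 * pn k ^ 3))) ≤
      2 ^ pn k * (2 ^ pn k * 2 ^ (34 * pn k ^ 3)) := by
    calc (pK k : ℝ) * (pK k * ((pn k : ℝ) ^ 5 * 2 ^ (34 * pn k ^ 3)))
        ≤ (pn k : ℝ) * (pn k * ((pn k : ℝ) ^ 5 * 2 ^ (34 * pn k ^ 3))) := by gcongr
      _ = (pn k : ℝ) ^ 7 * 2 ^ (34 * pn k ^ 3) := by ring
      _ ≤ 2 ^ pn k * 2 ^ (34 * pn k ^ 3) := by (clear * - h7; gcongr)
      _ ≤ 2 ^ pn k * (2 ^ pn k * 2 ^ (34 * pn k ^ 3)) := by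
          gcongr
          have h9 : (1 : ℝ) ≤ 2 ^ pn k := one_le_pow₀ (by norm_num)
          have h10 : (0 : ℝ) ≤ 2 ^ (34 * pn k ^ 3) := by positivity
          nlinarith only [hn1, h10, h1]
  have hC : (2 : ℝ) ^ pn k * (2 ^ pn k * 2 ^ (34 * pn k ^ 3)) +
      2 ^ pn k * (2 ^ pn k * 2 ^ (34 * pn k ^ 3)) ≤ 2 ^ (128 * pn k ^ 3) := by
    have e : (2 : ℝ) ^ pn k * (2 ^ pn k * 2 ^ (34 * pn k ^ 3)) +
      2 ^ pn k * (2 ^ pn k * 2 ^ (34 * pn k ^ 3)) =
        2 ^ (1 + (pn k + (pn k + 34 * pn k ^ 3))) := by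
      rw [pow_add, pow_add, pow_add]
      ring
    rw [e]
    refine pow_le_pow_right₀ (by norm_num) ?_
    have h11 : pn k ≤ pn k ^ 3 := Nat.le_self_pow (by norm_num) _
    (clear * - hn1' h11; omega)
  unfold tot
  have : pW k = 2 ^ (128 * pn k ^ 3) := rfl
  linarith only [hA, hB, hC, this]

/-- sum over the flattened index set -/
theorem sum_flat (D : ℕ) (f : ℕ → ℕ → ℝ) :
    ∑ β : Fin (D * D), f ((β : ℕ) / D) ((β : ℕ) % D) = ∑ a ∈ range D, ∑ b ∈ range D, f a b := by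
  rw [← Fin.sum_univ_eq_sum_range (fun a => ∑ b ∈ range D, f a b) D]
  simp_rw [← Fin.sum_univ_eq_sum_range (fun b => f _ b) D]
  rw [← Fintype.sum_prod_type' (f := fun a b : Fin D => f (a : ℕ) (b : ℕ))]
  refine (Fintype.sum_equiv finProdFinEquiv _ _ fun p => ?_).symm
  have hD : 0 < D := lt_of_le_of_lt (Nat.zero_le _) p.1.isLt
  have h1 : ((finProdFinEquiv p : Fin (D * D)) : ℕ) = (p.2 : ℕ) + D * (p.1 : ℕ) := rfl
  rw [h1, Nat.add_mul_div_left _ _ hD, Nat.div_eq_of_lt p.2.isLt, zero_add,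
    Nat.add_mul_mod_self_left, Nat.mod_eq_of_lt p.2.isLt]

end S4

theorem wex_abs_sum (k : ℕ) (hk : 10 ≤ k) (q : ℕ → ℕ) (hq : GoodQ k q) (s : ℕ → ℕ → ℕ)
    (hs : GoodS k q s) :
    ∑ a ∈ range (pD k), ∑ b ∈ range (pD k), |wex k q s a b| ≤ 2 * pW k := by
  calc ∑ a ∈ range (pD k), ∑ b ∈ range (pD k), |wex k q s a b|
      ≤ ∑ a ∈ range (pD k), ∑ _b ∈ range (pD k), qw (pD k) a * S4.tot k := by
        refine sum_le_sum fun a ha => sum_le_sum fun b _ => ?_
        exact S4.wex_le k hk q hq s hs a b (mem_range.1 ha)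
    _ = (∑ a ∈ range (pD k), ∑ _b ∈ range (pD k), qw (pD k) a) * S4.tot k := by
        rw [sum_mul]
        refine sum_congr rfl fun a _ => ?_
        rw [sum_mul]
    _ = S4.tot k := by rw [S4.qw_sum k hk, one_mul]
    _ ≤ 2 * pW k := S4.tot_le k hk

/-- total light charge of an approximate instance -/
theorem approx_charge (k : ℕ) (hk : 10 ≤ k) (q : ℕ → ℕ) (hq : GoodQ k q) (s : ℕ → ℕ → ℕ)
    (hs : GoodS k q s) (w : Fin (pD k * pD k) → ℕ) (y : Fin (pD k * pD k) → R3)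
    (H : Approx k q s w y) : ∑ β, (w β : ℝ) ≤ 4 * pW k ∧ ∑ β, w β < pT k := by
  have hn2 := S4.two_le_pn k hk
  have h1 : ∑ β, (w β : ℝ) ≤ 4 * pW k := by
    calc ∑ β, (w β : ℝ) ≤ ∑ β : Fin (pD k * pD k),
          (|wex k q s ((β : ℕ) / pD k) ((β : ℕ) % pD k)| + 2) := by
          refine sum_le_sum fun β _ => ?_
          have h := (abs_le.1 (H.charge β)).2
          have h' := le_abs_self (wex k q s ((β : ℕ) / pD k) ((β : ℕ) % pD k))
          linarith only [h, h']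
      _ = ∑ a ∈ range (pD k), ∑ b ∈ range (pD k), |wex k q s a b| + (pD k * pD k : ℕ) * 2 := by
          rw [sum_add_distrib, S4.sum_flat (pD k) (fun a b => |wex k q s a b|)]
          simp only [sum_const, card_univ, Fintype.card_fin, nsmul_eq_mul, Nat.cast_mul]
      _ ≤ 2 * pW k + 2 * pW k := by
          refine add_le_add (wex_abs_sum k hk q hq s hs) ?_
          have h3 : ((pD k * pD k : ℕ) : ℝ) ≤ pW k := by
            have e : ((pD k * pD k : ℕ) : ℝ) = 256 * (pn k : ℝ) ^ 2 := by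
              unfold pD
              push_cast
              ring
            rw [e]
            have h5 := S4.npow_le k hk 3 (by norm_num)
            have h6 : (256 : ℝ) ≤ pn k := le_trans (by norm_num) (S4.n_ge k hk)
            calc 256 * (pn k : ℝ) ^ 2 ≤ (pn k : ℝ) * (pn k : ℝ) ^ 2 := by gcongr
              _ = (pn k : ℝ) ^ 3 := by ring
              _ ≤ 2 ^ pn k := h5
              _ ≤ pW k := by
                unfold pW
                refine pow_le_pow_right₀ (by norm_num) ?_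
                have h11 : pn k ≤ pn k ^ 3 := Nat.le_self_pow (by norm_num) _
                omega
          linarith only [h3]
      _ = 4 * pW k := by ring
  refine ⟨h1, ?_⟩
  have h2 : ((∑ β, w β : ℕ) : ℝ) < (pT k : ℝ) := by
    push_cast
    refine lt_of_le_of_lt h1 ?_
    have e : 4 * pW k = 2 ^ (128 * pn k ^ 3 + 2) := by
      unfold pW
      rw [pow_add]
      ring
    rw [e]
    unfold pT
    push_cast
    refine pow_lt_pow_right₀ (by norm_num) ?_
    have h11 : pn k ≤ pn k ^ 3 := Nat.le_self_pow (by norm_num) _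
    omega
  exact_mod_cast h2

/-- rounding errors of the first order form -/
theorem rounding (k : ℕ) (hk : 10 ≤ k) (q : ℕ → ℕ) (hq : GoodQ k q) (s : ℕ → ℕ → ℕ)
    (hs : GoodS k q s) (w : Fin (pD k * pD k) → ℕ) (y : Fin (pD k * pD k) → R3)
    (H : Approx k q s w y) {a b : ℕ} (ha : 1 ≤ a) (hb : 1 ≤ b) {φ ψ : R3 → ℝ}
    (hφ : IsShell a φ) (hψ : IsShell b ψ) :
    |∑ β, (w β : ℝ) * gm (y β) φ ψ - hex k q s φ ψ| ≤
      1 / 2 ^ (15 * pn k ^ 2) * Real.sqrt (ov φ φ * ov ψ ψ) := by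
  have hn2 := S4.two_le_pn k hk
  have hρ : 0 < pρ k := by unfold pρ; positivity
  set R : ℝ := Real.sqrt (ov φ φ * ov ψ ψ) with hR
  have hR0 : 0 ≤ R := Real.sqrt_nonneg _
  set ε : ℝ := 1 / 2 ^ (200 * pn k ^ 3) with hε
  have hε0 : 0 < ε := by positivity
  have hερ : ε ≤ pρ k := by
    rw [hε]
    unfold pρ
    refine one_div_le_one_div_of_le (by positivity) (pow_le_pow_right₀ (by norm_num) ?_)
    have : pn k ^ 2 ≤ pn k ^ 3 := Nat.pow_le_pow_right (by omega) (by norm_num)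
    omega
  have hx : ∀ β : Fin (pD k * pD k), ‖pρ k • node (pD k) ((β : ℕ) / pD k) ((β : ℕ) % pD k)‖ =
      pρ k := by
    intro β
    rw [norm_smul, Real.norm_eq_abs, abs_of_pos hρ]
    have : ‖node (pD k) ((β : ℕ) / pD k) ((β : ℕ) % pD k)‖ = 1 := norm_sp _ _
    rw [this, mul_one]
  have hterm : ∀ β : Fin (pD k * pD k),
      |(w β : ℝ) * gm (y β) φ ψ - wex k q s ((β : ℕ) / pD k) ((β : ℕ) % pD k) *
        gm (pρ k • node (pD k) ((β : ℕ) / pD k) ((β : ℕ) % pD k)) φ ψ| ≤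
      2 * (16 * (2 * pρ k) * R) +
        |wex k q s ((β : ℕ) / pD k) ((β : ℕ) % pD k)| * (16 * ε * R) := by
    intro β
    have hy : ‖y β‖ ≤ 2 * pρ k := by
      have h1 := norm_le_norm_add_norm_sub'
        (y β) (pρ k • node (pD k) ((β : ℕ) / pD k) ((β : ℕ) % pD k))
      have h2 := H.pos β
      rw [hx β] at h1
      linarith only [hερ, h1, h2]
    have hg1 : |gm (y β) φ ψ| ≤ 16 * (2 * pρ k) * R := by
      refine (gm_bound ha hb hφ hψ (y β)).trans ?_
      (clear * - hy; gcongr)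
    have hg2 : |gm (y β) φ ψ -
        gm (pρ k • node (pD k) ((β : ℕ) / pD k) ((β : ℕ) % pD k)) φ ψ| ≤ 16 * ε * R := by
      refine (gm_lip ha hb hφ hψ _ _).trans ?_
      have h2 := H.pos β
      gcongr
    have e : (w β : ℝ) * gm (y β) φ ψ - wex k q s ((β : ℕ) / pD k) ((β : ℕ) % pD k) *
        gm (pρ k • node (pD k) ((β : ℕ) / pD k) ((β : ℕ) % pD k)) φ ψ =
        ((w β : ℝ) - wex k q s ((β : ℕ) / pD k) ((β : ℕ) % pD k)) * gm (y β) φ ψ +
        wex k q s ((β : ℕ) / pD k) ((β : ℕ) % pD k) * (gm (y β) φ ψ -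
          gm (pρ k • node (pD k) ((β : ℕ) / pD k) ((β : ℕ) % pD k)) φ ψ) := by ring
    rw [e]
    refine (abs_add_le _ _).trans (add_le_add ?_ ?_)
    · rw [abs_mul]
      exact mul_le_mul (H.charge β) hg1 (abs_nonneg _) (by norm_num)
    · rw [abs_mul]
      exact mul_le_mul_of_nonneg_left hg2 (abs_nonneg _)
  have hhex : hex k q s φ ψ = ∑ β : Fin (pD k * pD k),
      wex k q s ((β : ℕ) / pD k) ((β : ℕ) % pD k) *
        gm (pρ k • node (pD k) ((β : ℕ) / pD k) ((β : ℕ) % pD k)) φ ψ := by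
    rw [S4.sum_flat (pD k) (fun a b => wex k q s a b * gm (pρ k • node (pD k) a b) φ ψ)]
    rfl
  rw [hhex, ← sum_sub_distrib]
  refine (abs_sum_le_sum_abs _ _).trans ((sum_le_sum fun β _ => hterm β).trans ?_)
  rw [sum_add_distrib, sum_const, card_univ, Fintype.card_fin, nsmul_eq_mul, ← sum_mul,
    S4.sum_flat (pD k) (fun a b => |wex k q s a b|)]
  have hw := wex_abs_sum k hk q hq s hs
  have hD : ((pD k * pD k : ℕ) : ℝ) = 256 * (pn k : ℝ) ^ 2 := by
    unfold pD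
    push_cast
    ring
  rw [hD]
  have hfin : 256 * (pn k : ℝ) ^ 2 * (2 * (16 * (2 * pρ k))) + 2 * pW k * (16 * ε) ≤
      1 / 2 ^ (15 * pn k ^ 2) := by
    have h1 : 256 * (pn k : ℝ) ^ 2 * (2 * (16 * (2 * pρ k))) ≤ 1 / 2 * (1 / 2 ^ (15 * pn k ^ 2)) := by
      have e : pρ k = 1 / 2 ^ (15 * pn k ^ 2) * (1 / 2 ^ (pn k ^ 2)) := by
        unfold pρ
        rw [one_div_mul_one_div, ← pow_add]
        congr 2
        ring
      rw [e]
      have h3 := S4.npow_le k hk 3 (by norm_num)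
      have h4 : (2 : ℝ) ^ pn k ≤ 2 ^ (pn k ^ 2) :=
        pow_le_pow_right₀ (by norm_num) (Nat.le_self_pow (by norm_num) _)
      have h6 : (32768 : ℝ) ≤ pn k := le_trans (by norm_num) (S4.n_ge k hk)
      have h7 : 256 * (pn k : ℝ) ^ 2 * 64 * (1 / 2 ^ (pn k ^ 2)) ≤ 1 / 2 := by
        rw [mul_one_div, div_le_iff₀ (by positivity)]
        have : (32768 : ℝ) * (pn k : ℝ) ^ 2 ≤ (pn k : ℝ) ^ 3 := by
          rw [pow_succ (pn k : ℝ) 2, mul_comm]
          (clear * - h6 hn2; gcongr)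
        linarith only [h3, h4, this]
      have h8 : (0 : ℝ) ≤ 1 / 2 ^ (15 * pn k ^ 2) := by positivity
      linarith only [mul_nonneg_of_nonpos_of_nonpos (Mathlib.Tactic.Linarith.sub_nonpos_of_le h7) (Mathlib.Tactic.Linarith.sub_nonpos_of_le h8)]
    have h2 : 2 * pW k * (16 * ε) ≤ 1 / 2 * (1 / 2 ^ (15 * pn k ^ 2)) := by
      have e : (2 : ℝ) ^ (200 * pn k ^ 3) = 2 ^ (128 * pn k ^ 3) * 2 ^ (72 * pn k ^ 3) := by
        rw [← pow_add]
        congr 1
        ring
      rw [hε, e]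
      unfold pW
      have e2 : 2 * 2 ^ (128 * pn k ^ 3) *
          (16 * (1 / ((2 : ℝ) ^ (128 * pn k ^ 3) * 2 ^ (72 * pn k ^ 3)))) =
          32 / 2 ^ (72 * pn k ^ 3) := by
        field_simp
        norm_num
      rw [e2, one_div_mul_one_div, div_le_div_iff₀ (by positivity) (by positivity), one_mul]
      have e3 : (32 : ℝ) * (2 * 2 ^ (15 * pn k ^ 2)) = 2 ^ (15 * pn k ^ 2 + 6) := by
        rw [pow_add]
        ring
      rw [e3]
      refine pow_le_pow_right₀ (by norm_num) ?_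
      have h9 : pn k ^ 2 ≤ pn k ^ 3 := Nat.pow_le_pow_right (by omega) (by norm_num)
      have h10 : 2 ^ 2 ≤ pn k ^ 2 := Nat.pow_le_pow_left hn2 2
      (clear * - h9 h10; omega)
    linarith only [h1, h2]
  have : 256 * (pn k : ℝ) ^ 2 * (2 * (16 * (2 * pρ k) * R)) +
      (∑ a ∈ range (pD k), ∑ b ∈ range (pD k), |wex k q s a b|) * (16 * ε * R) ≤
      (256 * (pn k : ℝ) ^ 2 * (2 * (16 * (2 * pρ k))) + 2 * pW k * (16 * ε)) * R := by
    have h5 : 0 ≤ 16 * ε * R := by (clear * -; positivity)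
    have := mul_le_mul_of_nonneg_right hw h5
    linarith only [this]
  exact this.trans (mul_le_mul_of_nonneg_right hfin hR0)

end Vale.Agent.P370.Q
end
end

section

section

/-!
The orthonormal site orbitals and the adapted shell basis.
-/

namespace Vale.Agent.P370.Q

open MeasureTheory Finset

theorem St2_ov_fh (n : ℕ) (hn : 2 ≤ n) (α β : ℝ) :
    ov (fh n α) (fh n β) =
      ((1 + Real.cos (α - β)) / 2) ^ (n - 1) + ((1 - Real.cos (α - β)) / 2) ^ (n - 1) := by
  have hp : 0 < nf n := nf_pos n (by omega)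
  have hs : Real.sqrt (nf n) * Real.sqrt (nf n) = nf n := Real.mul_self_sqrt hp.le
  have hs0 : Real.sqrt (nf n) ≠ 0 := (Real.sqrt_pos.2 hp).ne'
  have e : ov (fh n α) (fh n β) = (nf n)⁻¹ * ov (fsite n α) (fsite n β) := by
    unfold ov
    rw [← integral_const_mul]
    congr 1
    funext x
    unfold fh
    rw [div_mul_div_comm, hs]
    ring
  rw [e, site_ov_ff n hn, ← mul_assoc, inv_mul_cancel₀ hp.ne', one_mul]

theorem St2_cos_bounds {K : ℕ} (hK : 2 ≤ K) {a : ℝ} (h1 : 1 / (K : ℝ) ≤ a) (h2 : a ≤ 1 - 1 / K) :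
    (1 + Real.cos (Real.pi * a)) / 2 ≤ 1 - 1 / (K : ℝ) ^ 2 ∧
      (1 - Real.cos (Real.pi * a)) / 2 ≤ 1 - 1 / (K : ℝ) ^ 2 := by
  have hK0 : (0 : ℝ) < K := by (clear * - hK; positivity)
  have hpi := Real.pi_pos
  have ha0 : 0 < a := lt_of_lt_of_le (by (clear * - hK; positivity)) h1
  have hK1 : 0 < 1 / (K : ℝ) := by positivity
  have hcos : Real.cos (Real.pi * a) = 1 - 2 * Real.sin (Real.pi * a / 2) ^ 2 := by
    have := Real.cos_sq_add_sin_sq (Real.pi * a / 2)
    rw [show Real.pi * a = 2 * (Real.pi * a / 2) by ring, Real.cos_two_mul]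
    rw [show 2 * (Real.pi * a / 2) / 2 = Real.pi * a / 2 by ring]
    linarith only [this]
  have hcos2 : Real.cos (Real.pi * a) = 2 * Real.cos (Real.pi * a / 2) ^ 2 - 1 := by
    rw [show Real.pi * a = 2 * (Real.pi * a / 2) by ring, Real.cos_two_mul]
    rw [show 2 * (Real.pi * a / 2) / 2 = Real.pi * a / 2 by ring]
  have hs : a ≤ Real.sin (Real.pi * a / 2) := by
    have := Real.mul_le_sin (x := Real.pi * a / 2) (by (clear * - ha0; positivity)) (by nlinarith only [h2, hpi, hK1])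
    have e : 2 / Real.pi * (Real.pi * a / 2) = a := by (clear * - ha0; field_simp)
    linarith only [this, e]
  have hc : 1 - a ≤ Real.cos (Real.pi * a / 2) := by
    have := Real.mul_le_sin (x := Real.pi / 2 - Real.pi * a / 2) (by nlinarith only [h2, hpi, hK1]) (by linarith only [mul_pos_of_neg_of_neg (Mathlib.Tactic.Linarith.sub_neg_of_lt hpi) (Mathlib.Tactic.Linarith.sub_neg_of_lt ha0)])
    rw [Real.sin_pi_div_two_sub] at this
    have e : 2 / Real.pi * (Real.pi / 2 - Real.pi * a / 2) = 1 - a := by (clear * -; field_simp)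
    linarith only [this, e]
  have e1 : 1 / (K : ℝ) ^ 2 = (1 / (K : ℝ)) ^ 2 := by ring
  constructor
  · rw [hcos, e1]
    have h3 : (1 / (K : ℝ)) ^ 2 ≤ Real.sin (Real.pi * a / 2) ^ 2 :=
      pow_le_pow_left₀ hK1.le (h1.trans hs) 2
    linarith only [h3]
  · rw [hcos2, e1]
    have h3 : (1 / (K : ℝ)) ^ 2 ≤ Real.cos (Real.pi * a / 2) ^ 2 :=
      pow_le_pow_left₀ hK1.le (by linarith only [h2, hc]) 2
    linarith only [h3]

/-- the numerical inequality behind the overlaps -/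
theorem St2_small {K n e0 : ℕ} (hK : 1024 ≤ K) (hn : n = K ^ 2048) (he : 4 * K ^ 2 * e0 = n)
    {c : ℝ} (hc0 : 0 ≤ c) (hc : c ≤ 1 - 1 / (K : ℝ) ^ 2) :
    c ^ (n - 1) ≤ 1 / (32 * K * 2 ^ (4 * e0)) := by
  have hK0 : (0 : ℝ) < K := by
    have : 0 < K := by omega
    exact_mod_cast this
  have hK1 : (1024 : ℝ) ≤ K := by exact_mod_cast hK
  have h4 : 4 * e0 = K ^ 2046 := by
    have h : K ^ 2 * (4 * e0) = K ^ 2 * K ^ 2046 := by
      rw [← pow_add, show 2 + 2046 = 2048 from rfl, ← hn, ← he]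
      ring
    exact Nat.eq_of_mul_eq_mul_left (by positivity) h
  have hn1 : 1 ≤ n := by
    rw [hn]
    exact Nat.one_le_pow _ _ (by omega)
  have h5 : c ≤ Real.exp (-(1 / (K : ℝ) ^ 2)) := by
    have := Real.add_one_le_exp (-(1 / (K : ℝ) ^ 2))
    linarith only [hc, this]
  have h6 : c ^ (n - 1) ≤ Real.exp 1 * Real.exp (-1) ^ (4 * e0) := by
    calc c ^ (n - 1) ≤ Real.exp (-(1 / (K : ℝ) ^ 2)) ^ (n - 1) := pow_le_pow_left₀ hc0 h5 _
      _ = Real.exp (1 / (K : ℝ) ^ 2) * Real.exp (-1) ^ (4 * e0) := by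
          rw [← Real.exp_nat_mul, ← Real.exp_nat_mul, ← Real.exp_add]
          congr 1
          have e1 : (n : ℝ) = 4 * (K : ℝ) ^ 2 * e0 := by
            rw [← he]; push_cast; ring
          rw [Nat.cast_sub hn1, e1]
          push_cast
          field_simp
          ring
      _ ≤ Real.exp 1 * Real.exp (-1) ^ (4 * e0) := by
          refine mul_le_mul_of_nonneg_right (Real.exp_le_exp.2 ?_) (by positivity)
          rw [div_le_one (by positivity)]
          linarith only [mul_nonneg_of_nonpos_of_nonpos (Mathlib.Tactic.Linarith.sub_nonpos_of_le (Mathlib.Tactic.Linarith.natCast_nonneg ℝ K)) (Mathlib.Tactic.Linarith.sub_nonpos_of_le hK1), hK1]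
  refine h6.trans ?_
  have hexp : (2.7 : ℝ) ≤ Real.exp 1 := by
    have := Real.exp_one_gt_d9
    linarith only [this]
  have hexp2 : Real.exp 1 ≤ 3 := by
    have := Real.exp_one_lt_d9
    linarith only [this]
  have h7 : (96 : ℝ) * K ≤ (Real.exp 1 / 2) ^ (4 * e0) := by
    calc (96 : ℝ) * K ≤ 1 + (4 * e0 : ℕ) * 0.35 := by
          rw [h4]
          have : (K : ℝ) ^ 2 ≤ ((K ^ 2046 : ℕ) : ℝ) := by
            rw [Nat.cast_pow]
            exact pow_le_pow_right₀ (by linarith only [hK1]) (by norm_num)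
          nlinarith only [hK1, this]
      _ ≤ (1 + 0.35) ^ (4 * e0) := one_add_mul_le_pow (by norm_num) _
      _ ≤ (Real.exp 1 / 2) ^ (4 * e0) := by
          refine pow_le_pow_left₀ (by norm_num) ?_ _
          linarith only [hexp]
  rw [Real.exp_neg, inv_pow, le_div_iff₀ (by positivity)]
  have hE : 0 < Real.exp 1 ^ (4 * e0) := by positivity
  have h8 : Real.exp 1 ^ (4 * e0) = (Real.exp 1 / 2) ^ (4 * e0) * 2 ^ (4 * e0) := by
    rw [← mul_pow]
    congr 1
    ring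
  have h9 : (96 : ℝ) * K * 2 ^ (4 * e0) ≤ Real.exp 1 ^ (4 * e0) := by
    rw [h8]
    exact mul_le_mul_of_nonneg_right h7 (by positivity)
  have h10 : 3 * (Real.exp 1 ^ (4 * e0))⁻¹ * (32 * K * 2 ^ (4 * e0)) ≤ 1 := by
    rw [show 3 * (Real.exp 1 ^ (4 * e0))⁻¹ * (32 * K * 2 ^ (4 * e0)) =
      (96 * K * 2 ^ (4 * e0)) / Real.exp 1 ^ (4 * e0) by ring]
    rw [div_le_one hE]
    exact h9
  refine le_trans ?_ h10
  refine mul_le_mul_of_nonneg_right ?_ (by positivity)
  exact mul_le_mul_of_nonneg_right hexp2 (by positivity)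

/-- overlaps of different sites -/
theorem site_overlap (k : ℕ) (hk : 10 ≤ k) (i j : Fin (pK k)) :
    |ov (fh (pn k) (pα k i)) (fh (pn k) (pα k j)) - if i = j then 1 else 0| ≤
      1 / (16 * pK k * 2 ^ (4 * pe0 k)) := by
  have hn := (pn_even k hk).2
  have hK := pK_ge k hk
  have hK0 : (0 : ℝ) < pK k := by
    have : 0 < pK k := by omega
    exact_mod_cast this
  rw [St2_ov_fh _ hn]
  by_cases hij : i = j
  · subst hij
    rw [if_pos rfl, sub_self, Real.cos_zero, sub_self, zero_div, zero_pow (by omega)]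
    (clear * -; norm_num)
  · rw [if_neg hij, sub_zero]
    have main : ∀ a : ℝ, 1 / (pK k : ℝ) ≤ a → a ≤ 1 - 1 / pK k →
        |((1 + Real.cos (Real.pi * a)) / 2) ^ (pn k - 1) +
          ((1 - Real.cos (Real.pi * a)) / 2) ^ (pn k - 1)| ≤
            1 / (16 * pK k * 2 ^ (4 * pe0 k)) := by
      intro a h1 h2
      have hb := St2_cos_bounds (by omega) h1 h2
      have p1 : 0 ≤ (1 + Real.cos (Real.pi * a)) / 2 := by
        have := Real.neg_one_le_cos (Real.pi * a)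
        linarith only [this]
      have p2 : 0 ≤ (1 - Real.cos (Real.pi * a)) / 2 := by
        have := Real.cos_le_one (Real.pi * a)
        linarith only [this]
      have q1 := St2_small hK (pn_eq k) (pe0_eq k hk).1 p1 hb.1
      have q2 := St2_small hK (pn_eq k) (pe0_eq k hk).1 p2 hb.2
      rw [abs_of_nonneg (by (clear * - p1 p2; positivity))]
      have e : 1 / (16 * (pK k : ℝ) * 2 ^ (4 * pe0 k)) = 1 / (32 * pK k * 2 ^ (4 * pe0 k)) +
          1 / (32 * pK k * 2 ^ (4 * pe0 k)) := by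
        field_simp
        norm_num
      rw [e]
      exact add_le_add q1 q2
    have hlt : ∀ u v : Fin (pK k), u < v → 1 / (pK k : ℝ) ≤ ((v : ℕ) - (u : ℕ) : ℝ) / pK k ∧
        ((v : ℕ) - (u : ℕ) : ℝ) / pK k ≤ 1 - 1 / pK k := by
      intro u v huv
      have h1 : (u : ℕ) + 1 ≤ (v : ℕ) := huv
      have h2 : (v : ℕ) + 1 ≤ pK k := v.2
      have h3 : ((u : ℕ) : ℝ) + 1 ≤ ((v : ℕ) : ℝ) := by exact_mod_cast h1
      have h4 : ((v : ℕ) : ℝ) + 1 ≤ (pK k : ℝ) := by exact_mod_cast h2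
      have h5 : (0 : ℝ) ≤ ((u : ℕ) : ℝ) := by positivity
      constructor
      · rw [div_le_div_iff_of_pos_right hK0]
        linarith only [h3]
      · rw [div_le_iff₀ hK0, sub_mul, div_mul_cancel₀ _ hK0.ne']
        linarith only [h4]
    rcases lt_or_gt_of_ne hij with h | h
    · obtain ⟨h1, h2⟩ := hlt i j h
      have h3 := main _ h1 h2
      have e : Real.cos (pα k i - pα k j) = Real.cos (Real.pi * (((j : ℕ) - (i : ℕ) : ℝ) / pK k)) := by
        rw [← Real.cos_neg]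
        congr 1
        unfold pα
        ring
      rw [e]
      exact h3
    · obtain ⟨h1, h2⟩ := hlt j i h
      have h3 := main _ h1 h2
      have e : Real.cos (pα k i - pα k j) = Real.cos (Real.pi * (((i : ℕ) - (j : ℕ) : ℝ) / pK k)) := by
        congr 1
        unfold pα
        ring
      rw [e]
      exact h3

theorem St2_sqrt_bound {l e : ℝ} (he : 16 * e ≤ 1) (h : |l - 1| ≤ e) :
    |(Real.sqrt l)⁻¹ - 1| ≤ e := by
  have h1 := (abs_le.1 h).1
  have h2 := (abs_le.1 h).2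
  have hl : 0 < l := by linarith
  have hs : 0 < Real.sqrt l := Real.sqrt_pos.2 hl
  have hss : Real.sqrt l * Real.sqrt l = l := Real.mul_self_sqrt hl.le
  have e1 : (Real.sqrt l)⁻¹ - 1 = (1 - l) / (Real.sqrt l * (1 + Real.sqrt l)) := by
    field_simp
    linarith only [hss]
  have hge : 1 ≤ Real.sqrt l * (1 + Real.sqrt l) := by
    have h3 : 15 / 16 ≤ l := by linarith only [he, h1]
    have h4 : 15 / 16 ≤ Real.sqrt l := by
      apply Real.le_sqrt_of_sq_le
      linarith only [he, h1]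
    linarith only [he, h1, hss, h4]
  rw [e1, abs_div, abs_of_pos (a := Real.sqrt l * (1 + Real.sqrt l)) (by positivity), abs_sub_comm]
  rw [div_le_iff₀ (by positivity)]
  have : 0 ≤ e := le_trans (abs_nonneg _) h
  linarith only [mul_nonneg_of_nonpos_of_nonpos (Mathlib.Tactic.Linarith.sub_nonpos_of_le hge) (Mathlib.Tactic.Linarith.sub_nonpos_of_le h2), mul_nonneg_of_nonpos_of_nonpos (Mathlib.Tactic.Linarith.sub_nonpos_of_le h1) (Mathlib.Tactic.Linarith.sub_nonpos_of_le hge), h]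

/-- near-orthonormal families can be orthonormalised -/
theorem near_ortho {K : ℕ} (hK : 1 ≤ K) (G : Fin K → Fin K → ℝ) (hsym : ∀ i j, G i j = G j i)
    (ε : ℝ) (hε : 16 * K * ε ≤ 1) (h : ∀ i j, |G i j - if i = j then 1 else 0| ≤ ε) :
    ∃ Cm : Fin K → Fin K → ℝ, (∀ i j, |Cm i j - if i = j then 1 else 0| ≤ 16 * K * ε) ∧
      ∀ i j, ∑ a, ∑ b, Cm i a * Cm j b * G a b = if i = j then 1 else 0 := by
  classical
  have hK0 : (0 : ℝ) < K := by exact_mod_cast hK
  have hε0 : 0 ≤ ε := le_trans (abs_nonneg _) (h ⟨0, hK⟩ ⟨0, hK⟩)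
  set A : Matrix (Fin K) (Fin K) ℝ := Matrix.of G with hA
  have hH : A.IsHermitian := by
    ext i j
    simp [hA, Matrix.conjTranspose_apply, hsym i j]
  set U : Matrix (Fin K) (Fin K) ℝ := (hH.eigenvectorUnitary : Matrix (Fin K) (Fin K) ℝ) with hU
  set lam := hH.eigenvalues with hlam
  have hUU : U * star U = 1 := Unitary.mul_star_self_of_mem hH.eigenvectorUnitary.2
  have hUU' : star U * U = 1 := Unitary.star_mul_self_of_mem hH.eigenvectorUnitary.2
  have hspec : A = U * Matrix.diagonal lam * star U := by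
    have := hH.spectral_theorem
    rw [Unitary.conjStarAlgAut_apply] at this
    simpa only [RCLike.ofReal_real_eq_id, CompTriple.comp_eq] using this
  have hd : star U * A * U = Matrix.diagonal lam := by
    rw [hspec]
    calc star U * (U * Matrix.diagonal lam * star U) * U
        = (star U * U) * Matrix.diagonal lam * (star U * U) := by simp only [Matrix.mul_assoc]
      _ = _ := by rw [hUU', Matrix.one_mul, Matrix.mul_one]
  -- column orthonormality
  have hcol : ∀ i, ∑ a, U a i ^ 2 = 1 := by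
    intro i
    have := congrFun (congrFun hUU' i) i
    rw [Matrix.mul_apply, Matrix.one_apply_eq] at this
    rw [← this]
    exact Finset.sum_congr rfl fun a _ => by
      rw [Matrix.star_apply, star_trivial]; ring
  have hrow : ∀ i, ∑ a, U i a ^ 2 = 1 := by
    intro i
    have := congrFun (congrFun hUU i) i
    rw [Matrix.mul_apply, Matrix.one_apply_eq] at this
    rw [← this]
    exact Finset.sum_congr rfl fun a _ => by
      rw [Matrix.star_apply, star_trivial]; ring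
  -- eigenvalues
  have hev : ∀ i, |lam i - 1| ≤ K * ε := by
    intro i
    have e1 : lam i = ∑ a, ∑ b, U a i * U b i * G a b := by
      have := congrFun (congrFun hd i) i
      rw [Matrix.diagonal_apply_eq, Matrix.mul_assoc, Matrix.mul_apply] at this
      rw [← this]
      refine Finset.sum_congr rfl fun a _ => ?_
      rw [Matrix.mul_apply, Finset.mul_sum]
      refine Finset.sum_congr rfl fun b _ => ?_
      rw [Matrix.star_apply, star_trivial, hA, Matrix.of_apply]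
      ring
    have e2 : (1 : ℝ) = ∑ a, ∑ b, U a i * U b i * (if a = b then 1 else 0) := by
      refine (hcol i).symm.trans (Finset.sum_congr rfl fun a _ => ?_)
      rw [Finset.sum_eq_single a]
      · rw [if_pos rfl]; ring
      · intro b _ hb
        rw [if_neg hb.symm, mul_zero]
      · intro hh
        exact absurd (Finset.mem_univ a) hh
    have e3 : lam i - 1 = ∑ a, ∑ b, U a i * U b i * (G a b - if a = b then 1 else 0) := by
      conv_lhs => rw [e1, e2]
      rw [← Finset.sum_sub_distrib]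
      refine Finset.sum_congr rfl fun a _ => ?_
      rw [← Finset.sum_sub_distrib]
      exact Finset.sum_congr rfl fun b _ => by ring
    rw [e3]
    calc |∑ a, ∑ b, U a i * U b i * (G a b - if a = b then 1 else 0)|
        ≤ ∑ a, ∑ b, |U a i| * |U b i| * ε := by
          refine (Finset.abs_sum_le_sum_abs _ _).trans (Finset.sum_le_sum fun a _ => ?_)
          refine (Finset.abs_sum_le_sum_abs _ _).trans (Finset.sum_le_sum fun b _ => ?_)
          rw [abs_mul, abs_mul]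
          exact mul_le_mul_of_nonneg_left (h a b) (by (clear * -; positivity))
      _ = (∑ a, |U a i|) ^ 2 * ε := by
          rw [sq, Finset.sum_mul_sum, Finset.sum_mul]
          refine Finset.sum_congr rfl fun a _ => ?_
          rw [Finset.sum_mul]
      _ ≤ (K * ∑ a, |U a i| ^ 2) * ε := by
          refine mul_le_mul_of_nonneg_right ?_ hε0
          have := sq_sum_le_card_mul_sum_sq (s := Finset.univ) (f := fun a => |U a i|)
          simpa only [sq_abs, ge_iff_le, card_univ, Fintype.card_fin] using this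
      _ = K * ε := by
          simp only [sq_abs]
          rw [hcol i, mul_one]
  have h16 : 16 * ((K : ℝ) * ε) ≤ 1 := by linarith only [hε]
  have hpos : ∀ i, 0 < lam i := by
    intro i
    have := (abs_le.1 (hev i)).1
    linarith only [hε, this]
  set D : Matrix (Fin K) (Fin K) ℝ := Matrix.diagonal fun i => (Real.sqrt (lam i))⁻¹ with hD
  set Cm : Matrix (Fin K) (Fin K) ℝ := U * D * star U with hCm
  have hDt : star D = D := by
    rw [hD, Matrix.star_eq_conjTranspose, Matrix.diagonal_conjTranspose]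
    congr 1
  have hCt : star Cm = Cm := by
    rw [hCm, star_mul, star_mul, star_star, hDt, Matrix.mul_assoc]
  have hDDD : D * Matrix.diagonal lam * D = 1 := by
    rw [hD, Matrix.diagonal_mul_diagonal, Matrix.diagonal_mul_diagonal, ← Matrix.diagonal_one]
    congr 1
    funext i
    have hs : 0 < Real.sqrt (lam i) := Real.sqrt_pos.2 (hpos i)
    have hss : Real.sqrt (lam i) * Real.sqrt (lam i) = lam i := Real.mul_self_sqrt (hpos i).le
    field_simp
    linarith only [hss]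
  have hfin : Cm * A * star Cm = 1 := by
    rw [hCt, hspec, hCm]
    calc U * D * star U * (U * Matrix.diagonal lam * star U) * (U * D * star U)
        = U * (D * ((star U * U) * Matrix.diagonal lam * (star U * U)) * D) * star U := by
          simp only [Matrix.mul_assoc]
      _ = 1 := by
          rw [hUU', Matrix.one_mul, Matrix.mul_one, hDDD, Matrix.mul_one, hUU]
  refine ⟨fun i j => Cm i j, ?_, ?_⟩
  · intro i j
    have e1 : Cm i j = ∑ a, U i a * U j a * (Real.sqrt (lam a))⁻¹ := by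
      rw [hCm, Matrix.mul_apply]
      refine Finset.sum_congr rfl fun a _ => ?_
      rw [hD, Matrix.mul_diagonal, Matrix.star_apply, star_trivial]
      ring
    have e2 : (if i = j then (1 : ℝ) else 0) = ∑ a, U i a * U j a := by
      have := congrFun (congrFun hUU i) j
      rw [Matrix.mul_apply, Matrix.one_apply] at this
      rw [← this]
      exact Finset.sum_congr rfl fun a _ => by rw [Matrix.star_apply, star_trivial]
    show |Cm i j - (if i = j then (1 : ℝ) else 0)| ≤ 16 * K * ε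
    rw [e1, e2, ← Finset.sum_sub_distrib]
    calc |∑ a, (U i a * U j a * (Real.sqrt (lam a))⁻¹ - U i a * U j a)|
        ≤ ∑ a, |U i a| * |U j a| * (K * ε) := by
          refine (Finset.abs_sum_le_sum_abs _ _).trans (Finset.sum_le_sum fun a _ => ?_)
          rw [show U i a * U j a * (Real.sqrt (lam a))⁻¹ - U i a * U j a =
            U i a * U j a * ((Real.sqrt (lam a))⁻¹ - 1) by ring, abs_mul, abs_mul]
          exact mul_le_mul_of_nonneg_left (St2_sqrt_bound h16 (hev a)) (by (clear * -; positivity))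
      _ = (∑ a, |U i a| * |U j a|) * (K * ε) := by rw [Finset.sum_mul]
      _ ≤ 1 * (K * ε) := by
          refine mul_le_mul_of_nonneg_right ?_ (by (clear * - hK hε0; positivity))
          calc ∑ a, |U i a| * |U j a| ≤ ∑ a, (U i a ^ 2 + U j a ^ 2) / 2 := by
                refine Finset.sum_le_sum fun a _ => ?_
                have := sq_nonneg (|U i a| - |U j a|)
                rw [sub_sq, sq_abs, sq_abs] at this
                linarith only [this]
            _ = 1 := by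
                rw [← Finset.sum_div, Finset.sum_add_distrib, hrow, hrow]
                norm_num
      _ ≤ 16 * K * ε := by linarith only [mul_nonneg hK0.le hε0]
  · intro i j
    have := congrFun (congrFun hfin i) j
    rw [Matrix.mul_apply, Matrix.one_apply] at this
    rw [← this, Finset.sum_comm]
    refine Finset.sum_congr rfl fun b _ => ?_
    rw [Matrix.mul_apply, Finset.sum_mul]
    refine Finset.sum_congr rfl fun a _ => ?_
    rw [Matrix.star_apply, star_trivial, hA, Matrix.of_apply]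
    ring

/-- linear combinations of functions in the top subspace -/
theorem St2_InV_sum {n K : ℕ} (a : Fin K → ℝ) (f : Fin K → R3 → ℝ) (hf : ∀ j, InV n (f j)) :
    InV n (fun x => ∑ j, a j * f j x) := by
  choose P hP using hf
  refine ⟨∑ j, a j • P j, ?_, ?_⟩
  · have h : (∑ j, a j • P j) ∈ Hyd.Harm (n - 1) :=
      Submodule.sum_mem _ fun j _ => Submodule.smul_mem _ _ (Hyd.mem_Harm.2 (hP j).1)
    exact Hyd.mem_Harm.1 h
  · funext x
    unfold vfun pe
    rw [map_sum, Finset.sum_mul]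
    refine Finset.sum_congr rfl fun j _ => ?_
    rw [(hP j).2]
    unfold vfun pe
    rw [MvPolynomial.smul_eval]
    ring

theorem St2_InV_fh (n : ℕ) (hn : 1 ≤ n) (α : ℝ) : InV n (fh n α) := by
  have := St2_InV_sum (K := 1) (fun _ => 1 / Real.sqrt (nf n)) (fun _ => fsite n α)
    (fun _ => fsite_InV n hn α)
  have e : fh n α = fun x => ∑ _j : Fin 1, (1 / Real.sqrt (nf n)) * fsite n α x := by
    funext x
    unfold fh
    rw [Fin.sum_univ_one]
    ring
  rw [e]
  exact this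

theorem St2_ov_sum {K : ℕ} (a b : Fin K → ℝ) (f : Fin K → R3 → ℝ) (hf : ∀ j, Nice (f j)) :
    ov (fun x => ∑ i, a i * f i x) (fun x => ∑ j, b j * f j x) =
      ∑ i, ∑ j, a i * b j * ov (f i) (f j) := by
  unfold ov
  have hint : ∀ i j, Integrable (fun x => a i * b j * (f i x * f j x)) := fun i j =>
    (nice_integrable_rinv (hf i) (hf j)).2.const_mul _
  have e : (fun x : R3 => (∑ i, a i * f i x) * ∑ j, b j * f j x) =
      fun x => ∑ i, ∑ j, a i * b j * (f i x * f j x) := by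
    funext x
    rw [Finset.sum_mul_sum]
    refine Finset.sum_congr rfl fun i _ => Finset.sum_congr rfl fun j _ => ?_
    ring
  rw [e, integral_finsetSum _ fun i _ => integrable_finsetSum _ fun j _ => hint i j]
  refine Finset.sum_congr rfl fun i _ => ?_
  rw [integral_finsetSum _ fun j _ => hint i j]
  refine Finset.sum_congr rfl fun j _ => ?_
  rw [integral_const_mul]

theorem St2_nice_fh (n : ℕ) (hn : 1 ≤ n) (α : ℝ) : Nice (fh n α) :=
  ((St2_InV_fh n hn α).isShell hn).nice hn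

theorem St2_ov_gS (k : ℕ) (hk : 10 ≤ k) (Cm : Fin (pK k) → Fin (pK k) → ℝ) (i j : Fin (pK k)) :
    ov (gS k Cm i) (gS k Cm j) =
      ∑ a, ∑ b, Cm i a * Cm j b * ov (fh (pn k) (pα k a)) (fh (pn k) (pα k b)) := by
  have hn := (pn_even k hk).2
  exact St2_ov_sum (Cm i) (Cm j) (fun a => fh (pn k) (pα k a))
    (fun a => St2_nice_fh _ (by omega) _)

theorem St2_gS_InV (k : ℕ) (hk : 10 ≤ k) (Cm : Fin (pK k) → Fin (pK k) → ℝ) (i : Fin (pK k)) :
    InV (pn k) (gS k Cm i) := by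
  have hn := (pn_even k hk).2
  exact St2_InV_sum (Cm i) (fun a => fh (pn k) (pα k a)) (fun a => St2_InV_fh _ (by omega) _)

theorem exists_siteB (k : ℕ) (hk : 10 ≤ k) :
    ∃ (C R : Type) (_ : Fintype C) (_ : DecidableEq C) (_ : Fintype R) (_ : DecidableEq R),
      Nonempty (SiteB k C R) := by
  have hn := (pn_even k hk).2
  have hK := pK_ge k hk
  have hK0 : (0 : ℝ) < pK k := by
    have : 0 < pK k := by omega
    exact_mod_cast this
  set ε : ℝ := 1 / (16 * pK k * 2 ^ (4 * pe0 k)) with hε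
  have hε1 : 16 * pK k * ε = 1 / 2 ^ (4 * pe0 k) := by
    rw [hε]
    field_simp
  have hε2 : 16 * pK k * ε ≤ 1 := by
    rw [hε1, div_le_one (by positivity)]
    exact one_le_pow₀ (by norm_num)
  obtain ⟨Cm, h1, h2⟩ := near_ortho (K := pK k) (by omega)
    (fun i j => ov (fh (pn k) (pα k i)) (fh (pn k) (pα k j)))
    (fun i j => by unfold ov; simp only [mul_comm]) ε hε2 (fun i j => site_overlap k hk i j)
  obtain ⟨C, R, i1, i2, i3, i4, B, hb1, hb2, hb3⟩ := exists_shellBasis (pn k) (pK k) (by omega)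
    (gS k Cm) (fun i => (St2_gS_InV k hk Cm i).isShell (by omega))
    (fun i j => by rw [St2_ov_gS k hk]; exact h2 i j)
  refine ⟨C, R, i1, i3, i2, i4, ⟨{ B := B, Cm := Cm, near := ?_, chi := hb1, hC := hb2, hO := hb3 }⟩⟩
  intro i j
  rw [← hε1]
  exact h1 i j

variable {k : ℕ} {C R : Type} [Fintype C] [DecidableEq C] [Fintype R] [DecidableEq R]

theorem SiteB.card (S : SiteB k C R) (hk : 10 ≤ k) : pN k = 2 * Fintype.card C + pK k ∧
    Fintype.card C ≤ pn k ^ 3 ∧ Fintype.card R ≤ pn k ^ 2 := by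
  have hn := (pn_even k hk).2
  have hlt : ∀ m, m < pn k → (univ.filter fun c : C => S.B.lev (Sum.inl c) = m).card = m ^ 2 := by
    intro m hm
    rcases Nat.eq_zero_or_pos m with h0 | h0
    · subst h0
      rw [Finset.card_eq_zero.2, zero_pow (by norm_num)]
      refine Finset.filter_eq_empty_iff.2 fun c _ h => ?_
      have := S.B.lev_pos (Sum.inl c)
      omega
    · have h := S.B.card m h0 hm.le
      rw [← h, Finset.card_filter, Finset.card_filter, Fintype.sum_sum_type]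
      rw [Finset.sum_eq_zero (s := (Finset.univ : Finset (Fin (pK k) ⊕ R)))]
      · rw [add_zero]
      · intro o _
        rw [if_neg]
        rw [S.hO]
        omega
  have hcard : Fintype.card C = ∑ j ∈ range (pn k), j ^ 2 := by
    rw [← Finset.card_univ, Finset.card_eq_sum_card_fiberwise (f := fun c : C => S.B.lev (Sum.inl c))
      (t := range (pn k)) (fun c _ => by
        simp only [Finset.coe_range, Set.mem_Iio]
        exact S.hC c)]
    exact Finset.sum_congr rfl fun j hj => hlt j (Finset.mem_range.1 hj)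
  refine ⟨?_, ?_, ?_⟩
  · rw [hcard]
    rfl
  · rw [hcard]
    calc ∑ j ∈ range (pn k), j ^ 2 ≤ ∑ j ∈ range (pn k), pn k ^ 2 :=
          Finset.sum_le_sum fun j hj => Nat.pow_le_pow_left (Finset.mem_range.1 hj).le 2
      _ = pn k ^ 3 := by
          rw [Finset.sum_const, Finset.card_range, smul_eq_mul]
          ring
  · have h := S.B.card (pn k) (by omega) le_rfl
    rw [← h, Finset.card_filter, Fintype.sum_sum_type]
    have h1 : Fintype.card R ≤ ∑ o : Fin (pK k) ⊕ R, if S.B.lev (Sum.inr o) = pn k then 1 else 0 := by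
      rw [Finset.sum_congr rfl fun o _ => if_pos (S.hO o)]
      rw [Finset.sum_const, Finset.card_univ, Fintype.card_sum, smul_eq_mul, mul_one]
      omega
    omega

/-- site orbitals lie in the top subspace -/
theorem SiteB.inV (S : SiteB k C R) (hk : 10 ≤ k) (i : Fin (pK k)) :
    InV (pn k) (S.B.χ (Sum.inr (Sum.inl i))) := by
  rw [S.chi]
  exact St2_gS_InV k hk S.Cm i

/-- the site orbitals span the `fh` -/
theorem SiteB.fh_span (S : SiteB k C R) (hk : 10 ≤ k) (j : Fin (pK k)) :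
    ∃ a : Fin (pK k) → ℝ, fh (pn k) (pα k j) =
      fun x => ∑ i, a i * S.B.χ (Sum.inr (Sum.inl i)) x := by
  have hort : ∀ i j : Fin (pK k), ov (gS k S.Cm i) (gS k S.Cm j) = if i = j then 1 else 0 := by
    intro i j
    rw [← S.chi, ← S.chi, S.B.ortho]
    simp
  set G : Matrix (Fin (pK k)) (Fin (pK k)) ℝ :=
    Matrix.of fun a b => ov (fh (pn k) (pα k a)) (fh (pn k) (pα k b)) with hG
  set M : Matrix (Fin (pK k)) (Fin (pK k)) ℝ := Matrix.of S.Cm with hM
  have h1 : M * (G * M.transpose) = 1 := by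
    ext i j
    have h := hort i j
    rw [St2_ov_gS k hk] at h
    rw [Matrix.mul_apply, Matrix.one_apply, ← h]
    refine Finset.sum_congr rfl fun a _ => ?_
    rw [Matrix.mul_apply, Finset.mul_sum]
    refine Finset.sum_congr rfl fun b _ => ?_
    simp only [hG, hM, Matrix.of_apply, Matrix.transpose_apply]
    ring
  have h2 : (G * M.transpose) * M = 1 := mul_eq_one_comm.1 h1
  refine ⟨fun i => (G * M.transpose) j i, ?_⟩
  funext x
  have h3 : ∀ l, ∑ i, (G * M.transpose) j i * S.Cm i l = if j = l then 1 else 0 := by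
    intro l
    have := congrFun (congrFun h2 j) l
    rw [Matrix.mul_apply, Matrix.one_apply] at this
    exact this
  calc fh (pn k) (pα k j) x = ∑ l, (if j = l then 1 else 0) * fh (pn k) (pα k l) x := by
        rw [Finset.sum_eq_single j]
        · rw [if_pos rfl, one_mul]
        · intro b _ hb
          rw [if_neg hb.symm, zero_mul]
        · intro hh
          exact absurd (Finset.mem_univ j) hh
    _ = ∑ l, ∑ i, (G * M.transpose) j i * S.Cm i l * fh (pn k) (pα k l) x := by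
        refine Finset.sum_congr rfl fun l _ => ?_
        rw [← h3 l, Finset.sum_mul]
    _ = ∑ i, ∑ l, (G * M.transpose) j i * S.Cm i l * fh (pn k) (pα k l) x := Finset.sum_comm
    _ = ∑ i, (G * M.transpose) j i * S.B.χ (Sum.inr (Sum.inl i)) x := by
        refine Finset.sum_congr rfl fun i _ => ?_
        rw [S.chi]
        unfold gS
        rw [Finset.mul_sum]
        exact Finset.sum_congr rfl fun l _ => by ring

end Vale.Agent.P370.Q
end
end

section

section

/-!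
Helper for `DevExact`: the sphere average as an integral over a product of intervals, Fubini.
-/

namespace Vale.Agent.P370.Q.DevEx

open MeasureTheory Finset ComplexConjugate Vale.Agent.P370 Vale.Agent.P370.Q

/-- the parameter domain of the sphere -/
noncomputable def dom : Measure (ℝ × ℝ) :=
  (volume.restrict (Set.Ioc 0 Real.pi)).prod (volume.restrict (Set.Ioc 0 (2 * Real.pi)))

instance : IsFiniteMeasure dom := by
  unfold dom; infer_instance

theorem continuous_sp : Continuous (fun p : ℝ × ℝ => sp p.1 p.2) := by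
  unfold sp
  refine (PiLp.continuous_toLp 2 _).comp ?_
  refine continuous_pi fun i => ?_
  fin_cases i <;> simp <;> fun_prop

theorem sph_eq {E : Type} [NormedAddCommGroup E] [NormedSpace ℝ E] (f : R3 → E)
    (hf : Integrable (fun p : ℝ × ℝ => Real.sin p.1 • f (sp p.1 p.2)) dom) :
    sph f = (1 / (4 * Real.pi)) • ∫ p, Real.sin p.1 • f (sp p.1 p.2) ∂dom := by
  unfold sph
  congr 1
  unfold dom at hf ⊢
  rw [integral_prod _ hf, intervalIntegral.integral_of_le Real.pi_pos.le]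
  refine integral_congr_ae (Filter.Eventually.of_forall fun θ => ?_)
  simp only
  rw [intervalIntegral.integral_of_le (by positivity)]

/-- the sphere integrand of a function continuous on the sphere is integrable -/
theorem integrable_of_cont {E : Type} [NormedAddCommGroup E] [NormedSpace ℝ E]
    (f : R3 → E) (hf : ContinuousOn f (Metric.sphere 0 1)) :
    Integrable (fun p : ℝ × ℝ => Real.sin p.1 • f (sp p.1 p.2)) dom := by
  have hc : Continuous (fun p : ℝ × ℝ => Real.sin p.1 • f (sp p.1 p.2)) := by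
    refine (Real.continuous_sin.comp continuous_fst).smul ?_
    refine hf.comp_continuous continuous_sp fun p => ?_
    simp only [mem_sphere_iff_norm, sub_zero, norm_sp]
  have hK : IsCompact (Set.Icc (0 : ℝ) Real.pi ×ˢ Set.Icc (0 : ℝ) (2 * Real.pi)) :=
    isCompact_Icc.prod isCompact_Icc
  have h1 : IntegrableOn (fun p : ℝ × ℝ => Real.sin p.1 • f (sp p.1 p.2))
      (Set.Icc (0 : ℝ) Real.pi ×ˢ Set.Icc (0 : ℝ) (2 * Real.pi)) volume :=
    hc.continuousOn.integrableOn_compact hK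
  have h2 : dom = (volume : Measure (ℝ × ℝ)).restrict
      (Set.Ioc (0 : ℝ) Real.pi ×ˢ Set.Ioc (0 : ℝ) (2 * Real.pi)) := by
    unfold dom
    rw [Measure.prod_restrict]; rfl
  rw [h2]
  exact h1.mono_set (Set.prod_mono Set.Ioc_subset_Icc_self Set.Ioc_subset_Icc_self)

/-- Fubini for the sphere average -/
theorem sph_fubini (H : R3 → R3 → ℝ)
    (hH : Integrable (fun q : (ℝ × ℝ) × R3 => Real.sin q.1.1 * H (sp q.1.1 q.1.2) q.2)
      (dom.prod volume)) :
    sph (fun u => ∫ x, H u x) = ∫ x, sph (fun u => H u x) := by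
  have h1 : Integrable (fun p : ℝ × ℝ => Real.sin p.1 • ∫ x, H (sp p.1 p.2) x) dom := by
    have := hH.integral_prod_left
    refine this.congr (Filter.Eventually.of_forall fun p => ?_)
    simp only [smul_eq_mul]
    rw [integral_const_mul]
  rw [sph_eq _ h1]
  have h2 : (∫ p, (Real.sin p.1 • ∫ x, H (sp p.1 p.2) x) ∂dom) =
      ∫ p, (∫ x, Real.sin p.1 * H (sp p.1 p.2) x) ∂dom := by
    refine integral_congr_ae (Filter.Eventually.of_forall fun p => ?_)
    simp only [smul_eq_mul]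
    rw [integral_const_mul]
  rw [h2, integral_integral_swap (f := fun (p : ℝ × ℝ) (x : R3) =>
    Real.sin p.1 * H (sp p.1 p.2) x) hH, ← integral_smul]
  refine integral_congr_ae ?_
  filter_upwards [hH.prod_left_ae] with x hx
  rw [sph_eq (fun u => H u x) (by simpa only [smul_eq_mul] using hx)]
  simp only [smul_eq_mul]

end Vale.Agent.P370.Q.DevEx
end
end

section

section

/-!
Helper for `DevExact`: Fubini for the potential on the sphere, polynomiality of the nuclear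
matrix elements on the sphere.
-/

namespace Vale.Agent.P370.Q.DevEx

open MeasureTheory Finset ComplexConjugate Vale.Agent.P370 Vale.Agent.P370.Q

theorem pe_hom {l : ℕ} {P : Poly3} (hP : P.IsHomogeneous l) (r : ℝ) (x : R3) :
    pe P (r • x) = r ^ l * pe P x := by
  unfold pe
  rw [MvPolynomial.eval_eq', MvPolynomial.eval_eq', Finset.mul_sum]
  refine Finset.sum_congr rfl fun d hd => ?_
  have h := hP (MvPolynomial.mem_support_iff.1 hd)
  have h2 : ∑ i, d i = l := by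
    rw [← h, Finsupp.weight_apply, Finsupp.sum_fintype _ _ (by simp)]
    simp
  simp only [PiLp.smul_apply, smul_eq_mul, mul_pow]
  rw [Finset.prod_mul_distrib, Finset.prod_pow_eq_pow_sum, h2]
  ring

theorem cdot_smul (c : C3) (r : ℝ) (x : R3) : cdot c (r • x) = (r : ℂ) * cdot c x := by
  unfold cdot
  rw [Finset.mul_sum]
  refine Finset.sum_congr rfl fun k _ => ?_
  simp only [PiLp.smul_apply, smul_eq_mul]
  push_cast
  ring

theorem continuous_cdot (c : C3) : Continuous (cdot c) := by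
  unfold cdot
  (clear * -; fun_prop)

/-- real and imaginary part of a power of a complex linear form -/
theorem cdot_pow_poly (c : C3) (N : ℕ) : ∃ A B : Poly3, A.totalDegree ≤ N ∧ B.totalDegree ≤ N ∧
    ∀ x : R3, cdot c x ^ N = (pe A x : ℂ) + (pe B x : ℂ) * Complex.I := by
  induction N with
  | zero =>
    refine ⟨1, 0, by simp, by simp, fun x => ?_⟩
    have : pe 1 x = 1 := by unfold pe; simp only [map_one]
    rw [this, pe_zero]
    simp
  | succ N ih =>
    obtain ⟨A, B, hA, hB, h⟩ := ih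
    have hx : ∀ x : R3, cdot c x = (pe (lf fun k => (c k).re) x : ℂ) +
        (pe (lf fun k => (c k).im) x : ℂ) * Complex.I := by
      intro x
      unfold lf cdot
      rw [pe_sum, pe_sum]
      push_cast
      rw [Finset.sum_mul, ← Finset.sum_add_distrib]
      refine Finset.sum_congr rfl fun k _ => ?_
      rw [pe_mul, pe_mul, pe_C, pe_C, pe_X]
      push_cast
      nth_rewrite 1 [← Complex.re_add_im (c k)]
      ring
    have hd : ∀ (Q : Poly3) (a : Fin 3 → ℝ), Q.totalDegree ≤ N →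
        (Q * lf a).totalDegree ≤ N + 1 := fun Q a hQ =>
      (MvPolynomial.totalDegree_mul _ _).trans (Nat.add_le_add hQ (totalDegree_lf a))
    refine ⟨A * lf (fun k => (c k).re) - B * lf (fun k => (c k).im),
      A * lf (fun k => (c k).im) + B * lf (fun k => (c k).re), ?_, ?_, fun x => ?_⟩
    · exact (MvPolynomial.totalDegree_sub _ _).trans (max_le (hd _ _ hA) (hd _ _ hB))
    · exact (MvPolynomial.totalDegree_add _ _).trans (max_le (hd _ _ hA) (hd _ _ hB))
    · rw [pow_succ, h x, hx x, pe_sub, pe_add, pe_mul, pe_mul, pe_mul, pe_mul]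
      push_cast
      linear_combination ((pe B x : ℂ) * (pe (lf fun k => (c k).im) x : ℂ)) * Complex.I_sq

theorem cdot_re_poly (c : C3) (N : ℕ) : ∃ A : Poly3, A.totalDegree ≤ N ∧
    ∀ x : R3, (cdot c x ^ N).re = pe A x := by
  obtain ⟨A, B, hA, _, h⟩ := cdot_pow_poly c N
  refine ⟨A, hA, fun x => ?_⟩
  rw [h x]
  simp

/-- integrability on the product -/
theorem prod_integrable {f h : R3 → ℝ} (hf : Nice f) (hh : Nice h) (g : R3 → ℝ)
    (hg : Continuous g) (ρ : ℝ) :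
    Integrable (fun q : (ℝ × ℝ) × R3 => Real.sin q.1.1 *
      (g (sp q.1.1 q.1.2) * (f q.2 * h q.2 / dist q.2 (ρ • sp q.1.1 q.1.2))))
      (dom.prod volume) := by
  obtain ⟨M, hM⟩ : ∃ M : ℝ, ∀ u : R3, ‖u‖ = 1 → |g u| ≤ M := by
    obtain ⟨M, hM⟩ := (isCompact_sphere (0 : R3) 1).exists_bound_of_continuousOn
      (f := g) hg.continuousOn
    exact ⟨M, fun u hu => by simpa only [Real.norm_eq_abs] using hM u (by simpa using hu)⟩
  have hM0 : 0 ≤ M := (abs_nonneg _).trans (hM (sp 0 0) (norm_sp 0 0))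
  have hspc : Continuous (fun q : (ℝ × ℝ) × R3 => sp q.1.1 q.1.2) :=
    continuous_sp.comp continuous_fst
  have hmeas : AEStronglyMeasurable (fun q : (ℝ × ℝ) × R3 => Real.sin q.1.1 *
      (g (sp q.1.1 q.1.2) * (f q.2 * h q.2 / dist q.2 (ρ • sp q.1.1 q.1.2))))
      (dom.prod volume) := by
    have m1 : Measurable (fun q : (ℝ × ℝ) × R3 => Real.sin q.1.1) := by fun_prop
    have m2 : Measurable (fun q : (ℝ × ℝ) × R3 => g (sp q.1.1 q.1.2)) :=
      (hg.comp hspc).measurable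
    have m3 : Measurable (fun q : (ℝ × ℝ) × R3 => f q.2 * h q.2) :=
      ((hf.cont.comp continuous_snd).mul (hh.cont.comp continuous_snd)).measurable
    have m4 : Measurable (fun q : (ℝ × ℝ) × R3 => dist q.2 (ρ • sp q.1.1 q.1.2)) :=
      (continuous_snd.dist (hspc.const_smul ρ)).measurable
    exact (m1.mul (m2.mul (m3.div m4))).aestronglyMeasurable
  set K : ℝ := 2 * dir f f + 1 / 2 * ∫ x, h x * h x with hK
  have hbound : ∀ y : R3, ∫ x, |f x * h x / dist x y| ≤ K := by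
    intro y
    obtain ⟨i1, i2⟩ := hardy_nice hf y
    have i3 : Integrable (fun x => h x * h x) := (nice_integrable_rinv hh hh).2
    have i4 : Integrable (fun x => (1 / 2) * (f x ^ 2 / dist x y ^ 2) + (1 / 2) * (h x * h x)) :=
      (i1.const_mul _).add (i3.const_mul _)
    calc ∫ x, |f x * h x / dist x y|
        ≤ ∫ x, ((1 / 2) * (f x ^ 2 / dist x y ^ 2) + (1 / 2) * (h x * h x)) := by
          refine integral_mono (nice_integrable_nuc hf hh y).abs i4 fun x => ?_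
          simp only
          have e1 : f x ^ 2 / dist x y ^ 2 = (f x / dist x y) ^ 2 := by rw [div_pow]
          have e2 : f x * h x / dist x y = (f x / dist x y) * h x := by ring
          rw [e1, e2, abs_le]
          constructor <;> nlinarith [sq_nonneg (f x / dist x y + h x),
            sq_nonneg (f x / dist x y - h x)]
      _ = (1 / 2) * (∫ x, f x ^ 2 / dist x y ^ 2) + (1 / 2) * ∫ x, h x * h x := by
          rw [integral_add (i1.const_mul _) (i3.const_mul _), integral_const_mul,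
            integral_const_mul]
      _ ≤ K := by rw [hK]; (clear * - i2; linarith)
  rw [integrable_prod_iff hmeas]
  refine ⟨Filter.Eventually.of_forall fun p => ?_, ?_⟩
  · exact ((nice_integrable_nuc hf hh (ρ • sp p.1 p.2)).const_mul
      (g (sp p.1 p.2))).const_mul (Real.sin p.1)
  · refine Integrable.of_bound (hmeas.norm.integral_prod_right') (M * K)
      (Filter.Eventually.of_forall fun p => ?_)
    simp only
    rw [Real.norm_eq_abs, abs_of_nonneg (integral_nonneg fun x => norm_nonneg _)]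
    have e1 : ∀ x : R3, ‖Real.sin p.1 * (g (sp p.1 p.2) *
        (f x * h x / dist x (ρ • sp p.1 p.2)))‖ ≤
        M * |f x * h x / dist x (ρ • sp p.1 p.2)| := by
      intro x
      rw [Real.norm_eq_abs, abs_mul, abs_mul]
      have s1 : |Real.sin p.1| ≤ 1 := Real.abs_sin_le_one _
      have s2 := hM _ (norm_sp p.1 p.2)
      have s3 := abs_nonneg (f x * h x / dist x (ρ • sp p.1 p.2))
      calc |Real.sin p.1| * (|g (sp p.1 p.2)| * |f x * h x / dist x (ρ • sp p.1 p.2)|)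
          ≤ 1 * (|g (sp p.1 p.2)| * |f x * h x / dist x (ρ • sp p.1 p.2)|) :=
            mul_le_mul_of_nonneg_right s1 (mul_nonneg (abs_nonneg _) s3)
        _ ≤ 1 * (M * |f x * h x / dist x (ρ • sp p.1 p.2)|) := by
            rw [one_mul, one_mul]
            exact mul_le_mul_of_nonneg_right s2 s3
        _ = _ := one_mul _
    calc ∫ x, ‖Real.sin p.1 * (g (sp p.1 p.2) * (f x * h x / dist x (ρ • sp p.1 p.2)))‖
        ≤ ∫ x, M * |f x * h x / dist x (ρ • sp p.1 p.2)| := by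
          refine integral_mono ?_ ?_ e1
          · exact (((nice_integrable_nuc hf hh _).const_mul _).const_mul _).norm
          · exact (nice_integrable_nuc hf hh _).abs.const_mul _
      _ = M * ∫ x, |f x * h x / dist x (ρ • sp p.1 p.2)| := integral_const_mul _ _
      _ ≤ M * K := mul_le_mul_of_nonneg_left (hbound _) hM0

/-- Fubini for the nuclear potential -/
theorem nuc_fubini {f h : R3 → ℝ} (hf : Nice f) (hh : Nice h) (g : R3 → ℝ)
    (hg : Continuous g) (ρ : ℝ) :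
    sph (fun u => g u * nuc (ρ • u) f h) =
      ∫ x, f x * h x * sph (fun u => (1 / dist x (ρ • u)) * g u) := by
  have h1 := sph_fubini (fun u x => g u * (f x * h x / dist x (ρ • u)))
    (prod_integrable hf hh g hg ρ)
  have e1 : (fun u => g u * nuc (ρ • u) f h) =
      fun u => ∫ x, g u * (f x * h x / dist x (ρ • u)) := by
    funext u
    unfold nuc
    rw [integral_const_mul]
  rw [e1, h1]
  refine integral_congr_ae (Filter.Eventually.of_forall fun x => ?_)
  simp only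
  rw [← smul_eq_mul (f x * h x), ← sph_smul]
  refine sph_congr fun u _ => ?_
  simp only [smul_eq_mul]
  ring

/-- Fubini for the nuclear potential: integrability -/
theorem nuc_fubini_int {f h : R3 → ℝ} (hf : Nice f) (hh : Nice h) (g : R3 → ℝ)
    (hg : Continuous g) (ρ : ℝ) :
    Integrable (fun x => f x * h x * sph (fun u => (1 / dist x (ρ • u)) * g u)) := by
  have hH := prod_integrable hf hh g hg ρ
  have h2 : Integrable (fun x : R3 => (1 / (4 * Real.pi)) * ∫ p : ℝ × ℝ,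
      Real.sin p.1 * (g (sp p.1 p.2) * (f x * h x / dist x (ρ • sp p.1 p.2))) ∂dom) :=
    hH.integral_prod_right.const_mul _
  refine h2.congr ?_
  filter_upwards [hH.prod_left_ae] with x hx
  rw [← smul_eq_mul (f x * h x), ← sph_smul]
  have e : sph (fun u => (f x * h x) • ((1 / dist x (ρ • u)) * g u)) =
      sph (fun u => g u * (f x * h x / dist x (ρ • u))) := by
    refine sph_congr fun u _ => ?_
    simp only [smul_eq_mul]
    ring
  rw [e, sph_eq (fun u => g u * (f x * h x / dist x (ρ • u)))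
    (by simpa only [smul_eq_mul] using hx)]
  simp only [smul_eq_mul]

/-! ### polynomiality of `nuc` on the sphere -/

noncomputable def G0 (κ r : ℝ) : ℝ := Real.exp (-(κ * r)) * Real.exp (-(κ * r))

noncomputable def G1 (κ r : ℝ) : ℝ := r * (Real.exp (-(κ * r)) * Real.exp (-(κ * r)))

theorem pe_one (x : R3) : pe 1 x = 1 := by unfold pe; simp only [map_one]

theorem G0_int {κ : ℝ} (hκ : 0 < κ) : GInt (G0 κ) := by
  intro P y
  have := nice_integrable_nuc (nice_expPoly hκ P 0) (nice_expPoly hκ 1 0) y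
  refine this.congr (Filter.Eventually.of_forall fun x => ?_)
  simp only [expPoly, pe_zero, pe_one, G0]
  ring

theorem G1_int {κ : ℝ} (hκ : 0 < κ) : GInt (G1 κ) := by
  intro P y
  have := nice_integrable_nuc (nice_expPoly hκ P 0) (nice_expPoly hκ 0 1) y
  refine this.congr (Filter.Eventually.of_forall fun x => ?_)
  simp only [expPoly, pe_zero, pe_one, G1]
  ring

theorem pe_rsq (x : R3) : pe rsq x = ‖x‖ ^ 2 := by
  unfold rsq
  rw [pe_sum, EuclideanSpace.real_norm_sq_eq]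
  refine Finset.sum_congr rfl fun k _ => ?_
  rw [pe_pow, pe_X]

theorem totalDegree_rsq : rsq.totalDegree ≤ 2 := by
  unfold rsq
  refine (MvPolynomial.totalDegree_finsetSum _ _).trans ?_
  refine Finset.sup_le fun k _ => ?_
  refine (MvPolynomial.totalDegree_pow _ _).trans ?_
  simp

theorem nuc_poly {n : ℕ} (hn : 1 ≤ n) {P Q P' Q' : Poly3} (h1 : DegLe n P Q)
    (h2 : DegLe n P' Q') {κ : ℝ} (hκ : 0 < κ) (ρ : ℝ) :
    (fun u => nuc (ρ • u) (expPoly κ P Q) (expPoly κ P' Q')) ∈ Wm (2 * n - 2) := by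
  have e : (fun u => nuc (ρ • u) (expPoly κ P Q) (expPoly κ P' Q')) =
      Jf (G0 κ) ρ (P * P' + rsq * (Q * Q')) + Jf (G1 κ) ρ (P * Q' + Q * P') := by
    funext u
    rw [Pi.add_apply]
    unfold Jf nuc
    rw [← integral_add (G0_int hκ _ _) (G1_int hκ _ _)]
    refine integral_congr_ae (Filter.Eventually.of_forall fun x => ?_)
    simp only [pe_add, pe_mul, pe_rsq, expPoly, G0, G1]
    ring
  rw [e]
  have d1 : (P * P').totalDegree ≤ 2 * n - 2 := by
    refine (MvPolynomial.totalDegree_mul _ _).trans ?_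
    have := h1.1
    have := h2.1
    omega
  have d2 : (rsq * (Q * Q')).totalDegree ≤ 2 * n - 2 := by
    rcases h1.2 with h | h
    · rw [h]; simp only [zero_mul, mul_zero, MvPolynomial.totalDegree_zero, zero_le]
    rcases h2.2 with h' | h'
    · rw [h']; simp only [mul_zero, MvPolynomial.totalDegree_zero, zero_le]
    refine (MvPolynomial.totalDegree_mul _ _).trans ?_
    have h3 := MvPolynomial.totalDegree_mul Q Q'
    have h4 := totalDegree_rsq
    omega
  have d3 : (P * Q').totalDegree ≤ 2 * n - 2 := by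
    rcases h2.2 with h' | h'
    · rw [h']; simp only [mul_zero, MvPolynomial.totalDegree_zero, zero_le]
    refine (MvPolynomial.totalDegree_mul _ _).trans ?_
    have := h1.1
    omega
  have d4 : (Q * P').totalDegree ≤ 2 * n - 2 := by
    rcases h1.2 with h' | h'
    · rw [h']; simp only [zero_mul, MvPolynomial.totalDegree_zero, zero_le]
    refine (MvPolynomial.totalDegree_mul _ _).trans ?_
    have := h2.1
    omega
  refine Submodule.add_mem _ (Jf_mem (G0_int hκ) ρ _ _ ?_) (Jf_mem (G1_int hκ) ρ _ _ ?_)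
  · exact (MvPolynomial.totalDegree_add _ _).trans (max_le d1 d2)
  · exact (MvPolynomial.totalDegree_add _ _).trans (max_le d3 d4)

theorem norm_node (D k j : ℕ) : ‖node D k j‖ = 1 := norm_sp _ _

theorem gm_eq {f h : R3 → ℝ} (hf : Nice f) (hh : Nice h) (y : R3) :
    gm y f h = rinv f h - nuc y f h := by
  unfold gm rinv nuc
  rw [← integral_sub (nice_integrable_rinv hf hh).1 (nice_integrable_nuc hf hh y)]
  refine integral_congr_ae (Filter.Eventually.of_forall fun x => ?_)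
  simp only
  ring

end Vale.Agent.P370.Q.DevEx
end
end

section

section

/-!
Exact first order matrix elements of the sphere of light nuclei.
-/

namespace Vale.Agent.P370.Q

open MeasureTheory Finset ComplexConjugate DevEx

/-- the device sum of a polynomial weight -/
theorem DevEx.dev_core {n D N : ℕ} (hn : 1 ≤ n) (hD : 2 * n + N ≤ D) (he : Even D)
    {P Q P' Q' : Poly3} (h1 : DegLe n P Q) (h2 : DegLe n P' Q') {κ : ℝ} (hκ : 0 < κ)
    (A : Poly3) (hA : A.totalDegree ≤ N) (ρ : ℝ) :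
    ∑ k ∈ range D, ∑ j ∈ range D, qw D k * (pe A (node D k j) *
        gm (ρ • node D k j) (expPoly κ P Q) (expPoly κ P' Q')) =
      rinv (expPoly κ P Q) (expPoly κ P' Q') * sph (fun u => pe A u) -
        sph (fun u => pe A u * nuc (ρ • u) (expPoly κ P Q) (expPoly κ P' Q')) := by
  have hD2 : 2 ≤ D := by omega
  set f := expPoly κ P Q with hf
  set h := expPoly κ P' Q' with hh
  have nf : Nice f := nice_expPoly hκ P Q
  have nh : Nice h := nice_expPoly hκ P' Q'
  obtain ⟨R, hR, hRe⟩ := nuc_poly hn h1 h2 hκ ρ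
  have e1 : sph (fun u => pe A u * nuc (ρ • u) f h) = sph (fun u => pe (A * R) u) := by
    refine sph_congr fun u hu => ?_
    rw [pe_mul, ← hRe u hu]
  have hAR : (A * R).totalDegree < D := by
    refine lt_of_le_of_lt (MvPolynomial.totalDegree_mul _ _) ?_
    omega
  have hAD : A.totalDegree < D := by omega
  rw [e1, ← quad_exact D hD2 he A hAD, ← quad_exact D hD2 he (A * R) hAR, Finset.mul_sum,
    ← Finset.sum_sub_distrib]
  refine Finset.sum_congr rfl fun k _ => ?_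
  rw [Finset.mul_sum, ← Finset.sum_sub_distrib]
  refine Finset.sum_congr rfl fun j _ => ?_
  rw [gm_eq nf nh, pe_mul, ← hRe _ (norm_node D k j)]
  ring

theorem DevEx.sphere_ae (ρ : ℝ) : ∀ᵐ x : R3, x ≠ 0 ∧ ‖x‖ ≠ ρ := by
  have h1 : (volume : Measure R3) (Metric.sphere 0 ρ) = 0 := Measure.addHaar_sphere _ _ _
  have h2 : (volume : Measure R3) {0} = 0 := measure_singleton 0
  have h3 : ∀ᵐ x : R3, x ∉ Metric.sphere (0 : R3) ρ := measure_eq_zero_iff_ae_notMem.1 h1
  have h4 : ∀ᵐ x : R3, x ∉ ({0} : Set R3) := measure_eq_zero_iff_ae_notMem.1 h2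
  filter_upwards [h3, h4] with x hx hx'
  exact ⟨by simpa using hx', by simpa only [ne_eq, mem_sphere_iff_norm, sub_zero] using hx⟩

/-- isotropic shell -/
theorem dev_iso {n D : ℕ} (hn : 1 ≤ n) (hD : 2 * n ≤ D) (he : Even D) {φ ψ : R3 → ℝ}
    (hφ : IsShell n φ) (hψ : IsShell n ψ) (ρ : ℝ) (hρ : 0 < ρ) :
    ∑ k ∈ range D, ∑ j ∈ range D, qw D k * gm (ρ • node D k j) φ ψ = bform ρ φ ψ := by
  obtain ⟨P, Q, hd, -, -, rfl⟩ := hφ
  obtain ⟨P', Q', hd', -, -, rfl⟩ := hψ
  have hκ : (0 : ℝ) < 1 / n := by positivity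
  have nf : Nice (expPoly (1 / n) P Q) := nice_expPoly hκ P Q
  have nh : Nice (expPoly (1 / n) P' Q') := nice_expPoly hκ P' Q'
  have h1 := dev_core (N := 0) hn (by omega) he hd hd' hκ (1 : Poly3) (by simp) ρ
  simp only [pe_one, one_mul] at h1
  rw [h1, sph_const, mul_one]
  have h2 := nuc_fubini nf nh (fun _ => 1) continuous_const ρ
  have h3 := nuc_fubini_int nf nh (fun _ => 1) continuous_const ρ
  simp only [mul_one, one_mul] at h2 h3
  rw [h2]
  unfold rinv bform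
  rw [← integral_sub (nice_integrable_rinv nf nh).1 h3]
  refine integral_congr_ae ?_
  filter_upwards [sphere_ae ρ] with x hx
  have hx0 : 0 < ‖x‖ := norm_pos_iff.2 hx.1
  rw [sph_newton_zero ρ hρ x hx.2]
  rcases le_or_gt ‖x‖ ρ with h | h
  · have : 1 / ρ ≤ 1 / ‖x‖ := one_div_le_one_div_of_le hx0 h
    rw [max_eq_right h, max_eq_left (by linarith only [this])]
    ring
  · have : 1 / ‖x‖ ≤ 1 / ρ := one_div_le_one_div_of_le hρ h.le
    rw [max_eq_left h.le, max_eq_right (by linarith only [this])]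
    ring

theorem DevEx.vfun_deg {n : ℕ} (hn : 1 ≤ n) {P : Poly3} (hP : Harm (n - 1) P) : DegLe n P 0 := by
  refine ⟨?_, Or.inl rfl⟩
  have := hP.1.totalDegree_le
  omega

/-- real parts of sphere averages -/
theorem DevEx.sph_re (f : R3 → ℂ) (hf : ContinuousOn f (Metric.sphere 0 1)) :
    sph (fun u => (f u).re) = (sph f).re := by
  have hc := integrable_of_cont f hf
  have hr : ContinuousOn (fun u => (f u).re) (Metric.sphere (0 : R3) 1) :=
    Complex.continuous_re.comp_continuousOn hf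
  rw [sph_eq f hc, sph_eq _ (integrable_of_cont _ hr), Complex.smul_re]
  congr 1
  have := Complex.reCLM.integral_comp_comm hc
  rw [← Complex.reCLM_apply, ← this]
  refine integral_congr_ae (Filter.Eventually.of_forall fun p => ?_)
  simp only [Complex.reCLM_apply, Complex.smul_re]

/-- multipole device on the top subspace -/
theorem dev_top {n D N : ℕ} (hn : 1 ≤ n) (hN : 1 ≤ N) (hD : 2 * n + N ≤ D) (he : Even D)
    (c : C3) (hc : cc c c = 0) {P P' : Poly3} (hP : Harm (n - 1) P) (hP' : Harm (n - 1) P')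
    (ρ : ℝ) (hρ : 0 < ρ) :
    ∑ k ∈ range D, ∑ j ∈ range D, qw D k * (cdot c (node D k j) ^ N).re *
        gm (ρ • node D k j) (vfun n P) (vfun n P') =
      -(4 * Real.pi * RN n N ρ * sph (fun u => (cdot c u ^ N).re * (pe P u * pe P' u))) := by
  have hκ : (0 : ℝ) < 1 / n := by (clear * - hn; positivity)
  obtain ⟨A, hA, hAe⟩ := cdot_re_poly c N
  have h1 := dev_core hn hD he (vfun_deg hn hP) (vfun_deg hn hP') hκ A hA ρ
  rw [← vfun_eq, ← vfun_eq] at h1
  simp only [← mul_assoc] at h1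
  simp only [← hAe] at h1
  have nf : Nice (vfun n P) := by rw [vfun_eq]; exact nice_expPoly hκ P 0
  have nh : Nice (vfun n P') := by rw [vfun_eq]; exact nice_expPoly hκ P' 0
  have hcp : Continuous (fun u : R3 => cdot c u ^ N) := (continuous_cdot c).pow N
  have h0 : sph (fun u => (cdot c u ^ N).re) = 0 := by
    rw [DevEx.sph_re _ hcp.continuousOn, sph_pow]
    split_ifs with h
    · obtain ⟨j, hj⟩ := h
      have : N / 2 ≠ 0 := by omega
      rw [hc, zero_pow this]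
      simp
    · simp
  rw [h1, h0, mul_zero, zero_sub]
  congr 1
  have hcr : Continuous (fun u : R3 => (cdot c u ^ N).re) := Complex.continuous_re.comp hcp
  rw [nuc_fubini nf nh (fun u => (cdot c u ^ N).re) hcr ρ]
  set K : ℝ → ℝ := fun r => 1 / (2 * (N : ℝ) + 1) * (min r ρ ^ N / max r ρ ^ (N + 1)) with hK
  have hae : (fun x => vfun n P x * vfun n P' x *
      sph (fun u => (1 / dist x (ρ • u)) * (cdot c u ^ N).re)) =ᵐ[volume]
      fun x => vfun n P x * vfun n P' x * (K ‖x‖ / ‖x‖ ^ N * (cdot c x ^ N).re) := by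
    filter_upwards [sphere_ae ρ] with x hx
    congr 1
    have hne : ∀ u ∈ Metric.sphere (0 : R3) 1, dist x (ρ • u) ≠ 0 := by
      intro u hu h
      rw [dist_eq_zero] at h
      apply hx.2
      rw [h, norm_smul, Real.norm_eq_abs, abs_of_pos hρ]
      simp only [mem_sphere_iff_norm, sub_zero] at hu
      rw [hu, mul_one]
    have hcont : ContinuousOn (fun u : R3 => (1 / dist x (ρ • u) : ℝ) • cdot c u ^ N)
        (Metric.sphere 0 1) := by
      refine ContinuousOn.smul (ContinuousOn.div continuousOn_const ?_ hne) hcp.continuousOn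
      (clear * -; fun_prop)
    have e1 : sph (fun u => (1 / dist x (ρ • u)) * (cdot c u ^ N).re) =
        sph (fun u => ((1 / dist x (ρ • u) : ℝ) • cdot c u ^ N).re) := by
      refine sph_congr fun u _ => ?_
      rw [Complex.smul_re]
      rfl
    rw [e1, DevEx.sph_re _ hcont, sph_newton c hc N ρ hρ x hx.1 hx.2, Complex.smul_re, smul_eq_mul]
  have hint := (nuc_fubini_int nf nh (fun u => (cdot c u ^ N).re) hcr ρ).congr hae
  rw [integral_congr_ae hae, polar_sph _ hint]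
  have hr : ∀ r ∈ Set.Ioi (0 : ℝ), (4 * Real.pi * r ^ 2) •
      sph (fun u => vfun n P (r • u) * vfun n P' (r • u) *
        (K ‖r • u‖ / ‖r • u‖ ^ N * (cdot c (r • u) ^ N).re)) =
      (r ^ (2 * n) * Real.exp (-(2 * r / n)) * K r) *
        (4 * Real.pi * sph (fun u => (cdot c u ^ N).re * (pe P u * pe P' u))) := by
    intro r hr
    have hr0 : 0 < r := hr
    have e1 : sph (fun u => vfun n P (r • u) * vfun n P' (r • u) *
        (K ‖r • u‖ / ‖r • u‖ ^ N * (cdot c (r • u) ^ N).re)) =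
        sph (fun u => (r ^ (n - 1) * r ^ (n - 1) * Real.exp (-(2 * r / n)) * K r) •
          ((cdot c u ^ N).re * (pe P u * pe P' u))) := by
      refine sph_congr fun u hu => ?_
      have n1 : ‖r • u‖ = r := by rw [norm_smul, hu, mul_one, Real.norm_eq_abs, abs_of_pos hr0]
      have n2 : (cdot c (r • u) ^ N).re = r ^ N * (cdot c u ^ N).re := by
        rw [cdot_smul, mul_pow, ← Complex.ofReal_pow, Complex.re_ofReal_mul]
      have n3 : Real.exp (-(2 * r / n)) = Real.exp (-(r / n)) * Real.exp (-(r / n)) := by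
        rw [← Real.exp_add]
        congr 1
        ring
      unfold vfun
      rw [n1, n2, n3, pe_hom hP.1, pe_hom hP'.1, smul_eq_mul]
      (clear * - hr0; field_simp)
    rw [e1, sph_smul, smul_eq_mul, smul_eq_mul]
    have e2 : r ^ (2 * n) = r ^ 2 * (r ^ (n - 1) * r ^ (n - 1)) := by
      rw [← pow_add, ← pow_add]
      congr 1
      omega
    rw [e2]
    ring
  rw [setIntegral_congr_fun measurableSet_Ioi hr, integral_mul_const]
  unfold RN
  ring

end Vale.Agent.P370.Q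
end
end

section

section

/-!
Forms of the devices.
-/

namespace Vale.Agent.P370.Q

open MeasureTheory Finset DevEx

theorem st3_pρ_pos (k : ℕ) : 0 < pρ k := by
  unfold pρ
  (clear * -; positivity)

theorem st3_pn_two (k : ℕ) (hk : 10 ≤ k) : 2 ≤ pn k := (pn_even k hk).2

theorem st3_D_even (k : ℕ) : Even (pD k) := by
  unfold pD
  exact ⟨8 * pn k, by ring⟩

theorem st3_dsum1 (D : ℕ) (c : ℝ) (F : ℕ → ℕ → ℝ) :
    ∑ a ∈ range D, ∑ b ∈ range D, c * F a b = c * ∑ a ∈ range D, ∑ b ∈ range D, F a b := by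
  rw [Finset.mul_sum]
  exact Finset.sum_congr rfl fun a _ => (Finset.mul_sum _ _ _).symm

theorem st3_dsum {ι : Type} (t : Finset ι) (D : ℕ) (c : ι → ℝ) (F : ι → ℕ → ℕ → ℝ) :
    ∑ a ∈ range D, ∑ b ∈ range D, ∑ i ∈ t, c i * F i a b
      = ∑ i ∈ t, c i * ∑ a ∈ range D, ∑ b ∈ range D, F i a b := by
  have h1 : ∀ a ∈ range D, ∑ b ∈ range D, ∑ i ∈ t, c i * F i a b
      = ∑ i ∈ t, ∑ b ∈ range D, c i * F i a b := fun a _ => Finset.sum_comm
  rw [Finset.sum_congr rfl h1, Finset.sum_comm]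
  exact Finset.sum_congr rfl fun i _ => st3_dsum1 D (c i) (F i)

theorem st3_dsum2 (K D : ℕ) (c : ℕ → ℕ → ℝ) (F : ℕ → ℕ → ℕ → ℕ → ℝ) :
    ∑ a ∈ range D, ∑ b ∈ range D, ∑ j ∈ range K, ∑ i ∈ range j, c i j * F i j a b
      = ∑ j ∈ range K, ∑ i ∈ range j, c i j * ∑ a ∈ range D, ∑ b ∈ range D, F i j a b := by
  have h := st3_dsum ((range K).sigma fun j => range j) D (fun p => c p.2 p.1)
    (fun p => F p.2 p.1)
  simp only [Finset.sum_sigma] at h
  exact h

/-- expansion of the exact form into isotropic part and devices, on shell `n` -/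
theorem hex_eq (k : ℕ) (hk : 10 ≤ k) (q : ℕ → ℕ) (s : ℕ → ℕ → ℕ) {φ ψ : R3 → ℝ}
    (hφ : IsShell (pn k) φ) (hψ : IsShell (pn k) ψ) :
    hex k q s φ ψ = pW k * bform (pρ k) φ ψ +
      (∑ i ∈ range (pK k), pL k * Xu (pn k) (2 * (pn k - 1)) (pρ k) *
        devf k (pα k i) (2 * (pn k - 1)) φ ψ) +
      ∑ j ∈ range (pK k), ∑ i ∈ range j, (s i j : ℝ) * pη k * Xu (pn k) (2 * q (j - i)) (pρ k) *
        devf k ((pα k i + pα k j) / 2) (2 * q (j - i)) φ ψ := by
  have hn := st3_pn_two k hk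
  have hD : 2 * pn k ≤ pD k := by
    unfold pD
    omega
  have h1 := dev_iso (by omega) hD (st3_D_even k) hφ hψ (pρ k) (st3_pρ_pos k)
  unfold hex devf
  rw [← h1]
  have e1 : ∀ a b, wex k q s a b * gm (pρ k • node (pD k) a b) φ ψ
      = pW k * (qw (pD k) a * gm (pρ k • node (pD k) a b) φ ψ)
        + (∑ i ∈ range (pK k), pL k * Xu (pn k) (2 * (pn k - 1)) (pρ k) *
          (qw (pD k) a * (cdot (av (pα k i)) (node (pD k) a b) ^ (2 * (pn k - 1))).re *
            gm (pρ k • node (pD k) a b) φ ψ))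
        + ∑ j ∈ range (pK k), ∑ i ∈ range j,
          (s i j : ℝ) * pη k * Xu (pn k) (2 * q (j - i)) (pρ k) *
          (qw (pD k) a * (cdot (av ((pα k i + pα k j) / 2)) (node (pD k) a b) ^
            (2 * q (j - i))).re * gm (pρ k • node (pD k) a b) φ ψ) := by
    intro a b
    unfold wex
    rw [mul_add, mul_add, add_mul, add_mul, Finset.mul_sum, Finset.sum_mul, Finset.mul_sum,
      Finset.sum_mul]
    congr 1
    · congr 1
      · ring
      · exact Finset.sum_congr rfl fun i _ => by ring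
    · refine Finset.sum_congr rfl fun j _ => ?_
      rw [Finset.mul_sum, Finset.sum_mul]
      exact Finset.sum_congr rfl fun i _ => by ring
  rw [Finset.sum_congr rfl fun a _ => Finset.sum_congr rfl fun b _ => e1 a b]
  simp only [sum_add_distrib]
  rw [st3_dsum, st3_dsum2, ← st3_dsum1]

theorem normSq_cdot_av (γ : ℝ) (u : R3) :
    ‖cdot (av γ) u‖ ^ 2 = u 2 ^ 2 + (u 0 * Real.cos γ + u 1 * Real.sin γ) ^ 2 := by
  have h1 : cdot (av γ) u = (u 2 : ℂ) + ((u 0 * Real.cos γ + u 1 * Real.sin γ : ℝ) : ℂ)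
      * Complex.I := by
    unfold cdot av
    rw [Fin.sum_univ_three]
    simp only [Matrix.cons_val_zero, Matrix.cons_val_one, Matrix.cons_val]
    push_cast
    ring
  rw [h1, Complex.sq_norm, Complex.normSq_add_mul_I]

theorem norm_cdot_av_le (γ : ℝ) (u : R3) (hu : ‖u‖ = 1) : ‖cdot (av γ) u‖ ≤ 1 := by
  have h1 := normSq_cdot_av γ u
  have h2 : u 0 ^ 2 + u 1 ^ 2 + u 2 ^ 2 = 1 := by
    have h3 : ‖u‖ ^ 2 = u 0 ^ 2 + u 1 ^ 2 + u 2 ^ 2 := by
      rw [EuclideanSpace.norm_sq_eq, Fin.sum_univ_three]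
      simp
    rw [← h3, hu]
    norm_num
  have h4 := Real.cos_sq_add_sin_sq γ
  have h5 : (u 0 * Real.cos γ + u 1 * Real.sin γ) ^ 2 ≤ u 0 ^ 2 + u 1 ^ 2 := by
    nlinarith only [h4, sq_nonneg (u 0 * Real.sin γ - u 1 * Real.cos γ)]
  have h6 : ‖cdot (av γ) u‖ ^ 2 ≤ 1 ^ 2 := by
    rw [h1]
    linarith only [h2, h5]
  exact le_of_sq_le_sq h6 (by norm_num)

theorem abs_re_pow_le (γ : ℝ) (N : ℕ) (u : R3) (hu : ‖u‖ = 1) :
    |(cdot (av γ) u ^ N).re| ≤ 1 := by
  refine (Complex.abs_re_le_norm _).trans ?_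
  rw [norm_pow]
  exact pow_le_one₀ (norm_nonneg _) (norm_cdot_av_le γ u hu)

theorem st3_qw_nonneg (k : ℕ) (hk : 10 ≤ k) (a : ℕ) (ha : a ∈ range (pD k)) :
    0 ≤ qw (pD k) a := by
  have h1 := st3_pn_two k hk
  have hD : 2 ≤ pD k := by
    unfold pD
    omega
  have h2 := fej_pos (pD k) hD (st3_D_even k) a (Finset.mem_range.1 ha)
  unfold qw
  have h3 : 0 ≤ 1 / (pD k : ℝ) ^ 3 := by (clear * - hD; positivity)
  exact div_nonneg (h3.trans h2) (Nat.cast_nonneg _)

theorem st3_qw_sum (k : ℕ) (hk : 10 ≤ k) :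
    ∑ a ∈ range (pD k), ∑ _b ∈ range (pD k), qw (pD k) a = 1 := by
  have h1 := st3_pn_two k hk
  have hD : 2 ≤ pD k := by
    unfold pD
    omega
  exact qw_sum (pD k) hD (st3_D_even k)

theorem norm_smul_node (k a b : ℕ) : ‖pρ k • node (pD k) a b‖ = pρ k := by
  rw [norm_smul, norm_node, mul_one, Real.norm_eq_abs, abs_of_pos (st3_pρ_pos k)]

/-- crude bound of a device -/
theorem devf_crude (k : ℕ) (hk : 10 ≤ k) (γ : ℝ) (N : ℕ) {a b : ℕ} (ha : 1 ≤ a) (hb : 1 ≤ b)
    {φ ψ : R3 → ℝ} (hφ : IsShell a φ) (hψ : IsShell b ψ) :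
    |devf k γ N φ ψ| ≤ 16 * pρ k * Real.sqrt (ov φ φ * ov ψ ψ) := by
  unfold devf
  have h1 : ∀ c ∈ range (pD k), ∀ d ∈ range (pD k),
      |qw (pD k) c * (cdot (av γ) (node (pD k) c d) ^ N).re * gm (pρ k • node (pD k) c d) φ ψ|
        ≤ qw (pD k) c * (16 * pρ k * Real.sqrt (ov φ φ * ov ψ ψ)) := by
    intro c hc d _
    rw [abs_mul, abs_mul, abs_of_nonneg (st3_qw_nonneg k hk c hc)]
    have h2 := gm_bound ha hb hφ hψ (pρ k • node (pD k) c d)
    rw [norm_smul_node] at h2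
    have h3 := abs_re_pow_le γ N (node (pD k) c d) (norm_node _ _ _)
    have h4 : qw (pD k) c * |(cdot (av γ) (node (pD k) c d) ^ N).re| ≤ qw (pD k) c :=
      mul_le_of_le_one_right (st3_qw_nonneg k hk c hc) h3
    exact mul_le_mul h4 h2 (abs_nonneg _) (st3_qw_nonneg k hk c hc)
  calc _ ≤ ∑ c ∈ range (pD k), ∑ d ∈ range (pD k),
        qw (pD k) c * (16 * pρ k * Real.sqrt (ov φ φ * ov ψ ψ)) := by
        refine (Finset.abs_sum_le_sum_abs _ _).trans (Finset.sum_le_sum fun c hc => ?_)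
        exact (Finset.abs_sum_le_sum_abs _ _).trans (Finset.sum_le_sum fun d hd => h1 c hc d hd)
    _ = _ := by
        simp only [← Finset.sum_mul]
        rw [st3_qw_sum k hk, one_mul]

theorem st3_I0_ne (k : ℕ) (hk : 10 ≤ k) : I0 (pn k) ≠ 0 := by
  have := I0_ge (pn k) (by have := st3_pn_two k hk; omega)
  linarith only [this]

/-- device on the top subspace -/
theorem devf_top (k : ℕ) (hk : 10 ≤ k) (γ : ℝ) (q : ℕ) (hq1 : 1 ≤ q) (hq : q ≤ pn k - 1)
    {P P' : Poly3} (hP : Harm (pn k - 1) P) (hP' : Harm (pn k - 1) P') :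
    Xu (pn k) (2 * q) (pρ k) * devf k γ (2 * q) (vfun (pn k) P) (vfun (pn k) P') =
      -(zt k (2 * q) * (4 * Real.pi * I0 (pn k) *
        sph (fun u => (cdot (av γ) u ^ (2 * q)).re * (pe P u * pe P' u)))) := by
  have hn := st3_pn_two k hk
  have h1 := dev_top (n := pn k) (D := pD k) (N := 2 * q) (by omega) (by omega)
    (by unfold pD; omega) (st3_D_even k) (av γ) (av_null γ) hP hP' (pρ k) (st3_pρ_pos k)
  unfold devf
  rw [h1]
  unfold zt
  have h2 := st3_I0_ne k hk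
  (clear * - h2; field_simp)

/-- bound on the top subspace -/
theorem devf_top_le (k : ℕ) (hk : 10 ≤ k) (γ : ℝ) (q : ℕ) (hq1 : 1 ≤ q) (hq : q ≤ pn k - 1)
    {φ ψ : R3 → ℝ} (hφ : InV (pn k) φ) (hψ : InV (pn k) ψ) :
    |Xu (pn k) (2 * q) (pρ k) * devf k γ (2 * q) φ ψ| ≤
      2 * Real.sqrt (ov φ φ * ov ψ ψ) := by
  obtain ⟨P, hP, rfl⟩ := hφ
  obtain ⟨P', hP', rfl⟩ := hψ
  have hn := st3_pn_two k hk
  rw [devf_top k hk γ q hq1 hq hP hP', abs_neg, abs_mul]
  have h1 := zt_bounds k (2 * q) hk (by omega) (by omega)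
  have h2 := dev_contr (pn k) q hn γ hP hP'
  rw [abs_of_nonneg (by linarith only [h1] : (0 : ℝ) ≤ zt k (2 * q))]
  exact mul_le_mul h1.2 h2 (abs_nonneg _) (by norm_num)

theorem st3_ov_fh (n : ℕ) (φ : R3 → ℝ) (γ : ℝ) :
    ov φ (fh n γ) = ov φ (fsite n γ) / Real.sqrt (nf n) := by
  unfold ov fh
  rw [← integral_div]
  refine integral_congr_ae (Filter.Eventually.of_forall fun x => ?_)
  simp only
  ring

/-- top devices are rank two -/
theorem devf_rank_two (k : ℕ) (hk : 10 ≤ k) (γ : ℝ) {φ ψ : R3 → ℝ} (hφ : InV (pn k) φ)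
    (hψ : InV (pn k) ψ) :
    Xu (pn k) (2 * (pn k - 1)) (pρ k) * devf k γ (2 * (pn k - 1)) φ ψ =
      -(zt k (2 * (pn k - 1)) * gam (pn k) * (ov φ (fh (pn k) γ) * ov ψ (fh (pn k) γ) -
        ov φ (gsite (pn k) γ) * ov ψ (gsite (pn k) γ) / nf (pn k))) := by
  obtain ⟨P, hP, rfl⟩ := hφ
  obtain ⟨P', hP', rfl⟩ := hψ
  have hn := st3_pn_two k hk
  rw [devf_top k hk γ (pn k - 1) (by omega) le_rfl hP hP',
    top_rank_two (pn k) hn γ hP hP', st3_ov_fh, st3_ov_fh]
  have h1 := nf_pos (pn k) (by omega)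
  have h2 := Real.mul_self_sqrt h1.le
  have h3 : Real.sqrt (nf (pn k)) ≠ 0 := (Real.sqrt_pos.2 h1).ne'
  have h4 : ov (vfun (pn k) P) (fsite (pn k) γ) / Real.sqrt (nf (pn k)) *
      (ov (vfun (pn k) P') (fsite (pn k) γ) / Real.sqrt (nf (pn k)))
      = ov (vfun (pn k) P) (fsite (pn k) γ) * ov (vfun (pn k) P') (fsite (pn k) γ) / nf (pn k) := by
    rw [div_mul_div_comm, h2]
  rw [h4]
  (clear * - h1; field_simp)

theorem gm_div_div (y : R3) (f g : R3 → ℝ) (a b : ℝ) :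
    gm y (fun x => f x / a) (fun x => g x / b) = gm y f g / (a * b) := by
  unfold gm
  rw [← integral_div]
  refine integral_congr_ae (Filter.Eventually.of_forall fun x => ?_)
  simp only
  rw [div_mul_div_comm, div_mul_eq_mul_div]

theorem devf_div_div (k : ℕ) (γ : ℝ) (N : ℕ) (f g : R3 → ℝ) (a b : ℝ) :
    devf k γ N (fun x => f x / a) (fun x => g x / b) = devf k γ N f g / (a * b) := by
  unfold devf
  simp only [gm_div_div, Finset.sum_div]
  exact Finset.sum_congr rfl fun c _ => Finset.sum_congr rfl fun d _ => by ring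

/-- hopping devices between the sites -/
theorem devf_hop (k : ℕ) (hk : 10 ≤ k) (γ α β : ℝ) (q : ℕ) (hq1 : 1 ≤ q) (hq : q ≤ pn k - 1) :
    Xu (pn k) (2 * q) (pρ k) * devf k γ (2 * q) (fh (pn k) α) (fh (pn k) β) =
      -(zt k (2 * q) * hopA (pn k) q γ α β) := by
  have hn := st3_pn_two k hk
  obtain ⟨P, hP, hPe⟩ := fsite_InV (pn k) (by omega) α
  obtain ⟨P', hP', hPe'⟩ := fsite_InV (pn k) (by omega) β
  have h1 := devf_top k hk γ q hq1 hq hP hP'
  rw [← hPe, ← hPe'] at h1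
  have hpe : ∀ u, pe P u = (cdot (av α) u ^ (pn k - 1)).re := by
    intro u
    have h2 := congrFun hPe u
    unfold fsite vfun at h2
    exact (mul_right_cancel₀ (Real.exp_ne_zero _) h2).symm
  have hpe' : ∀ u, pe P' u = (cdot (av β) u ^ (pn k - 1)).re := by
    intro u
    have h2 := congrFun hPe' u
    unfold fsite vfun at h2
    exact (mul_right_cancel₀ (Real.exp_ne_zero _) h2).symm
  simp only [hpe, hpe'] at h1
  have h3 : devf k γ (2 * q) (fh (pn k) α) (fh (pn k) β)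
      = devf k γ (2 * q) (fsite (pn k) α) (fsite (pn k) β) / nf (pn k) := by
    have h4 := devf_div_div k γ (2 * q) (fsite (pn k) α) (fsite (pn k) β)
      (Real.sqrt (nf (pn k))) (Real.sqrt (nf (pn k)))
    rw [Real.mul_self_sqrt (nf_pos (pn k) (by omega)).le] at h4
    exact h4
  rw [h3, ← mul_div_assoc, h1]
  unfold hopA
  have h5 := (nf_pos (pn k) (by omega)).ne'
  (clear * - h5; field_simp)

/-- total exact charge -/
theorem wex_sum (k : ℕ) (hk : 10 ≤ k) (q : ℕ → ℕ) (hq : GoodQ k q) (s : ℕ → ℕ → ℕ) :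
    ∑ a ∈ range (pD k), ∑ b ∈ range (pD k), wex k q s a b = pW k := by
  have hn := st3_pn_two k hk
  have hD : 2 ≤ pD k := by
    unfold pD
    omega
  have h0 : ∀ (γ : ℝ) (N : ℕ), 1 ≤ N → N < pD k →
      ∑ a ∈ range (pD k), ∑ b ∈ range (pD k),
        qw (pD k) a * (cdot (av γ) (node (pD k) a b) ^ N).re = 0 := by
    intro γ N hN1 hN
    obtain ⟨A, hA, hAe⟩ := cdot_re_poly (av γ) N
    have h1 := quad_exact (pD k) hD (st3_D_even k) A (by omega)
    simp only [← hAe] at h1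
    rw [h1]
    have hcp : Continuous (fun u : R3 => cdot (av γ) u ^ N) := (continuous_cdot _).pow N
    rw [DevEx.sph_re _ hcp.continuousOn, sph_pow, av_null]
    split_ifs with h
    · have h2 : N / 2 ≠ 0 := by
        obtain ⟨m, rfl⟩ := h
        omega
      rw [zero_pow h2]
      simp
    · simp
  have e1 : ∀ a b, wex k q s a b = pW k * qw (pD k) a
        + (∑ i ∈ range (pK k), pL k * Xu (pn k) (2 * (pn k - 1)) (pρ k) *
          (qw (pD k) a * (cdot (av (pα k i)) (node (pD k) a b) ^ (2 * (pn k - 1))).re))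
        + ∑ j ∈ range (pK k), ∑ i ∈ range j,
          (s i j : ℝ) * pη k * Xu (pn k) (2 * q (j - i)) (pρ k) *
          (qw (pD k) a * (cdot (av ((pα k i + pα k j) / 2)) (node (pD k) a b) ^
            (2 * q (j - i))).re) := by
    intro a b
    unfold wex
    rw [mul_add, mul_add, Finset.mul_sum, Finset.mul_sum]
    congr 1
    · congr 1
      · ring
      · exact Finset.sum_congr rfl fun i _ => by ring
    · refine Finset.sum_congr rfl fun j _ => ?_
      rw [Finset.mul_sum]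
      exact Finset.sum_congr rfl fun i _ => by ring
  rw [Finset.sum_congr rfl fun a _ => Finset.sum_congr rfl fun b _ => e1 a b]
  simp only [Finset.sum_add_distrib]
  rw [st3_dsum, st3_dsum2, st3_dsum1, st3_qw_sum k hk, mul_one]
  have h2 : ∑ i ∈ range (pK k), pL k * Xu (pn k) (2 * (pn k - 1)) (pρ k) *
      ∑ a ∈ range (pD k), ∑ b ∈ range (pD k),
        (qw (pD k) a * (cdot (av (pα k i)) (node (pD k) a b) ^ (2 * (pn k - 1))).re) = 0 := by
    refine Finset.sum_eq_zero fun i _ => ?_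
    rw [h0 _ _ (by omega) (by unfold pD; omega), mul_zero]
  have h3 : ∑ j ∈ range (pK k), ∑ i ∈ range j, (s i j : ℝ) * pη k *
      Xu (pn k) (2 * q (j - i)) (pρ k) * ∑ a ∈ range (pD k), ∑ b ∈ range (pD k),
        (qw (pD k) a * (cdot (av ((pα k i + pα k j) / 2)) (node (pD k) a b) ^
            (2 * q (j - i))).re) = 0 := by
    refine Finset.sum_eq_zero fun j hj => Finset.sum_eq_zero fun i hi => ?_
    have h4 := Finset.mem_range.1 hj
    have h5 := Finset.mem_range.1 hi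
    have h6 := goodQ_range k hk q hq (j - i) (by omega) (by omega)
    rw [h0 _ _ (by omega) (by unfold pD; omega), mul_zero]
  rw [h2, h3, add_zero, add_zero]

/-- bilinearity of the forms on nice functions -/
theorem gm_sum_left {ι : Type} (t : Finset ι) (a : ι → ℝ) (f : ι → R3 → ℝ)
    (hf : ∀ i ∈ t, Nice (f i)) {g : R3 → ℝ} (hg : Nice g) (y : R3) :
    gm y (fun x => ∑ i ∈ t, a i * f i x) g = ∑ i ∈ t, a i * gm y (f i) g := by
  unfold gm
  have e : (fun x => (∑ i ∈ t, a i * f i x) * g x * (1 / ‖x‖ - 1 / dist x y))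
      = fun x => ∑ i ∈ t, a i * (f i x * g x * (1 / ‖x‖ - 1 / dist x y)) := by
    funext x
    rw [Finset.sum_mul, Finset.sum_mul]
    exact Finset.sum_congr rfl fun i _ => by ring
  rw [e, integral_finsetSum]
  · exact Finset.sum_congr rfl fun i _ => integral_const_mul _ _
  · intro i hi
    refine Integrable.const_mul ?_ _
    have h1 := (nice_integrable_rinv (hf i hi) hg).1
    have h2 := nice_integrable_nuc (hf i hi) hg y
    refine (h1.sub h2).congr (Filter.Eventually.of_forall fun x => ?_)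
    simp only [Pi.sub_apply]
    ring

theorem gm_symm (y : R3) (f g : R3 → ℝ) : gm y f g = gm y g f := by
  unfold gm
  simp only [mul_comm (f _)]

theorem ov_sum_left {ι : Type} (t : Finset ι) (a : ι → ℝ) (f : ι → R3 → ℝ)
    (hf : ∀ i ∈ t, Nice (f i)) {g : R3 → ℝ} (hg : Nice g) :
    ov (fun x => ∑ i ∈ t, a i * f i x) g = ∑ i ∈ t, a i * ov (f i) g :=
  m1_ov_sum_left t a hf hg

theorem bform_sum_left {ι : Type} (t : Finset ι) (a : ι → ℝ) (f : ι → R3 → ℝ)
    (hf : ∀ i ∈ t, Nice (f i)) {g : R3 → ℝ} (hg : Nice g) (ρ : ℝ) (hρ : 0 < ρ) :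
    bform ρ (fun x => ∑ i ∈ t, a i * f i x) g = ∑ i ∈ t, a i * bform ρ (f i) g := by
  unfold bform
  have e : (fun x => (∑ i ∈ t, a i * f i x) * g x * max (1 / ‖x‖ - 1 / ρ) 0)
      = fun x => ∑ i ∈ t, a i * (f i x * g x * max (1 / ‖x‖ - 1 / ρ) 0) := by
    funext x
    rw [Finset.sum_mul, Finset.sum_mul]
    exact Finset.sum_congr rfl fun i _ => by ring
  rw [e, integral_finsetSum]
  · exact Finset.sum_congr rfl fun i _ => integral_const_mul _ _
  · intro i hi
    exact (Hyd.integrable_Vr hρ (hf i hi).toS hg.toS).const_mul _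

end Vale.Agent.P370.Q
end
end

section

section

/-!
The matrix elements between the sites.
-/

namespace Vale.Agent.P370.Q

open MeasureTheory Finset

variable {k : ℕ} {C R : Type} [Fintype C] [DecidableEq C] [Fintype R] [DecidableEq R]

/-! ### the sites -/

theorem st6_lap_C_mul (c : ℝ) (P : Poly3) :
    lap (MvPolynomial.C c * P) = MvPolynomial.C c * lap P := by
  unfold lap
  rw [Finset.mul_sum]
  refine Finset.sum_congr rfl fun i _ => ?_
  rw [MvPolynomial.pderiv_C_mul, MvPolynomial.pderiv_C_mul]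

theorem st6_fh_InV (n : ℕ) (hn : 1 ≤ n) (α : ℝ) : InV n (fh n α) := by
  obtain ⟨P, ⟨hP1, hP2⟩, hPe⟩ := fsite_InV n hn α
  refine ⟨MvPolynomial.C (Real.sqrt (nf n))⁻¹ * P, ⟨?_, ?_⟩, ?_⟩
  · have := (MvPolynomial.isHomogeneous_C (Fin 3) (Real.sqrt (nf n))⁻¹).mul hP1
    rwa [zero_add] at this
  · rw [st6_lap_C_mul, hP2, mul_zero]
  · funext x
    have h1 := congrFun hPe x
    unfold vfun pe at h1 ⊢
    unfold fh
    rw [h1, map_mul, MvPolynomial.eval_C, div_eq_inv_mul, mul_assoc]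

theorem st6_n_pos (hk : 10 ≤ k) : 1 ≤ pn k := by
  have := st3_pn_two k hk
  omega

theorem st6_fh_shell (hk : 10 ≤ k) (α : ℝ) : IsShell (pn k) (fh (pn k) α) :=
  (st6_fh_InV (pn k) (st6_n_pos hk) α).isShell (st6_n_pos hk)

theorem st6_fh_nice (hk : 10 ≤ k) (α : ℝ) : Nice (fh (pn k) α) :=
  (st6_fh_shell hk α).nice (st6_n_pos hk)

theorem st6_fh_ov (hk : 10 ≤ k) (α : ℝ) : ov (fh (pn k) α) (fh (pn k) α) = 1 :=
  ov_fh_self (pn k) (st3_pn_two k hk) α

/-- the site orbital -/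
noncomputable def stg (S : SiteB k C R) (i : Fin (pK k)) : R3 → ℝ :=
  S.B.χ (Sum.inr (Sum.inl i))

theorem stg_eq (S : SiteB k C R) (i : Fin (pK k)) :
    stg S i = fun x => ∑ j, S.Cm i j * fh (pn k) (pα k j) x := S.chi i

theorem stg_shell (S : SiteB k C R) (i : Fin (pK k)) : IsShell (pn k) (stg S i) := by
  have h := S.B.mem (Sum.inr (Sum.inl i))
  rw [S.hO] at h
  exact h

theorem stg_nice (hk : 10 ≤ k) (S : SiteB k C R) (i : Fin (pK k)) : Nice (stg S i) :=
  (stg_shell S i).nice (st6_n_pos hk)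

theorem stg_ov (S : SiteB k C R) (i j : Fin (pK k)) :
    ov (stg S i) (stg S j) = if i = j then 1 else 0 := by
  unfold stg
  rw [S.B.ortho]
  simp only [Sum.inr.injEq, Sum.inl.injEq]

theorem stg_ov_self (S : SiteB k C R) (i : Fin (pK k)) : ov (stg S i) (stg S i) = 1 := by
  rw [stg_ov, if_pos rfl]

/-- replacing a site orbital by a normalised great circle orbital, in a linear form -/
theorem st6_stage {K : ℕ} (c : Fin K → Fin K → ℝ) (ε : ℝ)
    (hc : ∀ i j, |c i j - if i = j then 1 else 0| ≤ ε) (L : Fin K → ℝ) (M : ℝ)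
    (hM : ∀ a, |L a| ≤ M) (i : Fin K) : |(∑ a, c i a * L a) - L i| ≤ K * ε * M := by
  have h0 : L i = ∑ a, (if i = a then 1 else 0) * L a := by
    simp only [ite_mul, one_mul, zero_mul, sum_ite_eq, mem_univ, ↓reduceIte]
  have hM0 : 0 ≤ M := (abs_nonneg _).trans (hM i)
  have hε0 : 0 ≤ ε := (abs_nonneg _).trans (hc i i)
  calc |(∑ a, c i a * L a) - L i| = |∑ a, (c i a - if i = a then 1 else 0) * L a| := by
        conv_lhs => rw [h0]
        rw [← Finset.sum_sub_distrib]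
        congr 1
        exact Finset.sum_congr rfl fun a _ => by ring
    _ ≤ ∑ a, |(c i a - if i = a then 1 else 0) * L a| := Finset.abs_sum_le_sum_abs _ _
    _ ≤ ∑ _a : Fin K, ε * M := by
        refine Finset.sum_le_sum fun a _ => ?_
        rw [abs_mul]
        exact mul_le_mul (hc i a) (hM a) (abs_nonneg _) hε0
    _ = K * ε * M := by
        rw [Finset.sum_const, Finset.card_univ, Fintype.card_fin, nsmul_eq_mul]
        ring

theorem st6_coul_bd {a b c d : ℕ} (ha : 1 ≤ a) (hb : 1 ≤ b) (hc : 1 ≤ c) (hd : 1 ≤ d)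
    {t u v w : R3 → ℝ} (ht : IsShell a t) (hu : IsShell b u) (hv : IsShell c v)
    (hw : IsShell d w) (ot : ov t t = 1) (ou : ov u u = 1) (ow : ov v v = 1)
    (ov4 : ov w w = 1) : |coul t u v w| ≤ 4 := by
  have h := coul_shell ha hb hc hd ht hu hv hw
  rw [ot, ou, ow, ov4] at h
  simpa only [ge_iff_le, mul_one, Real.sqrt_one] using h

theorem st6_coul_stage (hk : 10 ≤ k) (S : SiteB k C R) (i : Fin (pK k)) {u v w : R3 → ℝ}
    (hu : IsShell (pn k) u) (hv : IsShell (pn k) v) (hw : IsShell (pn k) w)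
    (ou : ov u u = 1) (ov3 : ov v v = 1) (ov4 : ov w w = 1) :
    |coul (stg S i) u v w - coul (fh (pn k) (pα k i)) u v w| ≤
      pK k * (1 / 2 ^ (4 * pe0 k)) * 4 := by
  have hn := st6_n_pos hk
  have h1 : coul (stg S i) u v w = ∑ a, S.Cm i a * coul (fh (pn k) (pα k a)) u v w := by
    rw [stg_eq]
    exact coul_sum_left Finset.univ (S.Cm i) (fun a => fh (pn k) (pα k a))
      (fun a _ => st6_fh_nice hk _) (hu.nice hn) (hv.nice hn) (hw.nice hn)
  rw [h1]
  exact st6_stage S.Cm _ S.near (fun a => coul (fh (pn k) (pα k a)) u v w) 4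
    (fun a => st6_coul_bd hn hn hn hn (st6_fh_shell hk _) hu hv hw (st6_fh_ov hk _) ou ov3 ov4) i

theorem st6_coul4 (hk : 10 ≤ k) (S : SiteB k C R) (i j i' j' : Fin (pK k)) :
    |coul (stg S i) (stg S j) (stg S i') (stg S j') -
      coul (fh (pn k) (pα k i)) (fh (pn k) (pα k j)) (fh (pn k) (pα k i')) (fh (pn k) (pα k j'))|
      ≤ 16 * (pK k * (1 / 2 ^ (4 * pe0 k))) := by
  have hgs := stg_shell S
  have hgo := stg_ov_self S
  have hfs := st6_fh_shell (k := k) hk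
  have hfo := st6_fh_ov (k := k) hk
  have hgn := stg_nice hk S
  have hfn := st6_fh_nice (k := k) hk
  have e1 := st6_coul_stage hk S i (hgs j) (hgs i') (hgs j') (hgo j) (hgo i') (hgo j')
  have e2 := st6_coul_stage hk S j (hfs (pα k i)) (hgs i') (hgs j') (hfo (pα k i)) (hgo i')
    (hgo j')
  have e3 := st6_coul_stage hk S i' (hgs j') (hfs (pα k i)) (hfs (pα k j)) (hgo j')
    (hfo (pα k i)) (hfo (pα k j))
  have e4 := st6_coul_stage hk S j' (hfs (pα k i')) (hfs (pα k i)) (hfs (pα k j)) (hfo (pα k i'))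
    (hfo (pα k i)) (hfo (pα k j))
  have s2 : coul (stg S j) (fh (pn k) (pα k i)) (stg S i') (stg S j') =
      coul (fh (pn k) (pα k i)) (stg S j) (stg S i') (stg S j') := coul_symm1 _ _ _ _
  have s2' : coul (fh (pn k) (pα k j)) (fh (pn k) (pα k i)) (stg S i') (stg S j') =
      coul (stg S i') (stg S j') (fh (pn k) (pα k i)) (fh (pn k) (pα k j)) := by
    rw [coul_symm1, coul_symm2 (hfn _) (hfn _) (hgn _) (hgn _)]
  have s3 : coul (stg S j') (fh (pn k) (pα k i')) (fh (pn k) (pα k i)) (fh (pn k) (pα k j)) =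
      coul (fh (pn k) (pα k i')) (stg S j') (fh (pn k) (pα k i)) (fh (pn k) (pα k j)) :=
    coul_symm1 _ _ _ _
  have s4 : coul (fh (pn k) (pα k j')) (fh (pn k) (pα k i')) (fh (pn k) (pα k i))
      (fh (pn k) (pα k j)) = coul (fh (pn k) (pα k i)) (fh (pn k) (pα k j))
      (fh (pn k) (pα k i')) (fh (pn k) (pα k j')) := by
    rw [coul_symm1, coul_symm2 (hfn _) (hfn _) (hfn _) (hfn _)]
  rw [s2, s2'] at e2
  rw [s3, s4] at e4
  rw [abs_le] at e1 e2 e3 e4 ⊢
  constructor <;> linarith only [e1, e2, e3, e4]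

/-! ### numerical bounds -/

theorem st6_K_ge (hk : 10 ≤ k) : (1024 : ℝ) ≤ pK k := by exact_mod_cast pK_ge k hk

theorem st6_K_le (hk : 10 ≤ k) (c : ℕ) (hc : c ≤ 2048) : (pK k : ℝ) ^ c ≤ pn k := by
  have h1 : (pn k : ℝ) = (pK k : ℝ) ^ 2048 := by
    rw [pn_eq]
    push_cast
    rfl
  rw [h1]
  exact pow_le_pow_right₀ (by linarith only [st6_K_ge hk]) hc

/-- the rounding of the site orbitals is negligible -/
theorem st6_eps (hk : 10 ≤ k) : (1 : ℝ) / 2 ^ (4 * pe0 k) ≤ 1 / (2 ^ pe0 k * (pn k : ℝ) ^ 64) := by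
  have h1 := pn_pow_le k hk 64 le_rfl
  refine one_div_le_one_div_of_le (by
    have : (0 : ℝ) < pn k := by exact_mod_cast st6_n_pos hk
    (clear * - this; positivity)) ?_
  calc (2 : ℝ) ^ pe0 k * (pn k : ℝ) ^ 64 ≤ 2 ^ pe0 k * 2 ^ (pe0 k / 64) := by (clear * - h1; gcongr)
    _ = 2 ^ (pe0 k + pe0 k / 64) := by rw [pow_add]
    _ ≤ 2 ^ (4 * pe0 k) := pow_le_pow_right₀ (by norm_num) (by (clear * -; omega))

/-! ### the one-body matrix -/

theorem st6_split (S : SiteB k C R) {m : ℕ} (w : Fin m → ℝ) (y : Fin m → R3)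
    (i j : Fin (pK k)) :
    hS S w y (Sum.inl i) (Sum.inl j) =
      (∑ β, w β * gm (y β) (stg S i) (stg S j)) + mfield S.B (stg S i) (stg S j) := rfl

theorem st6_mfield (hk : 10 ≤ k) (S : SiteB k C R) (i j : Fin (pK k)) :
    mfield S.B (stg S i) (stg S j) =
      if i = j then mfield S.B (fh (pn k) 0) (fh (pn k) 0) else 0 := by
  have hn := st3_pn_two k hk
  have hf := fun α => st6_fh_nice (k := k) hk α
  have hg := stg_nice hk S
  have hs := mfield_sites hn S.B S.hC S.hO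
  have h1 : ∀ a : Fin (pK k), mfield S.B (fh (pn k) (pα k a)) (stg S j) =
      mfield S.B (fh (pn k) 0) (fh (pn k) 0) * ov (fh (pn k) (pα k a)) (stg S j) := by
    intro a
    rw [mfield_symm S.B (hf _) (hg j), stg_eq,
      mfield_sum_left S.B Finset.univ (S.Cm j) (fun b => fh (pn k) (pα k b))
        (fun b _ => hf _) (hf _), m1_ov_comm (fh (pn k) (pα k a)),
      m1_ov_sum_left Finset.univ (S.Cm j) (f := fun b : Fin (pK k) => fh (pn k) (pα k b))
        (fun b _ => hf _) (hf _), Finset.mul_sum]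
    refine Finset.sum_congr rfl fun b _ => ?_
    rw [hs]
    ring
  have h2 : mfield S.B (stg S i) (stg S j) = ∑ a, S.Cm i a *
      mfield S.B (fh (pn k) (pα k a)) (stg S j) := by
    conv_lhs => rw [stg_eq S i]
    exact mfield_sum_left S.B Finset.univ (S.Cm i) (fun b => fh (pn k) (pα k b))
        (fun b _ => hf _) (hg j)
  have h3 : ov (stg S i) (stg S j) = ∑ a, S.Cm i a * ov (fh (pn k) (pα k a)) (stg S j) := by
    conv_lhs => rw [stg_eq S i]
    exact m1_ov_sum_left Finset.univ (S.Cm i) (f := fun b : Fin (pK k) => fh (pn k) (pα k b))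
        (fun b _ => hf _) (hg j)
  have h4 : mfield S.B (stg S i) (stg S j) =
      mfield S.B (fh (pn k) 0) (fh (pn k) 0) * ov (stg S i) (stg S j) := by
    rw [h2, h3, Finset.mul_sum]
    refine Finset.sum_congr rfl fun a _ => ?_
    rw [h1]
    ring
  rw [h4, stg_ov]
  split_ifs <;> simp

theorem stg_InV (hk : 10 ≤ k) (S : SiteB k C R) (i : Fin (pK k)) : InV (pn k) (stg S i) :=
  S.inV hk i

theorem st6_bform (hk : 10 ≤ k) (S : SiteB k C R) (i j : Fin (pK k)) :
    bform (pρ k) (stg S i) (stg S j) = if i = j then xr (pn k) (pρ k) else 0 := by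
  rw [bform_top (pn k) (st6_n_pos hk) (stg_InV hk S i) (stg_InV hk S j) (pρ k) (st3_pρ_pos k),
    stg_ov]
  split_ifs <;> simp

theorem st6_ov_le {f g : R3 → ℝ} (hf : Nice f) (hg : Nice g) (of : ov f f = 1)
    (og : ov g g = 1) : |ov f g| ≤ 1 := by
  have h1 := bd_prod_abs hf hg
  rw [of, og, Real.sqrt_one, mul_one] at h1
  unfold ov
  exact abs_integral_le_integral_abs.trans h1

/-- overlaps with the great circle orbitals -/
theorem st6_ov_near (hk : 10 ≤ k) (S : SiteB k C R) (i l : Fin (pK k)) :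
    |ov (stg S i) (fh (pn k) (pα k l)) - if i = l then 1 else 0| ≤
      pK k * (1 / 2 ^ (4 * pe0 k)) := by
  have hf := fun α => st6_fh_nice (k := k) hk α
  have hg := stg_nice hk S
  have h1 : ov (stg S l) (stg S i) = ∑ a, S.Cm l a * ov (fh (pn k) (pα k a)) (stg S i) := by
    conv_lhs => rw [stg_eq S l]
    exact m1_ov_sum_left Finset.univ (S.Cm l) (f := fun b : Fin (pK k) => fh (pn k) (pα k b))
        (fun b _ => hf _) (hg i)
  have h2 := st6_stage S.Cm _ S.near (fun a => ov (fh (pn k) (pα k a)) (stg S i)) 1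
    (fun a => st6_ov_le (hf _) (hg i) (st6_fh_ov hk _) (stg_ov_self S i)) l
  rw [← h1, mul_one, m1_ov_comm (fh (pn k) (pα k l)), stg_ov, abs_sub_comm] at h2
  have h3 : (if l = i then (1 : ℝ) else 0) = if i = l then 1 else 0 := by
    simp only [eq_comm]
  rw [h3] at h2
  exact h2

theorem st6_ov_gsite (hk : 10 ≤ k) (S : SiteB k C R) (i : Fin (pK k)) (γ : ℝ) :
    ov (stg S i) (gsite (pn k) γ) = 0 := by
  have hn := st3_pn_two k hk
  have hf := fun α => st6_fh_nice (k := k) hk α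
  have hg : Nice (gsite (pn k) γ) := nice_gsite (st6_n_pos hk) γ
  have h1 : ov (stg S i) (gsite (pn k) γ) =
      ∑ a, S.Cm i a * ov (fh (pn k) (pα k a)) (gsite (pn k) γ) := by
    conv_lhs => rw [stg_eq S i]
    exact m1_ov_sum_left Finset.univ (S.Cm i) (f := fun b : Fin (pK k) => fh (pn k) (pα k b))
        (fun b _ => hf _) hg
  rw [h1]
  refine Finset.sum_eq_zero fun a _ => ?_
  rw [m1_ov_comm, st3_ov_fh, m1_ov_comm, site_ov_fg (pn k) hn, zero_div, mul_zero]

theorem st6_gram {K : ℕ} (x y : Fin K → ℝ) (i j : Fin K) (η : ℝ)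
    (hx : ∀ l, |x l - if i = l then 1 else 0| ≤ η)
    (hy : ∀ l, |y l - if j = l then 1 else 0| ≤ η) (hη : K * η ≤ 1) :
    |(∑ l, x l * y l) - if i = j then 1 else 0| ≤ 3 * η := by
  have hη0 : 0 ≤ η := (abs_nonneg _).trans (hx i)
  have h1 : (∑ l, x l * y l) - (if i = j then 1 else 0) =
      (y i - if j = i then 1 else 0) + (x j - if i = j then 1 else 0) +
        ∑ l, (x l - if i = l then 1 else 0) * (y l - if j = l then 1 else 0) := by
    have e : ∀ l, (x l - if i = l then 1 else 0) * (y l - if j = l then 1 else 0) =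
        x l * y l - (if i = l then 1 else 0) * y l - (if j = l then 1 else 0) * x l +
          (if i = l then 1 else 0) * (if j = l then 1 else 0) := fun l => by ring
    simp only [e, Finset.sum_add_distrib, Finset.sum_sub_distrib]
    simp only [ite_mul, one_mul, zero_mul, Finset.sum_ite_eq, Finset.mem_univ, if_true]
    ring
  have h2 : |∑ l, (x l - if i = l then 1 else 0) * (y l - if j = l then 1 else 0)| ≤ η := by
    calc _ ≤ ∑ l, |(x l - if i = l then 1 else 0) * (y l - if j = l then 1 else 0)| :=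
          Finset.abs_sum_le_sum_abs _ _
      _ ≤ ∑ _l : Fin K, η * η := by
          refine Finset.sum_le_sum fun l _ => ?_
          rw [abs_mul]
          exact mul_le_mul (hx l) (hy l) (abs_nonneg _) hη0
      _ = (K * η) * η := by
          rw [Finset.sum_const, Finset.card_univ, Fintype.card_fin, nsmul_eq_mul]
          ring
      _ ≤ 1 * η := by gcongr
      _ = η := one_mul η
  rw [h1]
  have h3 := hx j
  have h4 := hy i
  rw [abs_le] at *
  constructor <;> linarith only [h2, h3, h4]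

/-- the top devices -/
theorem st6_top (hk : 10 ≤ k) (S : SiteB k C R) (i j : Fin (pK k)) :
    ∑ l ∈ range (pK k), pL k * Xu (pn k) (2 * (pn k - 1)) (pρ k) *
        devf k (pα k l) (2 * (pn k - 1)) (stg S i) (stg S j) =
      -(Lam k * ∑ l : Fin (pK k), ov (stg S i) (fh (pn k) (pα k l)) *
        ov (stg S j) (fh (pn k) (pα k l))) := by
  rw [Finset.sum_range, Finset.mul_sum, ← Finset.sum_neg_distrib]
  refine Finset.sum_congr rfl fun l _ => ?_
  rw [mul_assoc, devf_rank_two k hk (pα k l) (stg_InV hk S i) (stg_InV hk S j),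
    st6_ov_gsite hk, st6_ov_gsite hk]
  unfold Lam
  ring

theorem st6_devf_sum_left (γ : ℝ) (N : ℕ) {ι : Type} (t : Finset ι) (a : ι → ℝ)
    (f : ι → R3 → ℝ) (hf : ∀ i ∈ t, Nice (f i)) {g : R3 → ℝ} (hg : Nice g) :
    devf k γ N (fun x => ∑ i ∈ t, a i * f i x) g = ∑ i ∈ t, a i * devf k γ N (f i) g := by
  unfold devf
  rw [← st3_dsum t (pD k) a (fun i c d => qw (pD k) c *
    (cdot (av γ) (node (pD k) c d) ^ N).re * gm (pρ k • node (pD k) c d) (f i) g)]
  refine Finset.sum_congr rfl fun c _ => Finset.sum_congr rfl fun d _ => ?_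
  rw [gm_sum_left t a f hf hg, Finset.mul_sum]
  exact Finset.sum_congr rfl fun i _ => by ring

theorem st6_devf_symm (γ : ℝ) (N : ℕ) (f g : R3 → ℝ) : devf k γ N f g = devf k γ N g f := by
  unfold devf
  simp only [gm_symm _ f g]

/-- a unit device between the sites -/
theorem st6_dev_near (hk : 10 ≤ k) (S : SiteB k C R) (γ : ℝ) (q : ℕ) (hq1 : 1 ≤ q)
    (hq : q ≤ pn k - 1) (i j : Fin (pK k)) :
    |Xu (pn k) (2 * q) (pρ k) * devf k γ (2 * q) (stg S i) (stg S j) +
      zt k (2 * q) * hopA (pn k) q γ (pα k i) (pα k j)| ≤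
      4 * (pK k * (1 / 2 ^ (4 * pe0 k))) := by
  have hf := fun α => st6_fh_nice (k := k) hk α
  have hg := stg_nice hk S
  have hfV := fun α => st6_fh_InV (pn k) (st6_n_pos hk) α
  have hgV := stg_InV hk S
  have hb : ∀ {f g : R3 → ℝ}, InV (pn k) f → InV (pn k) g → ov f f = 1 → ov g g = 1 →
      |Xu (pn k) (2 * q) (pρ k) * devf k γ (2 * q) f g| ≤ 2 := by
    intro f g h1 h2 h3 h4
    have h5 := devf_top_le k hk γ q hq1 hq h1 h2
    rw [h3, h4, mul_one, Real.sqrt_one, mul_one] at h5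
    exact h5
  -- first argument
  have e1 : Xu (pn k) (2 * q) (pρ k) * devf k γ (2 * q) (stg S i) (stg S j) =
      ∑ a, S.Cm i a * (Xu (pn k) (2 * q) (pρ k) *
        devf k γ (2 * q) (fh (pn k) (pα k a)) (stg S j)) := by
    conv_lhs => rw [stg_eq S i]
    rw [st6_devf_sum_left γ (2 * q) Finset.univ (S.Cm i)
      (fun b : Fin (pK k) => fh (pn k) (pα k b)) (fun b _ => hf _) (hg j), Finset.mul_sum]
    exact Finset.sum_congr rfl fun a _ => by ring
  have s1 := st6_stage S.Cm _ S.near (fun a => Xu (pn k) (2 * q) (pρ k) *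
        devf k γ (2 * q) (fh (pn k) (pα k a)) (stg S j)) 2
    (fun a => hb (hfV _) (hgV j) (st6_fh_ov hk _) (stg_ov_self S j)) i
  have e2 : Xu (pn k) (2 * q) (pρ k) * devf k γ (2 * q) (fh (pn k) (pα k i)) (stg S j) =
      ∑ a, S.Cm j a * (Xu (pn k) (2 * q) (pρ k) *
        devf k γ (2 * q) (fh (pn k) (pα k a)) (fh (pn k) (pα k i))) := by
    rw [st6_devf_symm]
    conv_lhs => rw [stg_eq S j]
    rw [st6_devf_sum_left γ (2 * q) Finset.univ (S.Cm j)
      (fun b : Fin (pK k) => fh (pn k) (pα k b)) (fun b _ => hf _) (hf _), Finset.mul_sum]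
    exact Finset.sum_congr rfl fun a _ => by ring
  have s2 := st6_stage S.Cm _ S.near (fun a => Xu (pn k) (2 * q) (pρ k) *
        devf k γ (2 * q) (fh (pn k) (pα k a)) (fh (pn k) (pα k i))) 2
    (fun a => hb (hfV _) (hfV _) (st6_fh_ov hk _) (st6_fh_ov hk _)) j
  rw [← e1] at s1
  rw [← e2, st6_devf_symm γ (2 * q) (fh (pn k) (pα k j)) (fh (pn k) (pα k i)),
    devf_hop k hk γ _ _ q hq1 hq] at s2
  rw [abs_le] at s1 s2 ⊢
  constructor <;> linarith only [s1, s2]

theorem st6_pair_sum (K : ℕ) (X : ℕ → ℕ → ℝ) (i j : ℕ) (hj : j < K) :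
    ∑ b ∈ range K, ∑ a ∈ range b, (if i = a ∧ j = b then X a b else 0) =
      if i < j then X i j else 0 := by
  have h1 : ∀ b ∈ range K, ∑ a ∈ range b, (if i = a ∧ j = b then X a b else 0) =
      if j = b then (if i < b then X i b else 0) else 0 := by
    intro b _
    by_cases h : j = b
    · subst h
      simp [Finset.sum_ite_eq]
    · simp [h]
  rw [Finset.sum_congr rfl h1, Finset.sum_ite_eq, if_pos (Finset.mem_range.2 hj)]

/-- target of the pair `(a, b)` -/
noncomputable def st6tgt (k : ℕ) (q : ℕ → ℕ) (s : ℕ → ℕ → ℕ) (i j a b : ℕ) : ℝ :=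
  (if i = a ∧ j = b then thop k q (b - a) (s a b) else 0) +
    if j = a ∧ i = b then thop k q (b - a) (s a b) else 0

theorem st6_tgt_sum (q : ℕ → ℕ) (s : ℕ → ℕ → ℕ) (i j : Fin (pK k)) :
    ∑ b ∈ range (pK k), ∑ a ∈ range b, st6tgt k q s i j a b = tS k q s i j := by
  unfold st6tgt
  simp only [Finset.sum_add_distrib]
  rw [st6_pair_sum (pK k) (fun a b => thop k q (b - a) (s a b)) i j j.2,
    st6_pair_sum (pK k) (fun a b => thop k q (b - a) (s a b)) j i i.2]
  unfold tS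
  have e1 : (i : ℕ) < (j : ℕ) ↔ i < j := Iff.rfl
  have e2 : (j : ℕ) < (i : ℕ) ↔ j < i := Iff.rfl
  simp only [e1, e2]
  by_cases h : i < j
  · rw [if_pos h, if_pos h, if_neg (not_lt.2 h.le), add_zero]
  · rw [if_neg h, if_neg h, zero_add]

/-- one hopping device -/
theorem st6_hop_one (hk : 10 ≤ k) (S : SiteB k C R) (q : ℕ → ℕ) (hq : GoodQ k q)
    (s : ℕ → ℕ → ℕ) (hs : GoodS k q s) (i j : Fin (pK k)) (a b : ℕ) (hab : a < b)
    (hb : b < pK k) :
    |(s a b : ℝ) * pη k * Xu (pn k) (2 * q (b - a)) (pρ k) *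
      devf k ((pα k a + pα k b) / 2) (2 * q (b - a)) (stg S i) (stg S j) -
        st6tgt k q s i j a b| ≤
      (pn k : ℝ) ^ 5 * (4 * (pK k * (1 / 2 ^ (4 * pe0 k))) +
        16 * Real.exp (-(((pn k : ℝ) - 1) / (64 * (pK k : ℝ) ^ 4)))) := by
  have hr := goodQ_range k hk q hq (b - a) (by omega) (by omega)
  have hn := st3_pn_two k hk
  have h1 := st6_dev_near hk S ((pα k a + pα k b) / 2) (q (b - a)) hr.1 (by omega) i j
  have hsb := (goodS_bound k hk q hq s hs a b hab hb).1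
  have hs0 : 0 ≤ (s a b : ℝ) * pη k := by
    unfold pη
    (clear * -; (clear * -; positivity))
  have hz := zt_bounds k (2 * q (b - a)) hk (by omega) (by omega)
  set A := (s a b : ℝ) * pη k with hA
  set D := Xu (pn k) (2 * q (b - a)) (pρ k) *
    devf k ((pα k a + pα k b) / 2) (2 * q (b - a)) (stg S i) (stg S j) with hD
  set Z := zt k (2 * q (b - a)) with hZ
  set Ex := Real.exp (-(((pn k : ℝ) - 1) / (64 * (pK k : ℝ) ^ 4))) with hEx
  set H := hopA (pn k) (q (b - a)) ((pα k a + pα k b) / 2) (pα k i) (pα k j) with hH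
  have hEx0 : 0 ≤ Ex := (Real.exp_pos _).le
  have hAD : A * Xu (pn k) (2 * q (b - a)) (pρ k) *
      devf k ((pα k a + pα k b) / 2) (2 * q (b - a)) (stg S i) (stg S j) = A * D := by
    rw [hD]
    ring
  rw [hAD]
  -- the target
  have h2 : |A * (Z * H) + st6tgt k q s i j a b| ≤ (pn k : ℝ) ^ 5 * (16 * Ex) := by
    by_cases c1 : (i : ℕ) = a ∧ (j : ℕ) = b
    · have c2 : ¬((j : ℕ) = a ∧ (i : ℕ) = b) := by omega
      have ho := (hop_own k hk q hq a b hab hb).1
      have e1 : H = amp k q (b - a) := by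
        rw [hH, c1.1, c1.2]
        exact ho
      have e2 : A * (Z * H) + st6tgt k q s i j a b = 0 := by
        unfold st6tgt
        rw [if_pos c1, if_neg c2, e1]
        unfold thop
        ring
      rw [e2, abs_zero]
      (clear * - hn; positivity)
    · by_cases c2 : (j : ℕ) = a ∧ (i : ℕ) = b
      · have ho := (hop_own k hk q hq a b hab hb).2
        have e1 : H = amp k q (b - a) := by
          rw [hH, c2.1, c2.2]
          exact ho
        have e2 : A * (Z * H) + st6tgt k q s i j a b = 0 := by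
          unfold st6tgt
          rw [if_neg c1, if_pos c2, e1]
          unfold thop
          ring
        rw [e2, abs_zero]
        (clear * - hn; positivity)
      · have hl := hop_leak k hk q hq a b hab hb i j ⟨c1, fun h => c2 ⟨h.2, h.1⟩⟩
        have e2 : st6tgt k q s i j a b = 0 := by
          unfold st6tgt
          rw [if_neg c1, if_neg c2, add_zero]
        rw [e2, add_zero, abs_mul A, abs_mul Z, abs_of_nonneg hs0,
          abs_of_nonneg (by linarith only [hz.1] : (0 : ℝ) ≤ Z)]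
        calc A * (Z * |H|) ≤ (pn k : ℝ) ^ 5 * (2 * (8 * Ex)) := by
              have hZ0 : 0 ≤ Z := by linarith only [hz.1]
              have hH0 := abs_nonneg H
              exact mul_le_mul hsb (mul_le_mul hz.2 hl hH0 (by norm_num))
                (mul_nonneg hZ0 hH0) (by positivity)
          _ = _ := by ring
  have h3 : |A * (D + Z * H)| ≤ (pn k : ℝ) ^ 5 * (4 * (pK k * (1 / 2 ^ (4 * pe0 k)))) := by
    rw [abs_mul, abs_of_nonneg hs0]
    exact mul_le_mul hsb h1 (abs_nonneg _) (by (clear * - hn; positivity))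
  have e : A * D - st6tgt k q s i j a b =
      A * (D + Z * H) - (A * (Z * H) + st6tgt k q s i j a b) := by ring
  rw [e]
  calc |A * (D + Z * H) - (A * (Z * H) + st6tgt k q s i j a b)| ≤
        |A * (D + Z * H)| + |A * (Z * H) + st6tgt k q s i j a b| := abs_sub _ _
    _ ≤ _ := by
        have := add_le_add h3 h2
        linarith only [h2, h3]

/-- all hopping devices -/
theorem st6_hop_all (hk : 10 ≤ k) (S : SiteB k C R) (q : ℕ → ℕ) (hq : GoodQ k q)
    (s : ℕ → ℕ → ℕ) (hs : GoodS k q s) (i j : Fin (pK k)) :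
    |(∑ b ∈ range (pK k), ∑ a ∈ range b,
      (s a b : ℝ) * pη k * Xu (pn k) (2 * q (b - a)) (pρ k) *
        devf k ((pα k a + pα k b) / 2) (2 * q (b - a)) (stg S i) (stg S j)) - tS k q s i j| ≤
      (pK k : ℝ) ^ 2 * ((pn k : ℝ) ^ 5 * (4 * (pK k * (1 / 2 ^ (4 * pe0 k))) +
        16 * Real.exp (-(((pn k : ℝ) - 1) / (64 * (pK k : ℝ) ^ 4))))) := by
  set E := (pn k : ℝ) ^ 5 * (4 * (pK k * (1 / 2 ^ (4 * pe0 k))) +
        16 * Real.exp (-(((pn k : ℝ) - 1) / (64 * (pK k : ℝ) ^ 4)))) with hE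
  have hE0 : 0 ≤ E := by (clear * -; (clear * -; positivity))
  rw [← st6_tgt_sum q s i j, ← Finset.sum_sub_distrib]
  refine (Finset.abs_sum_le_sum_abs _ _).trans ?_
  calc _ ≤ ∑ _b ∈ range (pK k), (pK k : ℝ) * E := by
        refine Finset.sum_le_sum fun b hb => ?_
        rw [← Finset.sum_sub_distrib]
        refine (Finset.abs_sum_le_sum_abs _ _).trans ?_
        calc _ ≤ ∑ _a ∈ range b, E := by
              refine Finset.sum_le_sum fun a ha => ?_
              exact st6_hop_one hk S q hq s hs i j a b (Finset.mem_range.1 ha)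
                (Finset.mem_range.1 hb)
          _ = b * E := by
              rw [Finset.sum_const, Finset.card_range, nsmul_eq_mul]
          _ ≤ (pK k : ℝ) * E := by
              have : (b : ℝ) ≤ pK k := by exact_mod_cast (Finset.mem_range.1 hb).le
              (clear * - this; gcongr)
    _ = _ := by
        rw [Finset.sum_const, Finset.card_range, nsmul_eq_mul]
        ring

theorem st6_Lam (hk : 10 ≤ k) : 0 ≤ Lam k ∧ Lam k ≤ 2 * 2 ^ pe0 k := by
  have hn := st3_pn_two k hk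
  have h1 := zt_bounds k (2 * (pn k - 1)) hk (by omega) (by omega)
  have h2 := gam_bounds (pn k) hn
  have h3 : 0 ≤ gam (pn k) := le_trans (by (clear * - hn; positivity)) h2.1
  have h4 := (pe0_eq k hk).2
  unfold Lam
  rw [h4]
  have h5 : (0 : ℝ) ≤ zt k (2 * (pn k - 1)) := by linarith only [h1.1]
  refine ⟨by (clear * - h5 h3; (clear * - h5 h3; positivity)), ?_⟩
  calc (2 : ℝ) ^ pe0 k * zt k (2 * (pn k - 1)) * gam (pn k) ≤ 2 ^ pe0 k * 2 * 1 :=
        mul_le_mul (mul_le_mul_of_nonneg_left h1.2 (by positivity)) h2.2 h3 (by positivity)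
    _ = _ := by ring

/-- one-body matrix between the sites -/
theorem hS_near (hk : 10 ≤ k) (S : SiteB k C R) (q : ℕ → ℕ) (hq : GoodQ k q)
    (s : ℕ → ℕ → ℕ) (hs : GoodS k q s) (w : Fin (pD k * pD k) → ℕ)
    (y : Fin (pD k * pD k) → R3) (H : Approx k q s w y) (i j : Fin (pK k)) :
    |hS S (fun β => (w β : ℝ)) y (Sum.inl i) (Sum.inl j) - (if i = j then eps0 S else 0) -
      tS k q s i j| ≤ 1 / (pn k : ℝ) ^ 3 := by
  have hK := st6_K_ge hk
  have hK0 : (0 : ℝ) < pK k := by linarith only [hK]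
  have hn0 : (0 : ℝ) < pn k := by exact_mod_cast st6_n_pos hk
  have hn1 : (1 : ℝ) ≤ pn k := by exact_mod_cast st6_n_pos hk
  have hKn2 := st6_K_le hk 2 (by norm_num)
  have hKn4 := st6_K_le hk 4 (by norm_num)
  have hnK : (1024 : ℝ) * 1024 ≤ pn k := by linarith only [hK, hKn2, mul_nonneg_of_nonpos_of_nonpos (Mathlib.Tactic.Linarith.sub_nonpos_of_le (Mathlib.Tactic.Linarith.natCast_nonneg ℝ (Vale.Agent.P370.Q.pK k))) (Mathlib.Tactic.Linarith.sub_nonpos_of_le hK)]
  set ε : ℝ := 1 / 2 ^ (4 * pe0 k) with hε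
  have hε0 : 0 < ε := by positivity
  have hε1 := st6_eps hk
  have hp1 : (1 : ℝ) ≤ 2 ^ pe0 k := one_le_pow₀ (by norm_num)
  have hε2 : ε ≤ 1 / (pn k : ℝ) ^ 64 := by
    refine hε1.trans ?_
    refine one_div_le_one_div_of_le (by (clear * - hn0; positivity)) ?_
    linarith only [mul_nonneg_of_nonpos_of_nonpos (Mathlib.Tactic.Linarith.sub_nonpos_of_le hp1) (le_of_lt (Mathlib.Tactic.Linarith.sub_neg_of_lt (pow_pos hn0 64)))]
  -- rounding
  have r1 := rounding k hk q hq s hs w y H (st6_n_pos hk) (st6_n_pos hk) (stg_shell S i)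
    (stg_shell S j)
  rw [stg_ov_self, stg_ov_self, mul_one, Real.sqrt_one, mul_one] at r1
  have r2 := hex_eq k hk q s (stg_shell S i) (stg_shell S j)
  rw [st6_bform hk, st6_top hk] at r2
  -- Gram matrix
  have g1 := st6_gram (fun l => ov (stg S i) (fh (pn k) (pα k l)))
    (fun l => ov (stg S j) (fh (pn k) (pα k l))) i j (pK k * ε) (st6_ov_near hk S i)
    (st6_ov_near hk S j) (by
      calc (pK k : ℝ) * (pK k * ε) ≤ pK k * (pK k * (1 / (pn k : ℝ) ^ 64)) := by (clear * - hε2 hK; gcongr)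
        _ = (pK k : ℝ) ^ 2 / (pn k : ℝ) ^ 64 := by ring
        _ ≤ (pn k : ℝ) / (pn k : ℝ) ^ 64 := by (clear * - hKn2 hn0; gcongr)
        _ ≤ 1 := by
            rw [div_le_one (by positivity)]
            calc (pn k : ℝ) = (pn k : ℝ) ^ 1 := (pow_one _).symm
              _ ≤ (pn k : ℝ) ^ 64 := pow_le_pow_right₀ hn1 (by norm_num))
  have hL := st6_Lam hk
  have g2 : |Lam k * ((∑ l : Fin (pK k), ov (stg S i) (fh (pn k) (pα k l)) *
      ov (stg S j) (fh (pn k) (pα k l))) - if i = j then 1 else 0)| ≤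
      6 * pK k / (pn k : ℝ) ^ 64 := by
    rw [abs_mul, abs_of_nonneg hL.1]
    calc _ ≤ (2 * 2 ^ pe0 k) * (3 * (pK k * ε)) :=
          mul_le_mul hL.2 g1 (abs_nonneg _) (by positivity)
      _ ≤ (2 * 2 ^ pe0 k) * (3 * (pK k * (1 / (2 ^ pe0 k * (pn k : ℝ) ^ 64)))) := by gcongr
      _ = _ := by
          field_simp
          norm_num
  -- hopping
  have t1 := st6_hop_all hk S q hq s hs i j
  rw [← hε] at t1
  have t2 := leak_small k hk
  set Ex := Real.exp (-(((pn k : ℝ) - 1) / (64 * (pK k : ℝ) ^ 4))) with hEx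
  have t3 : Ex ≤ 1 / (pn k : ℝ) ^ 24 := by
    rw [le_div_iff₀ (by (clear * - hn0; positivity))] at t2 ⊢
    calc Ex * (pn k : ℝ) ^ 24 = (pn k : ℝ) ^ 20 * Ex * (pn k : ℝ) ^ 4 := by ring
      _ ≤ 1 := t2
  have t4 : (pK k : ℝ) ^ 2 * ((pn k : ℝ) ^ 5 * (4 * (pK k * ε) + 16 * Ex)) ≤
      20 / (pn k : ℝ) ^ 17 := by
    have hKn : (pK k : ℝ) ≤ pn k := by
      have := st6_K_le hk 1 (by norm_num)
      rwa [pow_one] at this
    have h1 : 1 / (pn k : ℝ) ^ 64 ≤ 1 / (pn k : ℝ) ^ 24 :=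
      one_div_le_one_div_of_le (by (clear * - hn0; positivity)) (pow_le_pow_right₀ hn1 (by norm_num))
    calc (pK k : ℝ) ^ 2 * ((pn k : ℝ) ^ 5 * (4 * (pK k * ε) + 16 * Ex))
        ≤ (pn k : ℝ) * ((pn k : ℝ) ^ 5 * (4 * (pn k * (1 / (pn k : ℝ) ^ 24)) +
          16 * (1 / (pn k : ℝ) ^ 24))) := by
          have := hε2.trans h1
          (clear * - hKn2 hKn this hn0 t3 hK; gcongr)
      _ ≤ (pn k : ℝ) * ((pn k : ℝ) ^ 5 * (4 * (pn k * (1 / (pn k : ℝ) ^ 24)) +
          16 * (pn k * (1 / (pn k : ℝ) ^ 24)))) := by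
          have : 1 / (pn k : ℝ) ^ 24 ≤ pn k * (1 / (pn k : ℝ) ^ 24) :=
            le_mul_of_one_le_left (by (clear * - hn0; (clear * - hn0; positivity))) hn1
          (clear * - this hn0; gcongr)
      _ = 20 / (pn k : ℝ) ^ 17 := by
          field_simp
          ring
  -- rounding error
  have r3 : (1 : ℝ) / 2 ^ (15 * pn k ^ 2) ≤ 1 / (pn k : ℝ) ^ 15 := by
    refine one_div_le_one_div_of_le (by (clear * - hn0; positivity)) ?_
    have : (pn k : ℝ) ≤ 2 ^ (pn k) := by exact_mod_cast (Nat.lt_two_pow_self (n := pn k)).le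
    calc (pn k : ℝ) ^ 15 ≤ (2 ^ pn k) ^ 15 := by (clear * - hn0 this; gcongr)
      _ = 2 ^ (15 * pn k) := by rw [← pow_mul, mul_comm]
      _ ≤ 2 ^ (15 * pn k ^ 2) := pow_le_pow_right₀ (by norm_num) (by
          have := st6_n_pos hk
          nlinarith only [this])
  -- collect
  have c1 : 1 / (pn k : ℝ) ^ 15 + 6 * pK k / (pn k : ℝ) ^ 64 + 20 / (pn k : ℝ) ^ 17 ≤
      1 / (pn k : ℝ) ^ 3 := by
    have a1 : 6 * pK k / (pn k : ℝ) ^ 64 ≤ 6 / (pn k : ℝ) ^ 15 := by
      have hKn : (pK k : ℝ) ≤ pn k := by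
        have := st6_K_le hk 1 (by norm_num)
        rwa [pow_one] at this
      calc 6 * (pK k : ℝ) / (pn k : ℝ) ^ 64 ≤ 6 * (pn k : ℝ) / (pn k : ℝ) ^ 64 := by (clear * - hKn hn0; gcongr)
        _ = 6 / (pn k : ℝ) ^ 63 := by field_simp
        _ ≤ 6 / (pn k : ℝ) ^ 15 := by
            have : (pn k : ℝ) ^ 15 ≤ (pn k : ℝ) ^ 63 := pow_le_pow_right₀ hn1 (by norm_num)
            (clear * - hn0 this; gcongr)
    have a2 : 20 / (pn k : ℝ) ^ 17 ≤ 20 / (pn k : ℝ) ^ 15 := by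
      have : (pn k : ℝ) ^ 15 ≤ (pn k : ℝ) ^ 17 := pow_le_pow_right₀ hn1 (by norm_num)
      (clear * - hn0 this; gcongr)
    have a3 : 27 / (pn k : ℝ) ^ 15 ≤ 1 / (pn k : ℝ) ^ 3 := by
      rw [div_le_div_iff₀ (by (clear * - hn0; positivity)) (by (clear * - hn0; positivity))]
      calc 27 * (pn k : ℝ) ^ 3 ≤ pn k * (pn k : ℝ) ^ 3 := by
            gcongr
            linarith only [hnK]
        _ = (pn k : ℝ) ^ 4 := by ring
        _ ≤ (pn k : ℝ) ^ 15 := pow_le_pow_right₀ hn1 (by norm_num)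
        _ = _ := by ring
    have a4 : 1 / (pn k : ℝ) ^ 15 + 6 / (pn k : ℝ) ^ 15 + 20 / (pn k : ℝ) ^ 15 =
        27 / (pn k : ℝ) ^ 15 := by ring
    linarith only [a1, a2, a3, a4]
  have e0 : (if i = j then eps0 S else 0) =
      pW k * (if i = j then xr (pn k) (pρ k) else 0) +
        (if i = j then mfield S.B (fh (pn k) 0) (fh (pn k) 0) else 0) -
          Lam k * (if i = j then 1 else 0) := by
    unfold eps0
    split_ifs <;> ring
  rw [st6_split, st6_mfield hk, e0]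
  set G := ∑ l : Fin (pK k), ov (stg S i) (fh (pn k) (pα k l)) * ov (stg S j) (fh (pn k) (pα k l)) with hG
  set T := ∑ b ∈ range (pK k), ∑ a ∈ range b,
      (s a b : ℝ) * pη k * Xu (pn k) (2 * q (b - a)) (pρ k) *
        devf k ((pα k a + pα k b) / 2) (2 * q (b - a)) (stg S i) (stg S j) with hT
  rw [r2] at r1
  have t5 := t1.trans t4
  have r4 := r1.trans r3
  rw [mul_sub] at g2
  rw [abs_le] at g2 t5 r4 ⊢
  constructor <;> linarith only [c1, g2, t5, r4]

/-- Coulomb integrals between the sites -/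
theorem vS_near (hk : 10 ≤ k) (S : SiteB k C R) (i j i' j' : Fin (pK k)) :
    |vS S (Sum.inl i) (Sum.inl j) (Sum.inl i') (Sum.inl j') -
      (if i = j ∧ i' = j' then wS k i i' else 0)| ≤ 1 / ((pn k : ℝ) ^ 2 * (pK k : ℝ) ^ 500) := by
  have hn2 := st3_pn_two k hk
  have hK := st6_K_ge hk
  have hK0 : (0 : ℝ) < pK k := by linarith only [hK]
  have hn0 : (0 : ℝ) < pn k := by exact_mod_cast st6_n_pos hk
  have hn1 : (1 : ℝ) ≤ pn k := by exact_mod_cast st6_n_pos hk
  have h1 := st6_coul4 hk S i j i' j'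
  have hv : vS S (Sum.inl i) (Sum.inl j) (Sum.inl i') (Sum.inl j') =
      coul (stg S i) (stg S j) (stg S i') (stg S j') := rfl
  rw [hv]
  -- the fh part
  have h2 : |coul (fh (pn k) (pα k i)) (fh (pn k) (pα k j)) (fh (pn k) (pα k i'))
      (fh (pn k) (pα k j')) - (if i = j ∧ i' = j' then wS k i i' else 0)| ≤
      1 / ((pn k : ℝ) ^ 2 * (pK k : ℝ) ^ 500) / 2 := by
    by_cases h : i = j ∧ i' = j'
    · rw [if_pos h]
      obtain ⟨rfl, rfl⟩ := h
      rw [wdir_eq (pn k) hn2]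
      unfold wS
      rw [sub_self, abs_zero]
      (clear * - hn2 hK; positivity)
    · rw [if_neg h, sub_zero]
      have h3 : i ≠ j ∨ i' ≠ j' := by
        by_contra h4
        push Not at h4
        exact h h4
      have hK2 : 2 ≤ pK k := by have := pK_ge k hk; omega
      have h4 := coul_off (pn k) (pK k) hK2 hn2 i j i' j' h3
      have h5 := (log_pn_le k hk).1
      have h6 : (pn k : ℝ) ^ (-(9 / 4) : ℝ) = 1 / ((pn k : ℝ) ^ 2 * (pK k : ℝ) ^ 512) :=
        pn_quarter k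
      rw [h6] at h4
      refine h4.trans ?_
      calc 2 ^ 11 * (pK k : ℝ) * (1 + Real.log (pn k)) * (1 / ((pn k : ℝ) ^ 2 * (pK k : ℝ) ^ 512))
          ≤ 2 ^ 11 * (pK k : ℝ) * (pK k : ℝ) ^ 2 * (1 / ((pn k : ℝ) ^ 2 * (pK k : ℝ) ^ 512)) := by
            (clear * - h5 hK2 hn2; gcongr)
        _ = 2 ^ 11 / ((pK k : ℝ) ^ 9) * (1 / ((pn k : ℝ) ^ 2 * (pK k : ℝ) ^ 500)) := by
            field_simp
        _ ≤ 1 / 2 * (1 / ((pn k : ℝ) ^ 2 * (pK k : ℝ) ^ 500)) := by
            refine mul_le_mul_of_nonneg_right ?_ (by (clear * - hn2 hK2; positivity))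
            rw [div_le_div_iff₀ (by (clear * - hK2; positivity)) (by norm_num)]
            have : (1024 : ℝ) ^ 9 ≤ (pK k : ℝ) ^ 9 := by (clear * - hK; gcongr)
            linarith only [this]
        _ = _ := by ring
  have h3 : 16 * ((pK k : ℝ) * (1 / 2 ^ (4 * pe0 k))) ≤
      1 / ((pn k : ℝ) ^ 2 * (pK k : ℝ) ^ 500) / 2 := by
    have h4 := st6_eps hk
    have h5 := st6_K_le hk 2 (by norm_num)
    have h6 := st6_K_le hk 500 (by norm_num)
    have h7 : (1 : ℝ) ≤ 2 ^ pe0 k := one_le_pow₀ (by norm_num)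
    calc 16 * ((pK k : ℝ) * (1 / 2 ^ (4 * pe0 k)))
        ≤ 16 * ((pK k : ℝ) * (1 / (2 ^ pe0 k * (pn k : ℝ) ^ 64))) := by (clear * - h4 hK; gcongr)
      _ ≤ 16 * ((pK k : ℝ) * (1 / (1 * (pn k : ℝ) ^ 64))) := by (clear * - hn2 h7 hK; gcongr)
      _ ≤ 1 / ((pn k : ℝ) ^ 2 * (pn k : ℝ)) / 2 := by
          have e : 16 * ((pK k : ℝ) * (1 / (1 * (pn k : ℝ) ^ 64))) =
              (32 * (pK k : ℝ)) / (pn k : ℝ) ^ 61 * (1 / ((pn k : ℝ) ^ 2 * (pn k : ℝ)) / 2) := by
            field_simp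
            norm_num
          rw [e]
          refine mul_le_of_le_one_left (by positivity) ?_
          rw [div_le_one (by positivity)]
          calc 32 * (pK k : ℝ) ≤ (pK k : ℝ) ^ 2 := by nlinarith only [hK]
            _ ≤ pn k := h5
            _ = (pn k : ℝ) ^ 1 := (pow_one _).symm
            _ ≤ (pn k : ℝ) ^ 61 := pow_le_pow_right₀ hn1 (by norm_num)
      _ ≤ _ := by (clear * - hn2 hK h6; gcongr)
  rw [abs_le] at h1 h2 ⊢
  constructor <;> linarith only [h1, h2, h3]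

end Vale.Agent.P370.Q
end
end

section

section

/-!
Helper for `St7`: bilinear forms on nice functions, linear combinations of shell functions.
-/

namespace Vale.Agent.P370.Q.St7

open MeasureTheory Finset Vale.Agent.P370 Vale.Agent.P370.Q

/-! ### closure of the shells -/

theorem xp_add (κ : ℝ) (z z' : Hyd.Pl × Hyd.Pl) (x : R3) :
    Hyd.xp κ (z + z').1 (z + z').2 x = Hyd.xp κ z.1 z.2 x + Hyd.xp κ z'.1 z'.2 x := by
  unfold Hyd.xp Hyd.ev
  simp only [Prod.fst_add, Prod.snd_add, map_add]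
  ring

theorem xp_smul (κ c : ℝ) (z : Hyd.Pl × Hyd.Pl) (x : R3) :
    Hyd.xp κ (c • z).1 (c • z).2 x = c * Hyd.xp κ z.1 z.2 x := by
  unfold Hyd.xp Hyd.ev
  simp only [Prod.smul_fst, Prod.smul_snd, MvPolynomial.smul_eval]
  ring

theorem isShell_add {n : ℕ} (hn : 1 ≤ n) {φ ψ : R3 → ℝ} (hφ : IsShell n φ) (hψ : IsShell n ψ) :
    IsShell n (fun x => φ x + ψ x) := by
  obtain ⟨z, hz, rfl⟩ := (isShell_iff hn).1 hφ
  obtain ⟨z', hz', rfl⟩ := (isShell_iff hn).1 hψ
  exact (isShell_iff hn).2 ⟨z + z', Submodule.add_mem _ hz hz', by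
    funext x
    exact (xp_add _ z z' x).symm⟩

theorem isShell_smul {n : ℕ} (hn : 1 ≤ n) (c : ℝ) {φ : R3 → ℝ} (hφ : IsShell n φ) :
    IsShell n (fun x => c * φ x) := by
  obtain ⟨z, hz, rfl⟩ := (isShell_iff hn).1 hφ
  exact (isShell_iff hn).2 ⟨c • z, Submodule.smul_mem _ _ hz, by
    funext x
    exact (xp_smul _ c z x).symm⟩

theorem isShell_zero {n : ℕ} (hn : 1 ≤ n) : IsShell n (fun _ => 0) := by
  refine (isShell_iff hn).2 ⟨0, Submodule.zero_mem _, ?_⟩
  funext x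
  unfold Hyd.xp Hyd.ev
  simp only [Prod.fst_zero, map_zero, Prod.snd_zero, mul_zero, add_zero, one_div, neg_mul, zero_mul]

theorem isShell_sum {n : ℕ} (hn : 1 ≤ n) {ι : Type} (t : Finset ι) (a : ι → ℝ)
    (f : ι → R3 → ℝ) (hf : ∀ i ∈ t, IsShell n (f i)) :
    IsShell n (fun x => ∑ i ∈ t, a i * f i x) := by
  classical
  induction t using Finset.induction_on with
  | empty => simpa using isShell_zero hn
  | insert i t hi ih =>
    have h1 := isShell_add hn (isShell_smul hn (a i) (hf i (Finset.mem_insert_self i t)))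
      (ih fun j hj => hf j (Finset.mem_insert_of_mem hj))
    simpa only [Finset.sum_insert hi] using h1

theorem inV_add {n : ℕ} {φ ψ : R3 → ℝ} (hφ : InV n φ) (hψ : InV n ψ) :
    InV n (fun x => φ x + ψ x) := by
  obtain ⟨P, hP, rfl⟩ := hφ
  obtain ⟨P', hP', rfl⟩ := hψ
  refine ⟨P + P', Hyd.mem_Harm.1 (Submodule.add_mem _ (Hyd.mem_Harm.2 hP) (Hyd.mem_Harm.2 hP')),
    ?_⟩
  funext x
  simp only [vfun, pe, map_add]
  ring

theorem inV_smul {n : ℕ} (c : ℝ) {φ : R3 → ℝ} (hφ : InV n φ) : InV n (fun x => c * φ x) := by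
  obtain ⟨P, hP, rfl⟩ := hφ
  refine ⟨c • P, Hyd.mem_Harm.1 (Submodule.smul_mem _ c (Hyd.mem_Harm.2 hP)), ?_⟩
  funext x
  simp only [vfun, pe, MvPolynomial.smul_eval]
  ring

theorem inV_zero {n : ℕ} : InV n (fun _ => 0) := by
  refine ⟨0, Hyd.mem_Harm.1 (Submodule.zero_mem _), ?_⟩
  funext x
  simp only [vfun, pe, map_zero, zero_mul]

theorem inV_sum {n : ℕ} {ι : Type} (t : Finset ι) (a : ι → ℝ)
    (f : ι → R3 → ℝ) (hf : ∀ i ∈ t, InV n (f i)) :
    InV n (fun x => ∑ i ∈ t, a i * f i x) := by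
  classical
  induction t using Finset.induction_on with
  | empty => simpa using inV_zero
  | insert i t hi ih =>
    have h1 := inV_add (inV_smul (a i) (hf i (Finset.mem_insert_self i t)))
      (ih fun j hj => hf j (Finset.mem_insert_of_mem hj))
    simpa only [Finset.sum_insert hi] using h1

theorem fh_inV (n : ℕ) (hn : 1 ≤ n) (α : ℝ) : InV n (fh n α) := by
  have h := inV_smul (1 / Real.sqrt (nf n)) (fsite_InV n hn α)
  have e : fh n α = fun x => 1 / Real.sqrt (nf n) * fsite n α x := by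
    funext x
    unfold fh
    ring
  rw [e]
  exact h

/-! ### bilinear forms on nice functions -/

/-- symmetric bilinear forms on nice functions -/
structure Bil (F : (R3 → ℝ) → (R3 → ℝ) → ℝ) : Prop where
  sum : ∀ (ι : Type) (t : Finset ι) (a : ι → ℝ) (f : ι → R3 → ℝ) (g : R3 → ℝ),
    (∀ i ∈ t, Nice (f i)) → Nice g →
      F (fun x => ∑ i ∈ t, a i * f i x) g = ∑ i ∈ t, a i * F (f i) g
  symm : ∀ f g, Nice f → Nice g → F f g = F g f

theorem nice_zero : Nice (fun _ => (0 : ℝ)) := by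
  have := nice_smul (nice_expPoly (κ := 1) one_pos 0 0) 0
  simpa using this

theorem nice_sum {ι : Type} (t : Finset ι) (a : ι → ℝ) (f : ι → R3 → ℝ)
    (hf : ∀ i ∈ t, Nice (f i)) : Nice (fun x => ∑ i ∈ t, a i * f i x) := by
  classical
  induction t using Finset.induction_on with
  | empty => simpa using nice_zero
  | insert i t hi ih =>
    have h1 := nice_add (nice_smul (hf i (Finset.mem_insert_self i t)) (a i))
      (ih fun j hj => hf j (Finset.mem_insert_of_mem hj))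
    simpa only [Finset.sum_insert hi] using h1

theorem Bil.sum_right {F : (R3 → ℝ) → (R3 → ℝ) → ℝ} (hF : Bil F) {ι : Type} (t : Finset ι)
    (a : ι → ℝ) (f : ι → R3 → ℝ) (g : R3 → ℝ) (hf : ∀ i ∈ t, Nice (f i)) (hg : Nice g) :
    F g (fun x => ∑ i ∈ t, a i * f i x) = ∑ i ∈ t, a i * F g (f i) := by
  rw [hF.symm _ _ hg (nice_sum t a f hf), hF.sum ι t a f g hf hg]
  exact Finset.sum_congr rfl fun i hi => by rw [hF.symm _ _ (hf i hi) hg]

theorem Bil.expand {F : (R3 → ℝ) → (R3 → ℝ) → ℝ} (hF : Bil F) {ι κ : Type} [Fintype ι]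
    [Fintype κ] (a : ι → ℝ) (f : ι → R3 → ℝ) (b : κ → ℝ) (g : κ → R3 → ℝ)
    (hf : ∀ i, Nice (f i)) (hg : ∀ j, Nice (g j)) :
    F (fun x => ∑ i, a i * f i x) (fun x => ∑ j, b j * g j x) =
      ∑ i, ∑ j, F (f i) (g j) * a i * b j := by
  rw [hF.sum ι univ a f _ (fun i _ => hf i) (nice_sum univ b g fun j _ => hg j)]
  refine Finset.sum_congr rfl fun i _ => ?_
  rw [hF.sum_right univ b g (f i) (fun j _ => hg j) (hf i), Finset.mul_sum]
  exact Finset.sum_congr rfl fun j _ => by ring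

theorem Bil.add_left {F : (R3 → ℝ) → (R3 → ℝ) → ℝ} (hF : Bil F) {f f' g : R3 → ℝ}
    (hf : Nice f) (hf' : Nice f') (hg : Nice g) : F (f + f') g = F f g + F f' g := by
  have h := hF.sum (Fin 2) univ ![1, 1] ![f, f'] g (fun i _ => by
    fin_cases i
    · exact hf
    · exact hf') hg
  simp only [Fin.sum_univ_two, Matrix.cons_val_zero, Matrix.cons_val_one, one_mul] at h
  exact h

theorem Bil.add_right {F : (R3 → ℝ) → (R3 → ℝ) → ℝ} (hF : Bil F) {f f' g : R3 → ℝ}
    (hf : Nice f) (hf' : Nice f') (hg : Nice g) (hff : Nice (f + f')) :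
    F g (f + f') = F g f + F g f' := by
  rw [hF.symm _ _ hg hff, hF.add_left hf hf' hg, hF.symm _ _ hf hg, hF.symm _ _ hf' hg]

theorem Bil.finsum {κ : Type} (s : Finset κ) (F : κ → (R3 → ℝ) → (R3 → ℝ) → ℝ)
    (c : κ → ℝ) (hF : ∀ j ∈ s, Bil (F j)) : Bil (fun f g => ∑ j ∈ s, c j * F j f g) := by
  refine ⟨fun ι t a f g hf hg => ?_, fun f g hf hg => ?_⟩
  · simp only [Finset.mul_sum]
    rw [Finset.sum_comm]
    refine Finset.sum_congr rfl fun j hj => ?_
    rw [(hF j hj).sum ι t a f g hf hg, Finset.mul_sum]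
    exact Finset.sum_congr rfl fun i _ => by ring
  · exact Finset.sum_congr rfl fun j hj => by rw [(hF j hj).symm f g hf hg]

theorem Bil.add {F G : (R3 → ℝ) → (R3 → ℝ) → ℝ} (hF : Bil F) (hG : Bil G) :
    Bil (fun f g => F f g + G f g) := by
  refine ⟨fun ι t a f g hf hg => ?_, fun f g hf hg => ?_⟩
  · rw [hF.sum ι t a f g hf hg, hG.sum ι t a f g hf hg, ← Finset.sum_add_distrib]
    exact Finset.sum_congr rfl fun i _ => by ring
  · rw [hF.symm f g hf hg, hG.symm f g hf hg]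

theorem bil_gm (y : R3) : Bil (gm y) :=
  ⟨fun _ t a f _ hf hg => gm_sum_left t a f hf hg y, fun f g _ _ => gm_symm y f g⟩

theorem bil_ov : Bil ov :=
  ⟨fun _ t a f _ hf hg => ov_sum_left t a f hf hg, fun f g _ _ => m1_ov_comm f g⟩

theorem bil_bform (ρ : ℝ) (hρ : 0 < ρ) : Bil (bform ρ) :=
  ⟨fun _ t a f _ hf hg => bform_sum_left t a f hf hg ρ hρ, fun f g _ _ => by
    unfold bform
    simp only [mul_comm (f _)]⟩

theorem bil_mfield {n : ℕ} {C O : Type} [Fintype C] [DecidableEq C] [Fintype O] [DecidableEq O]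
    (B : ShellBasis n (C ⊕ O)) : Bil (mfield B) :=
  ⟨fun _ t a f _ hf hg => mfield_sum_left B t a f hf hg, fun _ _ hf hg => mfield_symm B hf hg⟩

theorem bil_nuc {m : ℕ} (w : Fin m → ℝ) (y : Fin m → R3) :
    Bil (fun f g => ∑ β, w β * gm (y β) f g) :=
  Bil.finsum univ (fun β => gm (y β)) w fun β _ => bil_gm (y β)

theorem bil_devf (k : ℕ) (γ : ℝ) (N : ℕ) : Bil (devf k γ N) := by
  have h : Bil (fun f g => ∑ a ∈ range (pD k), (1 : ℝ) * ∑ b ∈ range (pD k),
      qw (pD k) a * (cdot (av γ) (node (pD k) a b) ^ N).re *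
        gm (pρ k • node (pD k) a b) f g) :=
    Bil.finsum _ (fun a f g => ∑ b ∈ range (pD k),
      qw (pD k) a * (cdot (av γ) (node (pD k) a b) ^ N).re *
        gm (pρ k • node (pD k) a b) f g) (fun _ => 1) fun a _ =>
      Bil.finsum _ (fun b => gm (pρ k • node (pD k) a b)) _ fun b _ => bil_gm _
  simp only [one_mul] at h
  exact h

end Vale.Agent.P370.Q.St7
end
end

section

section

/-!
Helper for `St7`: device forms and numerical facts.
-/

namespace Vale.Agent.P370.Q.St7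

open MeasureTheory Finset Vale.Agent.P370 Vale.Agent.P370.Q

/-- top devices -/
noncomputable def Tf (k : ℕ) (φ ψ : R3 → ℝ) : ℝ :=
  ∑ i ∈ range (pK k), pL k * Xu (pn k) (2 * (pn k - 1)) (pρ k) *
        devf k (pα k i) (2 * (pn k - 1)) φ ψ

/-- hopping devices -/
noncomputable def Hp (k : ℕ) (q : ℕ → ℕ) (s : ℕ → ℕ → ℕ) (φ ψ : R3 → ℝ) : ℝ :=
  ∑ j ∈ range (pK k), ∑ i ∈ range j, (s i j : ℝ) * pη k * Xu (pn k) (2 * q (j - i)) (pρ k) *
        devf k ((pα k i + pα k j) / 2) (2 * q (j - i)) φ ψ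

theorem bil_Tf (k : ℕ) : Bil (Tf k) :=
  Bil.finsum _ (fun i => devf k (pα k i) (2 * (pn k - 1))) _ fun i _ => bil_devf k _ _

theorem bil_Hp (k : ℕ) (q : ℕ → ℕ) (s : ℕ → ℕ → ℕ) : Bil (Hp k q s) := by
  have h : Bil (fun φ ψ => ∑ j ∈ range (pK k), (1 : ℝ) * ∑ i ∈ range j,
      (s i j : ℝ) * pη k * Xu (pn k) (2 * q (j - i)) (pρ k) *
        devf k ((pα k i + pα k j) / 2) (2 * q (j - i)) φ ψ) :=
    Bil.finsum _ (fun j φ ψ => ∑ i ∈ range j,
      (s i j : ℝ) * pη k * Xu (pn k) (2 * q (j - i)) (pρ k) *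
        devf k ((pα k i + pα k j) / 2) (2 * q (j - i)) φ ψ) (fun _ => 1) fun j _ =>
      Bil.finsum _ (fun i => devf k ((pα k i + pα k j) / 2) (2 * q (j - i))) _ fun i _ =>
        bil_devf _ _ _
  simp only [one_mul] at h
  exact h

/-! ### numerical facts -/

theorem n_big (k : ℕ) (hk : 10 ≤ k) : 1024 ≤ pn k ∧ pK k ≤ pn k := by
  have h1 := pK_ge k hk
  have h2 : pK k ≤ pn k := by
    rw [pn_eq]
    exact Nat.le_self_pow (by norm_num) _
  exact ⟨h1.trans h2, h2⟩

theorem pe0_le (k : ℕ) : pe0 k ≤ pn k := Nat.div_le_self _ _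

theorem pρ_pos (k : ℕ) : 0 < pρ k := by unfold pρ; positivity

theorem pρ_le_one (k : ℕ) : pρ k ≤ 1 := by
  unfold pρ
  rw [div_le_one (by positivity)]
  exact one_le_pow₀ (by norm_num)

/-- sum over a triangle -/
theorem tri_sum_le (K : ℕ) (F : ℕ → ℕ → ℝ) (c : ℝ) (hc : 0 ≤ c)
    (h : ∀ i j, i < j → j < K → |F i j| ≤ c) :
    |∑ j ∈ range K, ∑ i ∈ range j, F i j| ≤ K * K * c := by
  refine (Finset.abs_sum_le_sum_abs _ _).trans ?_
  calc ∑ j ∈ range K, |∑ i ∈ range j, F i j| ≤ ∑ j ∈ range K, (K : ℝ) * c := by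
        refine Finset.sum_le_sum fun j hj => ?_
        have hj' := Finset.mem_range.1 hj
        refine (Finset.abs_sum_le_sum_abs _ _).trans ?_
        calc ∑ i ∈ range j, |F i j| ≤ ∑ i ∈ range j, c :=
              Finset.sum_le_sum fun i hi => h i j (Finset.mem_range.1 hi) hj'
          _ = j * c := by rw [Finset.sum_const, Finset.card_range, nsmul_eq_mul]
          _ ≤ K * c := by
              have : (j : ℝ) ≤ K := by exact_mod_cast hj'.le
              gcongr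
    _ = K * K * c := by rw [Finset.sum_const, Finset.card_range, nsmul_eq_mul]; ring

/-- crude bound of all devices -/
theorem dev_crude (k : ℕ) (hk : 10 ≤ k) (q : ℕ → ℕ) (hq : GoodQ k q) (s : ℕ → ℕ → ℕ)
    (hs : GoodS k q s) {φ ψ : R3 → ℝ} (hφ : IsShell (pn k) φ) (hψ : IsShell (pn k) ψ) :
    |Tf k φ ψ + Hp k q s φ ψ| ≤ 2 ^ (36 * pn k ^ 3) * Real.sqrt (ov φ φ * ov ψ ψ) := by
  obtain ⟨hn, hKn⟩ := n_big k hk
  have hn1 : 1 ≤ pn k := by omega
  set σ := Real.sqrt (ov φ φ * ov ψ ψ) with hσ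
  have hσ0 : 0 ≤ σ := Real.sqrt_nonneg _
  have hρ0 := pρ_pos k
  have hρ1 := pρ_le_one k
  have hnn : (pn k : ℝ) ≤ 2 ^ pn k := by exact_mod_cast Nat.lt_two_pow_self.le
  have hKr : (pK k : ℝ) ≤ 2 ^ pn k := by
    have : (pK k : ℝ) ≤ pn k := by exact_mod_cast hKn
    linarith only [hnn, this]
  have hP0 : (0 : ℝ) < 2 ^ (34 * pn k ^ 3) := by positivity
  have hdev : ∀ γ N, |devf k γ N φ ψ| ≤ 16 * σ := by
    intro γ N
    refine (devf_crude k hk γ N hn1 hn1 hφ hψ).trans ?_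
    have : 16 * pρ k ≤ 16 := by linarith only [hρ1]
    exact mul_le_mul_of_nonneg_right this hσ0
  have hT : |Tf k φ ψ| ≤ 2 ^ pn k * (2 ^ pn k * 2 ^ (34 * pn k ^ 3) * (16 * σ)) := by
    unfold Tf
    refine (Finset.abs_sum_le_sum_abs _ _).trans ?_
    calc ∑ i ∈ range (pK k), |pL k * Xu (pn k) (2 * (pn k - 1)) (pρ k) *
          devf k (pα k i) (2 * (pn k - 1)) φ ψ|
        ≤ ∑ i ∈ range (pK k), 2 ^ pn k * 2 ^ (34 * pn k ^ 3) * (16 * σ) := by
          refine Finset.sum_le_sum fun i _ => ?_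
          obtain ⟨x1, x2⟩ := Xu_le k (2 * (pn k - 1)) hk (by omega)
          have hL : pL k ≤ 2 ^ pn k := by
            rw [(pe0_eq k hk).2]
            exact pow_le_pow_right₀ (by norm_num) (pe0_le k)
          have hL0 : 0 < pL k := by rw [(pe0_eq k hk).2]; positivity
          rw [abs_mul, abs_of_pos (by (clear * - hL0 x1; positivity))]
          have := hdev (pα k i) (2 * (pn k - 1))
          (clear * - hL x2 x1 this; gcongr)
      _ = pK k * (2 ^ pn k * 2 ^ (34 * pn k ^ 3) * (16 * σ)) := by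
          rw [Finset.sum_const, Finset.card_range, nsmul_eq_mul]
      _ ≤ _ := by (clear * - hKr; gcongr)
  have hH : |Hp k q s φ ψ| ≤
      2 ^ pn k * 2 ^ pn k * ((2 ^ pn k) ^ 5 * 2 ^ (34 * pn k ^ 3) * (16 * σ)) := by
    unfold Hp
    have hc : (0 : ℝ) ≤ (2 ^ pn k) ^ 5 * 2 ^ (34 * pn k ^ 3) * (16 * σ) := by (clear * -; positivity)
    refine (tri_sum_le (pK k) _ _ hc fun i j hij hj => ?_).trans ?_
    · have hr := goodQ_range k hk q hq (j - i) (by omega) (by omega)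
      obtain ⟨x1, x2⟩ := Xu_le k (2 * q (j - i)) hk (by omega)
      have h1 := (goodS_bound k hk q hq s hs i j hij hj).1
      have h0 : 0 ≤ (s i j : ℝ) * pη k := by unfold pη; (clear * -; positivity)
      rw [abs_mul, abs_of_nonneg (by (clear * - h0 x1; positivity))]
      have h2 : (s i j : ℝ) * pη k ≤ (2 ^ pn k) ^ 5 := by
        refine h1.trans ?_
        (clear * - hn hnn; gcongr)
      have := hdev ((pα k i + pα k j) / 2) (2 * q (j - i))
      (clear * - h2 x2 x1 this; gcongr)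
    · gcongr
  have hsum : 2 ^ pn k * (2 ^ pn k * 2 ^ (34 * pn k ^ 3) * (16 * σ)) +
      2 ^ pn k * 2 ^ pn k * ((2 ^ pn k) ^ 5 * 2 ^ (34 * pn k ^ 3) * (16 * σ)) ≤
      2 ^ (36 * pn k ^ 3) * σ := by
    have e : (2 : ℝ) ^ pn k * (2 ^ pn k * 2 ^ (34 * pn k ^ 3) * (16 * σ)) +
      2 ^ pn k * 2 ^ pn k * ((2 ^ pn k) ^ 5 * 2 ^ (34 * pn k ^ 3) * (16 * σ)) =
      ((2 ^ pn k) ^ 2 * 16 + (2 ^ pn k) ^ 7 * 16) * 2 ^ (34 * pn k ^ 3) * σ := by ring
    rw [e]
    refine mul_le_mul_of_nonneg_right ?_ hσ0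
    have h1 : ((2 : ℝ) ^ pn k) ^ 2 * 16 + (2 ^ pn k) ^ 7 * 16 ≤ 2 ^ (7 * pn k + 5) := by
      have h2 : ((2 : ℝ) ^ pn k) ^ 2 ≤ (2 ^ pn k) ^ 7 :=
        pow_le_pow_right₀ (one_le_pow₀ (by norm_num)) (by norm_num)
      have h3 : (2 : ℝ) ^ (7 * pn k + 5) = (2 ^ pn k) ^ 7 * 32 := by
        rw [pow_add, ← pow_mul, mul_comm 7]
        norm_num
      rw [h3]
      linarith only [h2]
    calc _ ≤ (2 : ℝ) ^ (7 * pn k + 5) * 2 ^ (34 * pn k ^ 3) :=
          mul_le_mul_of_nonneg_right h1 hP0.le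
      _ = 2 ^ (7 * pn k + 5 + 34 * pn k ^ 3) := by rw [← pow_add]
      _ ≤ 2 ^ (36 * pn k ^ 3) := by
          refine pow_le_pow_right₀ (by norm_num) ?_
          have h4 : 1024 * pn k ≤ pn k ^ 3 := by
            calc 1024 * pn k ≤ pn k ^ 2 * pn k := by
                  refine Nat.mul_le_mul_right _ ?_
                  nlinarith only [hn]
              _ = pn k ^ 3 := by ring
          (clear * - hn h4; omega)
  calc |Tf k φ ψ + Hp k q s φ ψ| ≤ |Tf k φ ψ| + |Hp k q s φ ψ| := abs_add_le _ _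
    _ ≤ _ := (add_le_add hT hH).trans hsum

/-- hopping devices on the top subspace -/
theorem hop_top (k : ℕ) (hk : 10 ≤ k) (q : ℕ → ℕ) (hq : GoodQ k q) (s : ℕ → ℕ → ℕ)
    (hs : GoodS k q s) {φ ψ : R3 → ℝ} (hφ : InV (pn k) φ) (hψ : InV (pn k) ψ) :
    |Hp k q s φ ψ| ≤ 2 * (pn k : ℝ) ^ 7 * Real.sqrt (ov φ φ * ov ψ ψ) := by
  obtain ⟨hn, hKn⟩ := n_big k hk
  set σ := Real.sqrt (ov φ φ * ov ψ ψ) with hσ
  have hσ0 : 0 ≤ σ := Real.sqrt_nonneg _
  have hKr : (pK k : ℝ) ≤ pn k := by exact_mod_cast hKn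
  unfold Hp
  have hc : (0 : ℝ) ≤ (pn k : ℝ) ^ 5 * (2 * σ) := by (clear * - hn; positivity)
  refine (tri_sum_le (pK k) _ _ hc fun i j hij hj => ?_).trans ?_
  · have hr := goodQ_range k hk q hq (j - i) (by omega) (by omega)
    have h1 := (goodS_bound k hk q hq s hs i j hij hj).1
    have h0 : 0 ≤ (s i j : ℝ) * pη k := by unfold pη; (clear * -; positivity)
    have h2 := devf_top_le k hk ((pα k i + pα k j) / 2) (q (j - i)) hr.1 (by omega) hφ hψ
    rw [mul_assoc, abs_mul, abs_of_nonneg h0]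
    (clear * - h1 h2 hn; gcongr)
  · calc (pK k : ℝ) * pK k * ((pn k : ℝ) ^ 5 * (2 * σ))
        ≤ (pn k : ℝ) * pn k * ((pn k : ℝ) ^ 5 * (2 * σ)) := by (clear * - hKr hn; gcongr)
      _ = _ := by ring

/-- top devices on the top subspace -/
theorem Tf_top (k : ℕ) (hk : 10 ≤ k) {φ ψ : R3 → ℝ} (hφ : InV (pn k) φ)
    (hψ : InV (pn k) ψ) :
    Tf k φ ψ = ∑ i ∈ range (pK k), pL k *
      -(zt k (2 * (pn k - 1)) * gam (pn k) * (ov φ (fh (pn k) (pα k i)) *
        ov ψ (fh (pn k) (pα k i)) -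
        ov φ (gsite (pn k) (pα k i)) * ov ψ (gsite (pn k) (pα k i)) / nf (pn k))) := by
  unfold Tf
  refine Finset.sum_congr rfl fun i _ => ?_
  rw [mul_assoc, devf_rank_two k hk (pα k i) hφ hψ]

theorem zt_top (k : ℕ) (hk : 10 ≤ k) : 1 / 2 ≤ zt k (2 * (pn k - 1)) := by
  obtain ⟨hn, -⟩ := n_big k hk
  exact (zt_bounds k _ hk (by omega) (by omega)).1

theorem Lam_ge (k : ℕ) (hk : 10 ≤ k) : 2 ^ pe0 k / (16 * (pn k : ℝ)) ≤ Lam k := by
  obtain ⟨hn, -⟩ := n_big k hk
  have h1 := zt_top k hk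
  have h2 := (gam_bounds (pn k) (by omega)).1
  have hL := (pe0_eq k hk).2
  unfold Lam
  rw [hL]
  have hn0 : (0 : ℝ) < pn k := by exact_mod_cast (by omega : 0 < pn k)
  calc (2 : ℝ) ^ pe0 k / (16 * (pn k : ℝ)) = 2 ^ pe0 k * (1 / 2) * (1 / (8 * (pn k : ℝ))) := by
        field_simp
        norm_num
    _ ≤ _ := by (clear * - h1 h2 hn; gcongr)

end Vale.Agent.P370.Q.St7
end
end

section

section

/-!
The gap above the sites.
-/

namespace Vale.Agent.P370.Q

open MeasureTheory Finset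

namespace St7

theorem amgm (a c p q : ℝ) (ha : 0 < a) : 2 * (c * (p * q)) ≤ a * p ^ 2 + c ^ 2 / a * q ^ 2 := by
  have h : a * p ^ 2 + c ^ 2 / a * q ^ 2 - 2 * (c * (p * q)) = (a * p - c * q) ^ 2 / a := by
    field_simp
    ring
  have h2 : 0 ≤ (a * p - c * q) ^ 2 / a := by (clear * - ha; positivity)
  (clear * - h h2; linarith)

/-- the final estimate -/
theorem real_ineq (s r r1 r2 W xr g θ X m ε δ a mf L u1 u2 u3 u4 u5 u6 e1 e2 m1 m2 bf : ℝ)
    (hr : r ^ 2 = r1 ^ 2 + r2 ^ 2)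
    (ha : 0 < a) (hθ : 0 ≤ θ) (hε : 0 ≤ ε) (hW : 0 ≤ W)
    (k1 : |u1| ≤ X * (s * r2)) (k2 : |u2| ≤ θ * (s * r1)) (k3 : |u3| ≤ X * (r1 * r2))
    (k4 : |u4| ≤ X * r2 ^ 2) (k5 : 0 ≤ u5) (k6 : |u6| ≤ θ * r1 ^ 2)
    (k7 : |e1| ≤ ε * (s * r)) (k8 : |e2| ≤ ε * r ^ 2) (k9 : |m1| ≤ m * (s * r))
    (k10 : |m2| ≤ m * r ^ 2) (k11 : xr * r ^ 2 + g * r2 ^ 2 ≤ bf)
    (c1 : 3 * a + ε ≤ δ)
    (c2 : θ ^ 2 / a + θ + m ^ 2 / a + 1 + m + 2 * ε + mf ≤ L / 2)
    (c3 : X ^ 2 / a + X ^ 2 + X ≤ W * g) :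
    0 ≤ δ * s ^ 2 + 2 * (u1 + u2 + e1 + m1) +
      (W * bf + u5 + u6 + 2 * u3 + u4 + e2 + m2) - (W * xr + mf - L / 2) * r ^ 2 := by
  have i1 := amgm a X s r2 ha
  have i2 := amgm a θ s r1 ha
  have i3 := amgm a m s r ha
  have i4 : 2 * (ε * (s * r)) ≤ ε * s ^ 2 + ε * r ^ 2 := by linarith only [mul_nonneg_of_nonpos_of_nonpos (Mathlib.Tactic.Linarith.sub_nonpos_of_le (sq_nonneg (s - r))) (Mathlib.Tactic.Linarith.sub_nonpos_of_le hε)]
  have i5 : 2 * (X * (r1 * r2)) ≤ r1 ^ 2 + X ^ 2 * r2 ^ 2 := by linarith only [sq_nonneg (r1 - X * r2)]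
  have hr1 : r1 ^ 2 ≤ r ^ 2 := by linarith only [hr, sq_nonneg r2]
  have i6 : θ ^ 2 / a * r1 ^ 2 ≤ θ ^ 2 / a * r ^ 2 := mul_le_mul_of_nonneg_left hr1 (by (clear * - ha; positivity))
  have i7 : θ * r1 ^ 2 ≤ θ * r ^ 2 := mul_le_mul_of_nonneg_left hr1 hθ
  have i8 : W * (xr * r ^ 2 + g * r2 ^ 2) ≤ W * bf := mul_le_mul_of_nonneg_left k11 hW
  have j1 := (abs_le.1 k1).1
  have j2 := (abs_le.1 k2).1
  have j3 := (abs_le.1 k3).1
  have j4 := (abs_le.1 k4).1
  have j6 := (abs_le.1 k6).1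
  have j7 := (abs_le.1 k7).1
  have j8 := (abs_le.1 k8).1
  have j9 := (abs_le.1 k9).1
  have j10 := (abs_le.1 k10).1
  have d1 : (3 * a + ε) * s ^ 2 ≤ δ * s ^ 2 := mul_le_mul_of_nonneg_right c1 (sq_nonneg s)
  have d2 : (θ ^ 2 / a + θ + m ^ 2 / a + 1 + m + 2 * ε + mf) * r ^ 2 ≤ L / 2 * r ^ 2 :=
    mul_le_mul_of_nonneg_right c2 (sq_nonneg r)
  have d3 : (X ^ 2 / a + X ^ 2 + X) * r2 ^ 2 ≤ W * g * r2 ^ 2 :=
    mul_le_mul_of_nonneg_right c3 (sq_nonneg r2)
  clear k1 k2 k3 k4 k6 k7 k8 k9 k10 k11 c1 c2 c3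
  linarith

theorem numeric (k : ℕ) (hk : 10 ≤ k) (mf L : ℝ) (hL : 2 ^ pe0 k / (16 * (pn k : ℝ)) ≤ L)
    (hmf : mf ≤ 12 * (pn k : ℝ) ^ 3) :
    3 * (1 / (8 * 2 ^ (pe0 k / 4))) + 1 / 2 ^ (15 * pn k ^ 2) ≤ (1 : ℝ) / 2 ^ (pe0 k / 4) ∧
    (2 * (pn k : ℝ) ^ 7) ^ 2 / (1 / (8 * 2 ^ (pe0 k / 4))) + 2 * (pn k : ℝ) ^ 7 +
      (12 * (pn k : ℝ) ^ 3) ^ 2 / (1 / (8 * 2 ^ (pe0 k / 4))) + 1 + 12 * (pn k : ℝ) ^ 3 +
        2 * (1 / 2 ^ (15 * pn k ^ 2)) + mf ≤ L / 2 ∧
    ((2 : ℝ) ^ (36 * pn k ^ 3)) ^ 2 / (1 / (8 * 2 ^ (pe0 k / 4))) +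
      ((2 : ℝ) ^ (36 * pn k ^ 3)) ^ 2 + 2 ^ (36 * pn k ^ 3) ≤
        pW k * (pρ k ^ (2 * pn k - 2) / 2 ^ (16 * pn k ^ 2)) := by
  obtain ⟨hn, -⟩ := n_big k hk
  have he := pe0_le k
  have hn2 : pn k ≤ pn k ^ 2 := Nat.le_self_pow (by norm_num) _
  have h23 : 1024 * pn k ^ 2 ≤ pn k ^ 3 := by
    calc 1024 * pn k ^ 2 ≤ pn k * pn k ^ 2 := Nat.mul_le_mul_right _ hn
      _ = pn k ^ 3 := by ring
  have h12 : 1024 * pn k ≤ pn k ^ 2 := by
    calc 1024 * pn k ≤ pn k * pn k := Nat.mul_le_mul_right _ hn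
      _ = pn k ^ 2 := by ring
  have hnr : (1024 : ℝ) ≤ pn k := by exact_mod_cast hn
  set E : ℝ := 2 ^ (pe0 k / 4) with hE
  have hE1 : 1 ≤ E := one_le_pow₀ (by norm_num)
  have hE0 : 0 < E := by linarith only [hE1]
  have hε : (1 : ℝ) / 2 ^ (15 * pn k ^ 2) ≤ 1 / (8 * E) := by
    refine one_div_le_one_div_of_le (by positivity) ?_
    calc 8 * E = 2 ^ (3 + pe0 k / 4) := by rw [pow_add]; norm_num [hE]
      _ ≤ 2 ^ (15 * pn k ^ 2) := pow_le_pow_right₀ (by norm_num) (by omega)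
  refine ⟨?_, ?_, ?_⟩
  · have : 3 * (1 / (8 * E)) + 1 / (8 * E) ≤ 1 / E := by
      have e : 3 * (1 / (8 * E)) + 1 / (8 * E) = (1 / 2) * (1 / E) := by
        field_simp
        norm_num
      rw [e]
      have : 0 < 1 / E := by positivity
      linarith only [this]
    linarith only [hε, this]
  · have hε1 : (1 : ℝ) / 2 ^ (15 * pn k ^ 2) ≤ 1 := by
      refine hε.trans ?_
      rw [div_le_one (by positivity)]
      linarith only [hE1]
    have hpow := pn_pow_le k hk 20 (by norm_num)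
    set n : ℝ := (pn k : ℝ) with hnd
    have hn0 : 0 < n := by linarith only [hnr]
    have e1 : (2 * n ^ 7) ^ 2 / (1 / (8 * E)) = 32 * n ^ 14 * E := by
      field_simp
      ring
    have e2 : (12 * n ^ 3) ^ 2 / (1 / (8 * E)) = 1152 * n ^ 6 * E := by
      field_simp
      ring
    rw [e1, e2]
    have h0 : 2 ^ pe0 k / (16 * n) / 2 ≤ L / 2 := by linarith only [hL]
    refine le_trans ?_ h0
    have hB : n ^ 20 * E ≤ 2 ^ pe0 k := by
      calc n ^ 20 * E ≤ 2 ^ (pe0 k / 64) * 2 ^ (pe0 k / 4) := by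
            rw [hE]
            exact mul_le_mul_of_nonneg_right hpow (by positivity)
        _ = 2 ^ (pe0 k / 64 + pe0 k / 4) := by rw [← pow_add]
        _ ≤ 2 ^ pe0 k := pow_le_pow_right₀ (by norm_num) (by (clear * -; omega))
    have hC : n ^ 16 * E ≤ 2 ^ pe0 k / (16 * n) / 2 := by
      rw [div_div, le_div_iff₀ (by (clear * - hn; positivity))]
      refine le_trans ?_ hB
      have : n ^ 20 * E = n ^ 16 * E * (n ^ 4) := by ring
      rw [this]
      refine mul_le_mul_of_nonneg_left ?_ (by positivity)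
      calc 16 * n * 2 = 32 * n := by ring
        _ ≤ n ^ 3 * n := by
            refine mul_le_mul_of_nonneg_right ?_ hn0.le
            calc (32 : ℝ) ≤ 1024 ^ 3 := by norm_num
              _ ≤ n ^ 3 := by (clear * - hnr; gcongr)
        _ = n ^ 4 := by ring
    refine le_trans ?_ hC
    have q1 : n ^ 3 ≤ n ^ 14 * E := by
      calc n ^ 3 ≤ n ^ 14 := pow_le_pow_right₀ (by linarith only [hnr]) (by norm_num)
        _ ≤ n ^ 14 * E := le_mul_of_one_le_right (by positivity) hE1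
    have q2 : n ^ 7 ≤ n ^ 14 * E := by
      calc n ^ 7 ≤ n ^ 14 := pow_le_pow_right₀ (by linarith only [hnr]) (by norm_num)
        _ ≤ n ^ 14 * E := le_mul_of_one_le_right (by positivity) hE1
    have q3 : n ^ 6 * E ≤ n ^ 14 * E :=
      mul_le_mul_of_nonneg_right (pow_le_pow_right₀ (by linarith only [hnr]) (by norm_num)) hE0.le
    have q4 : 1 ≤ n ^ 14 * E := by
      have : 1 ≤ n ^ 14 := one_le_pow₀ (by linarith only [hnr])
      nlinarith only [this, hE1]
    have q5 : n ^ 16 * E = n ^ 2 * (n ^ 14 * E) := by ring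
    have q6 : (1024 : ℝ) ^ 2 ≤ n ^ 2 := by (clear * - hnr; gcongr)
    have q7 : (1024 : ℝ) ^ 2 * (n ^ 14 * E) ≤ n ^ 2 * (n ^ 14 * E) :=
      mul_le_mul_of_nonneg_right q6 (by positivity)
    rw [q5]
    linarith only [hε1, hmf, q1, q2, q3, q4, q7]
  · have e1 : ((2 : ℝ) ^ (36 * pn k ^ 3)) ^ 2 / (1 / (8 * E)) +
      ((2 : ℝ) ^ (36 * pn k ^ 3)) ^ 2 + 2 ^ (36 * pn k ^ 3) ≤ 2 ^ (96 * pn k ^ 3) := by
      set Y : ℝ := 2 ^ (36 * pn k ^ 3) with hY
      have hY1 : 1 ≤ Y := one_le_pow₀ (by norm_num)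
      have e2 : Y ^ 2 / (1 / (8 * E)) = 8 * E * Y ^ 2 := by
        (clear * - hE1 hY1; field_simp)
      rw [e2]
      have hEn : E ≤ 2 ^ pn k := pow_le_pow_right₀ (by norm_num) (by (clear * - hn he; omega))
      calc 8 * E * Y ^ 2 + Y ^ 2 + Y ≤ 8 * E * Y ^ 2 + E * Y ^ 2 + E * Y ^ 2 := by nlinarith only [hY1, hE1]
        _ = 10 * E * Y ^ 2 := by ring
        _ ≤ 2 ^ 4 * 2 ^ pn k * Y ^ 2 := by
            gcongr
            norm_num
        _ = 2 ^ (4 + pn k + 72 * pn k ^ 3) := by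
            rw [hY, ← pow_mul, ← pow_add, ← pow_add]
            congr 1
            ring
        _ ≤ 2 ^ (96 * pn k ^ 3) := pow_le_pow_right₀ (by norm_num) (by (clear * - hn hn2 h23; omega))
    refine e1.trans ?_
    have e3 : pW k * (pρ k ^ (2 * pn k - 2) / 2 ^ (16 * pn k ^ 2)) =
        2 ^ (128 * pn k ^ 3) / 2 ^ (16 * pn k ^ 2 * (2 * pn k - 2) + 16 * pn k ^ 2) := by
      unfold pW pρ
      rw [div_pow, one_pow, ← pow_mul, pow_add]
      (clear * -; field_simp)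
    rw [e3, le_div_iff₀ (by positivity), ← pow_add]
    refine pow_le_pow_right₀ (by norm_num) ?_
    have h4 : 16 * pn k ^ 2 * (2 * pn k - 2) + 16 * pn k ^ 2 ≤ 32 * pn k ^ 3 := by
      have h5 : 16 * pn k ^ 2 * (2 * pn k - 2) + 16 * pn k ^ 2 ≤
          16 * pn k ^ 2 * (2 * pn k - 2) + 16 * pn k ^ 2 * 2 := by omega
      calc _ ≤ 16 * pn k ^ 2 * (2 * pn k - 2) + 16 * pn k ^ 2 * 2 := h5
        _ = 16 * pn k ^ 2 * (2 * pn k - 2 + 2) := by ring
        _ = 16 * pn k ^ 2 * (2 * pn k) := by congr 1; omega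
        _ = 32 * pn k ^ 3 := by ring
    (clear * - h4; omega)

/-! ### assembly -/

variable {k : ℕ} {C R : Type} [Fintype C] [DecidableEq C] [Fintype R] [DecidableEq R]

/-- the form of the one-body matrix -/
noncomputable def Hf (S : SiteB k C R) {m : ℕ} (w : Fin m → ℝ) (y : Fin m → R3)
    (f g : R3 → ℝ) : ℝ :=
  (∑ β, w β * gm (y β) f g) + mfield S.B f g

theorem hS_eq (S : SiteB k C R) {m : ℕ} (w : Fin m → ℝ) (y : Fin m → R3)
    (p o : Fin (pK k) ⊕ R) :
    hS S w y p o = Hf S w y (S.B.χ (Sum.inr p)) (S.B.χ (Sum.inr o)) := rfl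

theorem bil_Hf (S : SiteB k C R) {m : ℕ} (w : Fin m → ℝ) (y : Fin m → R3) :
    Bil (Hf S w y) := (bil_nuc w y).add (bil_mfield S.B)

theorem nice_chi (S : SiteB k C R) (a : C ⊕ (Fin (pK k) ⊕ R)) : Nice (S.B.χ a) :=
  nice_basis S.B a

theorem shell_chi (S : SiteB k C R) (o : Fin (pK k) ⊕ R) :
    IsShell (pn k) (S.B.χ (Sum.inr o)) := by
  have := S.B.mem (Sum.inr o)
  rwa [S.hO o] at this

theorem ov_chi (S : SiteB k C R) (p o : Fin (pK k) ⊕ R) :
    ov (S.B.χ (Sum.inr p)) (S.B.χ (Sum.inr o)) = if p = o then 1 else 0 := by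
  rw [S.B.ortho]
  by_cases h : p = o
  · subst h
    rw [if_pos rfl, if_pos rfl]
  · rw [if_neg h, if_neg (fun h' => h (Sum.inr_injective h'))]

/-- the abstract estimate for a function orthogonal to the sites -/
theorem gap_core (hk : 10 ≤ k) (S : SiteB k C R) (q : ℕ → ℕ) (hq : GoodQ k q)
    (s : ℕ → ℕ → ℕ) (hs : GoodS k q s) (w : Fin (pD k * pD k) → ℕ)
    (y : Fin (pD k * pD k) → R3) (H : Approx k q s w y) (φS φR : R3 → ℝ)
    (hSV : InV (pn k) φS) (hRs : IsShell (pn k) φR)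
    (hSfh : ∀ i, ov φS (gsite (pn k) (pα k i)) = 0)
    (hort : ∀ i : Fin (pK k), ov φR (S.B.χ (Sum.inr (Sum.inl i))) = 0)
    (hSR : ov φR φS = 0) :
    0 ≤ 1 / 2 ^ (pe0 k / 4) * ov φS φS + 2 * Hf S (fun β => (w β : ℝ)) y φS φR +
      Hf S (fun β => (w β : ℝ)) y φR φR - (eps0 S + Lam k / 2) * ov φR φR := by
  obtain ⟨hn, hKn⟩ := n_big k hk
  have hn1 : 1 ≤ pn k := by omega
  have hn2 : 2 ≤ pn k := by omega
  have hρ := pρ_pos k
  have hρ2 : pρ k ≤ 1 / 2 ^ (8 * pn k ^ 2) := by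
    unfold pρ
    refine one_div_le_one_div_of_le (by positivity) ?_
    exact pow_le_pow_right₀ (by norm_num) (by nlinarith only [])
  obtain ⟨φ1, φ2, hsplit, h1V, h2s, h2V, h2b, h2f⟩ := isolation (pn k) hn2 (pρ k) hρ hρ2 φR hRs
  have hSs := hSV.isShell hn1
  have h1s := h1V.isShell hn1
  have nS := hSs.nice hn1
  have nR := hRs.nice hn1
  have n1 := h1s.nice hn1
  have n2 := h2s.nice hn1
  have n12 : Nice (φ1 + φ2) := by rw [← hsplit]; exact nR
  -- overlaps
  have hov1 : ∀ i : Fin (pK k), ov φ1 (S.B.χ (Sum.inr (Sum.inl i))) = 0 := by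
    intro i
    have e1 := hort i
    rw [hsplit, bil_ov.add_left n1 n2 (nice_chi S _), h2V _ (S.inV hk i), add_zero] at e1
    exact e1
  have hov1fh : ∀ i ∈ range (pK k), ov φ1 (fh (pn k) (pα k i)) = 0 := by
    intro i hi
    obtain ⟨a, ha⟩ := S.fh_span hk ⟨i, Finset.mem_range.1 hi⟩
    simp only at ha
    rw [ha, bil_ov.sum_right univ a (fun i => S.B.χ (Sum.inr (Sum.inl i))) φ1
      (fun i _ => nice_chi S _) n1]
    exact Finset.sum_eq_zero fun j _ => by rw [hov1 j, mul_zero]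
  have hov21 : ov φ2 φ1 = 0 := h2V φ1 h1V
  have hov12 : ov φ1 φ2 = 0 := by rw [bil_ov.symm _ _ n1 n2]; exact hov21
  have hov2S : ov φ2 φS = 0 := h2V φS hSV
  have hov1S : ov φ1 φS = 0 := by
    rw [hsplit, bil_ov.add_left n1 n2 nS, hov2S, add_zero] at hSR
    exact hSR
  have hovR : ov φR φR = ov φ1 φ1 + ov φ2 φ2 := by
    rw [hsplit, bil_ov.add_left n1 n2 n12, bil_ov.add_right n1 n2 n1 n12,
      bil_ov.add_right n1 n2 n2 n12, hov12, hov21]
    ring
  -- forms
  have hb := bil_bform (pρ k) hρ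
  have hT := bil_Tf k
  have hH := bil_Hp k q s
  have hexSR := hex_eq k hk q s hSs hRs
  have hexRR := hex_eq k hk q s hRs hRs
  have hxr : ∀ {f g : R3 → ℝ}, InV (pn k) f → InV (pn k) g →
      bform (pρ k) f g = xr (pn k) (pρ k) * ov f g := fun hf hg =>
    bform_top (pn k) hn1 hf hg (pρ k) hρ
  have hbSR : bform (pρ k) φS φR = 0 := by
    rw [hsplit, hb.add_right n1 n2 nS n12, hxr hSV h1V, bil_ov.symm _ _ nS n1, hov1S, mul_zero,
      hb.symm _ _ nS n2, h2b φS hSV, add_zero]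
  have hbRR : xr (pn k) (pρ k) * ov φR φR +
      pρ k ^ (2 * pn k - 2) / 2 ^ (16 * pn k ^ 2) * ov φ2 φ2 ≤ bform (pρ k) φR φR := by
    have e1 : bform (pρ k) φR φR = bform (pρ k) φ1 φ1 + bform (pρ k) φ2 φ2 := by
      rw [hsplit, hb.add_left n1 n2 n12, hb.add_right n1 n2 n1 n12, hb.add_right n1 n2 n2 n12,
        hb.symm _ _ n1 n2, h2b φ1 h1V]
      ring
    rw [e1, hovR, hxr h1V h1V]
    linarith only [h2f]
  have hTSR : Tf k φS φR = Tf k φS φ2 := by
    have e1 : Tf k φS φ1 = 0 := by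
      rw [Tf_top k hk hSV h1V]
      refine Finset.sum_eq_zero fun i hi => ?_
      rw [hov1fh i hi, hSfh i]
      ring
    rw [hsplit, hT.add_right n1 n2 nS n12, e1, zero_add]
  have hTRR : Tf k φR φR = Tf k φ1 φ1 + 2 * Tf k φ1 φ2 + Tf k φ2 φ2 := by
    rw [hsplit, hT.add_left n1 n2 n12, hT.add_right n1 n2 n1 n12, hT.add_right n1 n2 n2 n12,
      hT.symm _ _ n2 n1]
    ring
  have hT11 : 0 ≤ Tf k φ1 φ1 := by
    rw [Tf_top k hk h1V h1V]
    refine Finset.sum_nonneg fun i hi => ?_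
    rw [hov1fh i hi]
    have h1 := zt_top k hk
    have h2 := (gam_bounds (pn k) hn2).1
    have h3 : (0 : ℝ) ≤ 1 / (8 * (pn k : ℝ)) := by (clear * - hn; positivity)
    have h4 := nf_pos (pn k) hn1
    have hL : 0 < pL k := by rw [(pe0_eq k hk).2]; positivity
    have h5 : 0 ≤ zt k (2 * (pn k - 1)) := by linarith only [h1]
    have h6 : 0 ≤ gam (pn k) := h3.trans h2
    have e : pL k * -(zt k (2 * (pn k - 1)) * gam (pn k) * (0 * 0 -
        ov φ1 (gsite (pn k) (pα k i)) * ov φ1 (gsite (pn k) (pα k i)) / nf (pn k))) =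
        pL k * (zt k (2 * (pn k - 1)) * gam (pn k) *
          (ov φ1 (gsite (pn k) (pα k i)) ^ 2 / nf (pn k))) := by ring
    rw [e]
    (clear * - hL h1 h6 h4; positivity)
  have hHSR : Hp k q s φS φR = Hp k q s φS φ1 + Hp k q s φS φ2 := by
    rw [hsplit, hH.add_right n1 n2 nS n12]
  have hHRR : Hp k q s φR φR = Hp k q s φ1 φ1 + 2 * Hp k q s φ1 φ2 + Hp k q s φ2 φ2 := by
    rw [hsplit, hH.add_left n1 n2 n12, hH.add_right n1 n2 n1 n12, hH.add_right n1 n2 n2 n12,
      hH.symm _ _ n2 n1]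
    ring
  -- square roots
  have pS := bd_ov_nonneg φS
  have pR := bd_ov_nonneg φR
  have p1 := bd_ov_nonneg φ1
  have p2 := bd_ov_nonneg φ2
  have sq : ∀ {f : R3 → ℝ}, 0 ≤ ov f f → Real.sqrt (ov f f) ^ 2 = ov f f :=
    fun h => Real.sq_sqrt h
  have sqm : ∀ {f g : R3 → ℝ}, 0 ≤ ov f f →
      Real.sqrt (ov f f * ov g g) = Real.sqrt (ov f f) * Real.sqrt (ov g g) :=
    fun h => Real.sqrt_mul h _
  have sqs : ∀ {f : R3 → ℝ}, 0 ≤ ov f f → Real.sqrt (ov f f * ov f f) = ov f f :=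
    fun h => Real.sqrt_mul_self h
  -- bounds
  have k1 := dev_crude k hk q hq s hs hSs h2s
  have k2 := hop_top k hk q hq s hs hSV h1V
  have k3 := dev_crude k hk q hq s hs h1s h2s
  have k4 := dev_crude k hk q hq s hs h2s h2s
  have k6 := hop_top k hk q hq s hs h1V h1V
  have k7 := rounding k hk q hq s hs w y H hn1 hn1 hSs hRs
  have k8 := rounding k hk q hq s hs w y H hn1 hn1 hRs hRs
  have hC : (Fintype.card C : ℝ) ≤ (pn k : ℝ) ^ 3 := by exact_mod_cast (S.card hk).2.1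
  have hmb : ∀ {f g : R3 → ℝ}, IsShell (pn k) f → IsShell (pn k) g →
      |mfield S.B f g| ≤ 12 * (pn k : ℝ) ^ 3 * Real.sqrt (ov f f * ov g g) := by
    intro f g hf hg
    refine (mfield_bound S.B f g hf hg hn1).trans ?_
    have := Real.sqrt_nonneg (ov f f * ov g g)
    (clear * - hC; gcongr)
  have k9 := hmb hSs hRs
  have k10 := hmb hRs hRs
  have hmf : mfield S.B (fh (pn k) 0) (fh (pn k) 0) ≤ 12 * (pn k : ℝ) ^ 3 := by
    have h1 := hmb ((fh_inV (pn k) hn1 0).isShell hn1) ((fh_inV (pn k) hn1 0).isShell hn1)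
    rw [ov_fh_self (pn k) hn2 0, mul_one, Real.sqrt_one, mul_one] at h1
    exact (le_abs_self _).trans h1
  rw [sqm pS] at k1 k2 k7 k9
  rw [sqm p1] at k3
  rw [sqs p2] at k4
  rw [sqs p1] at k6
  rw [sqs pR] at k8 k10
  obtain ⟨c1, c2, c3⟩ := numeric k hk (mfield S.B (fh (pn k) 0) (fh (pn k) 0)) (Lam k)
    (Lam_ge k hk) hmf
  have hW : 0 ≤ pW k := by unfold pW; positivity
  have hfin := real_ineq (Real.sqrt (ov φS φS)) (Real.sqrt (ov φR φR)) (Real.sqrt (ov φ1 φ1))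
    (Real.sqrt (ov φ2 φ2)) (pW k) (xr (pn k) (pρ k)) (pρ k ^ (2 * pn k - 2) / 2 ^ (16 * pn k ^ 2))
    (2 * (pn k : ℝ) ^ 7) (2 ^ (36 * pn k ^ 3)) (12 * (pn k : ℝ) ^ 3) (1 / 2 ^ (15 * pn k ^ 2))
    (1 / 2 ^ (pe0 k / 4)) (1 / (8 * 2 ^ (pe0 k / 4))) (mfield S.B (fh (pn k) 0) (fh (pn k) 0))
    (Lam k) (Tf k φS φ2 + Hp k q s φS φ2) (Hp k q s φS φ1) (Tf k φ1 φ2 + Hp k q s φ1 φ2)
    (Tf k φ2 φ2 + Hp k q s φ2 φ2) (Tf k φ1 φ1) (Hp k q s φ1 φ1)
    (∑ β, (w β : ℝ) * gm (y β) φS φR - hex k q s φS φR)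
    (∑ β, (w β : ℝ) * gm (y β) φR φR - hex k q s φR φR)
    (mfield S.B φS φR) (mfield S.B φR φR) (bform (pρ k) φR φR)
    (by rw [sq pR, sq p1, sq p2, hovR]) (by positivity) (by (clear * - hn; positivity)) (by positivity) hW
    k1 k2 k3 (by rw [sq p2]; exact k4) hT11 (by rw [sq p1]; exact k6) k7
    (by rw [sq pR]; exact k8) k9 (by rw [sq pR]; exact k10)
    (by rw [sq pR, sq p2]; exact hbRR) c1 c2 c3
  rw [sq pS, sq pR] at hfin
  have hexSR' : hex k q s φS φR = Tf k φS φ2 + (Hp k q s φS φ1 + Hp k q s φS φ2) := by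
    rw [hexSR, hbSR, ← hHSR, ← hTSR]
    unfold Tf Hp
    ring
  have hexRR' : hex k q s φR φR = pW k * bform (pρ k) φR φR +
      (Tf k φ1 φ1 + 2 * Tf k φ1 φ2 + Tf k φ2 φ2) +
      (Hp k q s φ1 φ1 + 2 * Hp k q s φ1 φ2 + Hp k q s φ2 φ2) := by
    rw [hexRR, ← hHRR, ← hTRR]
    rfl
  unfold Hf eps0
  rw [hexSR', hexRR'] at hfin
  linarith only [hfin]

end St7

variable {k : ℕ} {C R : Type} [Fintype C] [DecidableEq C] [Fintype R] [DecidableEq R]

open St7 in
/-- quadratic form of the one-body matrix -/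
theorem hS_gap (hk : 10 ≤ k) (S : SiteB k C R) (q : ℕ → ℕ) (hq : GoodQ k q)
    (s : ℕ → ℕ → ℕ) (hs : GoodS k q s) (w : Fin (pD k * pD k) → ℕ)
    (y : Fin (pD k * pD k) → R3) (H : Approx k q s w y) (x : Fin (pK k) ⊕ R → ℝ) :
    (∑ i, ∑ j, hS S (fun β => (w β : ℝ)) y (Sum.inl i) (Sum.inl j) * x (Sum.inl i) *
        x (Sum.inl j)) - 1 / 2 ^ (pe0 k / 4) * (∑ i, x (Sum.inl i) ^ 2) +
      (eps0 S + Lam k / 2) * (∑ r, x (Sum.inr r) ^ 2) ≤
        qf (hS S (fun β => (w β : ℝ)) y) x := by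
  obtain ⟨hn, hKn⟩ := n_big k hk
  have hn1 : 1 ≤ pn k := by omega
  set W' : Fin (pD k * pD k) → ℝ := fun β => (w β : ℝ)
  set fS : Fin (pK k) → R3 → ℝ := fun i => S.B.χ (Sum.inr (Sum.inl i)) with hfS
  set fR : R → R3 → ℝ := fun r => S.B.χ (Sum.inr (Sum.inr r)) with hfR
  set φS : R3 → ℝ := fun z => ∑ i, x (Sum.inl i) * fS i z with hφS
  set φR : R3 → ℝ := fun z => ∑ r, x (Sum.inr r) * fR r z with hφR
  have nS : ∀ i, Nice (fS i) := fun i => nice_chi S _
  have nR : ∀ r, Nice (fR r) := fun r => nice_chi S _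
  have hB := bil_Hf S W' y
  have e1 : Hf S W' y φS φS = ∑ i, ∑ j, hS S W' y (Sum.inl i) (Sum.inl j) * x (Sum.inl i) *
      x (Sum.inl j) := hB.expand _ fS _ fS nS nS
  have e2 : Hf S W' y φS φR = ∑ i, ∑ r, hS S W' y (Sum.inl i) (Sum.inr r) * x (Sum.inl i) *
      x (Sum.inr r) := hB.expand _ fS _ fR nS nR
  have e3 : Hf S W' y φR φS = ∑ r, ∑ i, hS S W' y (Sum.inr r) (Sum.inl i) * x (Sum.inr r) *
      x (Sum.inl i) := hB.expand _ fR _ fS nR nS
  have e4 : Hf S W' y φR φR = ∑ r, ∑ r', hS S W' y (Sum.inr r) (Sum.inr r') * x (Sum.inr r) *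
      x (Sum.inr r') := hB.expand _ fR _ fR nR nR
  have NS : Nice φS := St7.nice_sum univ _ fS fun i _ => nS i
  have NR : Nice φR := St7.nice_sum univ _ fR fun i _ => nR i
  have e5 : Hf S W' y φR φS = Hf S W' y φS φR := hB.symm _ _ NR NS
  have hqf : qf (hS S W' y) x = Hf S W' y φS φS + 2 * Hf S W' y φS φR + Hf S W' y φR φR := by
    unfold qf
    simp only [Fintype.sum_sum_type]
    rw [Finset.sum_add_distrib, Finset.sum_add_distrib, ← e1, ← e2, ← e3, ← e4, e5]
    ring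
  have o1 : ov φS φS = ∑ i, x (Sum.inl i) ^ 2 := by
    rw [bil_ov.expand _ fS _ fS nS nS]
    refine Finset.sum_congr rfl fun i _ => ?_
    rw [Finset.sum_eq_single i]
    · rw [hfS, ov_chi, if_pos rfl]
      ring
    · intro j _ hj
      rw [hfS, ov_chi, if_neg (fun h => hj (Sum.inl_injective h).symm)]
      ring
    · intro h
      exact absurd (Finset.mem_univ i) h
  have o2 : ov φR φR = ∑ r, x (Sum.inr r) ^ 2 := by
    rw [bil_ov.expand _ fR _ fR nR nR]
    refine Finset.sum_congr rfl fun i _ => ?_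
    rw [Finset.sum_eq_single i]
    · rw [hfR, ov_chi, if_pos rfl]
      ring
    · intro j _ hj
      rw [hfR, ov_chi, if_neg (fun h => hj (Sum.inr_injective h).symm)]
      ring
    · intro h
      exact absurd (Finset.mem_univ i) h
  have o3 : ov φR φS = 0 := by
    rw [bil_ov.expand _ fR _ fS nR nS]
    refine Finset.sum_eq_zero fun r _ => Finset.sum_eq_zero fun i _ => ?_
    rw [hfS, hfR, ov_chi, if_neg (by simp)]
    ring
  have o4 : ∀ i : Fin (pK k), ov φR (S.B.χ (Sum.inr (Sum.inl i))) = 0 := by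
    intro i
    rw [bil_ov.sum R univ _ fR _ (fun r _ => nR r) (nice_chi S _)]
    refine Finset.sum_eq_zero fun r _ => ?_
    rw [hfR, ov_chi, if_neg (by simp)]
    ring
  have o5 : ∀ i : ℕ, ov φS (gsite (pn k) (pα k i)) = 0 := by
    intro i
    have ng : Nice (gsite (pn k) (pα k i)) := nice_gsite hn1 _
    rw [bil_ov.sum _ univ _ fS _ (fun r _ => nS r) ng]
    refine Finset.sum_eq_zero fun j _ => ?_
    have h1 : ov (fS j) (gsite (pn k) (pα k i)) = 0 := by
      have h2 : fS j = fun z => ∑ l, S.Cm j l * fh (pn k) (pα k l) z := S.chi j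
      rw [h2, bil_ov.sum _ univ _ (fun l : Fin (pK k) => fh (pn k) (pα k l)) _
        (fun l _ => ((fh_inV (pn k) hn1 _).isShell hn1).nice hn1) ng]
      refine Finset.sum_eq_zero fun l _ => ?_
      have h3 : ov (fh (pn k) (pα k l)) (gsite (pn k) (pα k i)) = 0 := by
        have h4 : fh (pn k) (pα k l) = fun z => ∑ _u : Fin 1, (1 / Real.sqrt (nf (pn k))) *
            fsite (pn k) (pα k l) z := by
          funext z
          simp only [fh, Finset.univ_unique, Finset.sum_const, Finset.card_singleton, one_smul]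
          ring
        rw [h4, bil_ov.sum (Fin 1) univ (fun _ => 1 / Real.sqrt (nf (pn k)))
          (fun _ => fsite (pn k) (pα k l)) _ (fun _ _ => nice_fsite hn1 _) ng]
        simp [site_ov_fg (pn k) (by omega)]
      rw [h3, mul_zero]
    rw [h1, mul_zero]
  have hSV : InV (pn k) φS := inV_sum univ _ fS fun i _ => S.inV hk i
  have hRs : IsShell (pn k) φR := isShell_sum hn1 univ _ fR fun r _ => shell_chi S _
  have hcore := gap_core hk S q hq s hs w y H φS φR hSV hRs o5 o4 o3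
  rw [hqf, ← e1, ← o1, ← o2]
  linarith only [hcore]

theorem hS_symm (S : SiteB k C R) {m : ℕ} (w : Fin m → ℝ) (y : Fin m → R3)
    (p o : Fin (pK k) ⊕ R) : hS S w y p o = hS S w y o p := by
  rw [St7.hS_eq, St7.hS_eq]
  exact (St7.bil_Hf S w y).symm _ _ (St7.nice_chi S _) (St7.nice_chi S _)

end Vale.Agent.P370.Q
end
end

section

section

/-!
The output word (H12).
-/

namespace Vale.Agent.P370.H

theorem word_blocks_false (w : List Bool) : blocks (false :: w) = 0 :: blocks w := by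
  unfold blocks
  rw [List.foldr_cons]
  rfl

theorem word_blocks_true (w : List Bool) :
    blocks (true :: w) = ((blocks w).headD 0 + 1) :: (blocks w).tail := by
  unfold blocks
  rw [List.foldr_cons]
  rfl

theorem word_blocks_rep (w : List Bool) (v : ℕ) :
    blocks (List.replicate v true ++ (false :: w)) = v :: blocks w := by
  induction v with
  | zero => rw [List.replicate_zero, List.nil_append, word_blocks_false]
  | succ v ih =>
    rw [List.replicate_succ, List.cons_append, word_blocks_true, ih]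
    rfl

theorem blocks_wordOf (l : List ℕ) : blocks (wordOf l) = l := by
  induction l with
  | nil => rfl
  | cons v l ih =>
    have h : wordOf (v :: l) = List.replicate v true ++ (false :: wordOf l) := by
      unfold wordOf
      rw [List.flatMap_cons, List.append_assoc]
      rfl
    rw [h, word_blocks_rep, ih]

theorem hK_outW (z : List Bool) : hK (outW z) = zK z := by
  unfold hK outW
  rw [blocks_wordOf]
  rfl

theorem hA_outW (z : List Bool) : hA (outW z) = zA z := by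
  unfold hA outW
  rw [blocks_wordOf]
  rfl

theorem hM_outW (z : List Bool) (i j : ℕ) (hi : i < zK z) (hj : j < zK z) :
    hM (outW z) i j = zW z i j := by
  unfold hM
  rw [hK_outW]
  unfold outW
  rw [blocks_wordOf]
  have hlt : i * zK z + j < zK z * zK z := by
    calc i * zK z + j < i * zK z + zK z := by omega
      _ = (i + 1) * zK z := by ring
      _ ≤ zK z * zK z := Nat.mul_le_mul_right _ hi
  have h2 : 2 + i * zK z + j = (i * zK z + j) + 2 := by omega
  rw [h2, List.getD_append_right _ _ _ _ (by simp)]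
  have h3 : i * zK z + j + 2 - [zK z, zA z].length = i * zK z + j := by
    simp only [List.length_cons, List.length_nil, zero_add, Nat.reduceAdd, add_tsub_cancel_right, Nat.add_left_cancel_iff]
  rw [h3, List.getD_eq_getElem _ _ (by simpa only [List.length_map, List.length_range] using hlt), List.getElem_map, List.getElem_range]
  have hK : 0 < zK z := by omega
  have h4 : (i * zK z + j) / zK z = i := by
    rw [mul_comm, Nat.mul_add_div hK, Nat.div_eq_of_lt hj, add_zero]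
  have h5 : (i * zK z + j) % zK z = j := by
    rw [mul_comm, Nat.mul_add_mod, Nat.mod_eq_of_lt hj]
  rw [h4, h5]

end Vale.Agent.P370.H
end
end

section

section

set_option linter.all false

/-!
The reduction to the Heisenberg model runs in polynomial time (H11).
-/

namespace Vale.Agent.P370.H

open Vale.Agent.Lib.PolyTime Vale.Agent.P370.Q.Alg

instance encTm : Enc (Tm ℤ) := ⟨fun t => enc (t.c, t.P, t.i, t.Q, t.j)⟩
instance encRnd : Enc Rnd := ⟨fun r => enc (r.a, r.q, r.f, r.s)⟩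

section pt

variable {A : Set Word} {α β : Type*} [Enc α] [Enc β]

/-! ### constructors -/

theorem pl1 {f : α → β} (hf : PT A f) : PT A (fun a => [f a]) := PT.cons hf (PT.const [])

theorem pt_tm {c : α → ℤ} {P i Q j : α → ℕ} (hc : PT A c) (hP : PT A P) (hi : PT A i)
    (hQ : PT A Q) (hj : PT A j) : PT A (fun a => (⟨c a, P a, i a, Q a, j a⟩ : Tm ℤ)) := by
  obtain ⟨F, hF, hF'⟩ := hc.pair (hP.pair (hi.pair (hQ.pair hj)))
  exact ⟨F, hF, hF'⟩

theorem pt_rnd {x q f s : α → ℕ} (hx : PT A x) (hq : PT A q) (hf : PT A f) (hs : PT A s) :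
    PT A (fun a => (⟨x a, q a, f a, s a⟩ : Rnd)) := by
  obtain ⟨F, hF, hF'⟩ := hx.pair (hq.pair (hf.pair hs))
  exact ⟨F, hF, hF'⟩

theorem pt_tup {t : α → Tm ℤ} (ht : PT A t) :
    PT A (fun a => ((t a).c, (t a).P, (t a).i, (t a).Q, (t a).j)) := by
  obtain ⟨F, hF, hF'⟩ := ht
  exact ⟨F, hF, hF'⟩

theorem pt_rup {r : α → Rnd} (hr : PT A r) :
    PT A (fun a => ((r a).a, (r a).q, (r a).f, (r a).s)) := by
  obtain ⟨F, hF, hF'⟩ := hr
  exact ⟨F, hF, hF'⟩

theorem pt_c {t : α → Tm ℤ} (ht : PT A t) : PT A (fun a => (t a).c) := (pt_tup ht).fst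
theorem pt_P {t : α → Tm ℤ} (ht : PT A t) : PT A (fun a => (t a).P) := (pt_tup ht).snd.fst
theorem pt_i {t : α → Tm ℤ} (ht : PT A t) : PT A (fun a => (t a).i) := (pt_tup ht).snd.snd.fst
theorem pt_Q {t : α → Tm ℤ} (ht : PT A t) : PT A (fun a => (t a).Q) := (pt_tup ht).snd.snd.snd.fst
theorem pt_j {t : α → Tm ℤ} (ht : PT A t) : PT A (fun a => (t a).j) := (pt_tup ht).snd.snd.snd.snd
theorem pt_ra {r : α → Rnd} (hr : PT A r) : PT A (fun a => (r a).a) := (pt_rup hr).fst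
theorem pt_rq {r : α → Rnd} (hr : PT A r) : PT A (fun a => (r a).q) := (pt_rup hr).snd.fst
theorem pt_rf {r : α → Rnd} (hr : PT A r) : PT A (fun a => (r a).f) := (pt_rup hr).snd.snd.fst
theorem pt_rs {r : α → Rnd} (hr : PT A r) : PT A (fun a => (r a).s) := (pt_rup hr).snd.snd.snd

/-! ### the circuit -/

theorem pt_comp {n kind i j : α → ℕ} (hn : PT A n) (hk : PT A kind) (hi : PT A i) (hj : PT A j) :
    PT A (fun a => comp (n a) (kind a) (i a) (j a)) := by
  have c0 : PT A (fun _ : α => 0) := PT.const 0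
  have c1 : PT A (fun _ : α => 1) := PT.const 1
  have c2 : PT A (fun _ : α => 2) := PT.const 2
  exact PT.ite (p := fun a => i a < n a) (PT.lt hi hn)
    (PT.ite (p := fun a => kind a = 0) (PT.eqNat hk c0)
      (PT.cons (pt_rnd c2 hi hi hn) (pl1 (pt_rnd c0 c0 hi hn)))
      (PT.ite (p := fun a => kind a = 1) (PT.eqNat hk c1)
        (PT.cons (pt_rnd c0 c0 hi hn) (PT.cons (pt_rnd c1 hn hi hn)
          (PT.cons (pt_rnd c1 hn hi hn) (pl1 (pt_rnd c0 c0 hi hn)))))
        (PT.ite (p := fun a => j a < n a ∧ i a ≠ j a)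
          (PT.decide_and (PT.lt hj hn) (PT.decide_not (PT.eqNat hi hj)))
          (PT.cons (pt_rnd c2 hj hi hj) (PT.cons (pt_rnd c2 hj hi hj) (pl1 (pt_rnd c0 c0 hi hj))))
          (PT.const []))))
    (PT.const [])

theorem pt_cQubits {z : α → List Bool} (hz : PT A z) : PT A (fun a => cQubits (z a)) :=
  (PT.getD (pt_blocks hz) (PT.const 0) (PT.const 0)).add (PT.const 1)

theorem pbd_cQubits {z : α → List Bool} (hz : PT A z) : PBd (fun a => cQubits (z a)) :=
  ((PBd.length (A := A) hz).mono fun a => getD_blocks_le (z a) 0).add (PBd.const 1)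

theorem pt_cWitness {z : α → List Bool} (hz : PT A z) : PT A (fun a => cWitness (z a)) :=
  PT.getD (pt_blocks hz) (PT.const 1) (PT.const 0)

theorem pt_rnds {z : α → List Bool} (hz : PT A z) : PT A (fun a => rnds (z a)) := by
  have hb := pt_blocks hz
  have hl := PT.length hb
  have hlb := PBd.length (A := A) hb
  have hb' : PT A (fun p : α × Un => blocks (z p.1)) := hb.comp PT.fst'
  have ht : PT A (fun p : α × Un => p.2.v) := PT.unVal PT.snd'
  have h3 : PT A (fun p : α × Un => 3 * p.2.v) := (PT.const 3).mul ht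
  refine PT.rangeFlatMap ((hl.sub (PT.const 2)).div (PT.const 3))
    (hlb.mono fun a => (Nat.div_le_self _ _).trans (Nat.sub_le _ _)) ?_
  exact pt_comp ((pt_cQubits hz).comp PT.fst') (PT.getD hb' (h3.add (PT.const 2)) (PT.const 0))
    (PT.getD hb' (h3.add (PT.const 3)) (PT.const 0))
    (PT.getD hb' (h3.add (PT.const 4)) (PT.const 0))

/-! ### the Hamiltonian -/

theorem pt_tc {M : α → ℕ} (hM : PT A M) : PT A (fun a => tc (M a)) :=
  ((PT.const 6).mul hM).add (PT.const 5)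

theorem pbd_tc {M : α → ℕ} (hM : PBd M) : PBd (fun a => tc (M a)) :=
  ((PBd.const 6).mul hM).add (PBd.const 5)

theorem pt_ck {N t : α → ℕ} (hN : PT A N) (ht : PT A t) : PT A (fun a => ck (N a) (t a)) :=
  (hN.add ht).sub (PT.const 1)

theorem pt_projT {N Tc t : α → ℕ} {c : α → ℤ} (hN : PT A N) (hT : PT A Tc) (hc : PT A c)
    (ht : PT A t) : PT A (fun a => projT (N a) (Tc a) (c a) (t a)) := by
  have c0 : PT A (fun _ : α => 0) := PT.const 0
  have c1 : PT A (fun _ : α => 1) := PT.const 1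
  have c2 : PT A (fun _ : α => 2) := PT.const 2
  have hc' := hc.intNeg
  exact PT.ite (p := fun a => t a = 0) (PT.eqNat ht c0)
    (PT.cons (pt_tm hc c0 c0 c0 c0) (pl1 (pt_tm hc c2 (pt_ck hN c1) c0 c0)))
    (PT.ite (p := fun a => t a = Tc a) (PT.eqNat ht hT)
      (PT.cons (pt_tm hc c0 c0 c0 c0) (pl1 (pt_tm hc' c2 (pt_ck hN hT) c0 c0)))
      (PT.cons (pt_tm hc c2 (pt_ck hN (ht.add c1)) c0 c0) (pl1 (pt_tm hc' c2 (pt_ck hN ht) c0 c0))))

theorem pt_rget {rs : α → List Rnd} {l : α → ℕ} (hr : PT A rs) (hl : PT A l) :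
    PT A (fun a => rget (rs a) (l a)) := PT.getD hr hl (PT.const _)

theorem pt_fineG {rs : α → List Rnd} {w : α → ℤ} {tr : α → ℕ → ℤ × ℤ} {t : α → ℕ}
    (hr : PT A rs) (hw : PT A w) (htr : PT A (fun p : α × ℕ => tr p.1 p.2)) (ht : PT A t) :
    PT A (fun a => fineG (rs a) (w a) (tr a) (t a)) := by
  have c0 : PT A (fun _ : α => 0) := PT.const 0
  have c1 : PT A (fun _ : α => 1) := PT.const 1
  have c2 : PT A (fun _ : α => 2) := PT.const 2
  have hm : PT A (fun a => t a % 6) := ht.mod (PT.const 6)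
  have hd : PT A (fun a => t a / 6) := ht.div (PT.const 6)
  have hl := PT.length hr
  have hg := pt_rget hr hd
  have hg1 := pt_rget hr (hd.sub c1)
  have hone : PT A (fun a => [(w a, 0, 0)]) := pl1 (hw.pair (c0.pair c0))
  have hlt : PT A (fun a => decide (t a / 6 < (rs a).length)) := PT.lt hd hl
  have htr' : PT A (fun a => tr a (rget (rs a) (t a / 6)).a) :=
    htr.comp (PT.id.pair (pt_ra hg))
  exact PT.ite (p := fun a => t a % 6 = 1) (PT.eqNat hm c1)
    (PT.ite (p := fun a => 1 ≤ t a / 6) (PT.le c1 hd)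
      (pl1 (hw.pair (c2.pair (pt_rf hg1)))) hone)
    (PT.ite (p := fun a => t a % 6 = 2) (PT.eqNat hm c2)
      (PT.ite (p := fun a => 1 ≤ t a / 6) (PT.le c1 hd)
        (pl1 (hw.pair (c2.pair (pt_rs hg1)))) hone)
      (PT.ite (p := fun a => t a % 6 = 3) (PT.eqNat hm (PT.const 3))
        (PT.ite (p := fun a => t a / 6 < (rs a).length ∧ (rget (rs a) (t a / 6)).a ≠ 0)
          (PT.decide_and hlt (PT.decide_not (PT.eqNat (pt_ra hg) c0)))
          (PT.cons (htr'.fst.pair (c2.pair (pt_rq hg)))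
            (pl1 (htr'.snd.pair (c1.pair (pt_rq hg))))) hone)
        (PT.ite (p := fun a => t a % 6 = 4) (PT.eqNat hm (PT.const 4))
          (PT.ite (p := fun a => t a / 6 < (rs a).length) hlt
            (pl1 (hw.pair (c2.pair (pt_rf hg)))) hone)
          (PT.ite (p := fun a => t a / 6 < (rs a).length) hlt
            (pl1 (hw.pair (c2.pair (pt_rs hg)))) hone))))

theorem pt_hClock {N Tc : α → ℕ} {J : α → ℤ} (hN : PT A N) (hT : PT A Tc) (hTb : PBd Tc)
    (hJ : PT A J) : PT A (fun a => hClock (N a) (Tc a) (J a)) := by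
  have c0 : PT A (fun _ : α × Un => 0) := PT.const 0
  have c2 : PT A (fun _ : α × Un => 2) := PT.const 2
  have ht : PT A (fun p : α × Un => p.2.v) := PT.unVal PT.snd'
  have hN' : PT A (fun p : α × Un => N p.1) := hN.comp PT.fst'
  have hJ' : PT A (fun p : α × Un => 2 * J p.1) := (PT.const 2).intMul (hJ.comp PT.fst')
  have k1 := pt_ck hN' (ht.add (PT.const 1))
  have k2 := pt_ck hN' (ht.add (PT.const 2))
  exact PT.rangeFlatMap (hT.sub (PT.const 1)) (hTb.mono fun _ => Nat.sub_le _ _)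
    (PT.cons (pt_tm hJ' c0 c0 c0 c0) (PT.cons (pt_tm hJ' c2 k1 c0 c0)
      (PT.cons (pt_tm hJ'.intNeg c2 k2 c0 c0) (pl1 (pt_tm hJ'.intNeg c2 k1 c2 k2)))))

theorem pt_hFine {N : α → ℕ} {rs : α → List Rnd} {w : α → ℤ} {tr : α → ℕ → ℤ × ℤ} {J : α → ℤ}
    (hN : PT A N) (hr : PT A rs) (hw : PT A w) (htr : PT A (fun p : α × ℕ => tr p.1 p.2))
    (hJ : PT A J) : PT A (fun a => hFine (N a) (rs a) (w a) (tr a) (J a)) := by
  have hl := pt_tc (PT.length hr)
  have hlb := pbd_tc (PBd.length (A := A) hr)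
  have ht : PT A (fun p : α × Un => p.2.v) := PT.unVal PT.snd'
  have ht1 : PT A (fun p : α × Un => p.2.v + 1) := ht.add (PT.const 1)
  have hN' : PT A (fun p : α × Un => N p.1) := hN.comp PT.fst'
  have hl' : PT A (fun p : α × Un => tc (rs p.1).length) := hl.comp PT.fst'
  have hJw : PT A (fun p : α × Un => 2 * J p.1 * w p.1) :=
    ((PT.const 2).intMul (hJ.comp PT.fst')).intMul (hw.comp PT.fst')
  have htr' : PT A (fun p : (α × Un) × ℕ => tr p.1.1 p.2) :=
    htr.comp ((PT.fst'.fst).pair PT.snd')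
  have hg := pt_fineG (tr := fun p : α × Un => tr p.1) (hr.comp PT.fst') (hw.comp PT.fst') htr' ht1
  have hk : PT A (fun p : (α × Un) × (ℤ × ℕ × ℕ) => ck (N p.1.1) (p.1.2.v + 1)) :=
    (pt_ck hN' ht1).comp PT.fst'
  have hc : PT A (fun p : (α × Un) × (ℤ × ℕ × ℕ) => -(4 * J p.1.1 * p.2.1)) :=
    (((PT.const 4).intMul (hJ.comp PT.fst'.fst)).intMul PT.snd'.fst).intNeg
  have hmap : PT A (fun p : α × Un => (fineG (rs p.1) (w p.1) (tr p.1) (p.2.v + 1)).map fun g =>
      if g.2.1 = 0 then (⟨-(4 * J p.1 * g.1), 1, ck (N p.1) (p.2.v + 1), 0, 0⟩ : Tm ℤ)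
      else ⟨-(4 * J p.1 * g.1), g.2.1, g.2.2, 1, ck (N p.1) (p.2.v + 1)⟩) :=
    PT.map (f := fun (p : α × Un) (g : ℤ × ℕ × ℕ) =>
      if g.2.1 = 0 then (⟨-(4 * J p.1 * g.1), 1, ck (N p.1) (p.2.v + 1), 0, 0⟩ : Tm ℤ)
      else ⟨-(4 * J p.1 * g.1), g.2.1, g.2.2, 1, ck (N p.1) (p.2.v + 1)⟩) hg
      (PT.ite (p := fun p : (α × Un) × (ℤ × ℕ × ℕ) => p.2.2.1 = 0)
        (PT.eqNat PT.snd'.snd.fst (PT.const 0))
        (pt_tm hc (PT.const 1) hk (PT.const 0) (PT.const 0))
        (pt_tm hc PT.snd'.snd.fst PT.snd'.snd.snd (PT.const 1) hk))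
  exact PT.rangeFlatMap hl hlb
    (PT.ite (p := fun p : α × Un => (p.2.v + 1) % 6 = 0)
      (PT.eqNat (ht1.mod (PT.const 6)) (PT.const 0)) (PT.const [])
      (((pt_projT hN' hl' hJw ht1).append (pt_projT hN' hl' hJw ht)).append hmap))

theorem pt_hCz {N : α → ℕ} {rs : α → List Rnd} {J : α → ℤ} (hN : PT A N) (hr : PT A rs)
    (hJ : PT A J) : PT A (fun a => hCz (N a) (rs a) (J a)) := by
  have c0 : PT A (fun _ : α × Un => 0) := PT.const 0
  have c1 : PT A (fun _ : α × Un => 1) := PT.const 1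
  have c2 : PT A (fun _ : α × Un => 2) := PT.const 2
  have ht : PT A (fun p : α × Un => p.2.v) := PT.unVal PT.snd'
  have ht1 : PT A (fun p : α × Un => 6 * (p.2.v + 1)) := (PT.const 6).mul (ht.add (PT.const 1))
  have hN' : PT A (fun p : α × Un => N p.1) := hN.comp PT.fst'
  have hr' : PT A (fun p : α × Un => rs p.1) := hr.comp PT.fst'
  have hl' : PT A (fun p : α × Un => tc (rs p.1).length) := pt_tc (PT.length hr')
  have hJ' : PT A (fun p : α × Un => J p.1) := hJ.comp PT.fst'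
  have hJ2 : PT A (fun p : α × Un => 2 * J p.1) := (PT.const 2).intMul hJ'
  have hJ4 : PT A (fun p : α × Un => 4 * J p.1) := (PT.const 4).intMul hJ'
  have hJ6 : PT A (fun p : α × Un => 6 * J p.1) := (PT.const 6).intMul hJ'
  have hg := pt_rget hr' ht
  have k0 := pt_ck hN' ht1
  have kp1 := pt_ck hN' (ht1.add (PT.const 1))
  have kp2 := pt_ck hN' (ht1.add (PT.const 2))
  have km1 := pt_ck hN' (ht1.sub (PT.const 1))
  have km2 := pt_ck hN' (ht1.sub (PT.const 2))
  exact PT.rangeFlatMap (PT.length hr) (PBd.length (A := A) hr)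
    ((((PT.cons (pt_tm hJ4.intNeg c1 k0 c0 c0) (PT.cons (pt_tm hJ6.intNeg c2 (pt_rf hg) c1 k0)
        (pl1 (pt_tm hJ6.intNeg c2 (pt_rs hg) c1 k0)))).append
      (pt_projT hN' hl' hJ4 ht1)).append
      (pt_projT hN' hl' hJ4 (ht1.sub (PT.const 1)))).append
      (PT.cons (pt_tm hJ' c1 kp1 c0 c0) (PT.cons (pt_tm hJ' c1 kp2 c0 c0)
        (PT.cons (pt_tm hJ2 c1 kp1 c1 kp2) (PT.cons (pt_tm hJ' c1 km1 c0 c0)
          (PT.cons (pt_tm hJ' c1 km2 c0 c0) (pl1 (pt_tm hJ2 c1 km2 c1 km1))))))))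

theorem pt_hIn {N m : α → ℕ} {J : α → ℤ} (hN : PT A N) (hNb : PBd N) (hm : PT A m)
    (hJ : PT A J) : PT A (fun a => hIn (N a) (m a) (J a)) := by
  have c0 : PT A (fun _ : α × Un => 0) := PT.const 0
  have c2 : PT A (fun _ : α × Un => 2) := PT.const 2
  have ht : PT A (fun p : α × Un => p.2.v) := PT.unVal PT.snd'
  have hmi : PT A (fun p : α × Un => m p.1 + p.2.v) := (hm.comp PT.fst').add ht
  have hk : PT A (fun p : α × Un => ck (N p.1) 1) := pt_ck (hN.comp PT.fst') (PT.const 1)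
  have hJ' : PT A (fun p : α × Un => 2 * J p.1) := (PT.const 2).intMul (hJ.comp PT.fst')
  exact PT.rangeFlatMap ((hN.sub (PT.const 1)).sub hm)
    (hNb.mono fun _ => (Nat.sub_le _ _).trans (Nat.sub_le _ _))
    (PT.cons (pt_tm hJ' c0 c0 c0 c0) (PT.cons (pt_tm hJ'.intNeg c2 hmi c0 c0)
      (PT.cons (pt_tm hJ' c2 hk c0 c0) (pl1 (pt_tm hJ'.intNeg c2 hmi c2 hk)))))

theorem pt_hOut {N Tc : α → ℕ} {w : α → ℤ} (hN : PT A N) (hT : PT A Tc) (hw : PT A w) :
    PT A (fun a => hOut (N a) (Tc a) (w a)) := by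
  have c0 : PT A (fun _ : α => 0) := PT.const 0
  have c2 : PT A (fun _ : α => 2) := PT.const 2
  have hw' : PT A (fun a => 2 * w a) := (PT.const 2).intMul hw
  have hk := pt_ck hN hT
  exact PT.cons (pt_tm hw' c0 c0 c0 c0) (PT.cons (pt_tm hw' c2 c0 c0 c0)
      (PT.cons (pt_tm hw'.intNeg c2 hk c0 c0) (pl1 (pt_tm hw'.intNeg c2 c0 c2 hk))))

theorem pt_rr {N M : α → ℕ} (hN : PT A N) (hM : PT A M) : PT A (fun a => rr (N a) (M a)) :=
  (hN.add hM).add (PT.const 1000)

theorem pbd_rr {N M : α → ℕ} (hN : PBd N) (hM : PBd M) : PBd (fun a => rr (N a) (M a)) :=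
  (hN.add hM).add (PBd.const 1000)

theorem pt_ham {N m : α → ℕ} {rs : α → List Rnd} {w : α → ℤ} {tr : α → ℕ → ℤ × ℤ}
    (hN : PT A N) (hNb : PBd N) (hm : PT A m) (hr : PT A rs) (hw : PT A w)
    (htr : PT A (fun p : α × ℕ => tr p.1 p.2)) :
    PT A (fun a => ham (N a) (m a) (rs a) (w a) (tr a)) := by
  have hl := pt_tc (PT.length hr)
  have hlb := pbd_tc (PBd.length (A := A) hr)
  have hR : PT A (fun a => (rr (N a) (rs a).length : ℤ)) := PT.natCast (pt_rr hN (PT.length hr))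
  exact ((((pt_hClock hN hl hlb ((PT.intPow hR 64).intMul hw)).append
    (pt_hFine hN hr hw htr (PT.intPow hR 24))).append
    (pt_hCz hN hr ((PT.intPow hR 8).intMul hw))).append
    (pt_hIn hN hNb hm ((PT.const 1000).intMul hw))).append (pt_hOut hN hl hw)

/-! ### the couplings -/

theorem pt_trI {u a : α → ℕ} (hu : PT A u) (ha : PT A a) : PT A (fun x => trI (u x) (a x)) := by
  have h2 : PT A (fun x => 2 * u x ^ 2) := (PT.const 2).mul (hu.powConst 2)
  have h4 : PT A (fun x => Nat.sqrt (2 * u x ^ 4)) :=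
    PT.natSqrt ((PT.const 2).mul (hu.powConst 4))
  have h5 : PT A (fun x => (Nat.sqrt (u x ^ 2 / 2) : ℤ)) :=
    PT.natCast (PT.natSqrt ((hu.powConst 2).div (PT.const 2)))
  exact PT.ite (p := fun x => a x = 1) (PT.eqNat ha (PT.const 1))
    ((PT.natCast (PT.natSqrt ((h2.add h4).div (PT.const 4)))).pair
      (PT.natCast (PT.natSqrt ((h2.sub h4).div (PT.const 4)))))
    (h5.pair h5)

theorem pt_hamI {N m : α → ℕ} {rs : α → List Rnd} (hN : PT A N) (hNb : PBd N) (hm : PT A m)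
    (hr : PT A rs) : PT A (fun a => hamI (N a) (m a) (rs a)) := by
  have hR : PT A (fun a => rr (N a) (rs a).length) := pt_rr hN (PT.length hr)
  exact pt_ham (tr := fun a => trI (rr (N a) (rs a).length ^ 1000)) hN hNb hm hr
    (PT.intPow (PT.natCast hR) 1000)
    (pt_trI ((hR.powConst 1000).comp PT.fst') PT.snd')

theorem pt_pvI {u P a : α → ℕ} (hu : PT A u) (hP : PT A P) (ha : PT A a) :
    PT A (fun x => pvI (u x) (P x) (a x)) := by
  have hu' : PT A (fun x => (u x : ℤ)) := PT.natCast hu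
  have hs : PT A (fun x => (Nat.sqrt (3 * u x ^ 2) : ℤ)) :=
    PT.natCast (PT.natSqrt ((PT.const 3).mul (hu.powConst 2)))
  have ha0 : PT A (fun x => decide (a x = 0)) := PT.eqNat ha (PT.const 0)
  exact PT.ite (p := fun x => P x = 2) (PT.eqNat hP (PT.const 2))
    (PT.ite (p := fun x => a x = 0) ha0 ((PT.const 2).intMul hu') hu'.intNeg)
    (PT.ite (p := fun x => P x = 1) (PT.eqNat hP (PT.const 1))
      (PT.ite (p := fun x => a x = 0) ha0 (PT.const 0)
        (PT.ite (p := fun x => a x = 1) (PT.eqNat ha (PT.const 1)) hs hs.intNeg))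
      (PT.const 0))

theorem pt_co2 {u b b' x x' : α → ℕ} {L : α → List (Tm ℤ)} (hu : PT A u) (hL : PT A L)
    (hb : PT A b) (hb' : PT A b') (hx : PT A x) (hx' : PT A x') :
    PT A (fun a => co2 (pvI (u a)) (L a) (b a) (b' a) (x a) (x' a)) := by
  have ht : PT A (fun p : α × Tm ℤ => p.2) := PT.snd'
  have hu' : PT A (fun p : α × Tm ℤ => u p.1) := hu.comp PT.fst'
  have hB : PT A (fun p : α × Tm ℤ => b p.1) := hb.comp PT.fst'
  have hB' : PT A (fun p : α × Tm ℤ => b' p.1) := hb'.comp PT.fst'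
  have hX : PT A (fun p : α × Tm ℤ => x p.1) := hx.comp PT.fst'
  have hX' : PT A (fun p : α × Tm ℤ => x' p.1) := hx'.comp PT.fst'
  refine PT.intSum (PT.map (f := fun a (t : Tm ℤ) => if t.P = 0 ∨ t.Q = 0 then 0
    else if t.i = b a ∧ t.j = b' a then t.c * (pvI (u a) t.P (x a) * pvI (u a) t.Q (x' a))
    else if t.i = b' a ∧ t.j = b a then t.c * (pvI (u a) t.P (x' a) * pvI (u a) t.Q (x a)) else 0)
    hL ?_)
  exact PT.ite (p := fun p : α × Tm ℤ => p.2.P = 0 ∨ p.2.Q = 0)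
    (PT.decide_or (PT.eqNat (pt_P ht) (PT.const 0)) (PT.eqNat (pt_Q ht) (PT.const 0))) (PT.const 0)
    (PT.ite (p := fun p : α × Tm ℤ => p.2.i = b p.1 ∧ p.2.j = b' p.1)
      (PT.decide_and (PT.eqNat (pt_i ht) hB) (PT.eqNat (pt_j ht) hB'))
      ((pt_c ht).intMul ((pt_pvI hu' (pt_P ht) hX).intMul (pt_pvI hu' (pt_Q ht) hX')))
      (PT.ite (p := fun p : α × Tm ℤ => p.2.i = b' p.1 ∧ p.2.j = b p.1)
        (PT.decide_and (PT.eqNat (pt_i ht) hB') (PT.eqNat (pt_j ht) hB))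
        ((pt_c ht).intMul ((pt_pvI hu' (pt_P ht) hX').intMul (pt_pvI hu' (pt_Q ht) hX)))
        (PT.const 0)))

theorem pt_co1 {u b x : α → ℕ} {L : α → List (Tm ℤ)} (hu : PT A u) (hL : PT A L)
    (hb : PT A b) (hx : PT A x) :
    PT A (fun a => co1 (pvI (u a)) (L a) (b a) (x a)) := by
  have ht : PT A (fun p : α × Tm ℤ => p.2) := PT.snd'
  refine PT.intSum (PT.map (f := fun a (t : Tm ℤ) =>
    if t.P ≠ 0 ∧ t.Q = 0 ∧ t.i = b a then t.c * pvI (u a) t.P (x a) else 0) hL ?_)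
  exact PT.ite (p := fun p : α × Tm ℤ => p.2.P ≠ 0 ∧ p.2.Q = 0 ∧ p.2.i = b p.1)
    (PT.decide_and (PT.decide_not (PT.eqNat (pt_P ht) (PT.const 0)))
      (PT.decide_and (PT.eqNat (pt_Q ht) (PT.const 0)) (PT.eqNat (pt_i ht) (hb.comp PT.fst'))))
    ((pt_c ht).intMul (pt_pvI (hu.comp PT.fst') (pt_P ht) (hx.comp PT.fst'))) (PT.const 0)

theorem pt_co0 {L : α → List (Tm ℤ)} (hL : PT A L) : PT A (fun a => co0 (L a)) := by
  have ht : PT A (fun p : α × Tm ℤ => p.2) := PT.snd'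
  exact PT.intSum (PT.map (f := fun _ (t : Tm ℤ) => if t.P = 0 then t.c else 0) hL
    (PT.ite (p := fun p : α × Tm ℤ => p.2.P = 0) (PT.eqNat (pt_P ht) (PT.const 0)) (pt_c ht)
      (PT.const 0)))

theorem pt_fI {r b b' x x' : α → ℕ} {L : α → List (Tm ℤ)} (hr : PT A r) (hL : PT A L)
    (hb : PT A b) (hb' : PT A b') (hx : PT A x) (hx' : PT A x') :
    PT A (fun a => fI (r a) (L a) (b a) (b' a) (x a) (x' a)) := by
  have hR : PT A (fun a => (r a : ℤ)) := PT.natCast hr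
  have h3 := PT.intPow hR 3066
  exact ((PT.intPow hR 600).intMul (((PT.const 9).intMul h3).intSub
    (pt_co2 (hr.powConst 1000) hL hb hb' hx hx'))).intDiv ((PT.const 18).intMul h3)

theorem pt_dI {r b x : α → ℕ} {L : α → List (Tm ℤ)} (hr : PT A r) (hL : PT A L)
    (hb : PT A b) (hx : PT A x) : PT A (fun a => dI (r a) (L a) (b a) (x a)) := by
  have hR : PT A (fun a => (r a : ℤ)) := PT.natCast hr
  exact (((PT.intPow hR 300).intMul (pt_co1 (hr.powConst 1000) hL hb hx)).intNeg).intDiv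
    ((PT.const 36).intMul (PT.intPow hR 2066))

theorem pt_wI {r i j : α → ℕ} {L : α → List (Tm ℤ)} (hr : PT A r) (hL : PT A L)
    (hi : PT A i) (hj : PT A j) : PT A (fun a => wI (r a) (L a) (i a) (j a)) := by
  have hR : PT A (fun a => (r a : ℤ)) := PT.natCast hr
  have c4 : PT A (fun _ : α => 4) := PT.const 4
  have c0 : PT A (fun _ : α => 0) := PT.const 0
  have i4 := hi.div c4
  have j4 := hj.div c4
  have im := hi.mod c4
  have jm := hj.mod c4
  have im1 := im.sub (PT.const 1)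
  have jm1 := jm.sub (PT.const 1)
  have i0 : PT A (fun a => decide (i a % 4 = 0)) := PT.eqNat im c0
  have j0 : PT A (fun a => decide (j a % 4 = 0)) := PT.eqNat jm c0
  exact PT.ite (p := fun a => i a / 4 = j a / 4) (PT.eqNat i4 j4)
    (((PT.intPow hR 1000).intAdd
      (PT.ite (p := fun a => i a % 4 = 0 ∧ j a % 4 ≠ 0) (PT.decide_and i0 (PT.decide_not j0))
        (pt_dI hr hL i4 jm1) (PT.const 0))).intAdd
      (PT.ite (p := fun a => j a % 4 = 0 ∧ i a % 4 ≠ 0) (PT.decide_and j0 (PT.decide_not i0))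
        (pt_dI hr hL i4 im1) (PT.const 0)))
    (PT.ite (p := fun a => i a % 4 ≠ 0 ∧ j a % 4 ≠ 0)
      (PT.decide_and (PT.decide_not i0) (PT.decide_not j0))
      (pt_fI hr hL i4 j4 im1 jm1)
      (PT.ite (p := fun a => i a % 4 = 0 ∧ j a % 4 = 0) (PT.decide_and i0 j0)
        (PT.intPow hR 700) (PT.const 0)))

theorem pt_wN {r i j : α → ℕ} {L : α → List (Tm ℤ)} (hr : PT A r) (hL : PT A L)
    (hi : PT A i) (hj : PT A j) : PT A (fun a => wN (r a) (L a) (i a) (j a)) :=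
  PT.min (PT.posPart (pt_wI hr hL hi hj)) ((PT.const 2).mul (hr.powConst 1000))

theorem pt_thrI {N m : α → ℕ} {rs : α → List Rnd} (hN : PT A N) (hNb : PBd N) (hm : PT A m)
    (hr : PT A rs) : PT A (fun a => thrI (N a) (m a) (rs a)) := by
  have hl := PT.length hr
  have hR : PT A (fun a => (rr (N a) (rs a).length : ℤ)) := PT.natCast (pt_rr hN hl)
  have hM : PT A (fun a => 6 * (((rs a).length : ℤ) + 1)) :=
    (PT.const 6).intMul ((PT.natCast hl).intAdd (PT.const 1))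
  have hn : PT A (fun a => ((N a + tc (rs a).length : ℕ) : ℤ)) := PT.natCast (hN.add (pt_tc hl))
  have hco : PT A (fun a => co0 (ham (N a) (m a) (rs a) (1 : ℤ) (fun _ => (0, 0)))) :=
    pt_co0 (pt_ham (tr := fun _ _ => (0, 0)) hN hNb hm hr (PT.const 1) (PT.const (0, 0)))
  exact (((((((PT.const 864).intMul hM).intMul (PT.intPow hR 1000)).intMul hn).intAdd
    (((((PT.const 27).intMul hM).intMul ((PT.intPow hR 400).intAdd (PT.intPow hR 300))).intMul
      hn).intMul (hn.intSub (PT.const 1)))).intAdd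
    ((((PT.const 24).intMul (PT.intPow hR 234)).intMul hM).intMul hco)).intSub
    ((PT.const 88).intMul (PT.intPow hR 234))).intDiv ((PT.const 144).intMul hM)

/-! ### the threshold is polynomially bounded -/

/-- all coefficients are bounded by `C` -/
def CB (C : ℤ) (L : List (Tm ℤ)) : Prop := ∀ t ∈ L, |t.c| ≤ C

theorem cb_nil (C : ℤ) : CB C [] := fun t ht => by simp at ht

theorem cb_cons {C : ℤ} {t : Tm ℤ} {L : List (Tm ℤ)} (h : |t.c| ≤ C) (h' : CB C L) :
    CB C (t :: L) := fun s hs => by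
  rcases List.mem_cons.1 hs with rfl | hs
  · exact h
  · exact h' s hs

theorem cb_append {C : ℤ} {L L' : List (Tm ℤ)} (h : CB C L) (h' : CB C L') : CB C (L ++ L') :=
  fun s hs => by
    rcases List.mem_append.1 hs with hs | hs
    · exact h s hs
    · exact h' s hs

theorem cb_flatMap {ι : Type*} {C : ℤ} {l : List ι} {f : ι → List (Tm ℤ)}
    (h : ∀ x, CB C (f x)) : CB C (l.flatMap f) := fun s hs => by
  obtain ⟨x, -, hx⟩ := List.mem_flatMap.1 hs
  exact h x s hx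

theorem cb_projT {C c : ℤ} (N Tc t : ℕ) (h : |c| ≤ C) : CB C (projT N Tc c t) := by
  have h' : |-c| ≤ C := by rwa [abs_neg]
  unfold projT
  split_ifs
  · exact cb_cons h (cb_cons h (cb_nil _))
  · exact cb_cons h (cb_cons h' (cb_nil _))
  · exact cb_cons h (cb_cons h' (cb_nil _))

theorem fineG_le (rs : List Rnd) (t : ℕ) :
    ∀ g ∈ fineG rs (1 : ℤ) (fun _ => (0, 0)) t, |g.1| ≤ 1 := by
  unfold fineG
  intro g hg
  split_ifs at hg <;> simp only [List.mem_cons, List.not_mem_nil, or_false] at hg <;> (try rcases hg with rfl | rfl) <;> (try subst hg) <;> simp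

theorem cb_ham (N m : ℕ) (rs : List Rnd) :
    CB (6 * (rr N rs.length : ℤ) ^ 64) (ham N m rs (1 : ℤ) (fun _ => (0, 0))) := by
  have hR : (1000 : ℤ) ≤ (rr N rs.length : ℤ) := by
    have : 1000 ≤ rr N rs.length := by unfold rr; omega
    exact_mod_cast this
  unfold ham
  obtain ⟨R, hRe⟩ : ∃ R : ℤ, R = (rr N rs.length : ℤ) := ⟨_, rfl⟩
  rw [← hRe] at hR ⊢
  have h1 : (1 : ℤ) ≤ R := by linarith only [hR]
  have h64 : R ≤ R ^ 64 := by
    calc R = R ^ 1 := (pow_one R).symm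
      _ ≤ R ^ 64 := pow_le_pow_right₀ h1 (by (clear * -; norm_num))
  have h24 : R ^ 24 ≤ R ^ 64 := pow_le_pow_right₀ h1 (by norm_num)
  have h8 : R ^ 8 ≤ R ^ 64 := pow_le_pow_right₀ h1 (by norm_num)
  have p24 : 0 ≤ R ^ 24 := by positivity
  have p8 : 0 ≤ R ^ 8 := by positivity
  generalize R ^ 64 = X at *
  generalize R ^ 24 = Y at *
  generalize R ^ 8 = Z at *
  refine cb_append (cb_append (cb_append (cb_append ?_ ?_) ?_) ?_) ?_
  · unfold hClock
    refine cb_flatMap fun t => cb_cons ?_ (cb_cons ?_ (cb_cons ?_ (cb_cons ?_ (cb_nil _)))) <;>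
      (show |_| ≤ _; rw [abs_le]; constructor <;> linarith only [hR, h64])
  · unfold hFine
    refine cb_flatMap fun t => ?_
    split_ifs
    · exact cb_nil _
    · refine cb_append (cb_append (cb_projT _ _ _ ?_) (cb_projT _ _ _ ?_)) ?_
      · rw [abs_le]; constructor <;> linarith only [hR, h64, h24, p24]
      · rw [abs_le]; constructor <;> linarith
      · intro s hs
        obtain ⟨g, hg, rfl⟩ := List.mem_map.1 hs
        have h2 := fineG_le rs _ g hg
        have h3 : |-(4 * Y * g.1)| ≤ 6 * X := by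
          rw [abs_neg, abs_mul, abs_of_nonneg (by linarith only [p24] : (0 : ℤ) ≤ 4 * Y)]
          calc 4 * Y * |g.1| ≤ 4 * Y * 1 := mul_le_mul_of_nonneg_left h2 (by linarith only [p24])
            _ ≤ 6 * X := by linarith only [hR, h64, h24]
        split_ifs <;> exact h3
  · unfold hCz
    refine cb_flatMap fun t => ?_
    refine cb_append (cb_append (cb_append (cb_cons ?_ (cb_cons ?_ (cb_cons ?_ (cb_nil _))))
      (cb_projT _ _ _ ?_)) (cb_projT _ _ _ ?_)) (cb_cons ?_ (cb_cons ?_ (cb_cons ?_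
      (cb_cons ?_ (cb_cons ?_ (cb_cons ?_ (cb_nil _))))))) <;>
      (show |_| ≤ _; rw [abs_le]; constructor <;> linarith only [h8, hR, h64, p8])
  · unfold hIn
    refine cb_flatMap fun t => cb_cons ?_ (cb_cons ?_ (cb_cons ?_ (cb_cons ?_ (cb_nil _)))) <;>
      (show |_| ≤ _; rw [abs_le]; constructor <;> linarith only [hR, h64])
  · unfold hOut
    refine cb_cons ?_ (cb_cons ?_ (cb_cons ?_ (cb_cons ?_ (cb_nil _)))) <;>
      (show |_| ≤ _; rw [abs_le]; constructor <;> linarith only [hR, h64])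

theorem co0_le {C : ℤ} (hC : 0 ≤ C) (L : List (Tm ℤ)) (h : CB C L) : co0 L ≤ L.length * C := by
  induction L with
  | nil => simp [co0]
  | cons t L ih =>
    have h1 : co0 (t :: L) = (if t.P = 0 then t.c else 0) + co0 L := by
      unfold co0
      rw [List.map_cons, List.sum_cons]
    have h2 := ih fun s hs => h s (List.mem_cons_of_mem _ hs)
    have h3 : (if t.P = 0 then t.c else 0) ≤ C := by
      split_ifs
      · exact (le_abs_self _).trans (h t List.mem_cons_self)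
      · exact hC
    rw [h1, List.length_cons]
    push_cast
    linarith only [h2, h3]

/-- bound of the threshold -/
def thrB (N M l : ℕ) : ℕ :=
  864 * (6 * (M + 1)) * rr N M ^ 1000 * (N + tc M) +
    27 * (6 * (M + 1)) * (rr N M ^ 400 + rr N M ^ 300) * (N + tc M) * (N + tc M) +
    24 * rr N M ^ 234 * (6 * (M + 1)) * (l * (6 * rr N M ^ 64))

theorem thr_arith {M A4 A3 A10 A2 T Y K : ℤ} (hM : 0 ≤ M) (h4 : 0 ≤ A4) (h3 : 0 ≤ A3)
    (h2 : 0 ≤ A2) (hT : 0 ≤ T) (hK : K ≤ Y) :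
    864 * (6 * (M + 1)) * A10 * T + 27 * (6 * (M + 1)) * (A4 + A3) * T * (T - 1) +
      24 * A2 * (6 * (M + 1)) * K - 88 * A2 ≤
    864 * (6 * (M + 1)) * A10 * T + 27 * (6 * (M + 1)) * (A4 + A3) * T * T +
      24 * A2 * (6 * (M + 1)) * Y := by
  have e1 : 27 * (6 * (M + 1)) * (A4 + A3) * T * (T - 1) ≤
      27 * (6 * (M + 1)) * (A4 + A3) * T * T :=
    mul_le_mul_of_nonneg_left (by linarith only []) (by positivity)
  have e2 : 24 * A2 * (6 * (M + 1)) * K ≤ 24 * A2 * (6 * (M + 1)) * Y :=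
    mul_le_mul_of_nonneg_left hK (by positivity)
  linarith only [h2, e1, e2]

theorem thrB_cast (N M l : ℕ) : (thrB N M l : ℤ) =
    864 * (6 * ((M : ℤ) + 1)) * (rr N M : ℤ) ^ 1000 * ((N + tc M : ℕ) : ℤ) +
    27 * (6 * ((M : ℤ) + 1)) * ((rr N M : ℤ) ^ 400 + (rr N M : ℤ) ^ 300) * ((N + tc M : ℕ) : ℤ) *
      ((N + tc M : ℕ) : ℤ) +
    24 * (rr N M : ℤ) ^ 234 * (6 * ((M : ℤ) + 1)) * ((l : ℤ) * (6 * (rr N M : ℤ) ^ 64)) := by
  unfold thrB
  push_cast
  rfl

theorem thrI_le (N m : ℕ) (rs : List Rnd) : (thrI N m rs).toNat ≤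
    thrB N rs.length (ham N m rs (1 : ℤ) (fun _ => (0, 0))).length := by
  have hd : (0 : ℤ) < 144 * (6 * ((rs.length : ℤ) + 1)) := by positivity
  have h0 : (0 : ℤ) ≤ (thrB N rs.length (ham N m rs (1 : ℤ) (fun _ => (0, 0))).length : ℤ) :=
    Int.natCast_nonneg _
  have hR : (0 : ℤ) ≤ (rr N rs.length : ℤ) := Int.natCast_nonneg _
  have hco := co0_le (mul_nonneg (by norm_num) (pow_nonneg hR 64)) _ (cb_ham N m rs)
  have h1 := thr_arith (A10 := (rr N rs.length : ℤ) ^ 1000) (Int.natCast_nonneg rs.length)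
    (pow_nonneg hR 400) (pow_nonneg hR 300) (pow_nonneg hR 234)
    (Int.natCast_nonneg (N + tc rs.length)) hco
  rw [← thrB_cast] at h1
  rw [Int.toNat_le]
  exact (Int.ediv_le_ediv hd h1).trans (Int.ediv_le_self _ h0)

theorem pbd_thrI {N m : α → ℕ} {rs : α → List Rnd} (hN : PT A N) (hNb : PBd N) (hm : PT A m)
    (hr : PT A rs) : PBd (fun a => (thrI (N a) (m a) (rs a)).toNat) := by
  have hl := PBd.length (A := A) (pt_ham (tr := fun _ _ => ((0 : ℤ), (0 : ℤ))) hN hNb hm hr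
    (PT.const 1) (PT.const (0, 0)))
  have hM := PBd.length (A := A) hr
  have hR := pbd_rr hNb hM
  have hM6 := (PBd.const 6).mul (hM.add (PBd.const 1))
  have hT := hNb.add (pbd_tc hM)
  have h : PBd (fun a => thrB (N a) (rs a).length
      (ham (N a) (m a) (rs a) (1 : ℤ) (fun _ => (0, 0))).length) :=
    (((((PBd.const 864).mul hM6).mul (hR.pow 1000)).mul hT).add
      ((((PBd.const 27).mul hM6).mul ((hR.pow 400).add (hR.pow 300))).mul hT |>.mul hT)).add
      ((((PBd.const 24).mul (hR.pow 234)).mul hM6).mul (hl.mul ((PBd.const 6).mul (hR.pow 64))))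
  exact h.mono fun a => thrI_le _ _ _

/-! ### the output -/

theorem pt_wordOf {l : α → List ℕ} {B : α → ℕ} (hl : PT A l) (hB : PT A B) (hBb : PBd B)
    (h : ∀ a, ∀ v ∈ l a, v ≤ B a) : PT A (fun a => wordOf (l a)) := by
  refine (PT.flatMap (f := fun a v => List.replicate (Min.min v (B a)) true ++ [false]) hl
    ?_).congr fun a => ?_
  · exact (PT.replicate (PT.min PT.snd' (hB.comp PT.fst'))
      (hBb.compFst.mono fun _ => min_le_right _ _) (PT.const true)).append (PT.const [false])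
  · unfold wordOf
    exact List.flatMap_congr fun v hv => by rw [min_eq_left (h a v hv)]

variable {z : α → List Bool}

theorem pt_zN (hz : PT A z) : PT A (fun a => zN (z a)) := (pt_cQubits hz).add (PT.const 1)

theorem pbd_zN (hz : PT A z) : PBd (fun a => zN (z a)) := (pbd_cQubits hz).add (PBd.const 1)

theorem pt_zK (hz : PT A z) : PT A (fun a => zK (z a)) :=
  ((pt_zN hz).add (pt_tc (PT.length (pt_rnds hz)))).mul (PT.const 4)

theorem pbd_zK (hz : PT A z) : PBd (fun a => zK (z a)) :=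
  ((pbd_zN hz).add (pbd_tc (PBd.length (A := A) (pt_rnds hz)))).mul (PBd.const 4)

theorem pt_zA (hz : PT A z) : PT A (fun a => zA (z a)) :=
  PT.posPart (pt_thrI (pt_zN hz) (pbd_zN hz) (pt_cWitness hz) (pt_rnds hz))

theorem pbd_zA (hz : PT A z) : PBd (fun a => zA (z a)) :=
  pbd_thrI (pt_zN hz) (pbd_zN hz) (pt_cWitness hz) (pt_rnds hz)

theorem pt_zr (hz : PT A z) : PT A (fun a => rr (zN (z a)) (rnds (z a)).length) :=
  pt_rr (pt_zN hz) (PT.length (pt_rnds hz))

theorem pbd_zr (hz : PT A z) : PBd (fun a => rr (zN (z a)) (rnds (z a)).length) :=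
  pbd_rr (pbd_zN hz) (PBd.length (A := A) (pt_rnds hz))

theorem pt_zW {i j : α → ℕ} (hz : PT A z) (hi : PT A i) (hj : PT A j) :
    PT A (fun a => zW (z a) (i a) (j a)) :=
  pt_wN (pt_zr hz) (pt_hamI (pt_zN hz) (pbd_zN hz) (pt_cWitness hz) (pt_rnds hz)) hi hj

theorem zW_le (z : List Bool) (i j : ℕ) : zW z i j ≤ 2 * rr (zN z) (rnds z).length ^ 1000 :=
  min_le_right _ _

theorem pt_out (hz : PT A z) : PT A (fun a => outW (z a)) := by
  have hK := pt_zK hz
  have hKb := pbd_zK hz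
  have hi : PT A (fun p : α × Un => p.2.v) := PT.unVal PT.snd'
  have hK' : PT A (fun p : α × Un => zK (z p.1)) := hK.comp PT.fst'
  have hl : PT A (fun a => [zK (z a), zA (z a)] ++ (List.range (zK (z a) * zK (z a))).map
      fun t => zW (z a) (t / zK (z a)) (t % zK (z a))) :=
    (PT.cons hK (pl1 (pt_zA hz))).append (PT.rangeMap (hK.mul hK) (hKb.mul hKb)
      (pt_zW (hz.comp PT.fst') (hi.div hK') (hi.mod hK')))
  have hB : PT A (fun a => zK (z a) + zA (z a) + 2 * rr (zN (z a)) (rnds (z a)).length ^ 1000) :=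
    (hK.add (pt_zA hz)).add ((PT.const 2).mul ((pt_zr hz).powConst 1000))
  have hBb : PBd (fun a => zK (z a) + zA (z a) + 2 * rr (zN (z a)) (rnds (z a)).length ^ 1000) :=
    (hKb.add (pbd_zA hz)).add ((PBd.const 2).mul ((pbd_zr hz).pow 1000))
  refine pt_wordOf hl hB hBb fun a v hv => ?_
  rcases List.mem_append.1 hv with hv | hv
  · rcases List.mem_cons.1 hv with rfl | hv
    · exact (Nat.le_add_right _ _).trans (Nat.le_add_right _ _)
    · rcases List.mem_cons.1 hv with rfl | hv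
      · exact (Nat.le_add_left _ _).trans (Nat.le_add_right _ _)
      · simp at hv
  · obtain ⟨t, -, rfl⟩ := List.mem_map.1 hv
    exact (zW_le _ _ _).trans (Nat.le_add_left _ _)

end pt

theorem pt_outW : PT ∅ (fun x : Raw => outW x.w) :=
  pt_out (PT.listOfRaw PT.id)

theorem polyTimeFn_outW : PolyTimeFn outW := polyTimeFn_of_pt pt_outW

end Vale.Agent.P370.H
end
end

section

section

/-!
The antiferromagnetic Heisenberg model is QMA-hard.
-/

namespace Vale.Agent.P370.H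

theorem closeW_congr {N m : ℕ} {rs : List Rnd} {mm mm' : ℕ → ℕ → ℕ} (h : CloseW N m rs mm)
    (h' : ∀ i j, i < (N + tc rs.length) * 4 → j < (N + tc rs.length) * 4 → mm i j = mm' i j) :
    CloseW N m rs mm' := by
  intro p q hpq
  have h1 := h p q hpq
  rw [h' _ _ (by have := p.1.2; have := p.2.2; omega) (by have := q.1.2; have := q.2.2; (clear m mm mm' h h' p hpq h1; omega))] at h1
  exact h1

theorem outW_close (z : List Bool) : CloseW (zN z) (cWitness z) (rnds z) (hM (outW z)) := by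
  have hN : 1 ≤ zN z := by unfold zN; omega
  have hok : ∀ r ∈ rnds z, r.Ok (zN z) := rnds_ok z
  refine closeW_congr (wN_close (zN z) (cWitness z) hN (rnds z) hok (ham_abs _ _ _)
    (ham_ok _ _ hN _ hok)) fun i j hi hj => ?_
  exact (hM_outW z i j hi hj).symm

theorem outW_thr (z : List Bool) : |(hA (outW z) : ℝ) - midA (zN z) (cWitness z) (rnds z)| ≤ 1 := by
  have hN : 1 ≤ zN z := by unfold zN; (clear * -; omega)
  rw [hA_outW]
  exact thrI_close _ _ hN _ (rnds_ok z)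

theorem outW_yes (z : List Bool) (h : ∃ ψ, IsInput z ψ ∧ 2 / 3 ≤ accProb z ψ) :
    outW z ∈ heisenbergAF.yes := by
  have hN : 1 ≤ zN z := by unfold zN; omega
  exact final_yes (zN z) (cWitness z) hN (rnds z) (rnds_ok z) (yes_real z h) (hK (outW z))
    (hK_outW z) (hM (outW z)) (outW_close z) (hA (outW z)) (outW_thr z)

theorem outW_no (z : List Bool) (h : ∀ ψ, IsInput z ψ → accProb z ψ ≤ 1 / 3) :
    outW z ∈ heisenbergAF.no := by
  have hN : 1 ≤ zN z := by unfold zN; omega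
  exact fun φ hφ => final_no (zN z) (cWitness z) hN (rnds z) (rnds_ok z) (no_real z h) (hK (outW z))
    (hK_outW z) (hM (outW z)) (outW_close z) (hA (outW z)) (outW_thr z) φ hφ

/-- The antiferromagnetic Heisenberg model is QMA-hard under many-one reductions. -/
theorem qma_heisenberg (A : PromiseProblem) (hA : A ∈ QMA) : KarpReduces A heisenbergAF := by
  obtain ⟨f, hf, hy, hn⟩ := hA
  exact ⟨fun w => outW (f w), PolyTimeFn.comp polyTimeFn_outW hf, fun w hw => outW_yes _ (hy w hw),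
    fun w hw => outW_no _ (hn w hw)⟩

end Vale.Agent.P370.H
end
end

section

section

/-!
KC8: the mean field scalar.
-/

namespace Vale.Agent.P370.KC

open Finset MeasureTheory Vale.Agent.P370.Q
open Vale.Agent.P370.Q.S3 (Dd Dd_pos Dd_continuous lp_continuous lp_one)

/-! ### radial integrals are symmetric -/

theorem mf_Phi_symm (a b L : ℕ) (α β : ℝ) : Phi a b L α β = Phi b a L β α := by
  unfold Phi
  exact add_comm _ _

theorem mf_sld_symm (k l k' l' : ℕ) : sld k l k' l' = sld k' l' k l := by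
  unfold sld
  rw [mul_comm (nrm k' l')]
  congr 1
  have h1 : ∀ (i j : ℕ), (∑ i' ∈ range (k' + 1 - l'),
      ∑ j' ∈ range (k' + 1 - l'), lag k l i * lag k l j * lag k' l' i' * lag k' l' j' *
      Phi (2 * l + 2 + i + j) (2 * l' + 2 + i' + j') 0 (2 * kp k) (2 * kp k')) =
      ∑ i' ∈ range (k' + 1 - l'),
      ∑ j' ∈ range (k' + 1 - l'), lag k' l' i' * lag k' l' j' * lag k l i * lag k l j *
      Phi (2 * l' + 2 + i' + j') (2 * l + 2 + i + j) 0 (2 * kp k') (2 * kp k) := by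
    intro i j
    refine Finset.sum_congr rfl fun i' _ => Finset.sum_congr rfl fun j' _ => ?_
    rw [mf_Phi_symm]
    ring
  simp only [h1]
  rw [Finset.sum_congr rfl fun i _ => Finset.sum_comm, Finset.sum_comm]
  refine Finset.sum_congr rfl fun i' _ => ?_
  rw [Finset.sum_congr rfl fun i _ => Finset.sum_comm, Finset.sum_comm]

/-! ### the top function -/

/-- real part of the null power -/
noncomputable def mfY (N : ℕ) (u : R3) : ℝ := (cdot (av 0) u ^ N).re

theorem mf_cdot_smul (r : ℝ) (u : R3) : cdot (av 0) (r • u) = (r : ℂ) * cdot (av 0) u := by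
  have h := (S3.cdotL (av 0)).map_smul r u
  rw [S3.cdotL_apply, S3.cdotL_apply, Complex.real_smul] at h
  exact h

theorem mfY_smul (N : ℕ) (r : ℝ) (u : R3) : mfY N (r • u) = r ^ N * mfY N u := by
  unfold mfY
  rw [mf_cdot_smul, mul_pow, ← Complex.ofReal_pow, Complex.re_ofReal_mul]

theorem mf_fh (N : ℕ) (x : R3) :
    fh (N + 1) 0 x = mfY N x * Real.exp (-(kp N * ‖x‖)) / Real.sqrt (nf (N + 1)) := by
  unfold fh fsite mfY kp
  rw [Nat.add_sub_cancel]
  congr 3
  push_cast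
  ring_nf

theorem mf_fh_smul (N : ℕ) {r : ℝ} (hr : 0 < r) {u : R3} (hu : ‖u‖ = 1) :
    fh (N + 1) 0 (r • u) =
      r ^ N * Real.exp (-(kp N * r)) / Real.sqrt (nf (N + 1)) * mfY N u := by
  rw [mf_fh, mfY_smul, norm_smul, hu, mul_one, Real.norm_of_nonneg hr.le]
  ring

theorem mf_rad (N : ℕ) (r : ℝ) : Hyd.rad N N r = Real.exp (-(kp N * r)) := by
  unfold Hyd.rad Hyd.Lr
  rw [show N + 1 - N = 1 by omega, Finset.sum_range_one]
  simp only [Hyd.cf, pow_zero, mul_one, Hyd.kap, one_div, neg_mul, one_mul, kp]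

theorem mf_ca (r s : ℝ) (hr : 0 < r) (hs : 0 < s) (u v : R3) (hu : ‖u‖ = 1) (hv : ‖v‖ = 1) :
    ca (r • u) (s • v) = inner ℝ u v := by
  unfold ca
  rw [norm_smul, norm_smul, hu, hv, Real.norm_of_nonneg hr.le, Real.norm_of_nonneg hs.le,
    inner_smul_left, inner_smul_right]
  simp only [conj_trivial, mul_one]
  field_simp

theorem mf_Qk_smul (k l : ℕ) {r s : ℝ} (hr : 0 < r) (hs : 0 < s) {u v : R3} (hu : ‖u‖ = 1)
    (hv : ‖v‖ = 1) : Qk k l (r • u) (s • v) =
      (r * s) ^ l * (Hyd.rad k l r * Hyd.rad k l s) / (4 * Real.pi * Hyd.radN k l) *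
        S3.lp l (inner ℝ v u) := by
  unfold Qk
  rw [mf_ca r s hr hs u v hu hv, norm_smul, norm_smul, hu, hv, Real.norm_of_nonneg hr.le,
    Real.norm_of_nonneg hs.le, mul_one, mul_one, real_inner_comm]
  ring

theorem mf_Qtop_smul (N : ℕ) {r s : ℝ} (hr : 0 < r) (hs : 0 < s) {u v : R3} (hu : ‖u‖ = 1)
    (hv : ‖v‖ = 1) : Qk N N (r • u) (s • v) =
      (r ^ N * Real.exp (-(kp N * r))) * (s ^ N * Real.exp (-(kp N * s))) /
        (4 * Real.pi * Hyd.radN N N) * S3.lp N (inner ℝ v u) := by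
  rw [mf_Qk_smul N N hr hs hu hv, mf_rad, mf_rad, mul_pow]
  ring

theorem mf_inner_self {u : R3} (hu : ‖u‖ = 1) : inner ℝ u u = (1 : ℝ) := by
  rw [real_inner_self_eq_norm_sq, hu, one_pow]

theorem mf_Qtop_diag (N : ℕ) {s : ℝ} (hs : 0 < s) {v : R3}
    (hv : ‖v‖ = 1) : Qk N N (s • v) (s • v) =
      (s ^ N * Real.exp (-(kp N * s))) ^ 2 / (4 * Real.pi * Hyd.radN N N) := by
  rw [mf_Qtop_smul N hs hs hv hv, mf_inner_self hv, lp_one]
  ring

theorem mf_radN_pos (N : ℕ) : 0 < Hyd.radN N N := Hyd.radN_pos le_rfl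

/-! ### Funk-Hecke for the real null power -/

theorem mf_FH (N : ℕ) (v : R3) (hv : ‖v‖ = 1) (g : ℝ → ℝ) (hg : ContinuousOn g (Set.Icc (-1) 1)) :
    sph (fun u => g (inner ℝ v u) * mfY N u) = lc g N * mfY N v := by
  have h1 := sph_zonal_null' v hv (av 0) (av_null 0) N g hg
  have h2 : sph (fun u => (g (inner ℝ v u) : ℝ) • cdot (av 0) u ^ N) =
      sph (fun u => (ext1 g (inner ℝ v u) : ℝ) • cdot (av 0) u ^ N) := by
    refine sph_congr fun u hu => ?_
    rw [ext1_eq g (inner_mem_Icc hv hu)]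
  have hc : Continuous fun u : R3 => (ext1 g (inner ℝ v u) : ℝ) • cdot (av 0) u ^ N :=
    Continuous.smul ((continuous_ext1 hg).comp (by (clear * -; fun_prop))) ((continuous_cdot _).pow N)
  have h3 := sph_re _ hc
  rw [← h2, h1] at h3
  have h4 : sph (fun u => g (inner ℝ v u) * mfY N u) =
      sph (fun u => ((ext1 g (inner ℝ v u) : ℝ) • cdot (av 0) u ^ N).re) := by
    refine sph_congr fun u hu => ?_
    rw [ext1_eq g (inner_mem_Icc hv hu), Complex.real_smul, Complex.re_ofReal_mul]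
    rfl
  rw [h4, h3, Complex.real_smul, Complex.re_ofReal_mul]
  rfl

/-! ### the radial average -/

theorem mf_radial_avg (N : ℕ) (hN : 1 ≤ N) : sph (fun u => mfY N u ^ 2) / nf (N + 1) =
    1 / (4 * Real.pi * Hyd.radN N N) := by
  have h1 := vfun_ov (N + 1) (by omega) (P := c1A 0 (N + 1 - 1)) (P' := c1A 0 (N + 1 - 1))
    (c1_harm 0 _).1 (c1_harm 0 _).1
  rw [← c1_fsite, site_ov_ff (N + 1) (by omega)] at h1
  have h2 : sph (fun u => pe (c1A 0 (N + 1 - 1)) u * pe (c1A 0 (N + 1 - 1)) u) =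
      sph (fun u => mfY N u ^ 2) := by
    refine sph_congr fun u _ => ?_
    rw [(c1_pe 0 (N + 1 - 1) u).1, Nat.add_sub_cancel]
    unfold mfY
    ring
  rw [h2] at h1
  have h3 : I0 (N + 1) = Hyd.radN N N := by
    unfold I0 Hyd.radN
    refine setIntegral_congr_fun measurableSet_Ioi fun r _ => ?_
    rw [mf_rad, ← Real.exp_nat_mul]
    unfold kp
    push_cast
    rw [show 2 * (N + 1) = 2 * N + 2 by ring]
    congr 2
    ring
  rw [h3] at h1
  have h4 : ((1 + Real.cos (0 - 0)) / 2) ^ (N + 1 - 1) + ((1 - Real.cos (0 - 0)) / 2) ^ (N + 1 - 1)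
      = 1 := by
    rw [sub_zero, Real.cos_zero, Nat.add_sub_cancel]
    norm_num
    omega
  rw [h4, mul_one] at h1
  have h5 := nf_pos (N + 1) (by omega)
  have h6 := mf_radN_pos N
  have h7 := Real.pi_pos
  rw [div_eq_div_iff h5.ne' (by (clear * - h6; positivity)), one_mul]
  linarith only [h1]

theorem mf_avg (N : ℕ) (hN : 1 ≤ N) (w : ℝ → ℝ)
    (h1 : Integrable fun y => fh (N + 1) 0 y ^ 2 * w ‖y‖)
    (h2 : Integrable fun y => Qk N N y y * w ‖y‖) :
    ∫ y, fh (N + 1) 0 y ^ 2 * w ‖y‖ = ∫ y, Qk N N y y * w ‖y‖ := by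
  rw [polar_sph _ h1, polar_sph _ h2]
  refine setIntegral_congr_fun measurableSet_Ioi fun r hr => ?_
  have hr' : 0 < r := hr
  congr 1
  have hnf := nf_pos (N + 1) (by omega)
  have e1 : sph (fun u => fh (N + 1) 0 (r • u) ^ 2 * w ‖r • u‖) =
      sph (fun u => ((r ^ N * Real.exp (-(kp N * r))) ^ 2 / nf (N + 1) * w r) •
        (mfY N u ^ 2)) := by
    refine sph_congr fun u hu => ?_
    rw [mf_fh_smul N hr' hu, norm_smul, hu, mul_one, Real.norm_of_nonneg hr'.le, smul_eq_mul,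
      mul_pow, div_pow, Real.sq_sqrt hnf.le]
    ring
  have e2 : sph (fun u => Qk N N (r • u) (r • u) * w ‖r • u‖) =
      sph (fun _ => (r ^ N * Real.exp (-(kp N * r))) ^ 2 / (4 * Real.pi * Hyd.radN N N) * w r) := by
    refine sph_congr fun u hu => ?_
    rw [mf_Qtop_diag N hr' hu, norm_smul, hu, mul_one, Real.norm_of_nonneg hr'.le]
  rw [e1, e2, sph_smul, sph_const, smul_eq_mul]
  have h3 := mf_radial_avg N hN
  have e3 : (r ^ N * Real.exp (-(kp N * r))) ^ 2 / nf (N + 1) * w r * sph (fun u => mfY N u ^ 2) =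
      (r ^ N * Real.exp (-(kp N * r))) ^ 2 * w r * (sph (fun u => mfY N u ^ 2) / nf (N + 1)) := by
    ring
  rw [e3, h3]
  ring

/-! ### the inner integral -/

/-- the kernel of the closed shells -/
noncomputable def mfG (n : ℕ) (x y : R3) : ℝ :=
  ∑ k ∈ range (n - 1), ∑ l ∈ range (k + 1), (2 * (l : ℝ) + 1) * Qk k l x y

/-- its angular profile divided by the distance -/
noncomputable def mfg (n : ℕ) (r s : ℝ) (t : ℝ) : ℝ :=
  (∑ k ∈ range (n - 1), ∑ l ∈ range (k + 1), (2 * (l : ℝ) + 1) *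
    ((r * s) ^ l * (Hyd.rad k l r * Hyd.rad k l s) / (4 * Real.pi * Hyd.radN k l) *
        S3.lp l t)) / √(Dd r s t)

theorem mfg_cont (n : ℕ) {r s : ℝ} (hr : 0 < r) (hs : 0 < s) (hne : r ≠ s) :
    ContinuousOn (mfg n r s) (Set.Icc (-1) 1) := by
  unfold mfg
  refine ContinuousOn.div ?_ (Dd_continuous r s).sqrt.continuousOn ?_
  · refine Continuous.continuousOn ?_
    refine continuous_finsetSum _ fun k _ => continuous_finsetSum _ fun l _ => ?_
    exact continuous_const.mul (continuous_const.mul (lp_continuous l))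
  · intro t ht
    exact Real.sqrt_ne_zero'.2 (Dd_pos hr hs hne ht.2)

theorem mf_dist {r s : ℝ} {u v : R3} (hu : ‖u‖ = 1) (hv : ‖v‖ = 1) :
    dist (r • u) (s • v) = √(Dd r s (inner ℝ v u)) := by
  rw [S3.dist_eq u v hu hv, real_inner_comm]

theorem mfG_smul (n : ℕ) {r s : ℝ} (hr : 0 < r) (hs : 0 < s) {u v : R3} (hu : ‖u‖ = 1)
    (hv : ‖v‖ = 1) : mfG n (r • u) (s • v) / dist (r • u) (s • v) = mfg n r s (inner ℝ v u) := by
  unfold mfG mfg
  rw [mf_dist hu hv]
  congr 1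
  exact Finset.sum_congr rfl fun k _ => Finset.sum_congr rfl fun l _ => by
    rw [mf_Qk_smul k l hr hs hu hv]

/-- the radial integral -/
noncomputable def mfA (N n : ℕ) (s : ℝ) : ℝ :=
  ∫ r in Set.Ioi (0 : ℝ), 4 * Real.pi * r ^ 2 *
    (r ^ N * Real.exp (-(kp N * r)) * lc (mfg n r s) N)

theorem mf_ae_ne (s : ℝ) : ∀ᵐ r : ℝ ∂(volume.restrict (Set.Ioi (0 : ℝ))), r ≠ s := by
  refine ae_restrict_of_ae ?_
  filter_upwards [(Set.countable_singleton s).ae_notMem volume] with r hr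
  simpa using hr

theorem mf_inner_f (N n : ℕ) {s : ℝ} (hs : 0 < s) {v : R3} (hv : ‖v‖ = 1)
    (hi : Integrable fun x => fh (N + 1) 0 x * (mfG n x (s • v) / dist x (s • v))) :
    ∫ x, fh (N + 1) 0 x * (mfG n x (s • v) / dist x (s • v)) =
      mfY N v / Real.sqrt (nf (N + 1)) * mfA N n s := by
  rw [polar_sph _ hi]
  unfold mfA
  rw [← integral_const_mul]
  refine integral_congr_ae ?_
  filter_upwards [mf_ae_ne s, ae_restrict_mem measurableSet_Ioi] with r hrs hr
  have hr' : 0 < r := hr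
  have e1 : sph (fun u => fh (N + 1) 0 (r • u) * (mfG n (r • u) (s • v) / dist (r • u) (s • v))) =
      sph (fun u => (r ^ N * Real.exp (-(kp N * r)) / Real.sqrt (nf (N + 1))) •
        (mfg n r s (inner ℝ v u) * mfY N u)) := by
    refine sph_congr fun u hu => ?_
    rw [mf_fh_smul N hr' hu, mfG_smul n hr' hs hu hv, smul_eq_mul]
    ring
  rw [e1, sph_smul, mf_FH N v hv _ (mfg_cont n hr' hs hrs), smul_eq_mul, smul_eq_mul]
  ring

theorem mf_inner_Q (N n : ℕ) {s : ℝ} (hs : 0 < s) {v : R3} (hv : ‖v‖ = 1)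
    (hi : Integrable fun x => Qk N N x (s • v) * (mfG n x (s • v) / dist x (s • v))) :
    ∫ x, Qk N N x (s • v) * (mfG n x (s • v) / dist x (s • v)) =
      s ^ N * Real.exp (-(kp N * s)) / (4 * Real.pi * Hyd.radN N N) * mfA N n s := by
  rw [polar_sph _ hi]
  unfold mfA
  rw [← integral_const_mul]
  refine integral_congr_ae ?_
  filter_upwards [mf_ae_ne s, ae_restrict_mem measurableSet_Ioi] with r hrs hr
  have hr' : 0 < r := hr
  have e1 : sph (fun u => Qk N N (r • u) (s • v) *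
      (mfG n (r • u) (s • v) / dist (r • u) (s • v))) =
      sph (fun u => (r ^ N * Real.exp (-(kp N * r)) * (s ^ N * Real.exp (-(kp N * s))) /
        (4 * Real.pi * Hyd.radN N N)) •
        (mfg n r s (inner ℝ v u) * S3.lp N (inner ℝ v u))) := by
    refine sph_congr fun u hu => ?_
    rw [mf_Qtop_smul N hr' hs hu hv, mfG_smul n hr' hs hu hv, smul_eq_mul]
    ring
  have hc : ContinuousOn (fun t => mfg n r s t * S3.lp N t) (Set.Icc (-1) 1) :=
    (mfg_cont n hr' hs hrs).mul (lp_continuous N).continuousOn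
  rw [e1, sph_smul, S3.sph_zonal_real (fun t => mfg n r s t * S3.lp N t) v hv hc, smul_eq_mul,
    smul_eq_mul]
  unfold lc
  ring

theorem mf_decomp {y : R3} (hy : y ≠ 0) : ∃ v : R3, ‖v‖ = 1 ∧ 0 < ‖y‖ ∧ y = ‖y‖ • v := by
  have hs : 0 < ‖y‖ := norm_pos_iff.2 hy
  refine ⟨‖y‖⁻¹ • y, ?_, hs, ?_⟩
  · rw [norm_smul, norm_inv, norm_norm, inv_mul_cancel₀ hs.ne']
  · rw [smul_smul, mul_inv_cancel₀ hs.ne', one_smul]

/-- radial weight -/
noncomputable def mfw (N n : ℕ) (s : ℝ) : ℝ := mfA N n s / (s ^ N * Real.exp (-(kp N * s)))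

theorem mf_inner_f' (N n : ℕ) {y : R3} (hy : y ≠ 0)
    (hi : Integrable fun x => fh (N + 1) 0 x * (mfG n x y / dist x y)) :
    ∫ x, fh (N + 1) 0 x * (mfG n x y / dist x y) = fh (N + 1) 0 y * mfw N n ‖y‖ := by
  obtain ⟨v, hv, hs, hyv⟩ := mf_decomp hy
  set s := ‖y‖ with hsdef
  have h1 : fh (N + 1) 0 y = s ^ N * Real.exp (-(kp N * s)) / Real.sqrt (nf (N + 1)) * mfY N v := by
    rw [hyv, mf_fh_smul N hs hv]
  rw [h1]
  rw [hyv] at hi ⊢
  rw [mf_inner_f N n hs hv hi]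
  unfold mfw
  have : s ^ N * Real.exp (-(kp N * s)) ≠ 0 := by positivity
  field_simp

theorem mf_inner_Q' (N n : ℕ) {y : R3} (hy : y ≠ 0)
    (hi : Integrable fun x => Qk N N x y * (mfG n x y / dist x y)) :
    ∫ x, Qk N N x y * (mfG n x y / dist x y) = Qk N N y y * mfw N n ‖y‖ := by
  obtain ⟨v, hv, hs, hyv⟩ := mf_decomp hy
  set s := ‖y‖ with hsdef
  have h1 : Qk N N y y = (s ^ N * Real.exp (-(kp N * s))) ^ 2 / (4 * Real.pi * Hyd.radN N N) := by
    rw [hyv, mf_Qtop_diag N hs hv]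
  rw [h1]
  rw [hyv] at hi ⊢
  rw [mf_inner_Q N n hs hv hi]
  unfold mfw
  have : s ^ N * Real.exp (-(kp N * s)) ≠ 0 := by positivity
  have := mf_radN_pos N
  field_simp

/-! ### double sums -/

/-- indices of the closed subshells -/
def mfP (n : ℕ) : Finset (Σ _ : ℕ, ℕ) := (range (n - 1)).sigma fun k => range (k + 1)

theorem mfP_le {n : ℕ} {p : Σ _ : ℕ, ℕ} (hp : p ∈ mfP n) : p.2 ≤ p.1 := by
  unfold mfP at hp
  rw [Finset.mem_sigma, Finset.mem_range, Finset.mem_range] at hp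
  omega

theorem mf_sum (n : ℕ) (F : ℕ → ℕ → ℝ) :
    ∑ k ∈ range (n - 1), ∑ l ∈ range (k + 1), F k l = ∑ p ∈ mfP n, F p.1 p.2 := by
  unfold mfP
  rw [Finset.sum_sigma]

theorem mf_ae_ne0 : ∀ᵐ x : R3 ∂volume, x ≠ 0 := by
  filter_upwards [(Set.countable_singleton (0 : R3)).ae_notMem volume] with r hr
  simpa using hr

theorem mfG_sum (n : ℕ) (x y : R3) :
    mfG n x y = ∑ p ∈ mfP n, (2 * (p.2 : ℝ) + 1) * Qk p.1 p.2 x y := by
  unfold mfG
  rw [mf_sum n fun k l => (2 * (l : ℝ) + 1) * Qk k l x y]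

theorem mf_QG_int (N n : ℕ) {y : R3} (hy : y ≠ 0) :
    Integrable (fun x => Qk N N x y * (mfG n x y / dist x y)) ∧
    ∫ x, Qk N N x y * (mfG n x y / dist x y) =
      ∑ p ∈ mfP n, (2 * (p.2 : ℝ) + 1) * ∫ x, Qk N N x y * Qk p.1 p.2 x y / dist x y := by
  have e : (fun x => Qk N N x y * (mfG n x y / dist x y)) = fun x =>
      ∑ p ∈ mfP n, (2 * (p.2 : ℝ) + 1) * (Qk N N x y * Qk p.1 p.2 x y / dist x y) := by
    funext x
    rw [mfG_sum, Finset.sum_div, Finset.mul_sum]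
    exact Finset.sum_congr rfl fun p _ => by ring
  have hi : ∀ p ∈ mfP n, Integrable fun x =>
      (2 * (p.2 : ℝ) + 1) * (Qk N N x y * Qk p.1 p.2 x y / dist x y) := fun p hp =>
    ((exch_int (le_refl N) (mfP_le hp)).1 y hy).const_mul _
  rw [e]
  refine ⟨integrable_finsetSum _ hi, ?_⟩
  rw [integral_finsetSum _ hi]
  exact Finset.sum_congr rfl fun p _ => integral_const_mul _ _

section Main

variable {N : ℕ} {C O : Type} [Fintype C] [DecidableEq C] [Fintype O] [DecidableEq O]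
  (B : ShellBasis (N + 1) (C ⊕ O))

theorem mf_kernel (hC : ∀ c, B.lev (Sum.inl c) < N + 1)
    (hO : ∀ o, B.lev (Sum.inr o) = N + 1) (x y : R3) (hx : x ≠ 0) (hy : y ≠ 0) :
    ∑ c : C, B.χ (Sum.inl c) x * B.χ (Sum.inl c) y = mfG (N + 1) x y :=
  closed_kernel_eq B hC hO x y hx hy

theorem mf_nice_fh (n : ℕ) (hn : 1 ≤ n) (α : ℝ) : Nice (fh n α) := by
  have h := nice_smul (nice_fsite hn α) (Real.sqrt (nf n))⁻¹
  have e : (fun x => (Real.sqrt (nf n))⁻¹ * fsite n α x) = fh n α := by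
    funext x
    unfold fh
    ring
  rwa [e] at h

theorem mf_exch (hN : 1 ≤ N) (hC : ∀ c, B.lev (Sum.inl c) < N + 1)
    (hO : ∀ o, B.lev (Sum.inr o) = N + 1) :
    ∑ c : C, coul (fh (N + 1) 0) (B.χ (Sum.inl c)) (B.χ (Sum.inl c)) (fh (N + 1) 0) =
      ∑ p ∈ mfP (N + 1), (2 * (p.2 : ℝ) + 1) *
        ∑ L ∈ range (N + p.2 + 1), tri N p.2 L * slx N N p.1 p.2 L := by
  have hf := mf_nice_fh (N + 1) (by omega) 0
  have hχ : ∀ c : C, Nice (B.χ (Sum.inl c)) := fun c => nice_basis B _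
  have hinner : ∀ y : R3, y ≠ 0 →
      ∫ x, fh (N + 1) 0 x * (∑ c : C, B.χ (Sum.inl c) x * B.χ (Sum.inl c) y) / dist x y =
        fh (N + 1) 0 y * mfw N (N + 1) ‖y‖ := by
    intro y hy
    have hae : (fun x => fh (N + 1) 0 x *
        (∑ c : C, B.χ (Sum.inl c) x * B.χ (Sum.inl c) y) / dist x y) =ᵐ[volume]
        fun x => fh (N + 1) 0 x * (mfG (N + 1) x y / dist x y) := by
      filter_upwards [mf_ae_ne0] with x hx
      rw [mf_kernel B hC hO x y hx hy]
      ring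
    rw [integral_congr_ae hae]
    refine mf_inner_f' N (N + 1) hy ?_
    refine Integrable.congr ?_ hae
    have h1 : Integrable fun x => ∑ c : C, fh (N + 1) 0 x * B.χ (Sum.inl c) x / dist x y *
        B.χ (Sum.inl c) y :=
      integrable_finsetSum _ fun c _ => (nice_integrable_nuc hf (hχ c) y).mul_const _
    refine h1.congr (Filter.Eventually.of_forall fun x => ?_)
    simp only
    rw [Finset.mul_sum, Finset.sum_div]
    exact Finset.sum_congr rfl fun c _ => by ring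
  have hsum : ∀ y : R3, ∑ c : C, nuc y (fh (N + 1) 0) (B.χ (Sum.inl c)) *
      (B.χ (Sum.inl c) y * fh (N + 1) 0 y) =
      (∫ x, fh (N + 1) 0 x * (∑ c : C, B.χ (Sum.inl c) x * B.χ (Sum.inl c) y) / dist x y) *
        fh (N + 1) 0 y := by
    intro y
    have h1 : ∫ x, fh (N + 1) 0 x * (∑ c : C, B.χ (Sum.inl c) x * B.χ (Sum.inl c) y) / dist x y =
        ∑ c : C, nuc y (fh (N + 1) 0) (B.χ (Sum.inl c)) * B.χ (Sum.inl c) y := by
      unfold nuc
      have h2 : ∀ c : C, (∫ x, fh (N + 1) 0 x * B.χ (Sum.inl c) x / dist x y) *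
          B.χ (Sum.inl c) y = ∫ x, fh (N + 1) 0 x * B.χ (Sum.inl c) x / dist x y *
          B.χ (Sum.inl c) y := fun c => (integral_mul_const _ _).symm
      simp only [h2]
      rw [← integral_finsetSum _ fun c _ => (nice_integrable_nuc hf (hχ c) y).mul_const _]
      congr 1
      funext x
      rw [Finset.mul_sum, Finset.sum_div]
      exact Finset.sum_congr rfl fun c _ => by ring
    rw [h1, Finset.sum_mul]
    exact Finset.sum_congr rfl fun c _ => by ring
  have hae1 : (fun y => ∑ c : C, nuc y (fh (N + 1) 0) (B.χ (Sum.inl c)) *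
      (B.χ (Sum.inl c) y * fh (N + 1) 0 y)) =ᵐ[volume]
      fun y => fh (N + 1) 0 y ^ 2 * mfw N (N + 1) ‖y‖ := by
    filter_upwards [mf_ae_ne0] with y hy
    rw [hsum, hinner y hy]
    ring
  have hi1 : Integrable fun y => fh (N + 1) 0 y ^ 2 * mfw N (N + 1) ‖y‖ := by
    refine Integrable.congr ?_ hae1
    exact integrable_finsetSum _ fun c _ => coul_integrable hf (hχ c) (hχ c) hf
  have hae2 : (fun y => ∑ p ∈ mfP (N + 1), (2 * (p.2 : ℝ) + 1) *
      ∫ x, Qk N N x y * Qk p.1 p.2 x y / dist x y) =ᵐ[volume]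
      fun y => Qk N N y y * mfw N (N + 1) ‖y‖ := by
    filter_upwards [mf_ae_ne0] with y hy
    have h := mf_QG_int N (N + 1) hy
    rw [← h.2, mf_inner_Q' N (N + 1) hy h.1]
  have hi : ∀ p ∈ mfP (N + 1), Integrable fun y : R3 => (2 * (p.2 : ℝ) + 1) *
      ∫ x, Qk N N x y * Qk p.1 p.2 x y / dist x y := fun p hp =>
    (exch_int (le_refl N) (mfP_le hp)).2.const_mul _
  have hi2 : Integrable fun y => Qk N N y y * mfw N (N + 1) ‖y‖ := by
    refine Integrable.congr ?_ hae2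
    exact integrable_finsetSum _ hi
  calc ∑ c : C, coul (fh (N + 1) 0) (B.χ (Sum.inl c)) (B.χ (Sum.inl c)) (fh (N + 1) 0)
      = ∫ y, ∑ c : C, nuc y (fh (N + 1) 0) (B.χ (Sum.inl c)) *
          (B.χ (Sum.inl c) y * fh (N + 1) 0 y) := by
        unfold coul
        rw [integral_finsetSum _ fun c _ => coul_integrable hf (hχ c) (hχ c) hf]
    _ = ∫ y, fh (N + 1) 0 y ^ 2 * mfw N (N + 1) ‖y‖ := integral_congr_ae hae1
    _ = ∫ y, Qk N N y y * mfw N (N + 1) ‖y‖ := mf_avg N hN _ hi1 hi2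
    _ = ∫ y, ∑ p ∈ mfP (N + 1), (2 * (p.2 : ℝ) + 1) *
          ∫ x, Qk N N x y * Qk p.1 p.2 x y / dist x y := (integral_congr_ae hae2).symm
    _ = _ := by
        rw [integral_finsetSum _ hi]
        refine Finset.sum_congr rfl fun p hp => ?_
        rw [integral_const_mul, exch_eq (le_refl N) (mfP_le hp)]

/-! ### direct part -/

/-- potential of the closed shells -/
noncomputable def mfU (n : ℕ) (y : R3) : ℝ :=
  ∑ p ∈ mfP n, (2 * (p.2 : ℝ) + 1) * ∫ x, Qk p.1 p.2 x x / dist x y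

theorem mf_Qk_iso (k l : ℕ) (g : R3 ≃ₗᵢ[ℝ] R3) (x : R3) : Qk k l (g x) (g x) = Qk k l x x := by
  unfold Qk ca
  rw [g.norm_map, g.inner_map_map]

theorem mfU_iso (n : ℕ) (g : R3 ≃ₗᵢ[ℝ] R3) (y : R3) : mfU n (g y) = mfU n y := by
  unfold mfU
  refine Finset.sum_congr rfl fun p _ => ?_
  congr 1
  rw [← integral_comp_isometry g]
  refine integral_congr_ae (Filter.Eventually.of_forall fun x => ?_)
  simp only
  rw [mf_Qk_iso, g.dist_map]

theorem mfU_radial (n : ℕ) (y : R3) : mfU n y = mfU n (‖y‖ • S3.ez) := by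
  obtain ⟨g, hg⟩ := exists_rot (‖y‖ • S3.ez) y (by
    rw [norm_smul, S3.norm_ez, mul_one, norm_norm])
  conv_lhs => rw [← hg]
  rw [mfU_iso]

theorem mf_dir (hN : 1 ≤ N) (hC : ∀ c, B.lev (Sum.inl c) < N + 1)
    (hO : ∀ o, B.lev (Sum.inr o) = N + 1) :
    ∑ c : C, coul (fh (N + 1) 0) (fh (N + 1) 0) (B.χ (Sum.inl c)) (B.χ (Sum.inl c)) =
      ∑ p ∈ mfP (N + 1), (2 * (p.2 : ℝ) + 1) * sld N N p.1 p.2 := by
  have hf := mf_nice_fh (N + 1) (by omega) 0
  have hχ : ∀ c : C, Nice (B.χ (Sum.inl c)) := fun c => nice_basis B _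
  have hU : ∀ y : R3, ∑ c : C, nuc y (B.χ (Sum.inl c)) (B.χ (Sum.inl c)) = mfU (N + 1) y := by
    intro y
    unfold nuc
    rw [← integral_finsetSum _ fun c _ => nice_integrable_nuc (hχ c) (hχ c) y]
    have hae : (fun x => ∑ c : C, B.χ (Sum.inl c) x * B.χ (Sum.inl c) x / dist x y) =ᵐ[volume]
        fun x => ∑ p ∈ mfP (N + 1), (2 * (p.2 : ℝ) + 1) * (Qk p.1 p.2 x x / dist x y) := by
      filter_upwards [mf_ae_ne0] with x hx
      rw [← Finset.sum_div, mf_kernel B hC hO x x hx hx, mfG_sum, Finset.sum_div]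
      exact Finset.sum_congr rfl fun p _ => by ring
    rw [integral_congr_ae hae, integral_finsetSum _ fun p hp =>
      ((dir_int (mfP_le hp) (le_refl N)).1 y).const_mul _]
    unfold mfU
    exact Finset.sum_congr rfl fun p _ => integral_const_mul _ _
  have e1 : (fun y => ∑ c : C, nuc y (B.χ (Sum.inl c)) (B.χ (Sum.inl c)) *
      (fh (N + 1) 0 y * fh (N + 1) 0 y)) =
      fun y => fh (N + 1) 0 y ^ 2 * mfU (N + 1) (‖y‖ • S3.ez) := by
    funext y
    rw [← Finset.sum_mul, hU, ← mfU_radial]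
    ring
  have hi1 : Integrable fun y => fh (N + 1) 0 y ^ 2 * mfU (N + 1) (‖y‖ • S3.ez) := by
    rw [← e1]
    exact integrable_finsetSum _ fun c _ => coul_integrable (hχ c) (hχ c) hf hf
  have e2 : (fun y => ∑ p ∈ mfP (N + 1), (2 * (p.2 : ℝ) + 1) *
      ((∫ x, Qk p.1 p.2 x x / dist x y) * Qk N N y y)) =
      fun y => Qk N N y y * mfU (N + 1) (‖y‖ • S3.ez) := by
    funext y
    rw [← mfU_radial]
    unfold mfU
    rw [Finset.mul_sum]
    exact Finset.sum_congr rfl fun p _ => by ring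
  have hi : ∀ p ∈ mfP (N + 1), Integrable fun y : R3 => (2 * (p.2 : ℝ) + 1) *
      ((∫ x, Qk p.1 p.2 x x / dist x y) * Qk N N y y) := fun p hp =>
    (dir_int (mfP_le hp) (le_refl N)).2.const_mul _
  have hi2 : Integrable fun y => Qk N N y y * mfU (N + 1) (‖y‖ • S3.ez) := by
    rw [← e2]
    exact integrable_finsetSum _ hi
  calc ∑ c : C, coul (fh (N + 1) 0) (fh (N + 1) 0) (B.χ (Sum.inl c)) (B.χ (Sum.inl c))
      = ∑ c : C, coul (B.χ (Sum.inl c)) (B.χ (Sum.inl c)) (fh (N + 1) 0) (fh (N + 1) 0) :=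
        Finset.sum_congr rfl fun c _ => coul_symm2 hf hf (hχ c) (hχ c)
    _ = ∫ y, ∑ c : C, nuc y (B.χ (Sum.inl c)) (B.χ (Sum.inl c)) *
          (fh (N + 1) 0 y * fh (N + 1) 0 y) := by
        unfold coul
        rw [integral_finsetSum _ fun c _ => coul_integrable (hχ c) (hχ c) hf hf]
    _ = ∫ y, Qk N N y y * mfU (N + 1) (‖y‖ • S3.ez) := by
        rw [e1]
        exact mf_avg N hN (fun s => mfU (N + 1) (s • S3.ez)) hi1 hi2
    _ = _ := by
        rw [← e2, integral_finsetSum _ hi]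
        refine Finset.sum_congr rfl fun p hp => ?_
        rw [integral_const_mul, dir_eq (mfP_le hp) (le_refl N), mf_sld_symm]

end Main

theorem mfield_eq {n : ℕ} (hn : 2 ≤ n) {C O : Type} [Fintype C] [DecidableEq C] [Fintype O]
    [DecidableEq O] (B : ShellBasis n (C ⊕ O)) (hC : ∀ c, B.lev (Sum.inl c) < n)
    (hO : ∀ o, B.lev (Sum.inr o) = n) : mfield B (fh n 0) (fh n 0) = mf n := by
  obtain ⟨N, rfl⟩ : ∃ N, n = N + 1 := ⟨n - 1, by omega⟩
  have hN : 1 ≤ N := by omega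
  unfold mfield mf
  rw [Finset.sum_sub_distrib, ← Finset.mul_sum, mf_dir B hN hC hO, mf_exch B hN hC hO,
    mf_sum (N + 1) fun k l => (2 * (l : ℝ) + 1) * pe2 (N + 1 - 1) (N + 1 - 1) k l,
    Finset.mul_sum, ← Finset.sum_sub_distrib]
  refine Finset.sum_congr rfl fun p _ => ?_
  rw [Nat.add_sub_cancel]
  unfold pe2
  ring

end Vale.Agent.P370.KC
end
end

section

section

/-!
Energy of the closed shells.
-/

namespace Vale.Agent.P370.Q

open MeasureTheory Finset

/-! ### numbers -/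

theorem s8_pow_le (n c : ℕ) : n ^ c ≤ 2 ^ (c * n) := by
  calc n ^ c ≤ (2 ^ n) ^ c := Nat.pow_le_pow_left Nat.lt_two_pow_self.le c
    _ = 2 ^ (c * n) := by rw [← pow_mul, mul_comm]

theorem s8_pow_le' (n c : ℕ) : (n : ℝ) ^ c ≤ 2 ^ (c * n) := by
  exact_mod_cast s8_pow_le n c

theorem s8_pn_ge (k : ℕ) (hk : 10 ≤ k) : 1024 ≤ pn k := by
  unfold pn
  calc 1024 = 2 ^ 10 := by norm_num
    _ ≤ 2 ^ (2048 * k) := Nat.pow_le_pow_right (by norm_num) (by omega)

theorem s8_pK_le (k : ℕ) : pK k ^ 4 ≤ pn k := by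
  unfold pK pn
  rw [← pow_mul]
  exact Nat.pow_le_pow_right (by norm_num) (by omega)

theorem s8_pK_le' (k : ℕ) : (pK k : ℝ) ^ 4 ≤ pn k := by
  exact_mod_cast s8_pK_le k

theorem s8_norm_node (D a b : ℕ) : ‖node D a b‖ = 1 := by
  unfold node sp
  rw [EuclideanSpace.norm_eq, Fin.sum_univ_three]
  simp only [Real.norm_eq_abs, sq_abs, Matrix.cons_val_zero, Matrix.cons_val_one,
    Matrix.cons_val]
  rw [Real.sqrt_eq_one]
  have h1 := Real.sin_sq_add_cos_sq (Real.pi * (2 * a + 1) / (2 * D))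
  have h2 := Real.sin_sq_add_cos_sq (2 * Real.pi * b / D)
  linear_combination h1 + Real.sin (Real.pi * (2 * a + 1) / (2 * D)) ^ 2 * h2

variable {k : ℕ} {C R : Type} [Fintype C] [DecidableEq C] [Fintype R] [DecidableEq R]

theorem closedC_near (hk : 10 ≤ k) (S : SiteB k C R) (q : ℕ → ℕ) (hq : GoodQ k q)
    (s : ℕ → ℕ → ℕ) (hs : GoodS k q s) (w : Fin (pD k * pD k) → ℕ)
    (y : Fin (pD k * pD k) → R3) (H : Approx k q s w y) :
    |closedC (nucM S.B.χ (fun β => (w β : ℝ)) y) (coulM S.B.χ) - cc0 S| ≤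
      1 / (pn k : ℝ) ^ 3 := by
  have hn := s8_pn_ge k hk
  obtain ⟨χ, hχ⟩ : ∃ χ : C → R3 → ℝ, ∀ c, χ c = S.B.χ (Sum.inl c) := ⟨_, fun _ => rfl⟩
  have hone : ∀ c : C, ov (S.B.χ (Sum.inl c)) (S.B.χ (Sum.inl c)) = 1 := fun c => by
    rw [S.B.ortho]; simp
  -- the rounding errors
  have h1 : ∀ c : C, |∑ β, (w β : ℝ) * gm (y β) (S.B.χ (Sum.inl c)) (S.B.χ (Sum.inl c)) -
      hex k q s (S.B.χ (Sum.inl c)) (S.B.χ (Sum.inl c))| ≤ 1 / 2 ^ (15 * pn k ^ 2) := by
    intro c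
    have h := rounding k hk q hq s hs w y H (S.B.lev_pos (Sum.inl c)) (S.B.lev_pos (Sum.inl c))
      (S.B.mem (Sum.inl c)) (S.B.mem (Sum.inl c))
    rwa [hone c, mul_one, Real.sqrt_one, mul_one] at h
  -- exact form
  have h2 : ∑ c : C, hex k q s (S.B.χ (Sum.inl c)) (S.B.χ (Sum.inl c)) =
      pW k * ∑ c : C, gm (pρ k • node (pD k) 0 0) (S.B.χ (Sum.inl c)) (S.B.χ (Sum.inl c)) := by
    unfold hex
    rw [sum_comm]
    have e1 : ∀ a ∈ range (pD k), ∑ c : C, ∑ b ∈ range (pD k),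
        wex k q s a b * gm (pρ k • node (pD k) a b) (S.B.χ (Sum.inl c)) (S.B.χ (Sum.inl c)) =
        (∑ b ∈ range (pD k), wex k q s a b) *
          ∑ c : C, gm (pρ k • node (pD k) 0 0) (S.B.χ (Sum.inl c)) (S.B.χ (Sum.inl c)) := by
      intro a _
      rw [sum_comm, sum_mul]
      refine sum_congr rfl fun b _ => ?_
      rw [← mul_sum]
      congr 1
      refine closed_gm S.B S.hC S.hO _ _ ?_
      rw [norm_smul, norm_smul, s8_norm_node, s8_norm_node]
    rw [sum_congr rfl e1, ← sum_mul, wex_sum k hk q hq s]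
  -- assembly
  have h3 : closedC (nucM S.B.χ (fun β => (w β : ℝ)) y) (coulM S.B.χ) - cc0 S =
      2 * ∑ c : C, (∑ β, (w β : ℝ) * gm (y β) (S.B.χ (Sum.inl c)) (S.B.χ (Sum.inl c)) -
      hex k q s (S.B.χ (Sum.inl c)) (S.B.χ (Sum.inl c))) := by
    unfold closedC cc0 nucM
    rw [sum_sub_distrib, h2]
    ring
  rw [h3, abs_mul, abs_of_pos (by norm_num : (0:ℝ) < 2)]
  have hcard : (Fintype.card C : ℝ) ≤ (pn k : ℝ) ^ 3 := by
    exact_mod_cast (S.card hk).2.1
  have h4 : |∑ c : C, (∑ β, (w β : ℝ) * gm (y β) (S.B.χ (Sum.inl c)) (S.B.χ (Sum.inl c)) -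
      hex k q s (S.B.χ (Sum.inl c)) (S.B.χ (Sum.inl c)))| ≤
      (pn k : ℝ) ^ 3 * (1 / 2 ^ (15 * pn k ^ 2)) := by
    refine (abs_sum_le_sum_abs _ _).trans ((sum_le_sum fun c _ => h1 c).trans ?_)
    rw [sum_const, card_univ, nsmul_eq_mul]
    (clear * - hcard; gcongr)
  have hpos : (0:ℝ) < pn k := by
    have : 0 < pn k := by omega
    exact_mod_cast this
  have h5 : 2 * (pn k : ℝ) ^ 6 ≤ 2 ^ (15 * pn k ^ 2) := by
    have h6 := s8_pow_le' (pn k) 6
    calc 2 * (pn k : ℝ) ^ 6 ≤ 2 * 2 ^ (6 * pn k) := by gcongr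
      _ = 2 ^ (6 * pn k + 1) := by rw [pow_succ]; ring
      _ ≤ 2 ^ (15 * pn k ^ 2) := pow_le_pow_right₀ (by norm_num) (by nlinarith only [hn])
  calc 2 * |∑ c : C, (∑ β, (w β : ℝ) * gm (y β) (S.B.χ (Sum.inl c)) (S.B.χ (Sum.inl c)) -
      hex k q s (S.B.χ (Sum.inl c)) (S.B.χ (Sum.inl c)))| ≤
      2 * ((pn k : ℝ) ^ 3 * (1 / 2 ^ (15 * pn k ^ 2))) := by (clear * - h4; gcongr)
    _ ≤ 1 / (pn k : ℝ) ^ 3 := by
        rw [mul_one_div, mul_div_assoc', div_le_div_iff₀ (by positivity) (by (clear * - hn; positivity))]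
        linarith only [h5]

/-! ### size of the constants -/

theorem s8_cc0 (hk : 10 ≤ k) (S : SiteB k C R) : |cc0 S| ≤ 2 ^ (130 * pn k ^ 3) := by
  have hn := s8_pn_ge k hk
  have hone : ∀ c : C, ov (S.B.χ (Sum.inl c)) (S.B.χ (Sum.inl c)) = 1 := fun c => by
    rw [S.B.ortho]; simp
  have hcard : (Fintype.card C : ℝ) ≤ (pn k : ℝ) ^ 3 := by
    exact_mod_cast (S.card hk).2.1
  have hρ : pρ k ≤ 1 := by
    unfold pρ
    rw [div_le_one (by positivity)]
    exact one_le_pow₀ (by norm_num)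
  have hρ0 : 0 ≤ pρ k := by unfold pρ; positivity
  have hW : (0:ℝ) ≤ pW k := by unfold pW; positivity
  have h1 : |∑ c : C, gm (pρ k • node (pD k) 0 0) (S.B.χ (Sum.inl c)) (S.B.χ (Sum.inl c))| ≤
      (pn k : ℝ) ^ 3 * 16 := by
    refine (abs_sum_le_sum_abs _ _).trans ?_
    have : ∀ c ∈ (univ : Finset C),
        |gm (pρ k • node (pD k) 0 0) (S.B.χ (Sum.inl c)) (S.B.χ (Sum.inl c))| ≤ 16 := by
      intro c _
      have h := gm_bound (S.B.lev_pos (Sum.inl c)) (S.B.lev_pos (Sum.inl c))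
        (S.B.mem (Sum.inl c)) (S.B.mem (Sum.inl c)) (pρ k • node (pD k) 0 0)
      rw [hone c, mul_one, Real.sqrt_one, mul_one, norm_smul, s8_norm_node, mul_one,
        Real.norm_of_nonneg hρ0] at h
      linarith only [hρ, h]
    refine (sum_le_sum this).trans ?_
    rw [sum_const, card_univ, nsmul_eq_mul]
    (clear * - hcard; gcongr)
  have h2 : |∑ a : C, ∑ b : C, (2 * coulM S.B.χ (Sum.inl a) (Sum.inl a) (Sum.inl b) (Sum.inl b) -
      coulM S.B.χ (Sum.inl a) (Sum.inl b) (Sum.inl b) (Sum.inl a))| ≤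
      (pn k : ℝ) ^ 3 * ((pn k : ℝ) ^ 3 * 12) := by
    refine (abs_sum_le_sum_abs _ _).trans ?_
    have h3 : ∀ a ∈ (univ : Finset C),
        |∑ b : C, (2 * coulM S.B.χ (Sum.inl a) (Sum.inl a) (Sum.inl b) (Sum.inl b) -
          coulM S.B.χ (Sum.inl a) (Sum.inl b) (Sum.inl b) (Sum.inl a))| ≤ (pn k : ℝ) ^ 3 * 12 := by
      intro a _
      refine (abs_sum_le_sum_abs _ _).trans ?_
      have h4 : ∀ b ∈ (univ : Finset C),
          |2 * coulM S.B.χ (Sum.inl a) (Sum.inl a) (Sum.inl b) (Sum.inl b) -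
          coulM S.B.χ (Sum.inl a) (Sum.inl b) (Sum.inl b) (Sum.inl a)| ≤ 12 := by
        intro b _
        have h5 := coul_shell (S.B.lev_pos (Sum.inl a)) (S.B.lev_pos (Sum.inl a))
          (S.B.lev_pos (Sum.inl b)) (S.B.lev_pos (Sum.inl b)) (S.B.mem (Sum.inl a))
          (S.B.mem (Sum.inl a)) (S.B.mem (Sum.inl b)) (S.B.mem (Sum.inl b))
        have h6 := coul_shell (S.B.lev_pos (Sum.inl a)) (S.B.lev_pos (Sum.inl b))
          (S.B.lev_pos (Sum.inl b)) (S.B.lev_pos (Sum.inl a)) (S.B.mem (Sum.inl a))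
          (S.B.mem (Sum.inl b)) (S.B.mem (Sum.inl b)) (S.B.mem (Sum.inl a))
        rw [hone a, hone b] at h5 h6
        simp only [mul_one, Real.sqrt_one] at h5 h6
        unfold coulM
        rw [abs_le] at h5 h6 ⊢
        constructor <;> linarith [h5.1, h5.2, h6.1, h6.2]
      refine (sum_le_sum h4).trans ?_
      rw [sum_const, card_univ, nsmul_eq_mul]
      gcongr
    refine (sum_le_sum h3).trans ?_
    rw [sum_const, card_univ, nsmul_eq_mul]
    (clear * - hcard hn; gcongr)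
  have h7 : |cc0 S| ≤ 2 * (pW k * ((pn k : ℝ) ^ 3 * 16)) + (pn k : ℝ) ^ 3 * ((pn k : ℝ) ^ 3 * 12) := by
    unfold cc0
    refine (abs_add_le _ _).trans ?_
    rw [abs_mul, abs_mul, abs_of_pos (by norm_num : (0:ℝ) < 2), abs_of_nonneg hW]
    gcongr
  refine h7.trans ?_
  have h8 := s8_pow_le' (pn k) 3
  have h9 := s8_pow_le' (pn k) 6
  have hA : 2 * (pW k * ((pn k : ℝ) ^ 3 * 16)) ≤ 2 ^ (128 * pn k ^ 3 + 3 * pn k + 5) := by
    unfold pW
    rw [pow_add, pow_add]
    calc 2 * ((2:ℝ) ^ (128 * pn k ^ 3) * ((pn k : ℝ) ^ 3 * 16)) =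
        2 ^ (128 * pn k ^ 3) * (pn k : ℝ) ^ 3 * 2 ^ 5 := by ring
      _ ≤ 2 ^ (128 * pn k ^ 3) * 2 ^ (3 * pn k) * 2 ^ 5 := by (clear * - h8; gcongr)
  have hB : (pn k : ℝ) ^ 3 * ((pn k : ℝ) ^ 3 * 12) ≤ 2 ^ (6 * pn k + 4) := by
    rw [pow_add]
    calc (pn k : ℝ) ^ 3 * ((pn k : ℝ) ^ 3 * 12) = (pn k : ℝ) ^ 6 * 12 := by ring
      _ ≤ 2 ^ (6 * pn k) * 2 ^ 4 := by
          have : (12:ℝ) ≤ 2 ^ 4 := by norm_num
          (clear * - h9 this; gcongr)
  have hn3 : pn k * pn k * 1 ≤ pn k ^ 3 := by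
    rw [pow_succ, sq]
    exact Nat.mul_le_mul_left _ (by (clear * - hn; omega))
  have hn2 : 1024 * pn k ≤ pn k * pn k := Nat.mul_le_mul_right _ hn
  have hA' : (2:ℝ) ^ (128 * pn k ^ 3 + 3 * pn k + 5) ≤ 2 ^ (129 * pn k ^ 3) :=
    pow_le_pow_right₀ (by norm_num) (by omega)
  have hB' : (2:ℝ) ^ (6 * pn k + 4) ≤ 2 ^ (129 * pn k ^ 3) :=
    pow_le_pow_right₀ (by norm_num) (by omega)
  have hC' : (2:ℝ) ^ (129 * pn k ^ 3 + 1) ≤ 2 ^ (130 * pn k ^ 3) :=
    pow_le_pow_right₀ (by norm_num) (by omega)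
  rw [pow_succ] at hC'
  linarith only [hA, hB, hA', hB', hC']

theorem s8_fh_ov (n : ℕ) (hn : 2 ≤ n) : ov (fh n 0) (fh n 0) = 1 := by
  have hnf := nf_pos n (by omega)
  have h1 : ov (fh n 0) (fh n 0) = (nf n)⁻¹ * ov (fsite n 0) (fsite n 0) := by
    unfold ov fh
    rw [← integral_const_mul]
    congr 1
    funext x
    have h2 : Real.sqrt (nf n) * Real.sqrt (nf n) = nf n := Real.mul_self_sqrt hnf.le
    rw [div_mul_div_comm, h2]
    ring
  rw [h1, site_ov_ff n hn 0 0]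
  have h0 : n - 1 ≠ 0 := by omega
  simp only [sub_self, Real.cos_zero, zero_div]
  rw [zero_pow h0]
  field_simp
  norm_num

theorem s8_fh_shell (n : ℕ) (hn : 1 ≤ n) : IsShell n (fh n 0) := by
  refine InV.isShell hn ?_
  obtain ⟨P, hP, hf⟩ := fsite_InV n hn 0
  refine ⟨MvPolynomial.C ((Real.sqrt (nf n))⁻¹) * P, ?_, ?_⟩
  · constructor
    · have := (MvPolynomial.isHomogeneous_C (Fin 3) ((Real.sqrt (nf n))⁻¹)).mul hP.1
      rwa [zero_add] at this
    · have h2 := hP.2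
      unfold lap at h2 ⊢
      have : ∀ i : Fin 3, MvPolynomial.pderiv i (MvPolynomial.pderiv i
          (MvPolynomial.C ((Real.sqrt (nf n))⁻¹) * P)) =
          MvPolynomial.C ((Real.sqrt (nf n))⁻¹) * MvPolynomial.pderiv i (MvPolynomial.pderiv i P) := by
        intro i
        rw [MvPolynomial.pderiv_C_mul, MvPolynomial.pderiv_C_mul]
      simp_rw [this]
      rw [← mul_sum, h2, mul_zero]
  · funext x
    unfold fh
    rw [hf]
    unfold vfun pe
    rw [map_mul, MvPolynomial.eval_C]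
    ring

theorem s8_eps0 (hk : 10 ≤ k) (S : SiteB k C R) : |eps0 S| ≤ 2 ^ (130 * pn k ^ 3) := by
  have hn := s8_pn_ge k hk
  have hcard : (Fintype.card C : ℝ) ≤ (pn k : ℝ) ^ 3 := by
    exact_mod_cast (S.card hk).2.1
  have hρ : pρ k ≤ 1 := by
    unfold pρ
    rw [div_le_one (by positivity)]
    exact one_le_pow₀ (by norm_num)
  have hρ0 : 0 < pρ k := by unfold pρ; positivity
  have hW : (0:ℝ) ≤ pW k := by unfold pW; positivity
  have h1 := xr_bounds (pn k) (by omega) (pρ k) hρ0 hρ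
  have h1' : xr (pn k) (pρ k) ≤ 1 := h1.2.trans (pow_le_one₀ hρ0.le hρ)
  have h2 := mfield_bound S.B (fh (pn k) 0) (fh (pn k) 0) (s8_fh_shell _ (by omega))
    (s8_fh_shell _ (by omega)) (by omega)
  rw [s8_fh_ov (pn k) (by omega), mul_one, Real.sqrt_one, mul_one] at h2
  have h3 := zt_bounds k (2 * (pn k - 1)) hk (by (clear * - hn; omega)) (by (clear * - hn; omega))
  have h4 := gam_bounds (pn k) (by (clear * - hn; omega))
  have hg0 : 0 ≤ gam (pn k) := le_trans (by (clear * - hn; positivity)) h4.1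
  have hL : (0:ℝ) < pL k := by unfold pL; positivity
  have hL' : pL k ≤ 2 ^ (pn k) := by
    unfold pL
    exact pow_le_pow_right₀ (by norm_num) (Nat.div_le_self _ _)
  have h5 : |Lam k| ≤ 2 ^ (pn k) * 2 * 1 := by
    unfold Lam
    rw [abs_of_nonneg (by have := h3.1; (clear * - hL this hg0; positivity))]
    have := h3.1
    gcongr
    · exact h3.2
    · exact h4.2
  have h6 : |pW k * xr (pn k) (pρ k)| ≤ 2 ^ (128 * pn k ^ 3) := by
    rw [abs_of_nonneg (mul_nonneg hW h1.1)]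
    calc pW k * xr (pn k) (pρ k) ≤ pW k * 1 := by (clear * - h1' hW; gcongr)
      _ = 2 ^ (128 * pn k ^ 3) := by unfold pW; ring
  have h7 : |mfield S.B (fh (pn k) 0) (fh (pn k) 0)| ≤ 2 ^ (3 * pn k + 4) := by
    refine h2.trans ?_
    rw [pow_add]
    have := s8_pow_le' (pn k) 3
    calc 12 * (Fintype.card C : ℝ) ≤ 2 ^ 4 * 2 ^ (3 * pn k) := by
          have : (12:ℝ) ≤ 2 ^ 4 := by norm_num
          gcongr
          (clear hn hρ hρ0 hW h1 h1' h2 h3 h4 hg0 hL hL' h5 h6 this; linarith)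
      _ = _ := by ring
  have h8 : |eps0 S| ≤ 2 ^ (128 * pn k ^ 3) + 2 ^ (3 * pn k + 4) + 2 ^ (pn k) * 2 * 1 := by
    unfold eps0
    refine (abs_sub _ _).trans ?_
    refine add_le_add ((abs_add_le _ _).trans (add_le_add h6 h7)) h5
  refine h8.trans ?_
  have hn3 : pn k * pn k * 1 ≤ pn k ^ 3 := by
    rw [pow_succ, sq]
    exact Nat.mul_le_mul_left _ (by omega)
  have hn2 : 1024 * pn k ≤ pn k * pn k := Nat.mul_le_mul_right _ hn
  have hA' : (2:ℝ) ^ (3 * pn k + 4) ≤ 2 ^ (128 * pn k ^ 3) :=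
    pow_le_pow_right₀ (by norm_num) (by omega)
  have hB' : (2:ℝ) ^ (pn k + 1) ≤ 2 ^ (128 * pn k ^ 3) :=
    pow_le_pow_right₀ (by norm_num) (by (clear * - hn hn3 hn2; omega))
  have hC' : (2:ℝ) ^ (128 * pn k ^ 3 + 2) ≤ 2 ^ (130 * pn k ^ 3) :=
    pow_le_pow_right₀ (by norm_num) (by omega)
  rw [pow_succ] at hB'
  rw [pow_add] at hC'
  have hp : (0:ℝ) < 2 ^ (128 * pn k ^ 3) := by positivity
  linarith only [hL, hL', hA', hB', hC']

theorem s8_wS_sum (hk : 10 ≤ k) : |∑ i : Fin (pK k), ∑ j ∈ Ioi i, wS k i j| ≤ 1 := by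
  have hn := s8_pn_ge k hk
  have hn0 : (0:ℝ) < pn k := by
    have : 0 < pn k := by omega
    exact_mod_cast this
  have hK := s8_pK_le' k
  have h1 : ∀ i j : Fin (pK k), |wS k i j| ≤ (pK k : ℝ) ^ 2 / (pn k : ℝ) ^ 2 := by
    intro i j
    have h := wdir_bounds (pn k) (by omega) (pα k i - pα k j)
    unfold wS
    rw [abs_of_nonneg h.1]
    refine h.2.trans ?_
    gcongr
    exact (log_pn_le k hk).2
  have h2 : |∑ i : Fin (pK k), ∑ j ∈ Ioi i, wS k i j| ≤
      ∑ i : Fin (pK k), ∑ j : Fin (pK k), (pK k : ℝ) ^ 2 / (pn k : ℝ) ^ 2 := by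
    refine (abs_sum_le_sum_abs _ _).trans (sum_le_sum fun i _ => ?_)
    refine (abs_sum_le_sum_abs _ _).trans ?_
    refine (sum_le_sum_of_subset_of_nonneg (subset_univ _) fun j _ _ => abs_nonneg _).trans ?_
    exact sum_le_sum fun j _ => h1 i j
  refine h2.trans ?_
  simp only [sum_const, card_univ, Fintype.card_fin, nsmul_eq_mul]
  rw [mul_div_assoc', mul_div_assoc', div_le_one (by (clear * - hn; positivity))]
  have h3 : (pn k : ℝ) * 1 ≤ (pn k : ℝ) * pn k := by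
    have : (1:ℝ) ≤ pn k := by
      have : 1 ≤ pn k := by omega
      exact_mod_cast this
    gcongr
  calc (pK k : ℝ) * (pK k * (pK k) ^ 2) = (pK k : ℝ) ^ 4 := by ring
    _ ≤ (pn k : ℝ) := hK
    _ ≤ (pn k : ℝ) ^ 2 := by linarith only [h3]

/-- size of the constants -/
theorem const_bounds (hk : 10 ≤ k) (S : SiteB k C R) :
    |cc0 S| ≤ 2 ^ (130 * pn k ^ 3) ∧ |eps0 S| ≤ 2 ^ (130 * pn k ^ 3) ∧
      |mottBase (wS k) (eps0 S)| ≤ 2 ^ (131 * pn k ^ 3) ∧
      -(pT k : ℝ) ^ 3 ≤ Erefv S ∧ Erefv S ≤ -(pT k : ℝ) := by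
  have hn := s8_pn_ge k hk
  have hc := s8_cc0 hk S
  have he := s8_eps0 hk S
  have hn3 : pn k * pn k * 1 ≤ pn k ^ 3 := by
    rw [pow_succ, sq]
    exact Nat.mul_le_mul_left _ (by omega)
  have hn2 : 1024 * pn k ≤ pn k * pn k := Nat.mul_le_mul_right _ hn
  have hK4 := s8_pK_le k
  have hK1 : pK k ≤ pn k := by
    refine le_trans ?_ hK4
    exact Nat.le_self_pow (by norm_num) _
  have hKr : (pK k : ℝ) ≤ 2 ^ (pn k) := by
    have h1 : (pK k : ℝ) ≤ pn k := by exact_mod_cast hK1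
    refine h1.trans ?_
    exact_mod_cast (Nat.lt_two_pow_self (n := pn k)).le
  have hm : |mottBase (wS k) (eps0 S)| ≤ 2 ^ (131 * pn k ^ 3) := by
    unfold mottBase
    refine (abs_add_le _ _).trans ?_
    rw [abs_mul, abs_of_nonneg (by (clear * -; positivity) : (0:ℝ) ≤ pK k)]
    have h1 : (pK k : ℝ) * |eps0 S| ≤ 2 ^ (pn k + 130 * pn k ^ 3) := by
      rw [pow_add]
      gcongr
    have h2 := s8_wS_sum hk
    have h3 : (2:ℝ) ^ (pn k + 130 * pn k ^ 3 + 1) ≤ 2 ^ (131 * pn k ^ 3) :=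
      pow_le_pow_right₀ (by norm_num) (by omega)
    have h4 : (1:ℝ) ≤ 2 ^ (pn k + 130 * pn k ^ 3) := one_le_pow₀ (by norm_num)
    rw [pow_succ] at h3
    linarith only [h1, h2, h3, h4]
  refine ⟨hc, he, hm, ?_⟩
  -- the reference energy
  set n := pn k with hnd
  have hTr : (pT k : ℝ) = 2 ^ (2000 * n ^ 3) := by
    unfold pT; push_cast; rfl
  set T : ℝ := (pT k : ℝ) with hT
  set c : ℝ := cc0 S + mottBase (wS k) (eps0 S) with hcdef
  have hcb : |c| ≤ 2 ^ (132 * n ^ 3) := by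
    refine (abs_add_le _ _).trans ?_
    have h1 : (2:ℝ) ^ (130 * n ^ 3) ≤ 2 ^ (131 * n ^ 3) :=
      pow_le_pow_right₀ (by norm_num) (by omega)
    have h3 : (2:ℝ) ^ (131 * n ^ 3 + 1) ≤ 2 ^ (132 * n ^ 3) :=
      pow_le_pow_right₀ (by norm_num) (by omega)
    rw [pow_succ] at h3
    linarith only [hc, hm, h1, h3]
  have hn1 : (1024:ℝ) ≤ n := by exact_mod_cast hn
  have hKn : (pK k : ℝ) ≤ n := by exact_mod_cast hK1
  have hK0 : (0:ℝ) ≤ pK k := by (clear * -; positivity)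
  have hfrac0 : 0 ≤ (pK k : ℝ) / (2 * (n:ℝ) ^ 2) := by (clear * - hn; positivity)
  have hfrac1 : (pK k : ℝ) / (2 * (n:ℝ) ^ 2) ≤ 1 := by
    rw [div_le_one (by positivity)]
    linarith only [mul_nonneg_of_nonpos_of_nonpos (Mathlib.Tactic.Linarith.sub_nonpos_of_le (Mathlib.Tactic.Linarith.natCast_nonneg ℝ n)) (Mathlib.Tactic.Linarith.sub_nonpos_of_le hn1), hKn]
  have hTbig : (2:ℝ) ^ (132 * n ^ 3) * 4 ≤ T := by
    rw [hTr]
    calc (2:ℝ) ^ (132 * n ^ 3) * 4 = 2 ^ (132 * n ^ 3 + 2) := by rw [pow_add]; norm_num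
      _ ≤ 2 ^ (2000 * n ^ 3) := pow_le_pow_right₀ (by norm_num) (by omega)
  have hTn : (n:ℝ) * 4 ≤ T := by
    have h1 : (n:ℝ) ≤ 2 ^ n := by exact_mod_cast (Nat.lt_two_pow_self (n := n)).le
    have h2 : (2:ℝ) ^ n ≤ 2 ^ (132 * n ^ 3) := pow_le_pow_right₀ (by norm_num) (by omega)
    linarith only [hTbig, h1, h2]
  have hB1 : (1:ℝ) ≤ 2 ^ (132 * n ^ 3) := one_le_pow₀ (by norm_num)
  obtain ⟨hc1, hc2⟩ := abs_le.1 hcb
  have hT0 : 0 < T := by linarith only [hn1, hTn]
  have hE : Erefv S = T ^ 2 * (-((n:ℝ) - 1) - (pK k : ℝ) / (2 * (n:ℝ) ^ 2)) + T * c := rfl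
  rw [hE]
  constructor
  · have h1 : T ^ 2 * (-((n:ℝ) - 1) - (pK k : ℝ) / (2 * (n:ℝ) ^ 2)) ≥ T ^ 2 * (-(n:ℝ)) := by
      apply mul_le_mul_of_nonneg_left _ (by (clear * - hT0; positivity))
      linarith only [hfrac1]
    have h2 : T * c ≥ T * (-(T / 4)) := by
      apply mul_le_mul_of_nonneg_left _ hT0.le
      linarith only [hTbig, hc1]
    have h3 : T ^ 2 * (n:ℝ) ≤ T ^ 2 * (T / 4) := by
      apply mul_le_mul_of_nonneg_left _ (by (clear * - hT0; positivity))
      linarith only [hTn]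
    have h4 : T ^ 2 ≤ T ^ 3 := by
      have : (1:ℝ) ≤ T := by linarith only [hn1, hTn]
      linarith only [mul_nonneg_of_nonpos_of_nonpos (Mathlib.Tactic.Linarith.sub_nonpos_of_le (sq_nonneg T)) (Mathlib.Tactic.Linarith.sub_nonpos_of_le hn1), mul_nonneg_of_nonpos_of_nonpos (Mathlib.Tactic.Linarith.sub_nonpos_of_le (sq_nonneg T)) (Mathlib.Tactic.Linarith.sub_nonpos_of_le (Mathlib.Tactic.Linarith.natCast_nonneg ℝ n)), h3]
    linarith only [h4, h3, h2, h1, sq_nonneg T]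
  · have h1 : T ^ 2 * (-((n:ℝ) - 1) - (pK k : ℝ) / (2 * (n:ℝ) ^ 2)) ≤ T ^ 2 * (-2) := by
      apply mul_le_mul_of_nonneg_left _ (by (clear * - hT0; positivity))
      linarith only [hn1, hfrac0]
    have h2 : T * c ≤ T * (T / 4) := by
      apply mul_le_mul_of_nonneg_left _ hT0.le
      linarith only [hTbig, hc2]
    have h3 : T * 1 ≤ T * T := by
      apply mul_le_mul_of_nonneg_left _ hT0.le
      linarith only [hn1, hTn]
    linarith only [hTn, h1, h2, h3]

end Vale.Agent.P370.Q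
end
end

section

section

/-!
The effective model of the open shell.
-/

namespace Vale.Agent.P370.Q

open MeasureTheory Finset

variable {k : ℕ} {C R : Type} [Fintype C] [DecidableEq C] [Fintype R] [DecidableEq R]

/-! ### numbers -/

theorem s9_K (hk : 10 ≤ k) : (1024 : ℝ) ≤ pK k := by
  exact_mod_cast pK_ge k hk

theorem s9_n (k : ℕ) : (pn k : ℝ) = (pK k : ℝ) ^ 2048 := by
  rw [pn_eq]
  push_cast
  rfl

theorem s9_wS_symm (hk : 10 ≤ k) (i j : Fin (pK k)) : wS k i j = wS k j i := by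
  unfold wS
  rw [← wdir_even (pn k) (pn_even k hk).2, neg_sub]

theorem s9_wS_row (hk : 10 ≤ k) (i : Fin (pK k)) :
    ∑ j, wS k i j = ∑ j : Fin (pK k), wdir (pn k) (Real.pi * (j : ℕ) / pK k) := by
  have hK := pK_ge k hk
  have : NeZero (pK k) := ⟨by omega⟩
  have hK0 : (pK k : ℝ) ≠ 0 := by
    have := s9_K hk
    positivity
  rw [← Equiv.sum_comp (Equiv.subLeft i)
    (fun j : Fin (pK k) => wdir (pn k) (Real.pi * (j : ℕ) / pK k))]
  refine Finset.sum_congr rfl fun j _ => ?_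
  unfold wS pα
  rw [Equiv.subLeft_apply]
  by_cases h : j ≤ i
  · rw [Fin.sub_val_of_le h]
    congr 1
    rw [Nat.cast_sub (by exact_mod_cast h)]
    ring
  · have h' : i < j := not_le.1 h
    have e : ((i - j : Fin (pK k)) : ℕ) = pK k + i - j := Fin.coe_sub_iff_lt.2 h'
    rw [e, Nat.cast_sub (by omega), ← wdir_per (pn k) (pn_even k hk).2]
    congr 1
    push_cast
    field_simp
    ring

theorem s9_tS_symm (q : ℕ → ℕ) (s : ℕ → ℕ → ℕ) (i j : Fin (pK k)) :
    tS k q s i j = tS k q s j i := by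
  unfold tS
  rcases lt_trichotomy i j with h | h | h
  · rw [if_pos h, if_neg (not_lt.2 h.le), if_pos h]
  · subst h
    rfl
  · rw [if_neg (not_lt.2 h.le), if_pos h, if_pos h]

theorem s9_tS_le (hk : 10 ≤ k) (q : ℕ → ℕ) (hq : GoodQ k q) (s : ℕ → ℕ → ℕ)
    (hs : GoodS k q s) (i j : Fin (pK k)) :
    |tS k q s i j| ≤ 1 / ((pn k : ℝ) ^ 2 * (pK k : ℝ) ^ 126) := by
  unfold tS
  rcases lt_trichotomy i j with h | h | h
  · rw [if_pos h]
    exact (goodS_bound k hk q hq s hs i j h j.2).2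
  · subst h
    rw [if_neg (lt_irrefl _), if_neg (lt_irrefl _), abs_zero]
    (clear * -; (clear * -; positivity))
  · rw [if_neg (not_lt.2 h.le), if_pos h]
    exact (goodS_bound k hk q hq s hs j i h i.2).2

/-- the hypotheses of the Mott lemma hold for the sites -/
theorem mottHyp_sites (hk : 10 ≤ k) (S : SiteB k C R) (q : ℕ → ℕ) (hq : GoodQ k q)
    (s : ℕ → ℕ → ℕ) (hs : GoodS k q s) (w : Fin (pD k * pD k) → ℕ)
    (y : Fin (pD k * pD k) → R3) (H : Approx k q s w y) :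
    ∃ w1 : ℝ, MottHyp (pK k)
      (fun i j => hS S (fun β => (w β : ℝ)) y (Sum.inl i) (Sum.inl j)) (wS k) (tS k q s)
      (fun i j i' j' => vS S (Sum.inl i) (Sum.inl j) (Sum.inl i') (Sum.inl j'))
      (eps0 S) (wdir (pn k) 0) w1 (1 / (2 ^ 31 * (pK k : ℝ) ^ 2 * (pn k : ℝ) ^ 2))
      (1 / ((pn k : ℝ) ^ 2 * (pK k : ℝ) ^ 126)) (1 / ((pn k : ℝ) ^ 2 * (pK k : ℝ) ^ 500)) := by
  have hK := s9_K hk
  have hKn := pK_ge k hk
  have hK0 : (0 : ℝ) < pK k := by linarith only [hK]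
  have hn0 : (0 : ℝ) < pn k := by
    rw [s9_n]
    (clear * - hKn; positivity)
  refine ⟨∑ j : Fin (pK k), wdir (pn k) (Real.pi * (j : ℕ) / pK k), ?_⟩
  refine ⟨by omega, s9_wS_symm hk, fun i => by unfold wS; rw [sub_self], s9_wS_row hk,
    by (clear * - hKn hn0; (clear * - hKn hn0; positivity)), ?_, s9_tS_symm q s, fun i => ?_, s9_tS_le hk q hq s hs, ?_, by (clear * - hn0 hKn; positivity),
    fun i j => ?_, vS_near hk S⟩
  · intro x hx hx0
    have hn : 2 ^ 30 * pK k ^ 4 ≤ pn k := by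
      rw [pn_eq]
      calc 2 ^ 30 * pK k ^ 4 = 1024 ^ 3 * pK k ^ 4 := by norm_num
        _ ≤ pK k ^ 3 * pK k ^ 4 := Nat.mul_le_mul_right _ (Nat.pow_le_pow_left hKn 3)
        _ = pK k ^ 7 := by ring
        _ ≤ pK k ^ 2048 := Nat.pow_le_pow_right (by omega) (by norm_num)
    have h := wdir_pd (pn k) (pK k) (by omega) hn x hx hx0
    refine le_trans (le_of_eq ?_) h
    (clear * - hn0 hKn; field_simp)
  · unfold tS
    rw [if_neg (lt_irrefl _), if_neg (lt_irrefl _)]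
  · rw [div_div, mul_one_div, div_le_div_iff₀ (by (clear * - hn0 hKn; positivity)) (by positivity), one_mul]
    have h1 : (2 : ℝ) ^ 32 ≤ (pK k : ℝ) ^ 4 := by
      calc (2 : ℝ) ^ 32 ≤ 1024 ^ 4 := by norm_num
        _ ≤ (pK k : ℝ) ^ 4 := pow_le_pow_left₀ (by norm_num) hK 4
    have h2 : (pK k : ℝ) ^ 8 ≤ (pK k : ℝ) ^ 126 :=
      pow_le_pow_right₀ (by linarith only [hK]) (by norm_num)
    calc (pK k : ℝ) ^ 2 * (2 ^ 31 * (pK k : ℝ) ^ 2 * (pn k : ℝ) ^ 2 * 2) =
        2 ^ 32 * (pK k : ℝ) ^ 4 * (pn k : ℝ) ^ 2 := by ring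
      _ ≤ (pK k : ℝ) ^ 4 * (pK k : ℝ) ^ 4 * (pn k : ℝ) ^ 2 := by (clear * - h1 hKn hn0; gcongr)
      _ = (pK k : ℝ) ^ 8 * (pn k : ℝ) ^ 2 := by ring
      _ ≤ (pK k : ℝ) ^ 126 * (pn k : ℝ) ^ 2 := by (clear * - h2 hn0; gcongr)
      _ = _ := by ring
  · refine (hS_near hk S q hq s hs w y H i j).trans ?_
    apply one_div_le_one_div_of_le (by (clear * - hn0 hKn; positivity))
    rw [pow_succ (pn k : ℝ) 2]
    refine mul_le_mul_of_nonneg_left ?_ (by (clear * - hn0; positivity))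
    rw [s9_n]
    exact pow_le_pow_right₀ (by linarith only [hK]) (by norm_num)

/-- the superexchange couplings are the couplings of the structure theorem -/
theorem mottJ_sites (hk : 10 ≤ k) (q : ℕ → ℕ) (hq : GoodQ k q) (s : ℕ → ℕ → ℕ)
    (i j : Fin (pK k)) (hij : i < j) :
    mottJ (wS k) (tS k q s) (wdir (pn k) 0) i j = coupl (kap k q) s i j := by
  unfold mottJ coupl
  rw [if_pos hij, s9_wS_symm hk]
  unfold tS
  rw [if_pos hij]
  have e : wS k j i = wdir (pn k) (Real.pi * ((j - i : ℕ) : ℕ) / pK k) := by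
    unfold wS pα
    congr 1
    rw [Nat.cast_sub (by exact_mod_cast hij.le)]
    ring
  rw [e]
  unfold kap thop
  ring

theorem heisMax_congr {K : ℕ} (J J' : Fin K → Fin K → ℝ) (h : ∀ i j, i < j → J i j = J' i j) :
    heisMax J = heisMax J' := by
  have e : ∀ φ : SpinState K, heisE J φ = heisE J' φ := by
    intro φ
    unfold heisE
    refine Finset.sum_congr rfl fun i _ => Finset.sum_congr rfl fun j hj => ?_
    rw [h i j (Finset.mem_Ioi.1 hj)]
  unfold heisMax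
  simp only [e]

/-- error of the effective model -/
theorem mott_error_small (hk : 10 ≤ k) :
    8 * (pK k : ℝ) ^ 4 * ((1 / ((pn k : ℝ) ^ 2 * (pK k : ℝ) ^ 126)) ^ 3 /
        (1 / (2 ^ 31 * (pK k : ℝ) ^ 2 * (pn k : ℝ) ^ 2)) ^ 2 +
      1 / ((pn k : ℝ) ^ 2 * (pK k : ℝ) ^ 500)) ≤ pJ k / (pK k : ℝ) ^ 9 := by
  have hK := s9_K hk
  have hK0 : (0 : ℝ) < pK k := by linarith only [hK]
  have hn0 : (0 : ℝ) < pn k := by
    rw [s9_n]
    (clear * - hK; positivity)
  unfold pJ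
  generalize (pK k : ℝ) = K at *
  generalize (pn k : ℝ) = n at *
  have e1 : 8 * K ^ 4 * ((1 / (n ^ 2 * K ^ 126)) ^ 3 / (1 / (2 ^ 31 * K ^ 2 * n ^ 2)) ^ 2 +
      1 / (n ^ 2 * K ^ 500)) = (2 ^ 65 * K ^ 126 + 8) / (n ^ 2 * K ^ 496) := by
    field_simp
    ring
  have e2 : 1 / (n ^ 2 * K ^ 256) / K ^ 9 = K ^ 231 / (n ^ 2 * K ^ 496) := by
    field_simp
  rw [e1, e2]
  apply div_le_div_of_nonneg_right _ (by (clear * - hn0 hK; positivity))
  have h1 : (2 : ℝ) ^ 70 ≤ K ^ 7 := by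
    calc (2 : ℝ) ^ 70 = 1024 ^ 7 := by norm_num
      _ ≤ K ^ 7 := pow_le_pow_left₀ (by norm_num) hK 7
  have h2 : (1 : ℝ) ≤ K ^ 126 := one_le_pow₀ (by linarith only [hK])
  calc 2 ^ 65 * K ^ 126 + 8 ≤ 2 ^ 65 * K ^ 126 + 8 * K ^ 126 := by linarith only [h2]
    _ ≤ 2 ^ 70 * K ^ 126 := by linarith only [h2]
    _ ≤ K ^ 7 * K ^ 126 := by gcongr
    _ = K ^ 133 := by ring
    _ ≤ K ^ 231 := pow_le_pow_right₀ (by linarith only [hK]) (by norm_num)

/-! ### symmetries and bounds of the Coulomb integrals -/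

theorem s9_nice (S : SiteB k C R) (a : C ⊕ (Fin (pK k) ⊕ R)) : Nice (S.B.χ a) :=
  bd_shell_nice (S.B.lev_pos a) (S.B.mem a)

theorem s9_vsym1 (S : SiteB k C R) (p a q b : C ⊕ (Fin (pK k) ⊕ R)) :
    coulM S.B.χ p a q b = coulM S.B.χ a p q b := coul_symm1 _ _ _ _

theorem s9_vsym2 (S : SiteB k C R) (p a q b : C ⊕ (Fin (pK k) ⊕ R)) :
    coulM S.B.χ p a q b = coulM S.B.χ q b p a :=
  coul_symm2 (s9_nice S p) (s9_nice S a) (s9_nice S q) (s9_nice S b)

/-- extension by zero of a pair function -/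
def s9ext {A B : Type} (x : B → B → ℝ) (p q : A ⊕ B) : ℝ :=
  Sum.elim (fun _ => 0) (fun p' => Sum.elim (fun _ => 0) (fun q' => x p' q') q) p

theorem s9_sum_ext {A B : Type} [Fintype A] [Fintype B] (x : B → B → ℝ) :
    ∑ p : A ⊕ B, ∑ q : A ⊕ B, s9ext x p q ^ 2 = ∑ p, ∑ q, x p q ^ 2 := by
  simp only [s9ext, Fintype.sum_sum_type, Sum.elim_inl, Sum.elim_lam_const_lam_const, ne_eq, OfNat.ofNat_ne_zero, not_false_eq_true, zero_pow, sum_const_zero, Sum.elim_inr, zero_add]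

theorem s9_qf2_ext {A B : Type} [Fintype A] [Fintype B]
    (v : A ⊕ B → A ⊕ B → A ⊕ B → A ⊕ B → ℝ) (x : B → B → ℝ) :
    qf2 v (s9ext x) = qf2 (fun p a q b => v (Sum.inr p) (Sum.inr a) (Sum.inr q) (Sum.inr b)) x := by
  unfold qf2
  simp only [s9ext, Fintype.sum_sum_type, Sum.elim_inl, Sum.elim_lam_const_lam_const, mul_zero, sum_const_zero, Sum.elim_inr, zero_add, zero_mul]

theorem s9_vpos (S : SiteB k C R) (x : Fin (pK k) ⊕ R → Fin (pK k) ⊕ R → ℝ) :
    0 ≤ qf2 (vS S) x := by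
  have h := (coul_pair_bounds S.B (s9ext x)).1
  rwa [s9_qf2_ext] at h

theorem s9_vle (S : SiteB k C R) (x : Fin (pK k) ⊕ R → Fin (pK k) ⊕ R → ℝ) :
    qf2 (vS S) x ≤ 4 * (Fintype.card (C ⊕ (Fin (pK k) ⊕ R)) : ℝ) * ∑ p, ∑ q, x p q ^ 2 := by
  have h := (coul_pair_bounds S.B (s9ext x)).2
  rwa [s9_qf2_ext, s9_sum_ext] at h

/-- number of orbitals -/
theorem s9_card (hk : 10 ≤ k) (S : SiteB k C R) :
    4 * (Fintype.card (C ⊕ (Fin (pK k) ⊕ R)) : ℝ) ≤ (pn k : ℝ) ^ 4 := by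
  have hK := s9_K hk
  have hn1 : (1024 : ℝ) ≤ pn k := by
    rw [s9_n]
    exact hK.trans (le_self_pow₀ (by linarith only [hK]) (by norm_num))
  have hKn : (pK k : ℝ) ≤ pn k := by
    rw [s9_n]
    exact le_self_pow₀ (by linarith only [hK]) (by norm_num)
  obtain ⟨-, h1, h2⟩ := S.card hk
  rw [Fintype.card_sum, Fintype.card_sum, Fintype.card_fin]
  have h1' : (Fintype.card C : ℝ) ≤ (pn k : ℝ) ^ 3 := by exact_mod_cast h1
  have h2' : (Fintype.card R : ℝ) ≤ (pn k : ℝ) ^ 2 := by exact_mod_cast h2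
  push_cast
  have h3 : (pn k : ℝ) ^ 2 ≤ (pn k : ℝ) ^ 3 := pow_le_pow_right₀ (by linarith only [hn1]) (by norm_num)
  have h4 : (pn k : ℝ) ≤ (pn k : ℝ) ^ 3 := le_self_pow₀ (by linarith only [hn1]) (by norm_num)
  have h5 : (pn k : ℝ) ^ 4 = pn k * (pn k : ℝ) ^ 3 := by ring
  have h6 : 12 * (pn k : ℝ) ^ 3 ≤ pn k * (pn k : ℝ) ^ 3 :=
    mul_le_mul_of_nonneg_right (by linarith only [hn1]) (by (clear * - hn1; positivity))
  linarith only [hKn, h1', h2', h3, h4, h6]

/-- the direct Coulomb matrix is small -/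
theorem s9_wS_le (hk : 10 ≤ k) (i j : Fin (pK k)) : wS k i j ≤ 1 := by
  have hK := s9_K hk
  have h := (wdir_bounds (pn k) (pn_even k hk).2 (pα k i - pα k j)).2
  have h2 := (log_pn_le k hk).2
  have hn : (pK k : ℝ) ^ 2 ≤ (pn k : ℝ) ^ 2 := by
    rw [s9_n]
    exact pow_le_pow_left₀ (by linarith only []) (le_self_pow₀ (by linarith only [hK]) (by norm_num)) 2
  have hn0 : (0 : ℝ) < (pn k : ℝ) ^ 2 := by
    rw [s9_n]
    (clear * - hK; positivity)
  refine h.trans ?_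
  rw [div_le_one hn0]
  linarith only [h2, hn]

theorem s9_base_le (hk : 10 ≤ k) (ε0 : ℝ) :
    mottBase (wS k) ε0 ≤ pK k * ε0 + (pK k : ℝ) ^ 2 := by
  unfold mottBase
  have h1 : ∀ i : Fin (pK k), ∑ j ∈ Ioi i, wS k i j ≤ pK k := by
    intro i
    calc ∑ j ∈ Ioi i, wS k i j ≤ ∑ j ∈ Ioi i, (1 : ℝ) :=
          Finset.sum_le_sum fun j _ => s9_wS_le hk i j
      _ = ((Ioi i).card : ℝ) := by simp only [sum_const, Fin.card_Ioi, nsmul_eq_mul, mul_one]
      _ ≤ pK k := by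
        exact_mod_cast (Finset.card_le_univ _).trans (by rw [Fintype.card_fin])
  have h2 : ∑ i, ∑ j ∈ Ioi i, wS k i j ≤ ∑ i : Fin (pK k), (pK k : ℝ) :=
    Finset.sum_le_sum fun i _ => h1 i
  rw [Finset.sum_const, Finset.card_univ, Fintype.card_fin, nsmul_eq_mul] at h2
  rw [pow_two]
  linarith only [h2]

/-- the gap beats everything -/
theorem s9_gap (hk : 10 ≤ k) : 8 * ((pn k : ℝ) ^ 7 * 2 ^ (pe0 k / 4)) ≤ Lam k / 2 := by
  have hK := s9_K hk
  have hn1 : (1024 : ℝ) ≤ pn k := by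
    rw [s9_n]
    exact hK.trans (le_self_pow₀ (by linarith only [hK]) (by norm_num))
  have h1 := pn_pow_le k hk 9 (by norm_num)
  obtain ⟨he, hL⟩ := pe0_eq k hk
  have hn2 := (pn_even k hk).2
  have hz := (zt_bounds k (2 * (pn k - 1)) hk (by omega) (by omega)).1
  have hg := (gam_bounds (pn k) hn2).1
  unfold Lam
  rw [hL]
  have h2 : (2 : ℝ) ^ (pe0 k / 64) * 2 ^ (pe0 k / 4) ≤ 2 ^ pe0 k := by
    rw [← pow_add]
    exact pow_le_pow_right₀ (by norm_num) (by omega)
  have h3 : (2 : ℝ) ^ pe0 k * (1 / 2) * (1 / (8 * (pn k : ℝ))) ≤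
      2 ^ pe0 k * zt k (2 * (pn k - 1)) * gam (pn k) := by
    (clear * - hz hg hn2; gcongr)
  have h4 : 256 * ((pn k : ℝ) ^ 8 * 2 ^ (pe0 k / 4)) ≤ 2 ^ pe0 k := by
    calc 256 * ((pn k : ℝ) ^ 8 * 2 ^ (pe0 k / 4)) ≤
        pn k * ((pn k : ℝ) ^ 8 * 2 ^ (pe0 k / 4)) :=
          mul_le_mul_of_nonneg_right (by linarith only [hn1]) (by (clear * - hn2; positivity))
      _ = (pn k : ℝ) ^ 9 * 2 ^ (pe0 k / 4) := by ring
      _ ≤ 2 ^ (pe0 k / 64) * 2 ^ (pe0 k / 4) := by (clear * - h1; gcongr)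
      _ ≤ _ := h2
  have h5 : 8 * ((pn k : ℝ) ^ 7 * 2 ^ (pe0 k / 4)) ≤
      2 ^ pe0 k * (1 / 2) * (1 / (8 * (pn k : ℝ))) / 2 := by
    have e : 2 ^ pe0 k * (1 / 2) * (1 / (8 * (pn k : ℝ))) / 2 = 2 ^ pe0 k / (32 * (pn k : ℝ)) := by
      field_simp
      norm_num
    rw [e, le_div_iff₀ (by (clear * - hn2; positivity))]
    calc 8 * ((pn k : ℝ) ^ 7 * 2 ^ (pe0 k / 4)) * (32 * (pn k : ℝ)) =
        256 * ((pn k : ℝ) ^ 8 * 2 ^ (pe0 k / 4)) := by ring
      _ ≤ _ := h4
  linarith only [h3, h5]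

theorem s9_inv_n (hk : 10 ≤ k) : 4 * (1 / (pn k : ℝ) ^ 3) ≤ pJ k / (pK k : ℝ) ^ 9 := by
  have hK := s9_K hk
  have hK0 : (0 : ℝ) < pK k := by linarith only [hK]
  have hn0 : (0 : ℝ) < pn k := by
    rw [s9_n]
    (clear * - hK; positivity)
  unfold pJ
  rw [div_div, mul_one_div, div_le_div_iff₀ (by positivity) (by (clear * - hn0 hK; positivity))]
  have h : 4 * (pK k : ℝ) ^ 265 ≤ pn k := by
    rw [s9_n]
    calc 4 * (pK k : ℝ) ^ 265 ≤ pK k * (pK k : ℝ) ^ 265 :=
          mul_le_mul_of_nonneg_right (by linarith only [hK]) (by (clear * - hK; positivity))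
      _ = (pK k : ℝ) ^ 266 := by ring
      _ ≤ _ := pow_le_pow_right₀ (by linarith only [hK]) (by norm_num)
  calc 4 * ((pn k : ℝ) ^ 2 * (pK k : ℝ) ^ 256 * (pK k : ℝ) ^ 9) =
      (4 * (pK k : ℝ) ^ 265) * (pn k : ℝ) ^ 2 := by ring
    _ ≤ pn k * (pn k : ℝ) ^ 2 := by gcongr
    _ = _ := by ring

/-- one-body matrix between the sites, lower bound -/
theorem s9_hS_low (hk : 10 ≤ k) (S : SiteB k C R) (q : ℕ → ℕ) (hq : GoodQ k q)
    (s : ℕ → ℕ → ℕ) (hs : GoodS k q s) (w : Fin (pD k * pD k) → ℕ)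
    (y : Fin (pD k * pD k) → R3) (H : Approx k q s w y) (x : Fin (pK k) → ℝ) :
    (eps0 S - 1) * (∑ i, x i ^ 2) ≤
      ∑ i, ∑ j, hS S (fun β => (w β : ℝ)) y (Sum.inl i) (Sum.inl j) * x i * x j := by
  have hK := s9_K hk
  have hK0 : (0 : ℝ) < pK k := by linarith only [hK]
  have hn1 : (1 : ℝ) ≤ pn k := by
    rw [s9_n]
    exact one_le_pow₀ (by linarith only [hK])
  have hnK : (pK k : ℝ) ^ 2 ≤ pn k := by
    rw [s9_n]
    exact pow_le_pow_right₀ (by linarith only [hK]) (by norm_num)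
  -- entries
  have hsmall : ∀ i j : Fin (pK k),
      |hS S (fun β => (w β : ℝ)) y (Sum.inl i) (Sum.inl j) - (if i = j then eps0 S else 0)| ≤
        1 / pK k := by
    intro i j
    have h1 := hS_near hk S q hq s hs w y H i j
    have h2 := s9_tS_le hk q hq s hs i j
    have h3 : 1 / (pn k : ℝ) ^ 3 ≤ 1 / (2 * pK k) := by
      apply one_div_le_one_div_of_le (by (clear * - hK; positivity))
      calc 2 * (pK k : ℝ) ≤ pK k * pK k := by nlinarith only [hK]
        _ = (pK k : ℝ) ^ 2 := by ring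
        _ ≤ pn k := hnK
        _ ≤ (pn k : ℝ) ^ 3 := le_self_pow₀ hn1 (by norm_num)
    have h4 : 1 / ((pn k : ℝ) ^ 2 * (pK k : ℝ) ^ 126) ≤ 1 / (2 * pK k) := by
      apply one_div_le_one_div_of_le (by (clear * - hK; positivity))
      calc 2 * (pK k : ℝ) ≤ pK k * pK k := by nlinarith only [hK]
        _ = 1 * (pK k : ℝ) ^ 2 := by ring
        _ ≤ (pn k : ℝ) ^ 2 * (pK k : ℝ) ^ 126 := by
          apply mul_le_mul (one_le_pow₀ hn1)
            (pow_le_pow_right₀ (by linarith only [hK]) (by norm_num)) (by positivity) (by (clear * - hn1; positivity))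
    have h5 : (1 : ℝ) / pK k = 1 / (2 * pK k) + 1 / (2 * pK k) := by
      field_simp
      norm_num
    rw [h5]
    rw [abs_le] at *
    constructor <;> linarith [h1.1, h1.2, h2.1, h2.2]
  have hpt : ∀ i j : Fin (pK k), (if i = j then eps0 S else 0) * x i * x j -
      1 / (2 * pK k) * (x i ^ 2 + x j ^ 2) ≤
        hS S (fun β => (w β : ℝ)) y (Sum.inl i) (Sum.inl j) * x i * x j := by
    intro i j
    have h1 := hsmall i j
    set d := hS S (fun β => (w β : ℝ)) y (Sum.inl i) (Sum.inl j) - (if i = j then eps0 S else 0)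
      with hd
    have h2 : |d * (x i * x j)| ≤ 1 / pK k * ((x i ^ 2 + x j ^ 2) / 2) := by
      rw [abs_mul]
      refine mul_le_mul h1 ?_ (abs_nonneg _) (by (clear * - hK; positivity))
      rw [abs_mul]
      linarith only [sq_nonneg (|x i| - |x j|), sq_abs (x i), sq_abs (x j)]
    have h3 := (abs_le.1 h2).1
    have e : hS S (fun β => (w β : ℝ)) y (Sum.inl i) (Sum.inl j) =
        d + (if i = j then eps0 S else 0) := by rw [hd]; ring
    rw [e]
    have e2 : 1 / (pK k : ℝ) * ((x i ^ 2 + x j ^ 2) / 2) =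
        1 / (2 * pK k) * (x i ^ 2 + x j ^ 2) := by
      (clear * - hK; field_simp)
    rw [e2] at h3
    linarith only [h3]
  refine le_trans (le_of_eq ?_)
    (Finset.sum_le_sum fun i _ => Finset.sum_le_sum fun j _ => hpt i j)
  simp only [Finset.sum_sub_distrib, ← Finset.mul_sum, Finset.sum_add_distrib,
    Finset.sum_const, Finset.card_univ, Fintype.card_fin, nsmul_eq_mul]
  have e1 : ∀ i : Fin (pK k), ∑ j, (if i = j then eps0 S else 0) * x i * x j =
      eps0 S * x i ^ 2 := by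
    intro i
    rw [Finset.sum_eq_single i (fun j _ hj => by rw [if_neg (Ne.symm hj)]; ring)
      (fun h => absurd (Finset.mem_univ _) h), if_pos rfl]
    ring
  simp only [e1, ← Finset.mul_sum]
  field_simp
  ring

/-- lower bound of the finite dimensional problem -/
theorem fin_lower (hk : 10 ≤ k) (S : SiteB k C R) (q : ℕ → ℕ) (hq : GoodQ k q)
    (s : ℕ → ℕ → ℕ) (hs : GoodS k q s) (w : Fin (pD k * pD k) → ℕ)
    (y : Fin (pD k * pD k) → R3) (H : Approx k q s w y)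
    (c : Tens (2 * Fintype.card C + pK k) ((C ⊕ (Fin (pK k) ⊕ R)) × Fin 2)) (hc : IsAnti c)
    (hg : Good c) :
    (cc0 S + mottBase (wS k) (eps0 S) - heisMax (coupl (kap k q) s (K := pK k)) -
        2 * pJ k / (pK k : ℝ) ^ 9) * nsq c ≤
      enT (nucM S.B.χ (fun β => (w β : ℝ)) y) (coulM S.B.χ) c := by
  have hK := s9_K hk
  have hK0 : (0 : ℝ) < pK k := by linarith only [hK]
  have hn1 : (1024 : ℝ) ≤ pn k := by
    rw [s9_n]
    exact hK.trans (le_self_pow₀ (by linarith only [hK]) (by norm_num))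
  have hn0 : (0 : ℝ) < pn k := by linarith only [hn1]
  have hKn : (pK k : ℝ) ≤ pn k := by
    rw [s9_n]
    exact le_self_pow₀ (by linarith only [hK]) (by norm_num)
  obtain ⟨d, hd, hdn, hde⟩ := closed_elim rfl (nucM S.B.χ (fun β => (w β : ℝ)) y)
    (coulM S.B.χ) (s9_vsym1 S) (s9_vsym2 S) c hc hg
  obtain ⟨w1, HM⟩ := mottHyp_sites hk S q hq s hs w y H
  have hmax : heisMax (mottJ (wS k) (tS k q s) (wdir (pn k) 0)) =
      heisMax (coupl (kap k q) s (K := pK k)) :=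
    heisMax_congr _ _ fun i j hij => mottJ_sites hk q hq s i j hij
  have hmax0 : 0 ≤ heisMax (coupl (kap k q) s (K := pK k)) := by
    refine Mott.heisMax_nonneg fun i j hij => ?_
    rw [← mottJ_sites hk q hq s i j hij]
    unfold mottJ
    have hd1 : 1 ≤ ((j : ℕ) - (i : ℕ)) := by
      have : (i : ℕ) < j := hij
      omega
    have hg := (gap_bounds k hk ((j : ℕ) - (i : ℕ)) hd1 (by omega)).1
    have e : wS k i j = wdir (pn k) (Real.pi * ((j - i : ℕ) : ℕ) / pK k) := by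
      rw [s9_wS_symm hk]
      unfold wS pα
      congr 1
      rw [Nat.cast_sub (by exact_mod_cast hij.le)]
      ring
    rw [e]
    refine div_nonneg (by (clear * -; (clear * -; positivity))) (le_trans (by (clear * - hK hn1; (clear * - hK hn1; positivity))) hg)
  set er : ℝ := 8 * (pK k : ℝ) ^ 4 * ((1 / ((pn k : ℝ) ^ 2 * (pK k : ℝ) ^ 126)) ^ 3 /
        (1 / (2 ^ 31 * (pK k : ℝ) ^ 2 * (pn k : ℝ) ^ 2)) ^ 2 +
      1 / ((pn k : ℝ) ^ 2 * (pK k : ℝ) ^ 500)) with her
  have her1 : er ≤ pJ k / (pK k : ℝ) ^ 9 := mott_error_small hk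
  have her0 : 0 ≤ er := by (clear * - hK hn1; (clear * - hK hn1; positivity))
  set μ : ℝ := mottBase (wS k) (eps0 S) - heisMax (coupl (kap k q) s (K := pK k)) - er with hμdef
  set η : ℝ := 1 / 2 ^ (pe0 k / 4) with hη
  set β : ℝ := 4 * (Fintype.card (C ⊕ (Fin (pK k) ⊕ R)) : ℝ) with hβ
  have hη0 : 0 < η := by positivity
  have hη1 : η ≤ 1 := by
    rw [hη, div_le_one (by positivity)]
    exact one_le_pow₀ (by norm_num)
  have hβ0 : 0 ≤ β := by (clear * -; positivity)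
  have hβ1 : β ≤ (pn k : ℝ) ^ 4 := s9_card hk S
  have hgap := s9_gap hk
  have h2pos : (1 : ℝ) ≤ 2 ^ (pe0 k / 4) := one_le_pow₀ (by norm_num)
  have hG0 : 0 ≤ Lam k / 2 := le_trans (by (clear * - hn1; positivity)) hgap
  have hlow := open_lower (hS S (fun β => (w β : ℝ)) y) (vS S) (eps0 S) 1 η (Lam k / 2) β η μ
    hη0.le zero_le_one hβ0 hG0 hη0 hη1 (hS_symm S _ y)
    (fun p a q b => s9_vsym1 S _ _ _ _) (fun p a q b => s9_vsym2 S _ _ _ _)
    (s9_vpos S) (s9_vle S) (hS_gap hk S q hq s hs w y H)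
    (s9_hS_low hk S q hq s hs w y H)
    (fun d' hd' => by
      have := mott_lower HM d' hd'
      rw [hmax] at this
      exact this)
    (by
      have h1 := s9_base_le hk (eps0 S)
      have h2 : (pK k : ℝ) ^ 2 * β / η ≤ (pn k : ℝ) ^ 7 * 2 ^ (pe0 k / 4) := by
        rw [hη, div_div_eq_mul_div, div_one]
        apply mul_le_mul_of_nonneg_right _ (by positivity)
        calc (pK k : ℝ) ^ 2 * β ≤ (pn k : ℝ) ^ 2 * (pn k : ℝ) ^ 4 := by (clear * - hK hKn hβ1 hn1; gcongr)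
          _ = (pn k : ℝ) ^ 6 := by ring
          _ ≤ (pn k : ℝ) ^ 7 := pow_le_pow_right₀ (by linarith only [hn1]) (by norm_num)
      have h3 : (pn k : ℝ) ^ 2 ≤ (pn k : ℝ) ^ 7 * 2 ^ (pe0 k / 4) := by
        calc (pn k : ℝ) ^ 2 ≤ (pn k : ℝ) ^ 7 := pow_le_pow_right₀ (by linarith only [hn1]) (by norm_num)
          _ = (pn k : ℝ) ^ 7 * 1 := by ring
          _ ≤ _ := by (clear * - h2pos hn1; gcongr)
      have h4 : (pK k : ℝ) ^ 2 ≤ (pn k : ℝ) ^ 2 := by (clear * - hK hKn; gcongr)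
      have h5 : (pK k : ℝ) * (1 + η) ≤ 2 * (pn k : ℝ) ^ 2 := by
        calc (pK k : ℝ) * (1 + η) ≤ pn k * 2 := by
              apply mul_le_mul hKn (by linarith only [hη1]) (by positivity) hn0.le
          _ ≤ _ := by nlinarith only [hn1]
      linarith only [hmax0, her0, hgap, hG0, h1, h2, h3, h4, h5])
    d hd
  have hcl := (abs_le.1 (closedC_near hk S q hq s hs w y H)).1
  have hnn : 0 ≤ nsq d := Finset.sum_nonneg fun I _ => by (clear * -; positivity)
  have hη2 : η * pK k + η * (pK k : ℝ) ^ 2 * β ≤ 2 * (1 / (pn k : ℝ) ^ 3) := by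
    have h1 := pn_pow_le k hk 9 (by norm_num)
    have h2 : (2 : ℝ) ^ (pe0 k / 64) ≤ 2 ^ (pe0 k / 4) :=
      pow_le_pow_right₀ (by norm_num) (by (clear * -; omega))
    have h3 : η * (pn k : ℝ) ^ 6 ≤ 1 / (pn k : ℝ) ^ 3 := by
      rw [hη, one_div_mul_eq_div, div_le_div_iff₀ (by positivity) (by (clear * - hn1; (clear * - hn1; positivity)))]
      calc (pn k : ℝ) ^ 6 * (pn k : ℝ) ^ 3 = (pn k : ℝ) ^ 9 := by ring
        _ ≤ 2 ^ (pe0 k / 64) := h1
        _ ≤ 2 ^ (pe0 k / 4) := h2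
        _ = _ := (one_mul _).symm
    have h4 : η * pK k ≤ η * (pn k : ℝ) ^ 6 := by
      apply mul_le_mul_of_nonneg_left _ hη0.le
      exact hKn.trans (le_self_pow₀ (by linarith only [hn1]) (by norm_num))
    have h5 : η * (pK k : ℝ) ^ 2 * β ≤ η * (pn k : ℝ) ^ 6 := by
      calc η * (pK k : ℝ) ^ 2 * β ≤ η * (pn k : ℝ) ^ 2 * (pn k : ℝ) ^ 4 := by (clear * - hK hKn hβ1 hn1; gcongr)
        _ = _ := by ring
    linarith only [h3, h4, h5]
  have hin := s9_inv_n hk
  have hfin : cc0 S + mottBase (wS k) (eps0 S) - heisMax (coupl (kap k q) s (K := pK k)) -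
      2 * pJ k / (pK k : ℝ) ^ 9 ≤
      closedC (nucM S.B.χ (fun β => (w β : ℝ)) y) (coulM S.B.χ) +
        (μ - η * pK k - η * (pK k : ℝ) ^ 2 * β) := by
    have e : 2 * pJ k / (pK k : ℝ) ^ 9 = 2 * (pJ k / (pK k : ℝ) ^ 9) := by ring
    rw [e, hμdef]
    linarith only [her1, her0, hcl, hη2, hin]
  have hfin2 := mul_le_mul_of_nonneg_right hfin hnn
  rw [hde, ← hdn]
  refine hfin2.trans ?_
  rw [add_mul]
  exact add_le_add le_rfl hlow

/-- upper bound of the finite dimensional problem -/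
theorem fin_upper (hk : 10 ≤ k) (S : SiteB k C R) (q : ℕ → ℕ) (hq : GoodQ k q)
    (s : ℕ → ℕ → ℕ) (hs : GoodS k q s) (w : Fin (pD k * pD k) → ℕ)
    (y : Fin (pD k * pD k) → R3) (H : Approx k q s w y) :
    ∃ c : Tens (2 * Fintype.card C + pK k) ((C ⊕ (Fin (pK k) ⊕ R)) × Fin 2), IsAnti c ∧ Good c ∧
      nsq c = 1 ∧ enT (nucM S.B.χ (fun β => (w β : ℝ)) y) (coulM S.B.χ) c ≤
        cc0 S + mottBase (wS k) (eps0 S) - heisMax (coupl (kap k q) s (K := pK k)) +
          2 * pJ k / (pK k : ℝ) ^ 9 := by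
  obtain ⟨w1, HM⟩ := mottHyp_sites hk S q hq s hs w y H
  have hmax : heisMax (mottJ (wS k) (tS k q s) (wdir (pn k) 0)) =
      heisMax (coupl (kap k q) s (K := pK k)) :=
    heisMax_congr _ _ fun i j hij => mottJ_sites hk q hq s i j hij
  obtain ⟨c0, hc0, hc1, hc2⟩ := mott_upper HM
  rw [hmax] at hc2
  obtain ⟨d, hd, hd1, hd2⟩ := open_upper (hS S (fun β => (w β : ℝ)) y) (vS S) c0 hc0
  obtain ⟨c, hc, hg, hcn, hce⟩ := closed_elim' rfl (nucM S.B.χ (fun β => (w β : ℝ)) y)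
    (coulM S.B.χ) (s9_vsym1 S) (s9_vsym2 S) d hd
  have hcl := (abs_le.1 (closedC_near hk S q hq s hs w y H)).2
  have her1 := mott_error_small hk
  have hin := s9_inv_n hk
  have hpos : 0 ≤ 1 / (pn k : ℝ) ^ 3 := by (clear * -; (clear * -; positivity))
  refine ⟨c, hc, hg, by rw [hcn, hd1, hc1], ?_⟩
  rw [hce, hd1, hc1, mul_one]
  have e : 2 * pJ k / (pK k : ℝ) ^ 9 = 2 * (pJ k / (pK k : ℝ) ^ 9) := by ring
  have h3 : enT (closedF (nucM S.B.χ (fun β => (w β : ℝ)) y) (coulM S.B.χ))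
      (fun p a q b => coulM S.B.χ (Sum.inr p) (Sum.inr a) (Sum.inr q) (Sum.inr b)) d =
      enT (hS S (fun β => (w β : ℝ)) y) (vS S) d := rfl
  rw [h3, hd2, e]
  linarith only [hc2, hcl, her1, hin, hpos]

end Vale.Agent.P370.Q
end
end

section

section

/-!
KC13: the explicit constants approximate the constants of the structure theorem.
-/

namespace Vale.Agent.P370.KC

open Finset MeasureTheory Vale.Agent.P370.Q

/-- admissible approximations of the cosines -/
def GoodX (k : ℕ) (x : ℕ → ℝ) : Prop :=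
  ∀ d, d < pK k → 0 ≤ x d ∧ x d ≤ 1 ∧
    |x d - Real.cos (Real.pi * d / (2 * pK k))| ≤ 1 / 2 ^ (pn k ^ 2)

/-! ### numbers -/

theorem e13_sq_ge (k : ℕ) (hk : 10 ≤ k) : 1024 * pn k ≤ pn k ^ 2 := by
  have h := pn_ge k hk
  rw [sq]
  exact Nat.mul_le_mul_right _ h

theorem e13_cube_ge (k : ℕ) (hk : 10 ≤ k) : 1024 * pn k ^ 2 ≤ pn k ^ 3 := by
  have h := pn_ge k hk
  rw [pow_succ (pn k) 2, mul_comm]
  exact Nat.mul_le_mul_left _ h

theorem e13_sqrt (k : ℕ) : √(pn k : ℝ) = (pK k : ℝ) ^ 1024 := by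
  rw [S4.n_eq, show 2048 = 1024 * 2 from rfl, pow_mul, Real.sqrt_sq (by positivity)]

/-- the accuracy -/
theorem e13_acc (k : ℕ) : pJ k / (pK k : ℝ) ^ 8 = 1 / ((pn k : ℝ) ^ 2 * (pK k : ℝ) ^ 264) := by
  unfold pJ
  rw [div_div]
  congr 1
  ring

theorem e13_small (k : ℕ) (hk : 10 ≤ k) : 1 / 2 ^ pn k ≤ pJ k / (pK k : ℝ) ^ 8 / 16 := by
  have hK := S4.K_ge k hk
  have hn := S4.n_ge k hk
  have hn1 := S4.n_one_le k hk
  have hKn := S4.Kpow_le_n k hk 264 (by norm_num)
  have h4 := S4.npow_le k hk 4 (by norm_num)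
  rw [e13_acc, div_div, div_le_div_iff₀ (by positivity) (by (clear * - hn hK; positivity)), one_mul, one_mul]
  calc (pn k : ℝ) ^ 2 * (pK k : ℝ) ^ 264 * 16 ≤ (pn k : ℝ) ^ 2 * pn k * pn k := by
        gcongr
        linarith only [hn]
    _ = (pn k : ℝ) ^ 4 := by ring
    _ ≤ 2 ^ pn k := h4

/-- the errors of the direct integrals are negligible -/
theorem e13_wd (k : ℕ) (hk : 10 ≤ k) :
    2 / ((pn k : ℝ) ^ 2 * √(pn k : ℝ)) + 2 ^ (16 * pn k) * (4 * (1 / 2 ^ (pn k ^ 2))) ≤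
      3 / ((pn k : ℝ) ^ 2 * (pK k : ℝ) ^ 1024) := by
  have hK := S4.K_ge k hk
  have hn1 := S4.n_one_le k hk
  have hKn := S4.Kpow_le_n k hk 1024 (by norm_num)
  have hsq := e13_sq_ge k hk
  have h3 := S4.npow_le k hk 3 (by norm_num)
  rw [e13_sqrt]
  have h1 : 2 ^ (16 * pn k) * (4 * (1 / 2 ^ (pn k ^ 2))) ≤
      1 / ((pn k : ℝ) ^ 2 * (pK k : ℝ) ^ 1024) := by
    have e : (2 : ℝ) ^ (16 * pn k) * (4 * (1 / 2 ^ (pn k ^ 2))) =
        2 ^ (16 * pn k + 2) / 2 ^ (pn k ^ 2) := by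
      rw [pow_add]
      ring
    rw [e, div_le_div_iff₀ (by positivity) (by (clear * - hn1 hK; positivity)), one_mul]
    calc (2 : ℝ) ^ (16 * pn k + 2) * ((pn k : ℝ) ^ 2 * (pK k : ℝ) ^ 1024)
        ≤ 2 ^ (16 * pn k + 2) * ((pn k : ℝ) ^ 2 * pn k) := by (clear * - hKn hn1; gcongr)
      _ = 2 ^ (16 * pn k + 2) * (pn k : ℝ) ^ 3 := by ring
      _ ≤ 2 ^ (16 * pn k + 2) * 2 ^ pn k := by gcongr
      _ = 2 ^ (17 * pn k + 2) := by rw [← pow_add]; ring_nf
      _ ≤ 2 ^ (pn k ^ 2) := two_pow_mono (by have := pn_ge k hk; (clear * - hsq this; omega))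
  calc _ ≤ 2 / ((pn k : ℝ) ^ 2 * (pK k : ℝ) ^ 1024) + 1 / ((pn k : ℝ) ^ 2 * (pK k : ℝ) ^ 1024) :=
        add_le_add le_rfl h1
    _ = _ := by ring

/-- a direct Coulomb integral from the approximate cosine -/
theorem e13_wdir (k : ℕ) (hk : 10 ≤ k) (x : ℕ → ℝ) (hx : GoodX k x) (d : ℕ) (hd : d < pK k) :
    |wdir (pn k) (Real.pi * d / pK k) - W0 (pn k) (2 * x d ^ 2 - 1)| ≤
      3 / ((pn k : ℝ) ^ 2 * (pK k : ℝ) ^ 1024) := by
  obtain ⟨h0, h1, h2⟩ := hx d hd
  have hn2 := S4.two_le_pn k hk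
  have hK := S4.K_ge k hk
  have hK0 : (0 : ℝ) < pK k := by linarith only [hK]
  set c := Real.cos (Real.pi * d / (2 * pK k)) with hc
  have hcos : Real.cos (Real.pi * d / pK k) = 2 * c ^ 2 - 1 := by
    rw [hc, ← Real.cos_two_mul]
    congr 1
    field_simp
  have hc1 : |c| ≤ 1 := Real.abs_cos_le_one _
  have hcm : 2 * c ^ 2 - 1 ∈ Set.Icc (-1 : ℝ) 1 := by
    have := abs_le.1 hc1
    constructor <;> nlinarith only [this]
  have hxm : 2 * x d ^ 2 - 1 ∈ Set.Icc (-1 : ℝ) 1 := by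
    constructor <;> nlinarith [sq_nonneg (x d)]
  have h3 := wdir_near (pn k) hn2 (Real.pi * d / pK k)
  rw [hcos] at h3
  have h4 := W0_lip (pn k) hn2 _ _ hcm hxm
  have h5 : |2 * c ^ 2 - 1 - (2 * x d ^ 2 - 1)| ≤ 4 * (1 / 2 ^ (pn k ^ 2)) := by
    have e : 2 * c ^ 2 - 1 - (2 * x d ^ 2 - 1) = -((x d - c) * (2 * (x d + c))) := by ring
    rw [e, abs_neg, abs_mul]
    have h6 : |2 * (x d + c)| ≤ 4 := by
      have := abs_le.1 hc1
      rw [abs_le]
      constructor <;> linarith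
    calc |x d - c| * |2 * (x d + c)| ≤ 1 / 2 ^ (pn k ^ 2) * 4 := by gcongr
      _ = _ := by ring
  have h6 : |W0 (pn k) (2 * c ^ 2 - 1) - W0 (pn k) (2 * x d ^ 2 - 1)| ≤
      2 ^ (16 * pn k) * (4 * (1 / 2 ^ (pn k ^ 2))) :=
    h4.trans (mul_le_mul_of_nonneg_left h5 (by positivity))
  calc |wdir (pn k) (Real.pi * d / pK k) - W0 (pn k) (2 * x d ^ 2 - 1)|
      ≤ |wdir (pn k) (Real.pi * d / pK k) - W0 (pn k) (2 * c ^ 2 - 1)| +
        |W0 (pn k) (2 * c ^ 2 - 1) - W0 (pn k) (2 * x d ^ 2 - 1)| := abs_sub_le _ _ _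
    _ ≤ _ := (add_le_add h3 h6).trans (e13_wd k hk)

/-! ### exchange couplings -/

theorem ratio_close {u u' G G' ε : ℝ} (hu : 0 < u) (hG : 0 < G) (hε0 : 0 ≤ ε) (hε : ε ≤ 1 / 8)
    (h1 : |u' - u| ≤ ε * u) (h2 : |G' - G| ≤ ε * G) :
    |2 * u' ^ 2 / G' - 2 * u ^ 2 / G| ≤ 8 * ε * (2 * u ^ 2 / G) := by
  have hG' : 7 / 8 * G ≤ G' := by
    have := (abs_le.1 h2).1
    linarith only [mul_nonneg_of_nonpos_of_nonpos (le_of_lt (Mathlib.Tactic.Linarith.sub_neg_of_lt hG)) (Mathlib.Tactic.Linarith.sub_nonpos_of_le hε), this]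
  have hG'0 : 0 < G' := by linarith only [hG, hG']
  have h3 : |u' ^ 2 - u ^ 2| ≤ 17 / 8 * ε * u ^ 2 := by
    have e : u' ^ 2 - u ^ 2 = (u' - u) * (u' - u + 2 * u) := by ring
    rw [e, abs_mul]
    have h4 : |u' - u + 2 * u| ≤ 17 / 8 * u := by
      refine (abs_add_le _ _).trans ?_
      rw [abs_of_pos (by linarith only [hu] : 0 < 2 * u)]
      nlinarith only [h1, hu, hε]
    calc |u' - u| * |u' - u + 2 * u| ≤ ε * u * (17 / 8 * u) := by gcongr
      _ = _ := by ring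
  have h4 : |u' ^ 2 * G - u ^ 2 * G'| ≤ 4 * ε * u ^ 2 * G' := by
    have e : u' ^ 2 * G - u ^ 2 * G' = (u' ^ 2 - u ^ 2) * G - u ^ 2 * (G' - G) := by ring
    rw [e]
    refine (abs_sub _ _).trans ?_
    rw [abs_mul, abs_mul, abs_of_pos hG, abs_of_nonneg (sq_nonneg u)]
    calc |u' ^ 2 - u ^ 2| * G + u ^ 2 * |G' - G| ≤ 17 / 8 * ε * u ^ 2 * G + u ^ 2 * (ε * G) := by
          gcongr
      _ = 25 / 8 * (ε * u ^ 2) * G := by ring
      _ ≤ 25 / 8 * (ε * u ^ 2) * (8 / 7 * G') := by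
          have : 0 ≤ ε * u ^ 2 := by positivity
          gcongr
          linarith only [hG']
      _ ≤ 4 * ε * u ^ 2 * G' := by
          have : 0 ≤ ε * u ^ 2 * G' := by (clear * - hε0 hu hG'0; positivity)
          linarith only [this]
  have e : 2 * u' ^ 2 / G' - 2 * u ^ 2 / G = 2 * (u' ^ 2 * G - u ^ 2 * G') / (G' * G) := by
    (clear * - hG hG'0; field_simp)
  rw [e, abs_div, abs_mul, abs_of_pos (by norm_num : (0 : ℝ) < 2), abs_of_pos (mul_pos hG'0 hG),
    div_le_iff₀ (mul_pos hG'0 hG)]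
  have e2 : 8 * ε * (2 * u ^ 2 / G) * (G' * G) = 16 * ε * u ^ 2 * G' := by
    have e3 : 2 * u ^ 2 / G * G = 2 * u ^ 2 := div_mul_cancel₀ _ hG.ne'
    calc 8 * ε * (2 * u ^ 2 / G) * (G' * G) = 8 * ε * (2 * u ^ 2 / G * G) * G' := by ring
      _ = 16 * ε * u ^ 2 * G' := by
        rw [e3]
        ring
  rw [e2]
  have : 0 ≤ ε * u ^ 2 * G' := by (clear * - hε0 hu hG'0; positivity)
  linarith only [h4, this]

theorem kap_close (k : ℕ) (hk : 10 ≤ k) (q : ℕ → ℕ) (hq : GoodQ k q) (d : ℕ) (hd1 : 1 ≤ d)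
    (hd2 : d < pK k) (x : ℕ → ℝ) (hx : GoodX k x) :
    |kapx k (q d) (x d) - kap k q d| ≤ kap k q d / (pK k : ℝ) ^ 8 := by
  have hqr := goodQ_range k hk q hq d hd1 hd2
  have hn1 := S4.n_one_le k hk
  have hK := S4.K_ge k hk
  have hK0 : (0 : ℝ) < pK k := by linarith only [hK]
  have hn0 : (0 : ℝ) < pn k := by linarith only [hn1]
  have hn2 := S4.two_le_pn k hk
  have hsq := e13_sq_ge k hk
  have hng := pn_ge k hk
  obtain ⟨ha1, ha2⟩ := amp_bounds k hk q hq d hd1 hd2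
  obtain ⟨hz1, hz2⟩ := zt_bounds k (2 * q d) hk (by omega) (by omega)
  have hz3 := zt_near k (2 * q d) hk (by (clear * - hqr; omega)) (by omega)
  obtain ⟨hg1, hg2⟩ := gap_bounds k hk d hd1 hd2
  obtain ⟨hx0, hx1, hx2⟩ := hx d hd2
  have hamp := amp_eq k q d (by omega)
  have hη : 0 < pη k := by unfold pη; positivity
  have ha0 : 0 < amp k q d := lt_of_lt_of_le (by (clear * - hn2; positivity)) ha1
  have hz0 : 0 < zt k (2 * q d) := by linarith only [hz1]
  have hG0 : 0 < wdir (pn k) 0 - wdir (pn k) (Real.pi * d / pK k) :=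
    lt_of_lt_of_le (by (clear * - hK hn2; positivity)) hg1
  -- the amplitudes
  set c := Real.cos (Real.pi * d / (2 * pK k)) with hc
  have hdr : (d : ℝ) < pK k := by exact_mod_cast hd2
  have hcm : c ∈ Set.Icc (0 : ℝ) 1 := by
    refine ⟨Real.cos_nonneg_of_mem_Icc ⟨?_, ?_⟩, Real.cos_le_one _⟩
    · have : 0 ≤ Real.pi * d / (2 * pK k) := by (clear * - hd1 hK; (clear * - hd1 hK; positivity))
      linarith only [this, Real.pi_pos]
    · rw [div_le_div_iff₀ (by (clear * - hK; positivity)) (by norm_num)]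
      nlinarith only [hdr, Real.pi_pos]
  have h1 := hopx_lip (pn k) (q d) hn2 (by (clear * - hqr hng; omega)) (x d) c ⟨hx0, hx1⟩ hcm
  rw [← hamp] at h1
  have h13 := S4.npow_le k hk 13 (by norm_num)
  have hKn := S4.Kpow_le_n k hk 9 (by norm_num)
  have h2 : |hopx (pn k) (q d) (x d) - amp k q d| ≤ 1 / (4 * (pK k : ℝ) ^ 9) * amp k q d := by
    calc |hopx (pn k) (q d) (x d) - amp k q d| ≤ 2 ^ (8 * pn k) * (1 / 2 ^ (pn k ^ 2)) :=
          h1.trans (mul_le_mul_of_nonneg_left hx2 (by positivity))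
      _ = 2 ^ (8 * pn k) / 2 ^ (pn k ^ 2) := by ring
      _ ≤ 1 / (4 * (pK k : ℝ) ^ 9) * (1 / (64 * (pn k : ℝ) ^ 4)) := by
          rw [one_div_mul_one_div, div_le_div_iff₀ (by positivity) (by (clear * - hK hn2; positivity)), one_mul]
          calc (2 : ℝ) ^ (8 * pn k) * (4 * (pK k : ℝ) ^ 9 * (64 * (pn k : ℝ) ^ 4))
              ≤ 2 ^ (8 * pn k) * (4 * (pn k : ℝ) * (64 * (pn k : ℝ) ^ 4)) := by (clear * - hKn hn2; gcongr)
            _ = 2 ^ (8 * pn k) * (2 ^ 8 * (pn k : ℝ) ^ 5) := by ring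
            _ ≤ 2 ^ (8 * pn k) * (2 ^ 8 * 2 ^ pn k) := by
                have h5 := S4.npow_le k hk 5 (by norm_num)
                (clear * - h5; gcongr)
            _ = 2 ^ (9 * pn k + 8) := by rw [← pow_add, ← pow_add]; ring_nf
            _ ≤ 2 ^ (pn k ^ 2) := two_pow_mono (by (clear * - hsq hng; omega))
      _ ≤ 1 / (4 * (pK k : ℝ) ^ 9) * amp k q d := by (clear * - ha1 hK; gcongr)
  have h3 : |zt k (2 * q d) - 1| ≤ 1 / (4 * (pK k : ℝ) ^ 9) := by
    refine hz3.trans ?_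
    rw [div_le_div_iff₀ (by positivity) (by (clear * - hK; positivity)), one_mul, one_mul]
    calc 4 * (pK k : ℝ) ^ 9 ≤ 4 * (pn k : ℝ) := by (clear * - hKn; gcongr)
      _ ≤ 2 ^ 2 * 2 ^ pn k := by
          have := pn_le_two_pow k
          norm_num
          linarith only [this]
      _ = 2 ^ (pn k + 2) := by rw [pow_add]; ring
      _ ≤ 2 ^ (16 * pn k ^ 2) := two_pow_mono (by omega)
  have hu : |pη k * hopx (pn k) (q d) (x d) - pη k * zt k (2 * q d) * amp k q d| ≤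
      1 / (pK k : ℝ) ^ 9 * (pη k * zt k (2 * q d) * amp k q d) := by
    have e : pη k * hopx (pn k) (q d) (x d) - pη k * zt k (2 * q d) * amp k q d =
        pη k * ((hopx (pn k) (q d) (x d) - amp k q d) -
          (zt k (2 * q d) - 1) * amp k q d) := by ring
    rw [e, abs_mul, abs_of_pos hη]
    have h4 : |(hopx (pn k) (q d) (x d) - amp k q d) - (zt k (2 * q d) - 1) * amp k q d| ≤
        1 / (pK k : ℝ) ^ 9 * (zt k (2 * q d) * amp k q d) := by
      refine (abs_sub _ _).trans ?_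
      rw [abs_mul, abs_of_pos ha0]
      calc |hopx (pn k) (q d) (x d) - amp k q d| + |zt k (2 * q d) - 1| * amp k q d
          ≤ 1 / (4 * (pK k : ℝ) ^ 9) * amp k q d + 1 / (4 * (pK k : ℝ) ^ 9) * amp k q d := by
            (clear * - h2 h3 ha0; gcongr)
        _ = 1 / (pK k : ℝ) ^ 9 * (1 / 2 * amp k q d) := by
            field_simp
            norm_num
        _ ≤ 1 / (pK k : ℝ) ^ 9 * (zt k (2 * q d) * amp k q d) := by (clear * - hz1 ha0 hK; gcongr)
    calc pη k * |(hopx (pn k) (q d) (x d) - amp k q d) - (zt k (2 * q d) - 1) * amp k q d|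
        ≤ pη k * (1 / (pK k : ℝ) ^ 9 * (zt k (2 * q d) * amp k q d)) := by (clear * - h4 hη; gcongr)
      _ = _ := by ring
  -- the gaps
  have h5 := e13_wdir k hk x hx d hd2
  have h6 := wdir_near (pn k) hn2 0
  rw [Real.cos_zero] at h6
  have h7 : 2 / ((pn k : ℝ) ^ 2 * √(pn k : ℝ)) ≤ 3 / ((pn k : ℝ) ^ 2 * (pK k : ℝ) ^ 1024) := by
    refine le_trans ?_ (e13_wd k hk)
    have : (0 : ℝ) ≤ 2 ^ (16 * pn k) * (4 * (1 / 2 ^ (pn k ^ 2))) := by (clear * -; positivity)
    linarith only [this]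
  have hgap : |W0 (pn k) 1 - W0 (pn k) (2 * x d ^ 2 - 1) -
      (wdir (pn k) 0 - wdir (pn k) (Real.pi * d / pK k))| ≤
      1 / (pK k : ℝ) ^ 9 * (wdir (pn k) 0 - wdir (pn k) (Real.pi * d / pK k)) := by
    have e : W0 (pn k) 1 - W0 (pn k) (2 * x d ^ 2 - 1) -
        (wdir (pn k) 0 - wdir (pn k) (Real.pi * d / pK k)) =
        (wdir (pn k) (Real.pi * d / pK k) - W0 (pn k) (2 * x d ^ 2 - 1)) -
          (wdir (pn k) 0 - W0 (pn k) 1) := by ring
    rw [e]
    refine (abs_sub _ _).trans ?_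
    calc _ ≤ 3 / ((pn k : ℝ) ^ 2 * (pK k : ℝ) ^ 1024) + 3 / ((pn k : ℝ) ^ 2 * (pK k : ℝ) ^ 1024) :=
          add_le_add h5 (h6.trans h7)
      _ = 6 / ((pn k : ℝ) ^ 2 * (pK k : ℝ) ^ 1024) := by ring
      _ ≤ 1 / (pK k : ℝ) ^ 9 * (1 / (2 ^ 31 * (pK k : ℝ) ^ 2 * (pn k : ℝ) ^ 2)) := by
          rw [one_div_mul_one_div, div_le_div_iff₀ (by (clear * - hn2 hK; (clear * - hn2 hK; positivity))) (by (clear * - hK hn2; positivity)), one_mul]
          have h8 : (2 : ℝ) ^ 40 ≤ (pK k : ℝ) ^ 4 := by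
            calc (2 : ℝ) ^ 40 = 1024 ^ 4 := by norm_num
              _ ≤ (pK k : ℝ) ^ 4 := pow_le_pow_left₀ (by norm_num) hK 4
          calc 6 * ((pK k : ℝ) ^ 9 * (2 ^ 31 * (pK k : ℝ) ^ 2 * (pn k : ℝ) ^ 2))
              = (6 * 2 ^ 31) * ((pn k : ℝ) ^ 2 * (pK k : ℝ) ^ 11) := by ring
            _ ≤ (pK k : ℝ) ^ 4 * ((pn k : ℝ) ^ 2 * (pK k : ℝ) ^ 11) := by
                gcongr
                linarith only [h8]
            _ = (pn k : ℝ) ^ 2 * (pK k : ℝ) ^ 15 := by ring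
            _ ≤ (pn k : ℝ) ^ 2 * (pK k : ℝ) ^ 1024 := by
                gcongr
                · linarith only [hK]
                · norm_num
      _ ≤ _ := by (clear * - hg1 hK; gcongr)
  have hε : 1 / (pK k : ℝ) ^ 9 ≤ 1 / 8 := by
    apply one_div_le_one_div_of_le (by norm_num)
    have : (1024 : ℝ) ^ 1 ≤ (pK k : ℝ) ^ 9 := by
      calc (1024 : ℝ) ^ 1 ≤ (pK k : ℝ) ^ 1 := by simpa only [pow_one, Nat.ofNat_le_cast] using hK
        _ ≤ (pK k : ℝ) ^ 9 := pow_le_pow_right₀ (by linarith only [hK]) (by norm_num)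
    linarith only [this]
  have hmain := ratio_close (u := pη k * zt k (2 * q d) * amp k q d)
    (by (clear * - hη hz1 ha0; (clear * - hη hz1 ha0; positivity))) hG0 (by (clear * - hK; (clear * - hK; positivity))) hε hu hgap
  unfold kapx kap
  refine hmain.trans ?_
  have hkap : 0 ≤ 2 * (pη k * zt k (2 * q d) * amp k q d) ^ 2 /
      (wdir (pn k) 0 - wdir (pn k) (Real.pi * d / pK k)) := by (clear * - hη hz1 ha0 hG0; positivity)
  rw [div_eq_mul_inv _ ((pK k : ℝ) ^ 8), mul_comm]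
  refine mul_le_mul_of_nonneg_left ?_ hkap
  rw [mul_one_div, ← one_div, div_le_div_iff₀ (by (clear * - hK; positivity)) (by (clear * - hK; positivity)), one_mul]
  calc 8 * (pK k : ℝ) ^ 8 ≤ pK k * (pK k : ℝ) ^ 8 := by
        gcongr
        linarith only [hK]
    _ = (pK k : ℝ) ^ 9 := by ring

/-! ### the reference energy -/

theorem sum_pairs (f : ℕ → ℝ) (K : ℕ) :
    ∑ i ∈ range K, ∑ j ∈ range K, (if i < j then f (j - i) else 0) =
      ∑ d ∈ range K, if d = 0 then 0 else ((K : ℝ) - d) * f d := by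
  induction K with
  | zero => simp only [range_zero, sum_empty, sum_const_zero, CharP.cast_eq_zero, zero_sub, neg_mul]
  | succ K ih =>
    rw [sum_range_succ (fun i => ∑ j ∈ range (K + 1), (if i < j then f (j - i) else 0)) K,
      sum_range_succ (fun d => if d = 0 then (0 : ℝ) else (((K + 1 : ℕ) : ℝ) - d) * f d) K]
    have h1 : ∑ j ∈ range (K + 1), (if K < j then f (j - K) else 0) = 0 :=
      sum_eq_zero fun j hj => if_neg (by have := mem_range.1 hj; omega)
    have h2 : ∀ i ∈ range K, ∑ j ∈ range (K + 1), (if i < j then f (j - i) else 0) =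
        ∑ j ∈ range K, (if i < j then f (j - i) else 0) + f (K - i) := fun i hi => by
      rw [sum_range_succ, if_pos (mem_range.1 hi)]
    rw [h1, add_zero, sum_congr rfl h2, sum_add_distrib, ih]
    have h3 : ∑ i ∈ range K, f (K - i) = ∑ d ∈ range K, f (d + 1) := by
      rw [← sum_range_reflect]
      refine sum_congr rfl fun i hi => ?_
      have := mem_range.1 hi
      congr 1
      omega
    have h4 : ∀ d ∈ range K, (if d = 0 then (0 : ℝ) else (((K + 1 : ℕ) : ℝ) - d) * f d) =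
        (if d = 0 then 0 else ((K : ℝ) - d) * f d) + (if d = 0 then 0 else f d) := fun d _ => by
      split_ifs
      · simp
      · push_cast
        ring
    rw [sum_congr rfl h4, sum_add_distrib, add_assoc, h3]
    congr 1
    have h5 : (if K = 0 then (0 : ℝ) else (((K + 1 : ℕ) : ℝ) - (K : ℕ)) * f K) =
        if K = 0 then 0 else f K := by
      split_ifs
      · rfl
      · push_cast
        ring
    rw [h5, ← sum_range_succ (fun d => if d = 0 then (0 : ℝ) else f d) K, sum_range_succ']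
    simp only [Nat.add_eq_zero_iff, one_ne_zero, and_false, ↓reduceIte, add_zero]

theorem sum_wS (k : ℕ) (hk : 10 ≤ k) :
    ∑ i : Fin (pK k), ∑ j ∈ Ioi i, wS k i j =
      ∑ d ∈ range (pK k), if d = 0 then 0 else
        ((pK k : ℝ) - d) * wdir (pn k) (Real.pi * d / pK k) := by
  rw [← sum_pairs (fun d => wdir (pn k) (Real.pi * d / pK k)), ← Fin.sum_univ_eq_sum_range]
  refine sum_congr rfl fun i _ => ?_
  rw [← Fin.sum_univ_eq_sum_range (fun j => if (i : ℕ) < j then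
    (fun d : ℕ => wdir (pn k) (Real.pi * d / pK k)) (j - i) else 0)]
  rw [← sum_filter]
  have hfil : (Finset.univ.filter fun j : Fin (pK k) => (i : ℕ) < (j : ℕ)) = Ioi i := by
    ext j
    simp only [Fin.val_fin_lt, mem_filter, mem_univ, true_and, mem_Ioi]
  rw [hfil]
  refine sum_congr rfl fun j hj => ?_
  have hij : i < j := mem_Ioi.1 hj
  rw [s9_wS_symm hk]
  unfold wS pα
  congr 1
  rw [Nat.cast_sub (by exact_mod_cast hij.le)]
  ring

theorem eref_close (k : ℕ) (hk : 10 ≤ k) {C R : Type} [Fintype C] [DecidableEq C] [Fintype R]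
    [DecidableEq R] (S : SiteB k C R) (x : ℕ → ℝ) (hx : GoodX k x) :
    |Erefv S - erefx k x| ≤ pT k * pJ k / (pK k : ℝ) ^ 8 / 2 := by
  have hn1 := S4.n_one_le k hk
  have hK := S4.K_ge k hk
  have hK0 : (0 : ℝ) < pK k := by linarith only [hK]
  have hn0 : (0 : ℝ) < pn k := by linarith only [hn1]
  have hn2 := S4.two_le_pn k hk
  have hng := pn_ge k hk
  have hsq := e13_sq_ge k hk
  have hcu := e13_cube_ge k hk
  have hsm := e13_small k hk
  have hρ0 : 0 < pρ k := by unfold pρ; positivity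
  have hρ1 : pρ k ≤ 1 := by
    unfold pρ
    rw [div_le_one (by positivity)]
    exact one_le_pow₀ (by norm_num)
  have hW0 : 0 ≤ pW k := by unfold pW; positivity
  have hT0 : (0 : ℝ) ≤ pT k := Nat.cast_nonneg _
  have hL0 : 0 ≤ pL k := by unfold pL; positivity
  have hL1 : pL k ≤ 2 ^ pn k := by
    unfold pL
    exact pow_le_pow_right₀ (by norm_num) (Nat.div_le_self _ _)
  have hKn : (pK k : ℝ) ≤ pn k := by
    have := S4.Kpow_le_n k hk 1 (by norm_num)
    rwa [pow_one] at this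
  -- truncation factor
  have htr : pW k * (8 * (2 * pρ k) ^ pNs k) ≤ 1 / 2 ^ (300 * pn k ^ 3) := by
    have e1 : (2 * pρ k) ^ pNs k ≤ 1 / 2 ^ (480 * pn k ^ 3) := by
      have h1 : 2 * pρ k ≤ 1 / 2 ^ (15 * pn k ^ 2) := by
        unfold pρ
        rw [mul_one_div, div_le_div_iff₀ (by positivity) (by positivity), one_mul]
        calc 2 * (2 : ℝ) ^ (15 * pn k ^ 2) = 2 ^ (15 * pn k ^ 2 + 1) := by rw [pow_succ]; ring
          _ ≤ 2 ^ (16 * pn k ^ 2) := two_pow_mono (by omega)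
      calc (2 * pρ k) ^ pNs k ≤ (1 / 2 ^ (15 * pn k ^ 2)) ^ pNs k :=
            pow_le_pow_left₀ (by (clear * - hρ0; positivity)) h1 _
        _ = 1 / 2 ^ (480 * pn k ^ 3) := by
            rw [one_div_pow, ← pow_mul]
            unfold pNs
            congr 2
            ring
    calc pW k * (8 * (2 * pρ k) ^ pNs k) ≤ 2 ^ (128 * pn k ^ 3) *
          (8 * (1 / 2 ^ (480 * pn k ^ 3))) := by
          unfold pW
          (clear * - e1; gcongr)
      _ = 2 ^ (128 * pn k ^ 3 + 3) / 2 ^ (480 * pn k ^ 3) := by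
          rw [pow_add]
          ring
      _ ≤ 1 / 2 ^ (300 * pn k ^ 3) := by
          rw [div_le_div_iff₀ (by positivity) (by positivity), one_mul, ← pow_add]
          exact two_pow_mono (by omega)
  -- 1: one-body energy of the closed shells
  have hnode : ‖pρ k • node (pD k) 0 0‖ = pρ k := by
    rw [norm_smul, s8_norm_node, mul_one, Real.norm_of_nonneg hρ0.le]
  have hy0 : pρ k • node (pD k) 0 0 ≠ 0 := by
    rw [← norm_ne_zero_iff, hnode]
    exact hρ0.ne'
  have hgm := gm_closed S.B S.hC S.hO (pρ k • node (pD k) 0 0) hy0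
  rw [hnode] at hgm
  have hgmb : |∑ c : C, gm (pρ k • node (pD k) 0 0) (S.B.χ (Sum.inl c)) (S.B.χ (Sum.inl c))| ≤
      (pn k : ℝ) ^ 3 * 16 := by
    have hcard : (Fintype.card C : ℝ) ≤ (pn k : ℝ) ^ 3 := by
      exact_mod_cast (S.card hk).2.1
    refine (abs_sum_le_sum_abs _ _).trans ?_
    have : ∀ c ∈ (univ : Finset C),
        |gm (pρ k • node (pD k) 0 0) (S.B.χ (Sum.inl c)) (S.B.χ (Sum.inl c))| ≤ 16 := by
      intro c _
      have hone : ov (S.B.χ (Sum.inl c)) (S.B.χ (Sum.inl c)) = 1 := by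
        rw [S.B.ortho]; simp
      have h := gm_bound (S.B.lev_pos (Sum.inl c)) (S.B.lev_pos (Sum.inl c))
        (S.B.mem (Sum.inl c)) (S.B.mem (Sum.inl c)) (pρ k • node (pD k) 0 0)
      rw [hone, mul_one, Real.sqrt_one, mul_one, hnode] at h
      linarith only [hρ1, h]
    refine (sum_le_sum this).trans ?_
    rw [sum_const, card_univ, nsmul_eq_mul]
    (clear * - hcard; gcongr)
  have hp1 : |pW k * gms (pNs k) (pn k) (pρ k) - pW k *
      ∑ c : C, gm (pρ k • node (pD k) 0 0) (S.B.χ (Sum.inl c)) (S.B.χ (Sum.inl c))| ≤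
      1 / 2 ^ (2 * pn k) := by
    have h1 : |gms (pNs k) (pn k) (pρ k) -
        ∑ c : C, gm (pρ k • node (pD k) 0 0) (S.B.χ (Sum.inl c)) (S.B.χ (Sum.inl c))| ≤
        8 * (2 * pρ k) ^ pNs k *
          ∑ c : C, gm (pρ k • node (pD k) 0 0) (S.B.χ (Sum.inl c)) (S.B.χ (Sum.inl c)) := by
      rw [hgm]
      unfold gms
      rw [← sum_sub_distrib, mul_sum]
      refine (abs_sum_le_sum_abs _ _).trans (sum_le_sum fun a ha => ?_)
      rw [← sum_sub_distrib, mul_sum]
      refine (abs_sum_le_sum_abs _ _).trans (sum_le_sum fun b hb => ?_)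
      rw [← mul_sub, abs_mul, abs_of_nonneg (by (clear * -; (clear * -; positivity)) : (0 : ℝ) ≤ 2 * (b : ℝ) + 1)]
      have h2 := gIs_err (pNs k) a b (by have := mem_range.1 hb; (clear * - this; omega)) (pρ k) hρ0 hρ1
      calc (2 * (b : ℝ) + 1) * |gIs (pNs k) a b (pρ k) - gI a b (pρ k)|
          ≤ (2 * (b : ℝ) + 1) * (8 * (2 * pρ k) ^ pNs k * gI a b (pρ k)) := by (clear * - h2; gcongr)
        _ = _ := by ring
    rw [← mul_sub, abs_mul, abs_of_nonneg hW0]
    calc pW k * |gms (pNs k) (pn k) (pρ k) -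
          ∑ c : C, gm (pρ k • node (pD k) 0 0) (S.B.χ (Sum.inl c)) (S.B.χ (Sum.inl c))|
        ≤ pW k * (8 * (2 * pρ k) ^ pNs k * ((pn k : ℝ) ^ 3 * 16)) := by
          refine mul_le_mul_of_nonneg_left (h1.trans ?_) hW0
          exact mul_le_mul_of_nonneg_left ((le_abs_self _).trans hgmb) (by (clear * - hρ0; positivity))
      _ = pW k * (8 * (2 * pρ k) ^ pNs k) * ((pn k : ℝ) ^ 3 * 16) := by ring
      _ ≤ 1 / 2 ^ (300 * pn k ^ 3) * (2 ^ pn k * 2 ^ 4) := by
          have h3 := S4.npow_le k hk 3 (by norm_num)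
          have : (16 : ℝ) ≤ 2 ^ 4 := by norm_num
          gcongr
      _ = 2 ^ (pn k + 4) / 2 ^ (300 * pn k ^ 3) := by
          rw [pow_add]
          ring
      _ ≤ 1 / 2 ^ (2 * pn k) := by
          rw [div_le_div_iff₀ (by positivity) (by positivity), one_mul, ← pow_add]
          exact two_pow_mono (by (clear * - hng hsq hcu; omega))
  -- 2: isotropic charge on the sites
  have hxr := xr_bounds (pn k) (by omega) (pρ k) hρ0 hρ1
  have hxr1 : xr (pn k) (pρ k) ≤ 1 := hxr.2.trans (pow_le_one₀ hρ0.le hρ1)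
  have hp2 : |pW k * xrs (pNs k) (pn k) (pρ k) - pW k * xr (pn k) (pρ k)| ≤ 1 / 2 ^ (2 * pn k) := by
    rw [← mul_sub, abs_mul, abs_of_nonneg hW0]
    calc pW k * |xrs (pNs k) (pn k) (pρ k) - xr (pn k) (pρ k)|
        ≤ pW k * (8 * (2 * pρ k) ^ pNs k * 1) := by
          refine mul_le_mul_of_nonneg_left ?_ hW0
          refine (xrs_err (pNs k) (pn k) (by (clear * - hng; omega)) (pρ k) hρ0 hρ1).trans ?_
          exact mul_le_mul_of_nonneg_left hxr1 (by (clear * - hρ0; positivity))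
      _ = pW k * (8 * (2 * pρ k) ^ pNs k) := by ring
      _ ≤ 1 / 2 ^ (300 * pn k ^ 3) := htr
      _ ≤ 1 / 2 ^ (2 * pn k) := by
          apply one_div_le_one_div_of_le (by positivity)
          exact two_pow_mono (by (clear * - hng hsq hcu; omega))
  -- 3: depth of the sites
  have hgam := gam_bounds (pn k) hn2
  have hg0 : 0 ≤ gam (pn k) := le_trans (by (clear * - hn2; positivity)) hgam.1
  have hzt := zt_near k (2 * (pn k - 1)) hk (by omega) (by (clear * - hng; omega))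
  have hp3 : |Lam k - pL k * gam (pn k)| ≤ 1 / 2 ^ (2 * pn k) := by
    have e : Lam k - pL k * gam (pn k) = pL k * gam (pn k) * (zt k (2 * (pn k - 1)) - 1) := by
      unfold Lam
      ring
    rw [e, abs_mul, abs_of_nonneg (mul_nonneg hL0 hg0)]
    calc pL k * gam (pn k) * |zt k (2 * (pn k - 1)) - 1|
        ≤ 2 ^ pn k * 1 * (1 / 2 ^ (16 * pn k ^ 2)) := by
          have := hgam.2
          (clear * - hL1 this hg0 hzt; gcongr)
      _ = 2 ^ pn k / 2 ^ (16 * pn k ^ 2) := by ring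
      _ ≤ 1 / 2 ^ (2 * pn k) := by
          rw [div_le_div_iff₀ (by positivity) (by positivity), one_mul, ← pow_add]
          exact two_pow_mono (by omega)
  -- 4: direct integrals
  have hp4 : |∑ i : Fin (pK k), ∑ j ∈ Ioi i, wS k i j -
      ∑ d ∈ range (pK k), (if d = 0 then 0 else
        ((pK k : ℝ) - d) * W0 (pn k) (2 * x d ^ 2 - 1))| ≤ pJ k / (pK k : ℝ) ^ 8 / 16 := by
    rw [sum_wS k hk, ← sum_sub_distrib]
    calc _ ≤ ∑ d ∈ range (pK k), |(if d = 0 then (0 : ℝ) else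
            ((pK k : ℝ) - d) * wdir (pn k) (Real.pi * d / pK k)) - (if d = 0 then 0 else
            ((pK k : ℝ) - d) * W0 (pn k) (2 * x d ^ 2 - 1))| := abs_sum_le_sum_abs _ _
      _ ≤ ∑ _d ∈ range (pK k), (pK k : ℝ) * (3 / ((pn k : ℝ) ^ 2 * (pK k : ℝ) ^ 1024)) := by
          refine sum_le_sum fun d hd => ?_
          have hd' := mem_range.1 hd
          split_ifs with h0
          · rw [sub_zero, abs_zero]
            (clear * - hK hn2; (clear * - hK hn2; positivity))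
          · have hdr : (d : ℝ) ≤ pK k := by exact_mod_cast hd'.le
            rw [← mul_sub, abs_mul, abs_of_nonneg (by linarith only [hdr])]
            have h1 := e13_wdir k hk x hx d hd'
            have h2 : (pK k : ℝ) - d ≤ pK k := by
              have : (0 : ℝ) ≤ d := Nat.cast_nonneg _
              linarith only []
            (clear * - h2 h1 hK; gcongr)
      _ = 3 * (pK k : ℝ) ^ 2 / ((pn k : ℝ) ^ 2 * (pK k : ℝ) ^ 1024) := by
          rw [sum_const, card_range, nsmul_eq_mul]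
          ring
      _ ≤ pJ k / (pK k : ℝ) ^ 8 / 16 := by
          rw [e13_acc, div_div, div_le_div_iff₀ (by (clear * - hn2 hK; positivity)) (by (clear * - hn2 hK; positivity)), one_mul]
          calc 3 * (pK k : ℝ) ^ 2 * ((pn k : ℝ) ^ 2 * (pK k : ℝ) ^ 264 * 16)
              = 48 * ((pn k : ℝ) ^ 2 * (pK k : ℝ) ^ 266) := by ring
            _ ≤ pK k * ((pn k : ℝ) ^ 2 * (pK k : ℝ) ^ 266) := by
                gcongr
                linarith only [hK]
            _ = (pn k : ℝ) ^ 2 * (pK k : ℝ) ^ 267 := by ring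
            _ ≤ (pn k : ℝ) ^ 2 * (pK k : ℝ) ^ 1024 := by
                gcongr
                · linarith only [hK]
                · norm_num
  -- assembly
  have hcl := closed_energy S.B S.hC S.hO
  have hmf := mfield_eq hn2 S.B S.hC S.hO
  have hKp : (pK k : ℝ) * (1 / 2 ^ (2 * pn k)) ≤ 1 / 2 ^ pn k := by
    rw [mul_one_div, div_le_div_iff₀ (by positivity) (by positivity), one_mul, two_mul, pow_add]
    have := hKn.trans (pn_le_two_pow k)
    (clear * - this; gcongr)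
  have h2p : (1 : ℝ) / 2 ^ (2 * pn k) ≤ 1 / 2 ^ pn k := by
    apply one_div_le_one_div_of_le (by positivity)
    exact two_pow_mono (by (clear * - hng; omega))
  have key : Erefv S - erefx k x = pT k * (
      -2 * (pW k * gms (pNs k) (pn k) (pρ k) - pW k *
        ∑ c : C, gm (pρ k • node (pD k) 0 0) (S.B.χ (Sum.inl c)) (S.B.χ (Sum.inl c))) -
      pK k * (pW k * xrs (pNs k) (pn k) (pρ k) - pW k * xr (pn k) (pρ k)) -
      pK k * (Lam k - pL k * gam (pn k)) +
      (∑ i : Fin (pK k), ∑ j ∈ Ioi i, wS k i j -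
      ∑ d ∈ range (pK k), (if d = 0 then 0 else
        ((pK k : ℝ) - d) * W0 (pn k) (2 * x d ^ 2 - 1)))) := by
    unfold Erefv erefx cc0 mottBase eps0
    rw [hcl, hmf]
    ring
  rw [key, abs_mul, abs_of_nonneg hT0]
  have e5 : (pT k : ℝ) * pJ k / (pK k : ℝ) ^ 8 / 2 = pT k * (pJ k / (pK k : ℝ) ^ 8 / 2) := by ring
  rw [e5]
  refine mul_le_mul_of_nonneg_left ?_ hT0
  have q1 := abs_le.1 hp1
  have q2 := abs_le.1 hp2
  have q3 := abs_le.1 hp3
  have q4 := abs_le.1 hp4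
  have r2 : |(pK k : ℝ) * (pW k * xrs (pNs k) (pn k) (pρ k) - pW k * xr (pn k) (pρ k))| ≤
      1 / 2 ^ pn k := by
    rw [abs_mul, abs_of_pos hK0]
    exact (mul_le_mul_of_nonneg_left hp2 hK0.le).trans hKp
  have r3 : |(pK k : ℝ) * (Lam k - pL k * gam (pn k))| ≤ 1 / 2 ^ pn k := by
    rw [abs_mul, abs_of_pos hK0]
    exact (mul_le_mul_of_nonneg_left hp3 hK0.le).trans hKp
  have s2 := abs_le.1 r2
  have s3 := abs_le.1 r3
  have hpos : 0 ≤ pJ k / (pK k : ℝ) ^ 8 := by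
    have := pJ_pos k
    (clear * - this hK; (clear * - this hK; positivity))
  rw [abs_le]
  constructor <;> linarith only [hsm, h2p, q1, q4, s2, s3]

end Vale.Agent.P370.KC
end
end

section

section

/-!
Singular parts of Coulomb potentials: `N`-body estimates.
-/

namespace Vale.Agent.P370.NB

open MeasureTheory Function ComplexConjugate Finset Vale.Agent.P370.Q

variable {N : ℕ} {n : ℕ} {A : Type} [Fintype A] [DecidableEq A] (B : ShellBasis n A)
  {κ : ℝ} (hκ : 0 < κ) (hB : ∀ a, ∃ C : ℝ, 0 ≤ C ∧ ∀ x, |B.χ a x| ≤ C * Real.exp (-κ * ‖x‖))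

/-- electron-nucleus potential of a test state is integrable -/
theorem sr_test_integrable {ψ : Wave N} (hψ : IsTestState ψ) (i : Fin N) (y : R3) {r : ℝ}
    (hr : 0 < r) :
    Integrable (fun w => ‖toY ψ w‖ ^ 2 * sr r (dist (w i).1 y)) (pm (Fin N) μY) := by
  have hm : ∀ s, Measurable (fun x : Fin N → R3 => ‖ψ x s‖ ^ 2 * sr r (dist (x i) y)) := by
    intro s
    refine ((hψ.smooth s).continuous.measurable.norm.pow_const 2).mul ?_
    exact (sr_measurable r).comp ((bd_dist_meas y).comp (measurable_pi_apply i))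
  refine integrable_pow (F := fun w => ‖toY ψ w‖ ^ 2 * sr r (dist (w i).1 y)) hm fun s => ?_
  have h := integrable_nuc (fun x => ψ x s) ((hψ.smooth s).of_le (by exact_mod_cast le_top))
    (hψ.compactSupport s) i y
  refine h.mono' (hm s).aestronglyMeasurable (Filter.Eventually.of_forall fun x => ?_)
  rw [Real.norm_eq_abs, toY_jn, abs_of_nonneg (mul_nonneg (sq_nonneg _) (sr_nonneg _ _)),
    div_eq_mul_one_div]
  exact mul_le_mul_of_nonneg_left (sr_le_inv hr dist_nonneg) (sq_nonneg _)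

include B hκ hB in
theorem sr_test_le (hn : 1 ≤ n) {ψ : Wave N} (hψ : IsTestState ψ) (i : Fin N) (y : R3) {r : ℝ}
    (hr : 0 < r) :
    ∫ w, ‖toY ψ w‖ ^ 2 * sr r (dist (w i).1 y) ∂(pm (Fin N) μY) ≤
      4 * r * ((∫ w, ofS (hd ψ i) w ∂(pm (Fin N) μY)) + ∫ w, ‖toY ψ w‖ ^ 2 ∂(pm (Fin N) μY)) := by
  obtain ⟨a₀⟩ := SB_nonempty B hn
  have i1 : Integrable (fun w => ‖toY ψ w‖ ^ 2) (pm (Fin N) μY) :=
    (toY_dm hψ hκ).norm_sq_integrable
  have i2 := ofS_hd_integrable hψ i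
  have i3 := sr_test_integrable hψ i y hr
  rw [← integral_add i2 i1, ← integral_const_mul]
  have hθ := (SBFam B hκ hB).orb (a₀, 0)
  refine integral_le_of_slices μY i (h := fun y => so B.χ (a₀, 0) y * so B.χ (a₀, 0) y)
    i3 ((i2.add i1).const_mul _) (hθ.mul hθ).integrable (fun y => mul_self_nonneg _)
    (((SBFam B hκ hB).ortho (a₀, 0) (a₀, 0)).trans (if_pos rfl)) ?_
  intro w
  obtain ⟨h1, h2⟩ := integral_sq_slice hψ i w
  have h3 : Integrable (fun y => ofS (hd ψ i) (update w i y)) μY := by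
    have hm : Measurable (ofS (hd ψ i)) := measurable_ofS fun s => hd_measurable hψ i s
    refine integrable_Y (fun τ => ?_) fun τ => ?_
    · exact (hm.comp (measurable_update w)).comp measurable_prodMk_right
    · simp only [ofS_hd_update hψ]
      obtain ⟨h1, h2, -⟩ := hd_slice_integrable hψ i (fun l => (w l).1)
        (update (fun l => (w l).2) i τ)
      exact (h1.const_mul _).sub h2
  have h4 : ∀ τ, Integrable (fun z => ‖toY ψ (update w i (z, τ))‖ ^ 2 *
      sr r (dist (update w i (z, τ) i).1 y)) := by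
    intro τ
    simp only [toY_update, update_self]
    exact (sr_test (sl_smooth hψ _ _ _) (sl_compact hψ _ _ _) y hr).1
  have h5 : Integrable (fun y' => ‖toY ψ (update w i y')‖ ^ 2 *
      sr r (dist (update w i y' i).1 y)) μY := by
    refine integrable_Y (fun τ => ?_) h4
    have hm : Measurable (fun w : Fin N → YS => ‖toY ψ w‖ ^ 2 * sr r (dist (w i).1 y)) := by
      refine ((toY_dm hψ hκ).1.norm.pow_const 2).mul ?_
      exact (sr_measurable r).comp ((bd_dist_meas y).comp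
        (measurable_fst.comp (measurable_pi_apply i)))
    exact (hm.comp (measurable_update w)).comp measurable_prodMk_right
  rw [integral_const_mul, integral_add h3 h1, h2, integral_hd_slice hψ, integral_Y h5,
    ← Finset.sum_add_distrib, Finset.mul_sum]
  refine Finset.sum_le_sum fun τ _ => ?_
  simp only [toY_update, update_self]
  exact (sr_test (sl_smooth hψ _ _ _) (sl_compact hψ _ _ _) y hr).2

/-! ### combinations of shell orbitals -/

theorem lc_update {Y : Type*} {A : Type*} [Fintype A] [DecidableEq A] (θ : A → Y → ℝ)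
    (c : (Fin N → A) → ℂ) (i : Fin N) (w : Fin N → Y) :
    ∃ d : A → ℂ, ∀ y, lc (fun _ => θ) c (update w i y) = ∑ b, d b * (θ b y : ℂ) := by
  refine ⟨fun b => ∑ I : Fin N → A, if I i = b then
    c I * ((∏ l ∈ univ.erase i, θ (I l) (w l) : ℝ) : ℂ) else 0, fun y => ?_⟩
  unfold lc
  simp only [Finset.sum_mul]
  rw [Finset.sum_comm]
  refine Finset.sum_congr rfl fun I _ => ?_
  rw [Finset.sum_eq_single (I i)]
  · rw [if_pos rfl]
    unfold pf
    rw [← Finset.mul_prod_erase univ (fun l => θ (I l) (update w i y l)) (Finset.mem_univ i),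
      update_self]
    have : ∏ l ∈ univ.erase i, θ (I l) (update w i y l) = ∏ l ∈ univ.erase i, θ (I l) (w l) := by
      refine Finset.prod_congr rfl fun l hl => ?_
      rw [update_of_ne (Finset.ne_of_mem_erase hl)]
    rw [this]
    push_cast
    ring
  · intro b _ hb
    rw [if_neg hb.symm, zero_mul]
  · simp only [mem_univ, not_true_eq_false, ↓reduceIte, Complex.ofReal_prod, mul_eq_zero, Complex.ofReal_eq_zero, IsEmpty.forall_iff]

theorem sum_so {A : Type} [Fintype A] [DecidableEq A] (χ : A → R3 → ℝ) (d : A × Fin 2 → ℂ) (z : R3)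
    (τ : Fin 2) : ∑ b, d b * (so χ b (z, τ) : ℂ) = ∑ a, d (a, τ) * (χ a z : ℂ) := by
  rw [Fintype.sum_prod_type]
  refine Finset.sum_congr rfl fun a _ => ?_
  rw [Finset.sum_eq_single τ]
  · unfold so
    simp
  · intro σ _ hσ
    unfold so
    simp only
    rw [if_neg hσ.symm]
    simp
  · simp only [mem_univ, not_true_eq_false, mul_eq_zero, Complex.ofReal_eq_zero, IsEmpty.forall_iff]

include hκ hB in
/-- slice estimate for combinations of shell orbitals -/
theorem sr_lc_le (hn : 1 ≤ n) (c : (Fin N → A × Fin 2) → ℂ) (i : Fin N)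
    {r : ℝ} (hr : 0 < r) (Yc : (Fin N → YS) → R3) (hYc : Measurable Yc)
    (hY : ∀ w y, Yc (update w i y) = Yc w)
    (hi : Integrable (fun w => ‖lc (fun _ => so B.χ) c w‖ ^ 2 * sr r (dist (w i).1 (Yc w)))
      (pm (Fin N) μY)) :
    ∫ w, ‖lc (fun _ => so B.χ) c w‖ ^ 2 * sr r (dist (w i).1 (Yc w)) ∂(pm (Fin N) μY) ≤
      4 * r * ∫ w, ‖lc (fun _ => so B.χ) c w‖ ^ 2 ∂(pm (Fin N) μY) := by
  obtain ⟨a₀⟩ := SB_nonempty B hn
  have hmθ : ∀ b, Measurable (so B.χ b) := so_measurable fun a => (SB_nice B a).cont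
  have hmlc : Measurable (lc (fun _ => so B.χ) c : (Fin N → YS) → ℂ) := by
    unfold lc pf
    refine Finset.measurable_fun_sum _ fun I _ => ?_
    refine measurable_const.mul (Complex.measurable_ofReal.comp ?_)
    exact Finset.measurable_fun_prod _ fun l _ => (hmθ _).comp (measurable_pi_apply l)
  have i1 : Integrable (fun w => ‖lc (fun _ => so B.χ) c w‖ ^ 2) (pm (Fin N) μY) :=
    (integral_lc_zero μY (Θ := fun _ => so B.χ) (fun l a b =>
      (((SBFam B hκ hB).orb a).mul ((SBFam B hκ hB).orb b)).integrable) c).1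
  rw [← integral_const_mul]
  have hθ := (SBFam B hκ hB).orb (a₀, 0)
  refine integral_le_of_slices μY i (h := fun y => so B.χ (a₀, 0) y * so B.χ (a₀, 0) y)
    hi (i1.const_mul _) (hθ.mul hθ).integrable (fun y => mul_self_nonneg _)
    (((SBFam B hκ hB).ortho (a₀, 0) (a₀, 0)).trans (if_pos rfl)) ?_
  intro w
  obtain ⟨d, hd⟩ := lc_update (so B.χ) c i w
  have e1 : ∀ z τ, lc (fun _ => so B.χ) c (update w i (z, τ)) = ∑ a, d (a, τ) * (B.χ a z : ℂ) := by
    intro z τ
    rw [hd, sum_so]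
  have h1 : Integrable (fun y => ‖lc (fun _ => so B.χ) c (update w i y)‖ ^ 2) μY := by
    refine integrable_Y (fun τ => ?_) fun τ => ?_
    · exact (((hmlc.norm.pow_const 2).comp (measurable_update w)).comp measurable_prodMk_right)
    · simp only [e1]
      exact (sr_shell B (fun a => d (a, τ)) (Yc w) hr).2.1
  have h2 : Integrable (fun y => ‖lc (fun _ => so B.χ) c (update w i y)‖ ^ 2 *
      sr r (dist (update w i y i).1 (Yc (update w i y)))) μY := by
    refine integrable_Y (fun τ => ?_) fun τ => ?_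
    · have hm : Measurable (fun w : Fin N → YS => ‖lc (fun _ => so B.χ) c w‖ ^ 2 *
          sr r (dist (w i).1 (Yc w))) := by
        refine (hmlc.norm.pow_const 2).mul ((sr_measurable r).comp ?_)
        exact (measurable_fst.comp (measurable_pi_apply i)).dist hYc
      exact (hm.comp (measurable_update w)).comp measurable_prodMk_right
    · simp only [e1, hY, update_self]
      exact (sr_shell B (fun a => d (a, τ)) (Yc w) hr).1
  rw [integral_const_mul, integral_Y h1, integral_Y h2, Finset.mul_sum]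
  refine Finset.sum_le_sum fun τ _ => ?_
  simp only [e1, hY, update_self]
  exact (sr_shell B (fun a => d (a, τ)) (Yc w) hr).2.2

end Vale.Agent.P370.NB
end
end

section

section

/-!
The lower bound with free parameters.
-/

namespace Vale.Agent.P370.NB

open MeasureTheory Function ComplexConjugate Finset Vale.Agent.P370.Q

variable {N n K M m : ℕ} {C O : Type} [Fintype C] [DecidableEq C] [Fintype O]
    [DecidableEq O]

open Classical in
theorem lower_core (hN : N = M + K) (hn : 1 ≤ n)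
    (B : ShellBasis n (C ⊕ O)) (hC : ∀ c, B.lev (Sum.inl c) < n) (hO : ∀ o, B.lev (Sum.inr o) = n)
    (hM : M = 2 * Fintype.card C)
    (lam r μ : ℝ) (wt : Fin m → ℝ) (y : Fin m → R3) (hwt : ∀ b, 0 ≤ wt b)
    (hlam : 0 < lam) (hr : 0 < r)
    (hμ : ∀ c : Tens N ((C ⊕ O) × Fin 2), IsAnti c → Good c →
      μ * nsq c ≤ enT (nucM B.χ wt y) (coulM B.χ) c)
    (ψ : Wave N) (hψ : IsTestState ψ) (hψ1 : normSq ψ = 1) {t : ℝ} (ht : 0 < t) :
    ∃ q : ℝ, 0 ≤ q ∧ q ≤ 1 ∧
      -((n : ℝ) - 1) - K / (2 * (n : ℝ) ^ 2) +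
        (1 / (2 * (n : ℝ) ^ 2) - 1 / (2 * ((n : ℝ) + 1) ^ 2)) * q ≤ H0 ψ ∧
      H0 ψ + lam * (μ * (1 - q) -
        4 * r * ((N : ℝ) * ((N : ℝ) + ∑ b, wt b)) * (1 - q) -
        (N : ℝ) * ((N : ℝ) + ∑ b, wt b) / r * t * (1 - q) -
        (N : ℝ) * ((N : ℝ) + ∑ b, wt b) / r * (1 / t + 1) * q -
        4 * r * (∑ b, wt b) * (H0 ψ + (N : ℝ))) ≤ scaledE lam wt y ψ := by
  obtain ⟨κ, hκ, hB⟩ := SB_exists_kappa B
  set F := SBFam B hκ hB with hF
  set G := PreSlots.good (N := N) (ClS C O) with hG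
  have hGmem : ∀ I : Fin N → (C ⊕ O) × Fin 2, I ∈ G ↔ ∀ a ∈ ClS C O, ∃ i, I i = a := by
    intro I
    rw [hG]
    unfold PreSlots.good
    simp only [mem_filter, mem_univ, true_and]
  -- coefficients
  let d : Tens N ((C ⊕ O) × Fin 2) := fun I => if I ∈ G then F.coef I (toY ψ) else 0
  have hdd : ∀ I, d I = if I ∈ G then F.coef I (toY ψ) else 0 := fun I => rfl
  have hGperm : ∀ (π : Equiv.Perm (Fin N)) (I : Fin N → (C ⊕ O) × Fin 2),
      (fun i => I (π i)) ∈ G ↔ I ∈ G := by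
    intro π I
    rw [hGmem, hGmem]
    constructor
    · intro h a ha
      obtain ⟨i, hi⟩ := h a ha
      exact ⟨π i, hi⟩
    · intro h a ha
      obtain ⟨i, hi⟩ := h a ha
      exact ⟨π.symm i, by simpa using hi⟩
  have hanti : IsAnti d := by
    intro π I
    rw [hdd, hdd]
    by_cases h : I ∈ G
    · rw [if_pos h, if_pos ((hGperm π I).2 h), coef_perm F hψ]
    · rw [if_neg h, if_neg (fun h' => h ((hGperm π I).1 h')), mul_zero]
  have hgood : Good d := by
    intro I hI a σ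
    have h : I ∈ G := by
      by_contra h
      apply hI
      rw [hdd, if_neg h]
    exact (hGmem I).1 h _ ((mem_ClS _).2 ⟨a, rfl⟩)
  -- the projection
  have hlin : ∀ w, F.lin G (fun I => F.coef I (toY ψ)) w = lc (fun _ => so B.χ) d w := by
    intro w
    unfold Fam.lin lc
    simp only [hdd, ite_mul, zero_mul]
    rw [Finset.sum_ite_mem, Finset.univ_inter]
    rfl
  have hPdm : Dm (wsp κ hκ) (lc (fun _ => so B.χ) d : (Fin N → YS) → ℂ) := by
    have := F.lin_dm G (fun I => F.coef I (toY ψ))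
    have e : F.lin G (fun I => F.coef I (toY ψ)) = lc (fun _ => so B.χ) d := funext hlin
    rwa [e] at this
  have hfdm : Dm (wsp κ hκ) (toY ψ) := toY_dm hψ hκ
  obtain ⟨hPi, hPn⟩ := lc_norm_sq B d
  have hnsq : nsq d = ∑ I ∈ G, ‖F.coef I (toY ψ)‖ ^ 2 := by
    unfold nsq
    simp only [hdd]
    rw [← Finset.sum_filter_add_sum_filter_not univ (fun I => I ∈ G)]
    have e1 : ∑ I ∈ univ.filter (fun I => I ∈ G),
        ‖(if I ∈ G then F.coef I (toY ψ) else 0)‖ ^ 2 = ∑ I ∈ G, ‖F.coef I (toY ψ)‖ ^ 2 := by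
      rw [Finset.filter_mem_eq_inter, Finset.univ_inter]
      refine Finset.sum_congr rfl fun I hI => ?_
      rw [if_pos hI]
    have e2 : ∑ I ∈ univ.filter (fun I => ¬ I ∈ G),
        ‖(if I ∈ G then F.coef I (toY ψ) else 0)‖ ^ 2 = 0 := by
      refine Finset.sum_eq_zero fun I hI => ?_
      rw [Finset.mem_filter] at hI
      rw [if_neg hI.2]
      simp
    rw [e1, e2, add_zero]
  have hf1 : ∫ w, ‖toY ψ w‖ ^ 2 ∂(pm (Fin N) μY) = 1 := (toY_norm_sq hψ).trans hψ1
  have hq : ∫ w, ‖toY ψ w - lc (fun _ => so B.χ) d w‖ ^ 2 ∂(pm (Fin N) μY) = 1 - nsq d := by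
    have h := F.norm_sub_proj G (toY ψ) hfdm
    simp only [hlin] at h
    rw [hnsq]
    refine h.trans ?_
    rw [← hf1]
    rfl
  have hp0 : 0 ≤ nsq d := by
    unfold nsq
    exact Finset.sum_nonneg fun I _ => sq_nonneg _
  have hq0 : 0 ≤ 1 - nsq d := by
    rw [← hq]
    exact integral_nonneg fun w => sq_nonneg _
  refine ⟨1 - nsq d, hq0, by linarith only [hp0], ?_, ?_⟩
  · -- unperturbed energy
    have h := H0_ge B hκ hB hn (ClS C O) K (by rw [card_ClS, ← hM, hN]) (N := N) ?_ ?_ hψ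
    · rw [sum_eb_ClS B hC hO hn, hψ1] at h
      rw [hnsq]
      refine le_trans (le_of_eq ?_) h
      rw [hG, hF]
      ring
    · intro b hb
      obtain ⟨c, hc⟩ := (mem_ClS b).1 hb
      rw [hc]
      exact hC c
    · intro b hb
      cases hb1 : b.1 with
      | inl c => exact absurd ((mem_ClS b).2 ⟨c, hb1⟩) hb
      | inr o => exact hO o
  · -- the perturbation
    rw [scaledE_eq wt y lam hψ]
    have hV := Wr_measurable (N := N) wt y r
    have hVb := fun w => Wr_bound (N := N) wt y hr hwt w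
    have hWsum : 0 ≤ ∑ b, wt b := Finset.sum_nonneg fun b _ => hwt b
    -- step 1
    have i1 : Integrable (fun w => Wr wt y r w * ‖toY ψ w‖ ^ 2) (pm (Fin N) μY) :=
      hfdm.bdd_norm_sq_integrable hV hVb
    have i2 : ∀ i b, Integrable (fun w => ‖toY ψ w‖ ^ 2 * sr r (dist (w i).1 (y b)))
        (pm (Fin N) μY) := fun i b => sr_test_integrable hψ i (y b) hr
    have i2s : Integrable (fun w => ∑ i, ∑ b, wt b *
        (‖toY ψ w‖ ^ 2 * sr r (dist (w i).1 (y b)))) (pm (Fin N) μY) :=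
      integrable_finsetSum _ fun i _ => integrable_finsetSum _ fun b _ => (i2 i b).const_mul _
    have s1 : (∫ w, Wr wt y r w * ‖toY ψ w‖ ^ 2 ∂(pm (Fin N) μY)) -
        (∑ i : Fin N, ∑ b, wt b * ∫ w, ‖toY ψ w‖ ^ 2 * sr r (dist (w i).1 (y b))
          ∂(pm (Fin N) μY)) ≤ ∫ w, ‖toY ψ w‖ ^ 2 * Wp wt y w ∂(pm (Fin N) μY) := by
      have e1 : (∑ i : Fin N, ∑ b, wt b * ∫ w, ‖toY ψ w‖ ^ 2 * sr r (dist (w i).1 (y b))
          ∂(pm (Fin N) μY)) = ∫ w, (∑ i, ∑ b, wt b *
        (‖toY ψ w‖ ^ 2 * sr r (dist (w i).1 (y b)))) ∂(pm (Fin N) μY) := by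
        rw [integral_finsetSum _ fun i _ =>
          integrable_finsetSum _ fun b _ => (i2 i b).const_mul _]
        refine Finset.sum_congr rfl fun i _ => ?_
        rw [integral_finsetSum _ fun b _ => (i2 i b).const_mul _]
        refine Finset.sum_congr rfl fun b _ => ?_
        rw [integral_const_mul]
      rw [e1, ← integral_sub i1 i2s]
      refine integral_mono (i1.sub i2s) (Wp_int wt y hψ) fun w => ?_
      have h := mul_le_mul_of_nonneg_left (Wp_ge wt y hwt (r := r) w) (sq_nonneg ‖toY ψ w‖)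
      refine le_trans (le_of_eq ?_) h
      rw [mul_sub, mul_comm (Wr wt y r w), Finset.mul_sum]
      congr 1
      refine Finset.sum_congr rfl fun i _ => ?_
      rw [Finset.mul_sum]
      refine Finset.sum_congr rfl fun b _ => ?_
      ring
    have s2 : (∑ i : Fin N, ∑ b, wt b * ∫ w, ‖toY ψ w‖ ^ 2 * sr r (dist (w i).1 (y b))
          ∂(pm (Fin N) μY)) ≤ 4 * r * (∑ b, wt b) * (H0 ψ + (N : ℝ)) := by
      have h1 : ∀ (i : Fin N) b, wt b * ∫ w, ‖toY ψ w‖ ^ 2 * sr r (dist (w i).1 (y b))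
          ∂(pm (Fin N) μY) ≤ wt b * (4 * r * ((∫ w, ofS (hd ψ i) w ∂(pm (Fin N) μY)) + 1)) := by
        intro i b
        have h := sr_test_le B hκ hB hn hψ i (y b) hr
        rw [hf1] at h
        exact mul_le_mul_of_nonneg_left h (hwt b)
      refine (Finset.sum_le_sum fun i _ => Finset.sum_le_sum fun b _ => h1 i b).trans ?_
      simp only [← Finset.sum_mul]
      rw [← Finset.mul_sum, ← Finset.mul_sum, Finset.sum_add_distrib]
      unfold H0
      simp only [Finset.sum_const, Finset.card_univ, Fintype.card_fin, nsmul_eq_mul, mul_one]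
      apply le_of_eq
      ring
    -- step 2
    have s3 := bdd_pert hfdm hPdm hV hVb ht
    -- step 3
    have hPW := lc_W B hn wt y d
    have j1 : ∀ i j : Fin N, i ≠ j → Integrable (fun w => ‖lc (fun _ => so B.χ) d w‖ ^ 2 *
        sr r (dist (w i).1 (w j).1)) (pm (Fin N) μY) := by
      intro i j hij
      have h := (lc_two B hn d hij).1
      refine h.mono' ?_ (Filter.Eventually.of_forall fun w => ?_)
      · refine Measurable.aestronglyMeasurable ?_
        refine ((lc_measurable B d).norm.pow_const 2).mul ((sr_measurable r).comp ?_)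
        exact (measurable_fst.comp (measurable_pi_apply i)).dist
          (measurable_fst.comp (measurable_pi_apply j))
      · rw [Real.norm_eq_abs, abs_of_nonneg (mul_nonneg (sq_nonneg _) (sr_nonneg _ _))]
        exact mul_le_mul_of_nonneg_left (sr_le_inv hr dist_nonneg) (sq_nonneg _)
    have j2 : ∀ i : Fin N, Integrable (fun w => ‖lc (fun _ => so B.χ) d w‖ ^ 2 *
        sr r (dist (w i).1 0)) (pm (Fin N) μY) := by
      intro i
      have h := (lc_one B d i (v := fun x => 1 / dist x 0) ((bd_dist_meas 0).const_div 1) (by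
        intro a b
        refine (nice_integrable_nuc (SB_nice B a) (SB_nice B b) 0).congr
          (Filter.Eventually.of_forall fun x => ?_)
        simp only
        ring)).1
      refine h.mono' ?_ (Filter.Eventually.of_forall fun w => ?_)
      · refine Measurable.aestronglyMeasurable ?_
        refine ((lc_measurable B d).norm.pow_const 2).mul ((sr_measurable r).comp ?_)
        exact (bd_dist_meas 0).comp (measurable_fst.comp (measurable_pi_apply i))
      · rw [Real.norm_eq_abs, abs_of_nonneg (mul_nonneg (sq_nonneg _) (sr_nonneg _ _))]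
        exact mul_le_mul_of_nonneg_left (sr_le_inv hr dist_nonneg) (sq_nonneg _)
    have k1 : ∀ i j : Fin N, i ≠ j → ∫ w, ‖lc (fun _ => so B.χ) d w‖ ^ 2 *
        sr r (dist (w i).1 (w j).1) ∂(pm (Fin N) μY) ≤ 4 * r * nsq d := by
      intro i j hij
      have h := sr_lc_le B hκ hB hn d i hr (fun w => (w j).1)
        (measurable_fst.comp (measurable_pi_apply j))
        (fun w y => by simp only [update_of_ne hij.symm]) (j1 i j hij)
      rw [hPn] at h
      exact h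
    have k2 : ∀ i : Fin N, ∫ w, ‖lc (fun _ => so B.χ) d w‖ ^ 2 *
        sr r (dist (w i).1 0) ∂(pm (Fin N) μY) ≤ 4 * r * nsq d := by
      intro i
      have h := sr_lc_le B hκ hB hn d i hr (fun _ => 0) measurable_const
        (fun w y => rfl) (j2 i)
      rw [hPn] at h
      exact h
    have j1s : Integrable (fun w => ∑ i : Fin N, ∑ j ∈ Ioi i, ‖lc (fun _ => so B.χ) d w‖ ^ 2 *
        sr r (dist (w i).1 (w j).1)) (pm (Fin N) μY) :=
      integrable_finsetSum _ fun i _ => integrable_finsetSum _ fun j hj =>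
        j1 i j (Finset.mem_Ioi.1 hj).ne
    have j2s : Integrable (fun w => ∑ i : Fin N, ∑ b, wt b * (‖lc (fun _ => so B.χ) d w‖ ^ 2 *
        sr r (dist (w i).1 0))) (pm (Fin N) μY) :=
      integrable_finsetSum _ fun i _ => integrable_finsetSum _ fun b _ => (j2 i).const_mul _
    have s4 : (∫ w, ‖lc (fun _ => so B.χ) d w‖ ^ 2 * Wp wt y w ∂(pm (Fin N) μY)) -
        ((∑ i : Fin N, ∑ j ∈ Ioi i, ∫ w, ‖lc (fun _ => so B.χ) d w‖ ^ 2 *
          sr r (dist (w i).1 (w j).1) ∂(pm (Fin N) μY)) +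
        ∑ i : Fin N, ∑ b, wt b * ∫ w, ‖lc (fun _ => so B.χ) d w‖ ^ 2 *
          sr r (dist (w i).1 0) ∂(pm (Fin N) μY)) ≤
        ∫ w, Wr wt y r w * ‖lc (fun _ => so B.χ) d w‖ ^ 2 ∂(pm (Fin N) μY) := by
      have e1 : (∑ i : Fin N, ∑ j ∈ Ioi i, ∫ w, ‖lc (fun _ => so B.χ) d w‖ ^ 2 *
          sr r (dist (w i).1 (w j).1) ∂(pm (Fin N) μY)) =
          ∫ w, (∑ i : Fin N, ∑ j ∈ Ioi i, ‖lc (fun _ => so B.χ) d w‖ ^ 2 *
          sr r (dist (w i).1 (w j).1)) ∂(pm (Fin N) μY) := by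
        rw [integral_finsetSum _ fun i _ => integrable_finsetSum _ fun j hj =>
          j1 i j (Finset.mem_Ioi.1 hj).ne]
        refine Finset.sum_congr rfl fun i _ => ?_
        rw [integral_finsetSum _ fun j hj => j1 i j (Finset.mem_Ioi.1 hj).ne]
      have e2 : (∑ i : Fin N, ∑ b, wt b * ∫ w, ‖lc (fun _ => so B.χ) d w‖ ^ 2 *
          sr r (dist (w i).1 0) ∂(pm (Fin N) μY)) =
          ∫ w, (∑ i : Fin N, ∑ b, wt b * (‖lc (fun _ => so B.χ) d w‖ ^ 2 *
          sr r (dist (w i).1 0))) ∂(pm (Fin N) μY) := by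
        rw [integral_finsetSum _ fun i _ => integrable_finsetSum _ fun b _ =>
          (j2 i).const_mul _]
        refine Finset.sum_congr rfl fun i _ => ?_
        rw [integral_finsetSum _ fun b _ => (j2 i).const_mul _]
        refine Finset.sum_congr rfl fun b _ => ?_
        rw [integral_const_mul]
      have j3s : Integrable (fun w => (∑ i : Fin N, ∑ j ∈ Ioi i,
          ‖lc (fun _ => so B.χ) d w‖ ^ 2 * sr r (dist (w i).1 (w j).1)) +
          ∑ i : Fin N, ∑ b, wt b * (‖lc (fun _ => so B.χ) d w‖ ^ 2 *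
          sr r (dist (w i).1 0))) (pm (Fin N) μY) := j1s.add j2s
      rw [e1, e2, ← integral_add j1s j2s, ← integral_sub hPW.1 j3s]
      refine integral_mono (hPW.1.sub j3s) (hPdm.bdd_norm_sq_integrable hV hVb)
        fun w => ?_
      have h := mul_le_mul_of_nonneg_left (Wr_ge wt y hwt (r := r) w)
        (sq_nonneg ‖lc (fun _ => so B.χ) d w‖)
      refine le_trans (le_of_eq ?_) (h.trans (le_of_eq (mul_comm _ _)))
      rw [mul_sub, mul_add, Finset.mul_sum, Finset.mul_sum]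
      congr 2
      · refine Finset.sum_congr rfl fun i _ => ?_
        rw [Finset.mul_sum]
      · refine Finset.sum_congr rfl fun i _ => ?_
        rw [Finset.mul_sum]
        refine Finset.sum_congr rfl fun b _ => ?_
        ring
    have hp4 : 0 ≤ 4 * r * nsq d := by (clear * - hr hp0; positivity)
    have s5 : (∑ i : Fin N, ∑ j ∈ Ioi i, ∫ w, ‖lc (fun _ => so B.χ) d w‖ ^ 2 *
          sr r (dist (w i).1 (w j).1) ∂(pm (Fin N) μY)) ≤ (N : ℝ) * N * (4 * r * nsq d) := by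
      have h1 : ∀ i ∈ (univ : Finset (Fin N)), (∑ j ∈ Ioi i, ∫ w, ‖lc (fun _ => so B.χ) d w‖ ^ 2 *
          sr r (dist (w i).1 (w j).1) ∂(pm (Fin N) μY)) ≤ (N : ℝ) * (4 * r * nsq d) := by
        intro i _
        refine (Finset.sum_le_sum fun j hj => k1 i j (Finset.mem_Ioi.1 hj).ne).trans ?_
        rw [Finset.sum_const, nsmul_eq_mul]
        have h4 : ((Ioi i).card : ℝ) ≤ N := by
          have := Finset.card_le_univ (Ioi i)
          rw [Fintype.card_fin] at this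
          exact_mod_cast this
        exact mul_le_mul_of_nonneg_right h4 hp4
      refine (Finset.sum_le_sum h1).trans (le_of_eq ?_)
      rw [Finset.sum_const, Finset.card_univ, Fintype.card_fin, nsmul_eq_mul]
      ring
    have s6 : (∑ i : Fin N, ∑ b, wt b * ∫ w, ‖lc (fun _ => so B.χ) d w‖ ^ 2 *
          sr r (dist (w i).1 0) ∂(pm (Fin N) μY)) ≤ (N : ℝ) * ((∑ b, wt b) * (4 * r * nsq d)) := by
      have h1 : ∀ i ∈ (univ : Finset (Fin N)), (∑ b, wt b * ∫ w, ‖lc (fun _ => so B.χ) d w‖ ^ 2 *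
          sr r (dist (w i).1 0) ∂(pm (Fin N) μY)) ≤ (∑ b, wt b) * (4 * r * nsq d) := by
        intro i _
        rw [Finset.sum_mul]
        exact Finset.sum_le_sum fun b _ => mul_le_mul_of_nonneg_left (k2 i) (hwt b)
      refine (Finset.sum_le_sum h1).trans ?_
      rw [Finset.sum_const, Finset.card_univ, Fintype.card_fin, nsmul_eq_mul]
    have s7 := hμ d hanti hgood
    rw [← hPW.2] at s7
    have s8 : (∫ w, ‖lc (fun _ => so B.χ) d w‖ ^ 2 ∂(pm (Fin N) (wsp κ hκ).μ)) = nsq d := hPn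
    have s9 : (∫ w, ‖toY ψ w - lc (fun _ => so B.χ) d w‖ ^ 2 ∂(pm (Fin N) (wsp κ hκ).μ)) =
      1 - nsq d := hq
    rw [s8, s9] at s3
    have s10 : (∫ w, Wr wt y r w * ‖lc (fun _ => so B.χ) d w‖ ^ 2 ∂(pm (Fin N) (wsp κ hκ).μ)) =
      ∫ w, Wr wt y r w * ‖lc (fun _ => so B.χ) d w‖ ^ 2 ∂(pm (Fin N) μY) := rfl
    have s11 : (∫ w, Wr wt y r w * ‖toY ψ w‖ ^ 2 ∂(pm (Fin N) (wsp κ hκ).μ)) =
      ∫ w, Wr wt y r w * ‖toY ψ w‖ ^ 2 ∂(pm (Fin N) μY) := rfl
    rw [s10, s11] at s3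
    have s12 : μ * (1 - (1 - nsq d)) -
        4 * r * ((N : ℝ) * ((N : ℝ) + ∑ b, wt b)) * (1 - (1 - nsq d)) -
        (N : ℝ) * ((N : ℝ) + ∑ b, wt b) / r * t * (1 - (1 - nsq d)) -
        (N : ℝ) * ((N : ℝ) + ∑ b, wt b) / r * (1 / t + 1) * (1 - nsq d) -
        4 * r * (∑ b, wt b) * (H0 ψ + (N : ℝ)) ≤
        ∫ w, ‖toY ψ w‖ ^ 2 * Wp wt y w ∂(pm (Fin N) μY) := by
      refine le_trans ?_ s1
      have e1 : 4 * r * ((N : ℝ) * ((N : ℝ) + ∑ b, wt b)) * (1 - (1 - nsq d)) =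
          (N : ℝ) * N * (4 * r * nsq d) + (N : ℝ) * ((∑ b, wt b) * (4 * r * nsq d)) := by ring
      rw [e1]
      have e2 : (1 : ℝ) - (1 - nsq d) = nsq d := by ring
      rw [e2]
      linarith only [s2, s3, s4, s5, s6, s7]
    have s13 := mul_le_mul_of_nonneg_left s12 hlam.le
    linarith

end Vale.Agent.P370.NB
end
end

section

section

/-!
First order degenerate perturbation theory: lower bound.
-/

namespace Vale.Agent.P370.Q

open MeasureTheory Finset ComplexConjugate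

/-- elementary estimates for the lower bound -/
theorem nbody_numeric {nn Nn S lam r μ q H E Er g : ℝ} (hn : 1 ≤ nn) (hN : 1 ≤ Nn) (hS : 0 ≤ S)
    (hlam : 0 < lam) (hr : 0 < r) (hr1 : r ≤ 1) (hEr : Er ≤ 0) (hg : 3 / (8 * nn ^ 3) ≤ g)
    (hsmall : 32 * nn ^ 3 * lam * Nn * (Nn + S) ≤ r) (hμ : 64 * nn ^ 3 * lam * |μ| ≤ 1)
    (hq0 : 0 ≤ q) (hq1 : q ≤ 1) (ha : Er + g * q ≤ H)
    (hb : H + lam * (μ * (1 - q) - 4 * r * (Nn * (Nn + S)) * (1 - q) -
        Nn * (Nn + S) / r * (64 * nn ^ 3 * lam * (Nn * (Nn + S)) / r) * (1 - q) -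
        Nn * (Nn + S) / r * (1 / (64 * nn ^ 3 * lam * (Nn * (Nn + S)) / r) + 1) * q -
        4 * r * S * (H + Nn)) ≤ E) :
    Er + lam * μ - 64 * lam * r * (Nn + S) ^ 2 - 64 * nn ^ 3 * lam ^ 2 * (Nn + S) ^ 4 / r ^ 2 ≤
      E := by
  obtain ⟨X, hX⟩ : ∃ X, X = Nn * (Nn + S) := ⟨_, rfl⟩
  rw [← hX] at hb
  have hn3 : 1 ≤ nn ^ 3 := one_le_pow₀ hn
  have hn3' : 0 < nn ^ 3 := by positivity
  have hXpos : 0 < X := by rw [hX]; (clear * - hN hS; positivity)
  have hXle : X ≤ (Nn + S) ^ 2 := by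
    rw [hX, sq]
    apply mul_le_mul_of_nonneg_right _ (by linarith only [hN, hS])
    linarith only [hS]
  have hSX : S ≤ X := by
    rw [hX]
    nlinarith only [hN, hS]
  have hsm : 32 * nn ^ 3 * lam * X ≤ r := by
    rw [hX]
    linarith only [hsmall]
  have hlS : lam * S ≤ 1 / 32 := by
    have h1 : 32 * (lam * S) ≤ 32 * nn ^ 3 * lam * X := by
      have h2 : lam * S ≤ lam * X := mul_le_mul_of_nonneg_left hSX hlam.le
      have h3 : lam * X ≤ nn ^ 3 * (lam * X) := by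
        have : 0 ≤ lam * X := by positivity
        nlinarith only [hn3, this]
      linarith only [h2, h3]
    linarith only [hr1, hsm, h1]
  obtain ⟨δ, hδ⟩ : ∃ δ, δ = 4 * lam * r * S := ⟨_, rfl⟩
  have hδ0 : 0 ≤ δ := by rw [hδ]; (clear * - hlam hr hS; positivity)
  have hδ1 : δ ≤ 1 / 8 := by
    rw [hδ]
    have : lam * S * r ≤ 1 / 32 * 1 := mul_le_mul hlS hr1 hr.le (by norm_num)
    linarith only [this]
  have hg0 : 0 ≤ g := le_trans (by positivity) hg
  -- main part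
  have m1 : Er + (7 / 8) * (g * q) ≤ (1 - δ) * H := by
    have h1 : (1 - δ) * (Er + g * q) ≤ (1 - δ) * H :=
      mul_le_mul_of_nonneg_left ha (by linarith only [hδ1])
    have h2 : 0 ≤ δ * (-Er) := mul_nonneg hδ0 (by linarith only [hEr])
    have h3 : 0 ≤ (1 / 8 - δ) * (g * q) := mul_nonneg (by linarith only [hδ1]) (by (clear * - hg0 hq0; positivity))
    linarith only [h1, h2, h3]
  have m2 : (7 / 8) * (3 / (8 * nn ^ 3) * q) ≤ (7 / 8) * (g * q) := by
    have := mul_le_mul_of_nonneg_right hg hq0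
    linarith only [this]
  -- the coupling terms
  have e1 : lam * (X / r * (64 * nn ^ 3 * lam * X / r)) = 64 * nn ^ 3 * lam ^ 2 * X ^ 2 / r ^ 2 := by
    field_simp
  have e2 : lam * (X / r * (1 / (64 * nn ^ 3 * lam * X / r))) = 1 / (64 * nn ^ 3) := by
    (clear * - hlam hXpos hr hn; field_simp)
  have e3 : lam * (X / r) ≤ 1 / (32 * nn ^ 3) := by
    rw [← mul_div_assoc, div_le_div_iff₀ hr (by positivity)]
    linarith only [hsm]
  have e4 : 64 * nn ^ 3 * lam ^ 2 * X ^ 2 / r ^ 2 ≤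
      64 * nn ^ 3 * lam ^ 2 * (Nn + S) ^ 4 / r ^ 2 := by
    have h1 : X ^ 2 ≤ ((Nn + S) ^ 2) ^ 2 := by (clear * - hXpos hXle; gcongr)
    have h2 : ((Nn + S) ^ 2) ^ 2 = (Nn + S) ^ 4 := by ring
    rw [h2] at h1
    (clear * - h1 hn hlam hr; gcongr)
  have e5 : lam * (μ * q) ≤ 1 / (64 * nn ^ 3) * q := by
    have h1 : lam * |μ| ≤ 1 / (64 * nn ^ 3) := by
      rw [le_div_iff₀ (by positivity)]
      linarith only [hμ]
    have h2 : lam * (μ * q) ≤ lam * |μ| * q := by
      have h3 : μ * q ≤ |μ| * q := mul_le_mul_of_nonneg_right (le_abs_self μ) hq0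
      have h4 := mul_le_mul_of_nonneg_left h3 hlam.le
      linarith only [h4]
    exact h2.trans (mul_le_mul_of_nonneg_right h1 hq0)
  have e6 : 0 ≤ 64 * nn ^ 3 * lam ^ 2 * X ^ 2 / r ^ 2 := by (clear * - hn hlam hXpos hr; positivity)
  have e7 : 64 * nn ^ 3 * lam ^ 2 * X ^ 2 / r ^ 2 * (1 - q) ≤
      64 * nn ^ 3 * lam ^ 2 * X ^ 2 / r ^ 2 := by
    have := mul_nonneg e6 hq0
    linarith only [this]
  have e8 : lam * (4 * r * X * (1 - q)) ≤ 4 * lam * r * X := by
    have h1 : 0 ≤ 4 * lam * r * X * q := by (clear * - hlam hr hXpos hq0; positivity)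
    linarith only [h1]
  have e9 : 4 * lam * r * X + 4 * lam * r * S * Nn ≤ 64 * lam * r * (Nn + S) ^ 2 := by
    have h1 : S * Nn ≤ (Nn + S) ^ 2 := by linarith only [mul_nonneg_of_nonpos_of_nonpos (Mathlib.Tactic.Linarith.sub_nonpos_of_le hN) (Mathlib.Tactic.Linarith.sub_nonpos_of_le hN), hXle, hX, hN]
    have h2 : 4 * lam * r * X ≤ 4 * lam * r * (Nn + S) ^ 2 :=
      mul_le_mul_of_nonneg_left hXle (by positivity)
    have h3 : 4 * lam * r * (S * Nn) ≤ 4 * lam * r * (Nn + S) ^ 2 :=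
      mul_le_mul_of_nonneg_left h1 (by positivity)
    have h4 : 0 ≤ lam * r * (Nn + S) ^ 2 := by (clear * - hlam hr hN hS; positivity)
    linarith only [h2, h3, h4]
  have e10 : lam * (X / r * (1 / (64 * nn ^ 3 * lam * X / r) + 1) * q) ≤
      (1 / (64 * nn ^ 3) + 1 / (32 * nn ^ 3)) * q := by
    have h1 : lam * (X / r * (1 / (64 * nn ^ 3 * lam * X / r) + 1) * q) =
        (lam * (X / r * (1 / (64 * nn ^ 3 * lam * X / r))) + lam * (X / r)) * q := by ring
    rw [h1, e2]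
    exact mul_le_mul_of_nonneg_right (by linarith only [e3]) hq0
  have hb' : (1 - δ) * H + lam * μ - lam * (μ * q) - lam * (4 * r * X * (1 - q)) -
      lam * (X / r * (64 * nn ^ 3 * lam * X / r)) * (1 - q) -
      lam * (X / r * (1 / (64 * nn ^ 3 * lam * X / r) + 1) * q) - 4 * lam * r * S * Nn ≤ E := by
    refine le_trans (le_of_eq ?_) hb
    rw [hδ]
    ring
  rw [e1] at hb'
  have f1 : (7 / 8) * (3 / (8 * nn ^ 3) * q) = 21 * (1 / (64 * nn ^ 3) * q) := by
    field_simp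
    ring
  have f2 : (1 / (64 * nn ^ 3) + 1 / (32 * nn ^ 3)) * q = 3 * (1 / (64 * nn ^ 3) * q) := by
    field_simp
    ring
  have f3 : 0 ≤ 1 / (64 * nn ^ 3) * q := by (clear * - hn hq0; positivity)
  rw [f2] at e10
  rw [f1] at m2
  linarith only [m1, m2, e4, e5, e7, e8, e9, e10, hb', f3]

theorem gap_ge {nn : ℝ} (hn : 1 ≤ nn) :
    3 / (8 * nn ^ 3) ≤ 1 / (2 * nn ^ 2) - 1 / (2 * (nn + 1) ^ 2) := by
  have h1 : 1 / (2 * nn ^ 2) - 1 / (2 * (nn + 1) ^ 2) - 3 / (8 * nn ^ 3) =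
      (4 * nn * (2 * nn + 1) - 3 * (nn + 1) ^ 2) / (8 * nn ^ 3 * (nn + 1) ^ 2) := by
    field_simp
    ring
  have h2 : 0 ≤ (4 * nn * (2 * nn + 1) - 3 * (nn + 1) ^ 2) / (8 * nn ^ 3 * (nn + 1) ^ 2) := by
    apply div_nonneg _ (by (clear * - hn; positivity))
    nlinarith only [hn]
  linarith

theorem nbody_lower {n K M m : ℕ} {C O : Type} [Fintype C] [DecidableEq C] [Fintype O]
    [DecidableEq O] (hn : 1 ≤ n)
    (B : ShellBasis n (C ⊕ O)) (hC : ∀ c, B.lev (Sum.inl c) < n) (hO : ∀ o, B.lev (Sum.inr o) = n)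
    (hM : M = 2 * Fintype.card C) (hK : K ≤ 2 * n ^ 2) (hK0 : 1 ≤ K)
    (lam r₁ μ : ℝ) (w : Fin m → ℝ) (y : Fin m → R3) (hw : ∀ b, 0 ≤ w b)
    (hlam : 0 < lam) (hr : 0 < r₁) (hr1 : r₁ ≤ 1)
    (hsmall : 32 * (n : ℝ) ^ 3 * lam * ((M + K : ℕ) : ℝ) * (((M + K : ℕ) : ℝ) + ∑ b, w b) ≤ r₁)
    (hμ1 : 64 * (n : ℝ) ^ 3 * lam * |μ| ≤ 1)
    (hμ : ∀ c : Tens (M + K) ((C ⊕ O) × Fin 2), IsAnti c → Good c →
      μ * nsq c ≤ enT (nucM B.χ w y) (coulM B.χ) c)
    (ψ : Wave (M + K)) (hψ : IsTestState ψ) (hψ1 : normSq ψ = 1) :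
    -((n : ℝ) - 1) - K / (2 * (n : ℝ) ^ 2) + lam * μ -
        64 * lam * r₁ * (((M + K : ℕ) : ℝ) + ∑ b, w b) ^ 2 -
        64 * (n : ℝ) ^ 3 * lam ^ 2 * (((M + K : ℕ) : ℝ) + ∑ b, w b) ^ 4 / r₁ ^ 2
      ≤ scaledE lam w y ψ := by
  have hn' : (1 : ℝ) ≤ n := by exact_mod_cast hn
  have hN : (1 : ℝ) ≤ ((M + K : ℕ) : ℝ) := by
    have : 1 ≤ M + K := by omega
    exact_mod_cast this
  have hS : 0 ≤ ∑ b, w b := Finset.sum_nonneg fun b _ => hw b
  have ht : 0 < 64 * (n : ℝ) ^ 3 * lam * (((M + K : ℕ) : ℝ) * (((M + K : ℕ) : ℝ) + ∑ b, w b)) / r₁ := by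
    (clear * - hn hlam hK0 hS hr; positivity)
  obtain ⟨q, hq0, hq1, ha, hb⟩ := NB.lower_core (N := M + K) rfl hn B hC hO hM lam r₁ μ w y hw
    hlam hr hμ ψ hψ hψ1 ht
  have hEr : -((n : ℝ) - 1) - K / (2 * (n : ℝ) ^ 2) ≤ 0 := by
    have : 0 ≤ (K : ℝ) / (2 * (n : ℝ) ^ 2) := by positivity
    linarith only [hn', this]
  exact nbody_numeric hn' hN hS hlam hr hr1 hEr (gap_ge hn') hsmall hμ1 hq0 hq1 ha hb

end Vale.Agent.P370.Q
end
end

section

section

/-!
The structure theorem.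
-/

namespace Vale.Agent.P370.Q

open MeasureTheory Finset ComplexConjugate

/-- errors of the perturbation theory -/
theorem err_small (k : ℕ) (hk : 10 ≤ k) (B : ℝ) (hB0 : 0 ≤ B) (hB : B ≤ 2 ^ (129 * pn k ^ 3)) :
    64 * (pT k : ℝ) * (1 / 2 ^ (400 * pn k ^ 3)) * B ^ 2 +
      64 * (pn k : ℝ) ^ 3 * B ^ 4 / (1 / 2 ^ (400 * pn k ^ 3)) ^ 2 ≤
        pT k * pJ k / (pK k : ℝ) ^ 8 / 8 := by
  have hacc := acc_ge k hk
  have hT : (pT k : ℝ) = 2 ^ (2000 * pn k ^ 3) := by
    unfold pT; push_cast; rfl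
  have hm : 1 ≤ pn k ^ 3 := Nat.one_le_pow _ _ (pn_pos k)
  generalize hM : pn k ^ 3 = m at hacc hB hT hm ⊢
  have hT0 : (0 : ℝ) < pT k := by rw [hT]; positivity
  have h1 : 64 * (pT k : ℝ) * (1 / 2 ^ (400 * m)) * B ^ 2 ≤ pT k * (64 / 2 ^ m) := by
    have : B ^ 2 ≤ 2 ^ (258 * m) := by
      calc B ^ 2 ≤ (2 ^ (129 * m)) ^ 2 := by gcongr
        _ = 2 ^ (258 * m) := by rw [← pow_mul]; ring_nf
    calc 64 * (pT k : ℝ) * (1 / 2 ^ (400 * m)) * B ^ 2
        ≤ 64 * (pT k : ℝ) * (1 / 2 ^ (400 * m)) * 2 ^ (258 * m) := by (clear * - this hT0; gcongr)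
      _ = pT k * (64 * (2 ^ (258 * m) / 2 ^ (400 * m))) := by ring
      _ ≤ pT k * (64 * (1 / 2 ^ m)) := by
          gcongr 1
          gcongr 1
          rw [div_le_div_iff₀ (by positivity) (by positivity), one_mul, ← pow_add]
          exact two_pow_mono (by omega)
      _ = pT k * (64 / 2 ^ m) := by ring
  have h2 : 64 * (pn k : ℝ) ^ 3 * B ^ 4 / (1 / 2 ^ (400 * m)) ^ 2 ≤ pT k * (64 / 2 ^ m) := by
    have hB4 : B ^ 4 ≤ 2 ^ (516 * m) := by
      calc B ^ 4 ≤ (2 ^ (129 * m)) ^ 4 := by gcongr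
        _ = 2 ^ (516 * m) := by rw [← pow_mul]; ring_nf
    have hn3 : (pn k : ℝ) ^ 3 ≤ 2 ^ m := by
      have : pn k ^ 3 < 2 ^ (pn k ^ 3) := Nat.lt_two_pow_self
      rw [hM] at this
      calc (pn k : ℝ) ^ 3 = ((pn k ^ 3 : ℕ) : ℝ) := by push_cast; rfl
        _ = (m : ℝ) := by rw [hM]
        _ ≤ 2 ^ m := by exact_mod_cast this.le
    calc 64 * (pn k : ℝ) ^ 3 * B ^ 4 / (1 / 2 ^ (400 * m)) ^ 2
        ≤ 64 * 2 ^ m * 2 ^ (516 * m) / (1 / 2 ^ (400 * m)) ^ 2 := by (clear * - hn3 hB4; gcongr)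
      _ = 64 * (2 ^ m * 2 ^ (516 * m) * (2 ^ (400 * m)) ^ 2) := by
          (clear * -; field_simp)
      _ = 64 * 2 ^ (1317 * m) := by
          rw [← pow_mul, ← pow_add, ← pow_add]
          congr 2
          ring
      _ ≤ 64 * (2 ^ (2000 * m) / 2 ^ m) := by
          gcongr 1
          rw [le_div_iff₀ (by positivity), ← pow_add]
          exact two_pow_mono (by (clear * - hm; omega))
      _ = pT k * (64 / 2 ^ m) := by rw [hT]; ring
  have h3 : pT k * (64 / 2 ^ m) + pT k * (64 / 2 ^ m) ≤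
      (pT k : ℝ) * pJ k / (pK k : ℝ) ^ 8 / 8 := by
    have : (pT k : ℝ) * pJ k / (pK k : ℝ) ^ 8 / 8 = pT k * (pJ k / (pK k : ℝ) ^ 8) / 8 := by ring
    rw [this]
    have h4 := mul_le_mul_of_nonneg_left hacc hT0.le
    have h5 : (pT k : ℝ) * (1024 / 2 ^ m) = 16 * (pT k * (64 / 2 ^ m)) := by ring
    rw [h5] at h4
    linarith only [h4]
  linarith only [h1, h2, h3]

/-- final algebra -/
theorem range_alg (T A X p9 r B n3 e J K8 E : ℝ) (hT0 : 0 < T) (hJ : 0 ≤ J / K8)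
    (herr : 64 * T * r * B ^ 2 + 64 * n3 * B ^ 4 / r ^ 2 ≤ T * J / K8 / 8)
    (h9 : p9 ≤ J / K8 / 8) (hE : e ≤ X + p9)
    (h1 : T ^ 2 * (A + 1 / T * (X - p9) - 64 * (1 / T) * r * B ^ 2 -
      64 * n3 * (1 / T) ^ 2 * B ^ 4 / r ^ 2) ≤ E)
    (h2 : E ≤ T ^ 2 * (A + 1 / T * e + 1 / T * (J / K8 / 8))) :
    |E - (T ^ 2 * A + T * X)| ≤ T * J / K8 := by
  have hTne : T ≠ 0 := hT0.ne'
  have e2 : T ^ 2 * (A + 1 / T * (X - p9) - 64 * (1 / T) * r * B ^ 2 -
      64 * n3 * (1 / T) ^ 2 * B ^ 4 / r ^ 2) =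
      T ^ 2 * A + T * X - T * p9 - (64 * T * r * B ^ 2 + 64 * n3 * B ^ 4 / r ^ 2) := by
    have : T ^ 2 * (1 / T) = T := by field_simp
    have h' : T ^ 2 * (1 / T) ^ 2 = 1 := by (clear * - hTne; field_simp)
    calc _ = T ^ 2 * A + (T ^ 2 * (1 / T)) * X - (T ^ 2 * (1 / T)) * p9 -
          (64 * (T ^ 2 * (1 / T)) * r * B ^ 2 +
            64 * n3 * (T ^ 2 * (1 / T) ^ 2) * B ^ 4 / r ^ 2) := by ring
      _ = _ := by rw [this, h']; ring
  have e3 : T ^ 2 * (A + 1 / T * e + 1 / T * (J / K8 / 8)) =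
      T ^ 2 * A + T * e + T * (J / K8 / 8) := by
    have : T ^ 2 * (1 / T) = T := by (clear * - hTne; field_simp)
    calc _ = T ^ 2 * A + (T ^ 2 * (1 / T)) * e + (T ^ 2 * (1 / T)) * (J / K8 / 8) := by ring
      _ = _ := by rw [this]
  rw [e2] at h1
  rw [e3] at h2
  have h3 : T * e ≤ T * (X + p9) := mul_le_mul_of_nonneg_left hE hT0.le
  have h4 : T * p9 ≤ T * (J / K8 / 8) := mul_le_mul_of_nonneg_left h9 hT0.le
  have h5 : T * J / K8 = T * (J / K8) := by ring
  have h6 : 0 ≤ T * (J / K8) := mul_nonneg hT0.le hJ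
  rw [h5] at herr ⊢
  have h7 : T * (X + p9) = T * X + T * p9 := by ring
  have h8 : T * (J / K8 / 8) = T * (J / K8) / 8 := by ring
  rw [h7] at h3
  rw [h8] at h4 h2
  rw [abs_le]
  constructor <;> linarith only [herr, h1, h2, h3, h4]

/-- size of the Heisenberg energy -/
theorem heis_size (k : ℕ) (hk : 10 ≤ k) (q : ℕ → ℕ) (hq : GoodQ k q) (s : ℕ → ℕ → ℕ)
    (hs : GoodS k q s) : |heisMax (coupl (kap k q) s (K := pK k))| ≤ 2 ^ (2 * pn k ^ 3) := by
  have hpJ := pJ_pos k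
  have hn1 : 1024 ≤ pn k := pn_ge k hk
  have hnR : (1024 : ℝ) ≤ pn k := by exact_mod_cast hn1
  have hK4 : (1024 : ℝ) ≤ pK k := by exact_mod_cast pK_ge k hk
  have hpJ1 : pJ k ≤ 1 := by
    unfold pJ
    rw [div_le_one (by (clear * - hn1 hK4; positivity))]
    have h4 : (1 : ℝ) ≤ (pn k : ℝ) ^ 2 := one_le_pow₀ (by linarith only [hnR])
    have h5 : (1 : ℝ) ≤ (pK k : ℝ) ^ 256 := one_le_pow₀ (by linarith only [hK4])
    nlinarith only [h4, h5]
  have hc : ∀ i j : Fin (pK k), |coupl (kap k q) s i j| ≤ 16 := by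
    intro i j
    unfold coupl
    split_ifs with hij
    · have hij' : (i : ℕ) < j := hij
      have hb := kap_bounds k hk q hq (j - i) (by omega) (by (clear * - hij; omega))
      have h0 : (0 : ℝ) ≤ kap k q (j - i) := le_trans (by (clear * -; positivity)) hb.1
      rw [abs_of_nonneg (by (clear * - h0; positivity))]
      have := hs i j hij' j.2
      linarith only [hpJ1, this]
    · rw [abs_zero]
      norm_num
  have h1 := Alg.heisMax_lip (coupl (kap k q) s (K := pK k)) (fun _ _ => 0)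
  rw [Alg.heisMax_zero, sub_zero] at h1
  have h2 : ∑ i : Fin (pK k), ∑ j ∈ Ioi i, |coupl (kap k q) s i j - 0| ≤
      ∑ _i : Fin (pK k), ∑ _j : Fin (pK k), (16 : ℝ) := by
    refine Finset.sum_le_sum fun i _ => ?_
    refine le_trans (Finset.sum_le_sum (g := fun _ => (16 : ℝ)) fun j _ => ?_)
      (Finset.sum_le_sum_of_subset_of_nonneg (Finset.subset_univ _) fun _ _ _ => by norm_num)
    rw [sub_zero]
    exact hc i j
  rw [Finset.sum_const, Finset.sum_const, Finset.card_univ, Fintype.card_fin, nsmul_eq_mul,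
    nsmul_eq_mul] at h2
  have hKn : (pK k : ℝ) ≤ 2 ^ pn k := by
    have h3 : pK k ≤ pn k := by
      rw [pn_eq]
      exact Nat.le_self_pow (by norm_num) _
    exact le_trans (by exact_mod_cast h3) (pn_le_two_pow k)
  have hnm : 1024 * pn k ≤ pn k ^ 3 := pn_cube_ge k hk
  calc |heisMax (coupl (kap k q) s (K := pK k))| ≤ 2 * ((pK k : ℝ) * ((pK k : ℝ) * 16)) := by
        linarith only [h1, h2]
    _ ≤ 2 * (2 ^ pn k * (2 ^ pn k * 16)) := by (clear * - hKn hK4; gcongr)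
    _ = 2 ^ (5 + pn k + pn k) := by
        rw [pow_add, pow_add]
        ring
    _ ≤ 2 ^ (2 * pn k ^ 3) := two_pow_mono (by omega)

/-- **Structure theorem**, explicit form. -/
theorem structure_explicit (k : ℕ) (hk : 10 ≤ k) (q : ℕ → ℕ) (hq : GoodQ k q)
    {C R : Type} [Fintype C] [DecidableEq C] [Fintype R] [DecidableEq R] (S : SiteB k C R)
    (s : ℕ → ℕ → ℕ) (hs : GoodS k q s)
    (w : Fin (pD k * pD k) → ℕ) (y : Fin (pD k * pD k) → R3) (H : Approx k q s w y) :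
    ∑ β, w β < pT k ∧
      ∃ E : ℝ, groundEnergy (M := pD k * pD k + 1)
          (Fin.cons 0 (fun b => (1 / (pT k : ℝ)) • y b)) (Fin.cons (pT k - ∑ b, w b) w)
          (pN k) = (E : EReal) ∧
        |E - (Erefv S - pT k * heisMax (coupl (kap k q) s (K := pK k)))| ≤
          pT k * pJ k / (pK k : ℝ) ^ 8 := by
  obtain ⟨hcard, hC3, hR2⟩ := S.card hk
  obtain ⟨hw1, hw2⟩ := approx_charge k hk q hq s hs w y H
  refine ⟨hw2, ?_⟩
  have hNle := pN_le k hk
  rw [hcard] at hNle ⊢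
  -- abbreviations
  set m : ℕ := pn k ^ 3 with hm
  have hT : (pT k : ℝ) = 2 ^ (2000 * m) := by
    unfold pT; push_cast; rfl
  have hT0 : (0 : ℝ) < pT k := by rw [hT]; positivity
  have hn1 : 1024 ≤ pn k := pn_ge k hk
  have hnR : (1024 : ℝ) ≤ pn k := by exact_mod_cast hn1
  have hm1 : 1 ≤ m := Nat.one_le_pow _ _ (pn_pos k)
  have hnm : 1024 * pn k ≤ m := pn_cube_ge k hk
  have hn2 : (pn k : ℝ) ≤ 2 ^ pn k := pn_le_two_pow k
  set X : ℝ := cc0 S + mottBase (wS k) (eps0 S) - heisMax (coupl (kap k q) s (K := pK k)) with hX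
  set B : ℝ := ((2 * Fintype.card C + pK k : ℕ) : ℝ) + ∑ b, (w b : ℝ) with hB
  have hB0 : 0 ≤ B := by rw [hB]; (clear * -; positivity)
  have hn4 : (pn k : ℝ) ^ 4 ≤ 2 ^ m := by
    calc (pn k : ℝ) ^ 4 ≤ (2 ^ pn k) ^ 4 := by (clear * - hn1 hn2; gcongr)
      _ = 2 ^ (pn k * 4) := by rw [← pow_mul]
      _ ≤ 2 ^ m := two_pow_mono (le_trans (by omega) hnm)
  have hBle : B ≤ 2 ^ (129 * m) := by
    have h1 : ∑ β, (w β : ℝ) ≤ 2 ^ (128 * m + 2) := by
      refine hw1.trans (le_of_eq ?_)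
      unfold pW
      rw [pow_add]
      ring
    calc B ≤ 2 ^ m + 2 ^ (128 * m + 2) := by
          rw [hB]
          exact add_le_add (hNle.trans hn4) h1
      _ ≤ 2 ^ (128 * m + 2) + 2 ^ (128 * m + 2) :=
          add_le_add (two_pow_mono (by omega)) le_rfl
      _ = 2 ^ (128 * m + 3) := by rw [pow_succ (n := 128 * m + 2)]; ring
      _ ≤ 2 ^ (129 * m) := two_pow_mono (by omega)
  have herr := err_small k hk B hB0 hBle
  rw [← hm] at herr
  -- size of X
  have hheis : |heisMax (coupl (kap k q) s (K := pK k))| ≤ 2 ^ (2 * m) :=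
    heis_size k hk q hq s hs
  have hXabs : |X| ≤ 2 ^ (132 * m) := by
    obtain ⟨h1, -, h3, -, -⟩ := const_bounds hk S
    rw [← hm] at h1 h3
    calc |X| ≤ |cc0 S| + |mottBase (wS k) (eps0 S)| +
          |heisMax (coupl (kap k q) s (K := pK k))| := by
            rw [hX]
            exact (abs_sub _ _).trans (add_le_add_left (abs_add_le _ _) _)
      _ ≤ 2 ^ (131 * m) + 2 ^ (131 * m) + 2 ^ (131 * m) := by
          refine add_le_add (add_le_add (h1.trans (two_pow_mono (by omega))) h3)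
            (hheis.trans (two_pow_mono (by (clear * - hm1; omega))))
      _ ≤ 2 ^ (131 * m + 2) := by
          rw [pow_add]
          have : (0 : ℝ) < 2 ^ (131 * m) := by positivity
          linarith only [this]
      _ ≤ 2 ^ (132 * m) := two_pow_mono (by
          have : 1024 * 1024 ≤ 1024 * pn k := Nat.mul_le_mul_left _ hn1
          omega)
  have hpJ := pJ_pos k
  have hKpos : (0 : ℝ) < pK k := by unfold pK; (clear * -; positivity)
  have hK4 : (1024 : ℝ) ≤ pK k := by exact_mod_cast pK_ge k hk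
  have hacc9 : 2 * pJ k / (pK k : ℝ) ^ 9 ≤ pJ k / (pK k : ℝ) ^ 8 / 8 := by
    have : 2 * pJ k / (pK k : ℝ) ^ 9 = pJ k / (pK k : ℝ) ^ 8 * (2 / pK k) := by
      (clear * - hKpos hpJ; field_simp)
    rw [this, div_eq_mul_inv (pJ k / (pK k : ℝ) ^ 8) 8]
    gcongr
    rw [div_le_iff₀ hKpos]
    linarith only [hK4]
  -- lower bound
  have hlow : ∀ ψ : Wave (2 * Fintype.card C + pK k), IsTestState ψ → normSq ψ = 1 →
      -((pn k : ℝ) - 1) - pK k / (2 * (pn k : ℝ) ^ 2) +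
        1 / (pT k : ℝ) * (X - 2 * pJ k / (pK k : ℝ) ^ 9) -
        64 * (1 / (pT k : ℝ)) * (1 / 2 ^ (400 * m)) * B ^ 2 -
        64 * (pn k : ℝ) ^ 3 * (1 / (pT k : ℝ)) ^ 2 * B ^ 4 / (1 / 2 ^ (400 * m)) ^ 2 ≤
      scaledE (1 / (pT k : ℝ)) (fun b => (w b : ℝ)) y ψ := by
    intro ψ hψ hψ1
    refine nbody_lower (n := pn k) (M := 2 * Fintype.card C) (K := pK k) (by omega) S.B S.hC S.hO
      rfl ?_ ?_ (1 / (pT k : ℝ)) (1 / 2 ^ (400 * m)) (X - 2 * pJ k / (pK k : ℝ) ^ 9)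
      (fun b => (w b : ℝ)) y (fun b => Nat.cast_nonneg _) (by (clear * - hT0; positivity)) (by positivity) ?_ ?_ ?_
      ?_ ψ hψ hψ1
    · have h1 : pK k ≤ pn k := by
        rw [pn_eq]
        exact Nat.le_self_pow (by norm_num) _
      nlinarith only [h1]
    · have := pK_ge k hk
      (clear * - this; omega)
    · rw [div_le_one (by positivity)]
      exact one_le_pow₀ (by norm_num)
    · -- hsmall
      have h1 : ((2 * Fintype.card C + pK k : ℕ) : ℝ) ≤ 2 ^ m := hNle.trans hn4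
      have hn3 : (pn k : ℝ) ^ 3 ≤ 2 ^ m := by
        calc (pn k : ℝ) ^ 3 ≤ (pn k : ℝ) ^ 4 := by
              apply pow_le_pow_right₀ (by linarith only [hnR]) (by norm_num)
          _ ≤ 2 ^ m := hn4
      calc 32 * (pn k : ℝ) ^ 3 * (1 / (pT k : ℝ)) * ((2 * Fintype.card C + pK k : ℕ) : ℝ) *
            (((2 * Fintype.card C + pK k : ℕ) : ℝ) + ∑ b, (w b : ℝ))
          ≤ 32 * 2 ^ m * (1 / (pT k : ℝ)) * 2 ^ m * 2 ^ (129 * m) := by (clear * - hn3 hT0 h1 hBle; gcongr)
        _ = 2 ^ (5 + m + m + 129 * m) / 2 ^ (2000 * m) := by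
            rw [hT, pow_add, pow_add, pow_add]
            ring
        _ ≤ 1 / 2 ^ (400 * m) := by
            rw [div_le_div_iff₀ (by positivity) (by positivity), one_mul, ← pow_add]
            exact two_pow_mono (by omega)
    · -- hμ1
      have h1 : |X - 2 * pJ k / (pK k : ℝ) ^ 9| ≤ 2 ^ (133 * m) := by
        have h2 : |2 * pJ k / (pK k : ℝ) ^ 9| ≤ 2 ^ (132 * m) := by
          rw [abs_of_nonneg (by (clear * - hpJ hKpos; positivity))]
          have h3 : pJ k ≤ 1 := by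
            unfold pJ
            rw [div_le_one (by (clear * - hn1 hKpos; positivity))]
            have h4 : (1 : ℝ) ≤ (pn k : ℝ) ^ 2 := one_le_pow₀ (by linarith only [hnR])
            have h5 : (1 : ℝ) ≤ (pK k : ℝ) ^ 256 := one_le_pow₀ (by linarith only [hK4])
            nlinarith only [h4, h5]
          have h6 : (1 : ℝ) ≤ (pK k : ℝ) ^ 9 := one_le_pow₀ (by linarith only [hK4])
          calc 2 * pJ k / (pK k : ℝ) ^ 9 ≤ 2 * pJ k / 1 := by (clear * - hpJ h6; gcongr)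
            _ ≤ 2 := by linarith only [h3]
            _ = 2 ^ 1 := (pow_one _).symm
            _ ≤ 2 ^ (132 * m) := two_pow_mono (by omega)
        calc |X - 2 * pJ k / (pK k : ℝ) ^ 9| ≤ |X| + |2 * pJ k / (pK k : ℝ) ^ 9| := abs_sub _ _
          _ ≤ 2 ^ (132 * m) + 2 ^ (132 * m) := add_le_add hXabs h2
          _ = 2 ^ (132 * m + 1) := by rw [pow_succ]; ring
          _ ≤ 2 ^ (133 * m) := two_pow_mono (by (clear * - hm1; omega))
      have hn3 : (pn k : ℝ) ^ 3 ≤ 2 ^ m := by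
        calc (pn k : ℝ) ^ 3 ≤ (pn k : ℝ) ^ 4 := by
              apply pow_le_pow_right₀ (by linarith only [hnR]) (by norm_num)
          _ ≤ 2 ^ m := hn4
      calc 64 * (pn k : ℝ) ^ 3 * (1 / (pT k : ℝ)) * |X - 2 * pJ k / (pK k : ℝ) ^ 9|
          ≤ 64 * 2 ^ m * (1 / (pT k : ℝ)) * 2 ^ (133 * m) := by (clear * - hn3 hT0 h1; gcongr)
        _ = 2 ^ (6 + m + 133 * m) / 2 ^ (2000 * m) := by
            rw [hT, pow_add, pow_add]
            ring
        _ ≤ 1 := by
            rw [div_le_one (by positivity)]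
            exact two_pow_mono (by (clear * - hm1; omega))
    · intro c hc hg
      exact fin_lower hk S q hq s hs w y H c hc hg
  have hL := scaling_lower (pT k) w hw2 y _ hlow
  -- upper bound
  obtain ⟨c, hc, hg, hc1, hcE⟩ := fin_upper hk S q hq s hs w y H
  obtain ⟨ψ, hψ, hψ1, hψE⟩ := nbody_upper (n := pn k) (M := 2 * Fintype.card C) (K := pK k)
    (by (clear * - hn1; omega)) S.B S.hC S.hO rfl (by have := pK_ge k hk; omega) (1 / (pT k : ℝ))
    (fun b => (w b : ℝ)) y (fun b => Nat.cast_nonneg _) (by (clear * - hT0; positivity)) c hc hg hc1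
    (1 / (pT k : ℝ) * (pJ k / (pK k : ℝ) ^ 8 / 8)) (by (clear * - hT0 hpJ hKpos; positivity))
  have hU := scaling_upper (pT k) w hw2 y _ ψ hψ hψ1 hψE
  generalize hG : groundEnergy (M := pD k * pD k + 1)
      (Fin.cons 0 (fun b => (1 / (pT k : ℝ)) • y b)) (Fin.cons (pT k - ∑ b, w b) w)
      (2 * Fintype.card C + pK k) = G at hL hU
  have hGtop : G ≠ ⊤ := ne_top_of_le_ne_top (EReal.coe_ne_top _) hU
  have hGbot : G ≠ ⊥ := ne_bot_of_le_ne_bot (EReal.coe_ne_bot _) hL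
  refine ⟨G.toReal, (EReal.coe_toReal hGtop hGbot).symm, ?_⟩
  have e1 : Erefv S - pT k * heisMax (coupl (kap k q) s (K := pK k)) =
      (pT k : ℝ) ^ 2 * (-((pn k : ℝ) - 1) - pK k / (2 * (pn k : ℝ) ^ 2)) + pT k * X := by
    unfold Erefv
    rw [hX]
    ring
  rw [e1]
  refine range_alg (pT k) _ X _ (1 / 2 ^ (400 * m)) B ((pn k : ℝ) ^ 3) _ (pJ k)
    ((pK k : ℝ) ^ 8) _ hT0 (by (clear * - hpJ hKpos; positivity)) herr hacc9 hcE ?_ ?_
  · rw [← EReal.coe_toReal hGtop hGbot] at hL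
    exact EReal.coe_le_coe_iff.1 hL
  · rw [← EReal.coe_toReal hGtop hGbot] at hU
    exact EReal.coe_le_coe_iff.1 hU

end Vale.Agent.P370.Q
end
end

section

section

/-!
The structure theorem for the instances of the algorithm.
-/

namespace Vale.Agent.P370.Q.Alg

open Finset

end Vale.Agent.P370.Q.Alg
end
end

section

section

/-!
KC14: the Karp reduction.
-/

namespace Vale.Agent.P370.KC

open Vale.Agent.Lib.PolyTime Finset Vale.Agent.P370.Q

variable {A : Set Word} {α : Type*} [Enc α]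

/-- integer approximation of the reference energy -/
noncomputable def erefA (k : ℕ) : ℤ := ⌊erefx k (xq k)⌋

/-- coupling parameter at distance `d` -/
noncomputable def xA (k d : ℕ) : ℕ := Nat.sqrt ⌊pJ k / kapx k (Alg.aq k d) (xq k d)⌋.toNat

theorem xq_good (k : ℕ) (hk : 10 ≤ k) : GoodX k (xq k) := by
  intro d hd
  have hn1 : 1 ≤ Alg.an k := by unfold Alg.an; exact Nat.one_le_two_pow
  have hj : d * 2 ^ (2047 * k + 4) ≤ 4 * Alg.aD k ^ 2 := by
    have h1 : d ≤ 2 ^ k := hd.le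
    have h2 : Alg.aD k = 2 ^ k * 2 ^ (2047 * k + 4) := by
      unfold Alg.aD Alg.an
      rw [← pow_add, show (16 : ℕ) = 2 ^ 4 by norm_num, ← pow_add]
      congr 1
      ring
    calc d * 2 ^ (2047 * k + 4) ≤ 2 ^ k * 2 ^ (2047 * k + 4) := Nat.mul_le_mul_right _ h1
      _ = Alg.aD k := h2.symm
      _ ≤ Alg.aD k ^ 2 := Nat.le_self_pow (by norm_num) _
      _ ≤ 4 * Alg.aD k ^ 2 := by omega
  have h := Alg.cs_err k (d * 2 ^ (2047 * k + 4)) (by omega) hj
  have hang : Real.pi * ((d * 2 ^ (2047 * k + 4) : ℕ) : ℝ) / (2 * (Alg.aD k : ℝ)) =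
      Real.pi * d / (2 * pK k) := by
    have h1 : (Alg.aD k : ℝ) = (pK k : ℝ) * 2 ^ (2047 * k + 4) := by
      unfold Alg.aD Alg.an pK
      push_cast
      rw [← pow_add, show (16 : ℝ) = 2 ^ 4 by norm_num, ← pow_add]
      congr 1
      ring
    rw [h1]
    push_cast
    have : (2 : ℝ) ^ (2047 * k + 4) ≠ 0 := by positivity
    have h2 : (pK k : ℝ) ≠ 0 := (Alg.pK_pos k).ne'
    field_simp
  rw [hang] at h
  set c : ℝ := Real.cos (Real.pi * d / (2 * pK k)) with hc
  have hK := Alg.pK_pos k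
  have hdK : (d : ℝ) ≤ pK k := by exact_mod_cast hd.le
  have hc0 : 0 ≤ c := by
    apply Real.cos_nonneg_of_neg_pi_div_two_le_of_le
    · have : 0 ≤ Real.pi * d / (2 * pK k) := by (clear * - hK; positivity)
      linarith only [this, Real.pi_pos]
    · rw [div_le_div_iff₀ (by (clear * - hK; positivity)) (by norm_num)]
      linarith only [mul_nonneg_of_nonpos_of_nonpos (Mathlib.Tactic.Linarith.sub_nonpos_of_le hdK) (le_of_lt (Mathlib.Tactic.Linarith.sub_neg_of_lt Real.pi_pos))]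
  have hc1 : c ≤ 1 := Real.cos_le_one _
  have hS : (0 : ℝ) < 2 ^ Alg.aQ k := by positivity
  have hcl : (xqn k d : ℝ) = min ((2 : ℝ) ^ Alg.aQ k)
      (max 0 (Alg.cs k (d * 2 ^ (2047 * k + 4)) : ℝ)) := by
    unfold xqn
    push_cast
    rfl
  have hq : xq k d * 2 ^ Alg.aQ k = min ((2 : ℝ) ^ Alg.aQ k)
      (max 0 (Alg.cs k (d * 2 ^ (2047 * k + 4)) : ℝ)) := by
    unfold xq
    rw [div_mul_cancel₀ _ hS.ne', hcl]
  have hab : |xq k d * 2 ^ Alg.aQ k - 2 ^ Alg.aQ k * c| ≤ 2 := by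
    rw [hq]
    rw [abs_le] at h ⊢
    have e1 : (2 : ℝ) ^ Alg.aQ k * c ≤ 2 ^ Alg.aQ k := by nlinarith only [hc1, hS]
    have e2 : 0 ≤ (2 : ℝ) ^ Alg.aQ k * c := by (clear * - hc0; positivity)
    constructor
    · rcases min_choice ((2 : ℝ) ^ Alg.aQ k) (max 0 (Alg.cs k (d * 2 ^ (2047 * k + 4)) : ℝ)) with
        h1 | h1 <;> rw [h1]
      · linarith only [e1]
      · have := le_max_right 0 (Alg.cs k (d * 2 ^ (2047 * k + 4)) : ℝ)
        linarith only [this, h.1]
    · refine (sub_le_sub_right (min_le_right _ _) _).trans ?_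
      rcases max_choice 0 (Alg.cs k (d * 2 ^ (2047 * k + 4)) : ℝ) with h1 | h1 <;> rw [h1]
      · linarith only [e2]
      · linarith only [h.2]
  refine ⟨?_, ?_, ?_⟩
  · have h1 : 0 ≤ xq k d * 2 ^ Alg.aQ k := by
      rw [hq]
      exact le_min hS.le (le_max_left _ _)
    exact nonneg_of_mul_nonneg_left h1 hS
  · have h1 : xq k d * 2 ^ Alg.aQ k ≤ 1 * 2 ^ Alg.aQ k := by
      rw [hq, one_mul]
      exact min_le_left _ _
    exact le_of_mul_le_mul_right h1 hS
  · have e : xq k d * 2 ^ Alg.aQ k - 2 ^ Alg.aQ k * c = (xq k d - c) * 2 ^ Alg.aQ k := by ring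
    rw [e, abs_mul, abs_of_pos hS, ← le_div_iff₀ hS] at hab
    refine hab.trans ?_
    rw [div_le_div_iff₀ hS (by positivity), one_mul]
    calc (2 : ℝ) * 2 ^ (pn k ^ 2) = 2 ^ (pn k ^ 2 + 1) := by rw [pow_succ]; ring
      _ ≤ 2 ^ Alg.aQ k := by
        refine pow_le_pow_right₀ (by norm_num) ?_
        unfold Alg.aQ
        have e1 : pn k = Alg.an k := rfl
        rw [e1]
        have h2 : Alg.an k ^ 2 ≤ Alg.an k ^ 3 := Nat.pow_le_pow_right hn1 (by norm_num)
        have h3 : 1 ≤ Alg.an k ^ 3 := Nat.one_le_pow _ _ hn1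
        (clear * - h2 h3; omega)

theorem erefA_close (k : ℕ) (hk : 10 ≤ k) {C R : Type} [Fintype C] [DecidableEq C] [Fintype R]
    [DecidableEq R] (S : SiteB k C R) :
    |(erefA k : ℝ) - Erefv S| ≤ 2 * (pT k * pJ k / (pK k : ℝ) ^ 8) := by
  have h1 := eref_close k hk S (xq k) (xq_good k hk)
  have h2 : |(erefA k : ℝ) - erefx k (xq k)| ≤ 1 := by
    unfold erefA
    rw [abs_le]
    constructor <;> linarith only [Int.floor_le (erefx k (xq k)), Int.lt_floor_add_one (erefx k (xq k))]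
  have h3 : 1 ≤ (pT k : ℝ) * pJ k / (pK k : ℝ) ^ 8 := by
    have hK := Alg.pK_real_ge k hk
    have hK0 := Alg.pK_pos k
    rw [le_div_iff₀ (by (clear * - hK; positivity))]
    have h5 : (pK k : ℝ) ^ 8 ≤ (pK k : ℝ) ^ 9 :=
      pow_le_pow_right₀ (by (clear * - hK; linarith)) (by norm_num)
    have h6 := Alg.TJ_big k (by omega)
    linarith only [h5, h6, pow_pos hK0 8]
  rw [abs_le] at h1 h2 ⊢
  constructor <;> linarith only [h1, h2, h3]

theorem sqrt_floor (y : ℝ) (hy : 0 ≤ y) :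
    ((Nat.sqrt ⌊y⌋.toNat : ℕ) : ℝ) ^ 2 ≤ y ∧ y < ((Nat.sqrt ⌊y⌋.toNat : ℕ) + 1 : ℝ) ^ 2 := by
  have h0 : 0 ≤ ⌊y⌋ := Int.floor_nonneg.2 hy
  have h1 : ((⌊y⌋.toNat : ℕ) : ℝ) = (⌊y⌋ : ℝ) := by
    have : ((⌊y⌋.toNat : ℕ) : ℤ) = ⌊y⌋ := Int.toNat_of_nonneg h0
    exact_mod_cast this
  constructor
  · have h2 : (Nat.sqrt ⌊y⌋.toNat) ^ 2 ≤ ⌊y⌋.toNat := Nat.sqrt_le' _
    have h3 : ((Nat.sqrt ⌊y⌋.toNat : ℕ) : ℝ) ^ 2 ≤ ((⌊y⌋.toNat : ℕ) : ℝ) := by exact_mod_cast h2
    rw [h1] at h3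
    exact h3.trans (Int.floor_le y)
  · have h2 : ⌊y⌋.toNat < (Nat.sqrt ⌊y⌋.toNat + 1) ^ 2 := Nat.lt_succ_sqrt' _
    have h3 : ⌊y⌋.toNat + 1 ≤ (Nat.sqrt ⌊y⌋.toNat + 1) ^ 2 := h2
    have h4 : ((⌊y⌋.toNat : ℕ) : ℝ) + 1 ≤ ((Nat.sqrt ⌊y⌋.toNat : ℕ) + 1 : ℝ) ^ 2 := by
      exact_mod_cast h3
    rw [h1] at h4
    exact (Int.lt_floor_add_one y).trans_le h4

theorem xA_close (k : ℕ) (hk : 10 ≤ k) (d : ℕ) (hd1 : 1 ≤ d) (hd2 : d < pK k) :
    |kap k (Alg.aq k) d * (xA k d : ℝ) ^ 2 - pJ k| ≤ 6 * pJ k / (pK k : ℝ) ^ 6 ∧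
      6 * (pK k : ℝ) ^ 6 ≤ xA k d := by
  have hgq := Alg.goodQ k (by omega)
  have hkb := kap_bounds k hk (Alg.aq k) hgq d hd1 hd2
  have hkc := kap_close k hk (Alg.aq k) hgq d hd1 hd2 (xq k) (xq_good k hk)
  have hJ := Alg.pJ_pos k
  have hJb := Alg.pJ_big k (by omega)
  have hK := Alg.pK_real_ge k hk
  have hK0 := Alg.pK_pos k
  have hκ0 : 0 < kap k (Alg.aq k) d := lt_of_lt_of_le (by (clear * -; positivity)) hkb.1
  have hκ1 : 4096 * (pK k : ℝ) ^ 12 * kap k (Alg.aq k) d ≤ pJ k := by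
    refine le_trans ?_ hJb
    rw [div_eq_mul_one_div (4096 * (pK k : ℝ) ^ 12)]
    exact mul_le_mul_of_nonneg_left hkb.2 (by (clear * - hK; positivity))
  unfold xA
  generalize kapx k (Alg.aq k d) (xq k d) = κ' at hkc ⊢
  generalize kap k (Alg.aq k) d = κ at hκ0 hκ1 hkc ⊢
  clear hkb hJb
  generalize pJ k = J at hJ hκ1 ⊢
  generalize (pK k : ℝ) = K at hK hK0 hκ1 hkc ⊢
  have hK8 : (1024 : ℝ) ≤ K ^ 8 := by
    calc (1024 : ℝ) ≤ K := hK
      _ ≤ K ^ 8 := le_self_pow₀ (by linarith only [hK]) (by norm_num)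
  have hK6 : (1024 : ℝ) ≤ K ^ 6 := by
    calc (1024 : ℝ) ≤ K := hK
      _ ≤ K ^ 6 := le_self_pow₀ (by linarith only [hK]) (by norm_num)
  have hkc' := abs_le.1 hkc
  have hd : κ / K ^ 8 ≤ κ / 1024 := by (clear * - hκ0 hK8; gcongr)
  have hκ'1 : κ / 2 ≤ κ' := by linarith only [hkc', hd]
  have hκ'0 : 0 < κ' := by linarith only [hκ0, hkc', hd]
  have hκ'2 : κ' ≤ 2 * κ := by linarith only [hkc', hd]
  have hy0 : 0 ≤ J / κ' := by positivity
  obtain ⟨hx1, hx2⟩ := sqrt_floor (J / κ') hy0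
  set x : ℝ := ((Nat.sqrt ⌊J / κ'⌋.toNat : ℕ) : ℝ) with hx
  have hx0 : 0 ≤ x := Nat.cast_nonneg _
  set y : ℝ := J / κ' with hy
  have hyκ : y * κ' = J := by rw [hy]; (clear * - hκ'0 hJ; field_simp)
  -- lower bound of y
  have hylow : 2048 * K ^ 12 ≤ y := by
    rw [hy, le_div_iff₀ hκ'0]
    calc 2048 * K ^ 12 * κ' ≤ 2048 * K ^ 12 * (2 * κ) := by (clear * - hκ'2 hK; gcongr)
      _ = 4096 * K ^ 12 * κ := by ring
      _ ≤ J := hκ1
  have hxl : 44 * K ^ 6 ≤ x := by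
    by_contra hcon
    push Not at hcon
    have h1 : x + 1 ≤ 45 * K ^ 6 := by linarith only [hK6, hcon]
    have h2 : (x + 1) ^ 2 ≤ (45 * K ^ 6) ^ 2 := pow_le_pow_left₀ (by linarith) h1 2
    have h3 : (45 * K ^ 6) ^ 2 = 2025 * K ^ 12 := by ring
    have h4 : 0 < K ^ 12 := by (clear * - hK; positivity)
    linarith only [hy0, hx2, hylow, h2]
  refine ⟨?_, by linarith only [hK6, hxl]⟩
  -- |κ y - J|
  have h1 : |κ * y - J| ≤ 2 * J / K ^ 8 := by
    have e : κ * y - J = (κ - κ') * y := by rw [← hyκ]; ring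
    rw [e, abs_mul, abs_of_nonneg hy0, abs_sub_comm]
    calc |κ' - κ| * y ≤ κ / K ^ 8 * y := mul_le_mul_of_nonneg_right hkc hy0
      _ ≤ 2 * κ' / K ^ 8 * y := by
          gcongr
          linarith only [hkc', hd]
      _ = 2 * J / K ^ 8 := by rw [← hyκ]; ring
  have h2 : κ * y ≤ 2 * J := by
    have : κ * y ≤ 2 * κ' * y := by
      apply mul_le_mul_of_nonneg_right _ hy0
      linarith only [hkc', hd]
    calc κ * y ≤ 2 * κ' * y := this
      _ = 2 * J := by rw [← hyκ]; ring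
  have h3 : κ * x * (44 * K ^ 6) ≤ 2 * J := by
    calc κ * x * (44 * K ^ 6) ≤ κ * x * x := by (clear * - hxl hκ0; gcongr)
      _ = κ * x ^ 2 := by ring
      _ ≤ κ * y := by (clear * - hx1 hκ0; gcongr)
      _ ≤ 2 * J := h2
  have h4 : κ * (2 * x + 1) ≤ J / K ^ 6 := by
    have h5 : κ * (2 * x + 1) ≤ 3 * (κ * x) := by nlinarith only [hκ0, hK6, hxl]
    rw [le_div_iff₀ (by positivity)]
    calc κ * (2 * x + 1) * K ^ 6 ≤ 3 * (κ * x) * K ^ 6 := by (clear * - h5 hK; gcongr)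
      _ = 3 / 44 * (κ * x * (44 * K ^ 6)) := by ring
      _ ≤ 3 / 44 * (2 * J) := by (clear * - h3; gcongr)
      _ ≤ J := by linarith only [hJ]
  have h5 : κ * y - κ * x ^ 2 ≤ J / K ^ 6 := by
    refine le_trans ?_ h4
    have : y - x ^ 2 ≤ 2 * x + 1 := by linarith only [hx2]
    linarith only [mul_pos_of_neg_of_neg (Mathlib.Tactic.Linarith.sub_neg_of_lt hκ0) (Mathlib.Tactic.Linarith.sub_neg_of_lt hx2)]
  have h6 : κ * x ^ 2 ≤ κ * y := by gcongr
  have h7 : 2 * J / K ^ 8 ≤ 2 * J / K ^ 6 := by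
    gcongr
    · linarith only [hK]
    · norm_num
  have h8 : 6 * J / K ^ 6 = 6 * (J / K ^ 6) := by ring
  have h9 : 2 * J / K ^ 6 = 2 * (J / K ^ 6) := by ring
  have h10 : 0 ≤ J / K ^ 6 := by (clear * - hJ hK; positivity)
  rw [abs_le] at h1 ⊢
  rw [h8]
  rw [h9] at h7
  constructor <;> linarith only [h1, h5, h7, h6]

theorem pt_erefA {k : α → ℕ} (hk : PT A k) (hK : PBd (fun a => 2 ^ k a)) :
    PT A (fun a => erefA (k a)) :=
  (ptq_erefx hk hK).floor

theorem pt_xA {k d : α → ℕ} (hk : PT A k) (hK : PBd (fun a => 2 ^ k a)) (hd : PT A d)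
    (hdb : PBd d) : PT A (fun a => xA (k a) (d a)) :=
  PT.natSqrt (PT.posPart ((ptq_pJ hk hK).div
    (ptq_kapx hk hK (Alg.pt_aq hk hK hd hdb) (Alg.pbd_aq hK) hd hdb)).floor)

/-- the reduction -/
noncomputable def kred (w : List Bool) : List Bool :=
  Alg.build (Alg.kk w) (Alg.sfin (Alg.kk w) (xA (Alg.kk w)) w)
    (erefA (Alg.kk w) - Alg.offs (Alg.kk w) w)

theorem pt_kred {w : α → List Bool} (hw : PT A w) : PT A (fun a => kred (w a)) := by
  have hk := Alg.pt_kk hw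
  have hK := Alg.pbd_kk hw
  refine Alg.pt_build hk hK (Alg.pt_sfin hk hK ?_ hw) ((pt_erefA hk hK).intSub
    (Alg.pt_offs hk hK hw))
  exact pt_xA (hk.comp PT.fst') (Alg.hK_fst hK) (PT.unVal PT.snd') PBd.unSnd

theorem polyTimeFn_kred : PolyTimeFn kred :=
  Alg.polyTimeFn_of_pt (pt_kred (PT.listOfRaw (f := fun w : Raw => w) PT.id))

theorem key_explicit (k : ℕ) (hk : 10 ≤ k) {C R : Type} [Fintype C] [DecidableEq C] [Fintype R]
    [DecidableEq R] (S : SiteB k C R) : Alg.Key k (kap k (Alg.aq k)) (Erefv S) := by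
  intro s hs
  have hgq := Alg.goodQ k (by omega)
  have hs2 : ∀ i j, i < j → j < Alg.aK k → Alg.sget k s i j ≤ 2 ^ (4 * Alg.an k) := by
    intro i j hij hj
    have h1 := hs i j hij hj
    have h2 := (kap_bounds k hk (Alg.aq k) hgq (j - i) (by omega)
      (by have : pK k = Alg.aK k := rfl; omega)).1
    have h3 := Alg.pJ_le k hk
    have h4 : (Alg.sget k s i j : ℝ) ^ 2 ≤ 2 ^ (4 * pn k) := by
      have h5 : 1 / 2 ^ (4 * pn k) * (Alg.sget k s i j : ℝ) ^ 2 ≤ 1 := by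
        calc _ ≤ kap k (Alg.aq k) (j - i) * (Alg.sget k s i j : ℝ) ^ 2 := by (clear * - h2; gcongr)
          _ ≤ 16 * pJ k := h1
          _ ≤ 1 := by linarith only [h3]
      rw [one_div, inv_mul_le_iff₀ (by positivity), mul_one] at h5
      exact h5
    have h5 : (Alg.sget k s i j : ℝ) ^ 2 ≤ (2 ^ (4 * pn k)) ^ 2 := by
      refine h4.trans ?_
      exact le_self_pow₀ (one_le_pow₀ (by norm_num)) (by norm_num)
    have h6 : (Alg.sget k s i j : ℝ) ≤ 2 ^ (4 * pn k) := le_of_sq_le_sq h5 (by positivity)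
    have h7 : Alg.an k = pn k := rfl
    rw [h7]
    exact_mod_cast h6
  obtain ⟨h1, E, h2, h3⟩ := structure_explicit k hk (Alg.aq k) hgq S (Alg.sget k s) hs _ _
    (Alg.approx_build k hk s hs2)
  refine ⟨E, h3, fun c th => ?_⟩
  refine Alg.build_promise k (by omega) s th c
    (fun a b ha hb => (Alg.chg_err k hk s hs2 a b ha hb).2) ?_ E ?_
  · rw [Alg.chgSum_eq]
    exact h1
  · rw [Alg.inst_E0 k s th (Alg.aN_eq k)]
    exact h2

/-- **The Karp reduction.** -/
theorem karp_main (c : ℕ) : KarpReduces heisenbergAF (electronicStructure c) := by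
  have key : ∀ w, (w ∈ heisenbergAF.yes → kred w ∈ (electronicStructure c).yes) ∧
      (w ∈ heisenbergAF.no → kred w ∈ (electronicStructure c).no) := by
    intro w
    have hk10 : 10 ≤ Alg.kk w := le_max_left _ _
    obtain ⟨C, R, iC, dC, iR, dR, ⟨S⟩⟩ := exists_siteB (Alg.kk w) hk10
    exact Alg.final_step hk10 (xA (Alg.kk w)) w (Alg.length_lt_two_pow_kk w)
      (key_explicit (Alg.kk w) hk10 S)
      (fun d hd1 hd2 => xA_close (Alg.kk w) hk10 d hd1 hd2)
      (fun d hd1 hd2 => le_trans (by (clear * -; positivity))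
        (kap_bounds (Alg.kk w) hk10 (Alg.aq (Alg.kk w)) (Alg.goodQ _ (by omega)) d hd1 hd2).1)
      (erefA (Alg.kk w)) (erefA_close (Alg.kk w) hk10 S) c
  exact ⟨kred, polyTimeFn_kred, fun w hw => (key w).1 hw, fun w hw => (key w).2 hw⟩

end Vale.Agent.P370.KC
end
end

section

section

/-!
QMA-hardness of the electronic structure problem.
-/

namespace Vale.Agent.P370

theorem qma_hard (c : ℕ) (A : PromiseProblem) (hA : A ∈ QMA) :
    KarpReduces A (electronicStructure c) :=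
  H.karp_trans (H.qma_heisenberg A hA) (KC.karp_main c)

end Vale.Agent.P370
end
end
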